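import Vale.Agent.P022K.RT.St
import Vale.Agent.P022K.GW.Pl
import Vale.Agent.P022E.G5.Two

/-! P022K, block RT: transport from the local Galois group to a decomposition group; row LP2. -/

set_option linter.all false

noncomputable section

namespace Vale.Agent.P022K.RT

open IsLocalRing NumberField
open scoped Pointwise
open Vale.Agent.P022 Vale.Agent.P022D
open Vale.Agent.P022D.L2b (M2 Z1 Lift)
open Vale.Agent.P022D.Loc2 (TnG coG OutG jj PP)
open Vale.Agent.P022D.W (dec)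
open Vale.Agent.P022E.GW (Ov)
open Vale.Agent.P022K.GW (Id Cy up)

namespace Tr

/-- the absolute Galois group of `ℚ_p` -/
abbrev Gp (p : ℕ) [Fact p.Prime] : Type := Gal(PadicAlgCl p / ℚ_[p])

/-- transport along a continuous surjection -/
theorem out_of_surj {G G' F O : Type} [Group G] [TopologicalSpace G] [Group G']
    [TopologicalSpace G'] [Field F] [CommRing O] [IsLocalRing O] [Algebra O F] (j : G' →* G)
    (hc : Continuous j) (hj : Function.Surjective j) {r : G →* M2 F} {s : F → O} {d : G → O}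
    {k : ℕ} (h : OutG (r.comp j) s (fun x => d (j x)) k) : OutG r s d k := by
  obtain ⟨τ, ι, _, _, g, p, q, f, h1, h2, h3, h4, h5⟩ := h
  refine ⟨τ, ι, inferInstance, inferInstance, fun t => j (g t), p, q, f, h1, h2, h3,
    fun c hc' h0 x => ?_, fun A _ _ _ ρ hρ => ?_⟩
  · obtain ⟨y, rfl⟩ := hj x
    exact h4 (fun y => c (j y)) ⟨hc'.lc.comp_continuous hc, fun x y => by
      rw [map_mul, hc'.mul]; rfl, fun x => hc'.det _⟩ h0 y
  · obtain ⟨a1, a2⟩ := h5 A (ρ.comp j) ⟨hρ.lc.comp_continuous hc, hρ.nil, fun x => hρ.red _,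
      fun x => hρ.det _⟩
    refine ⟨fun x a b => ?_, a2⟩
    obtain ⟨y, rfl⟩ := hj x
    exact a1 y a b

theorem mem_dec_smul {P : Id} {g h : GQ} : h ∈ dec (g • P) ↔ g⁻¹ * h * g ∈ dec P := by
  refine ⟨fun a x => ?_, fun a x => ?_⟩
  · have := a (g • x)
    rw [Ideal.mem_pointwise_smul_iff_inv_smul_mem, Ideal.mem_pointwise_smul_iff_inv_smul_mem,
      inv_smul_smul] at this
    rwa [mul_smul, mul_smul]
  · rw [Ideal.mem_pointwise_smul_iff_inv_smul_mem, Ideal.mem_pointwise_smul_iff_inv_smul_mem,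
      ← a (g⁻¹ • x), mul_smul, mul_smul, smul_inv_smul]

/-- the local Galois group maps onto the decomposition group -/
theorem exists_j (p : ℕ) [hp : Fact p.Prime] {P : Id} (h : Ov p P) :
    ∃ j : Gp p →* dec P, Continuous j ∧ Function.Surjective j ∧
      (∃ ι : Qb →+* PadicAlgCl p, (∀ σ x, ι ((j σ : GQ) x) = σ (ι x)) ∧
        ∀ x : 𝓞 Qb, x ∈ P ↔ ‖ι x‖ < 1) ∧
      ∀ ω : dec P →* (ZMod p)ˣ, Cy (dec P).subtype p ω →
        ∀ σ (x : PadicAlgCl p), x ^ p = 1 → σ x = x ^ (ω (j σ) : ZMod p).val := by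
  obtain ⟨γ, rfl⟩ := GW.Pl.ov_trans ⟨hp.out, Loc2.PP_prime p, Loc2.p_mem_PP p⟩ h
  let j : Gp p →* dec (γ • PP p) :=
    (((MulAut.conj γ).toMonoidHom).comp (jj p)).codRestrict _ fun σ => mem_dec_smul.2 (by
      have e : γ⁻¹ * ((MulAut.conj γ).toMonoidHom.comp (jj p)) σ * γ = jj p σ := by
        simp [mul_assoc]
      rw [e]
      exact (Loc2.range_jj p _).2 ⟨σ, rfl⟩)
  have hj : ∀ σ, (j σ : GQ) = γ * jj p σ * γ⁻¹ := fun σ => rfl
  let ι : Qb →+* PadicAlgCl p := (Loc2.io p).toRingHom.comp (γ⁻¹ : GQ).toRingEquiv.toRingHom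
  have hι : ∀ x, ι x = Loc2.io p (γ⁻¹ x) := fun x => rfl
  have key : ∀ σ x, ι ((j σ : GQ) x) = σ (ι x) := fun σ x => by
    rw [hι, hι, ← Loc2.io_jj, hj, ← AlgEquiv.mul_apply, ← AlgEquiv.mul_apply]
    simp [mul_assoc]
  refine ⟨j, ?_, fun x => ?_, ⟨ι, key, fun x => ?_⟩, fun ω hω σ x hx => ?_⟩
  · exact Continuous.subtype_mk ((continuous_const.mul (Loc2.jj_cont p)).mul continuous_const) _
  · obtain ⟨σ, hσ⟩ := (Loc2.range_jj p _).1 (mem_dec_smul.1 x.2)
    exact ⟨σ, Subtype.ext (by rw [hj, hσ]; simp [mul_assoc])⟩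
  · rw [Ideal.mem_pointwise_smul_iff_inv_smul_mem, Loc2.mem_PP]
    rfl
  · have : NeZero p := ⟨hp.out.ne_zero⟩
    obtain ⟨ζ, hζ⟩ := HasEnoughRootsOfUnity.exists_primitiveRoot Qb p
    obtain ⟨i, -, rfl⟩ := (hζ.map_of_injective ι.injective).eq_pow_of_pow_eq_one hx
    rw [← map_pow, ← key, ← map_pow]
    exact congrArg ι (hω (j σ) _ (by rw [← pow_mul, mul_comm, pow_mul, hζ.pow_eq_one, one_pow]))

/-- a locally constant representation of a decomposition group has a solvable image -/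
theorem solv {l : ℕ} {P : Id} (h : Ov l P) {Γ : Type} [Group Γ] (f : dec P →* Γ)
    (hf : IsOpen {g | f g = 1}) : Group.IsSolvable f.range := by
  have := H443.galQb
  obtain ⟨U, hU, e⟩ := isOpen_induced_iff.1 hf
  have h1 : (1 : GQ) ∈ U := by
    have : (1 : dec P) ∈ Subtype.val ⁻¹' U := by rw [e]; exact map_one f
    exact this
  obtain ⟨N, hN⟩ := ProfiniteGrp.exist_openNormalSubgroup_sub_open_nhds_of_one hU h1
  have h2 := P022E.Two.solv_dec h.1 h.2.1 h.2.2 (QuotientGroup.mk' N.toSubgroup) (by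
    have : {g : GQ | QuotientGroup.mk' N.toSubgroup g = 1} = N := by
      ext g
      exact QuotientGroup.eq_one_iff g
    rw [this]
    exact N.isOpen)
  refine P022E.Two.Solv.of_ker
    ((QuotientGroup.mk' N.toSubgroup).comp (dec P).subtype).rangeRestrict f h2 fun a ha => ?_
  have h3 : (a : GQ) ∈ U := hN ((QuotientGroup.eq_one_iff _).1 (congrArg Subtype.val ha))
  have h4 : a ∈ Subtype.val ⁻¹' U := h3
  rwa [e] at h4

theorem ker_open {G F : Type} [Group G] [TopologicalSpace G] [Field F] {r : G →* M2 F}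
    (hr : IsLocallyConstant r) : IsOpen {g | r.toHomUnits g = 1} := by
  have : {g | r.toHomUnits g = 1} = {g | r g = 1} := by
    ext g
    exact Units.ext_iff
  rw [this]
  exact hr.isOpen_fiber 1

end Tr

/-- row LP2 -/
theorem lp2 : LP2 := by
  intro F O _ _ _ _ _ _ hO _ P r s d hP hr hsp hdet hs hd
  have : Fact (Nat.Prime 2) := ⟨Nat.prime_two⟩
  have := hO.cpl
  obtain ⟨j, h1, h2, -⟩ := Tr.exists_j 2 hP
  obtain ⟨A, B, h3, h4⟩ := P022E.Two.cls r (Tr.solv hP _ (Tr.ker_open hr)) hsp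
  refine Tr.out_of_surj j h1 h2 (P022E.G5.two F O (r.comp j) s _ (hr.comp_continuous h1)
    ⟨A, B, h3, h4.imp (fun h x => h _) fun h x => h _⟩ (fun x => hdet _) hs fun x => hd _)

end Vale.Agent.P022K.RT
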