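import Vale.Agent.P022D.Loc2.Defs
import Vale.Agent.P022K.PL.Defs
import Vale.Agent.P022K.RU.Defs
import Vale.Agent.P022K.GW.Defs

/-!
# P022K, block RT: local rings, commutative algebra, Iwasawa algebra, presentation. Rows.
-/

set_option linter.all false

noncomputable section

namespace Vale.Agent.P022K.RT

open IsLocalRing MvPowerSeries NumberField
open Vale.Agent.P022
open Vale.Agent.P022D.L2b (M2 Z1 Lift)
open Vale.Agent.P022D.Loc2 (TnG coG OutG)
open Vale.Agent.P022D.Core (PS io y1)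
open Vale.Agent.P022D.CA (emb)
open Vale.Agent.P022D.PA (Base)
open Vale.Agent.P022K.PL (Cf Fl Op)
open Vale.Agent.P027M.S (Inert)
open Vale.Agent.P022D.W (dec)
open Vale.Agent.P022E.GW (Ov Fb)
open Vale.Agent.P022K.GW (Id Cy up Zc H2 ad0 stb)

/-- congruence of matrices -/
def Cg {A : Type} [CommRing A] (I : Ideal A) (a b : M2 A) : Prop := ∀ i j, a i j - b i j ∈ I

section loc

variable {G F O : Type} [Group G] [TopologicalSpace G] [Field F] [CommRing O] [IsLocalRing O]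

/-- continuity of the determinant -/
def Cd (d : G → O) : Prop := ∀ n : ℕ, IsOpen {x | d x - 1 ∈ maximalIdeal O ^ n}

/-- the characteristic polynomials split -/
def Spl (r : G → M2 F) : Prop := ∀ x, ∃ a : F, a ^ 2 - (r x).trace * a + (r x).det = 0

/-- a lift over a complete local ring -/
structure LiftC (r : G →* M2 F) (s : F → O) (d : G → O) {A : Type} [CommRing A] [IsLocalRing A]
    [Algebra O A] (ρ : G →* M2 A) : Prop where
  lc : ∀ n : ℕ, IsOpen {x | Cg (maximalIdeal A ^ n) (ρ x) 1}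
  loc : ∀ a ∈ maximalIdeal O, algebraMap O A a ∈ maximalIdeal A
  red : ∀ x i j, ρ x i j - algebraMap O A (s (r x i j)) ∈ maximalIdeal A
  det : ∀ x, (ρ x).det = algebraMap O A (d x)

/-- **the universal lift** with determinant `d`: the ring is `O[[τ]] / I`, the matrices are `f` -/
structure Uni [Algebra O F] (r : G →* M2 F) (s : F → O) (d : G → O) {τ : Type} (g : τ → G)
    (p q : τ → Fin 2) (I : Ideal (PS O τ)) (f : G → M2 (PS O τ)) : Prop where
  le : I ≤ maximalIdeal (PS O τ)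
  one : Cg I (f 1) 1
  mul : ∀ x y, Cg I (f (x * y)) (f x * f y)
  det : ∀ x, (f x).det - C (d x) ∈ I
  red : ∀ x i j, algebraMap O F (constantCoeff (f x i j)) = r x i j
  crd : ∀ t, f (g t) (p t) (q t) - C (s (r (g t) (p t) (q t))) - X t ∈ I
  opn : ∀ n : ℕ, IsOpen {x | Cg (I ⊔ maximalIdeal (PS O τ) ^ n) (f x) 1}
  uni : ∀ (A : Type) [CommRing A] [Algebra O A] [Finite A] (ρ : G →* M2 A), Lift r s d ρ →
    ∀ φ : PS O τ →ₐ[O] A, (∀ t, φ (X t) = coG r s g p q ρ t) →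
      (∀ u ∈ I, φ u = 0) ∧ ∀ x, (f x).map φ = ρ x

end loc

section alg

variable {O : Type} [CommRing O]

/-- the tangent space at the point `x` has rank at most `k` -/
def Sm {τ : Type} [Fintype τ] (I : Ideal (PS O τ)) (x : PS O τ →ₐ[O] O) (k : ℕ) : Prop :=
  ∀ Z : Submodule O (τ → O), (∀ v ∈ Z, ∀ u ∈ I, ∑ t, v t * x (pderiv O t u) = 0) →
    Module.finrank O Z ≤ k

/-- a parametrised prime of relative dimension `k` -/
structure Par {τ : Type} (J : Ideal (PS O τ)) (k : ℕ) : Prop where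
  ker : ∃ (m : ℕ) (ψ : PS O τ →ₐ[O] PS O (Fin m)), RingHom.ker ψ = J
  dim : ringKrullDim (PS O τ ⧸ J) = (k + 1 : ℕ)

/-- the quotient has no torsion -/
def Sat {τ : Type} (J : Ideal (PS O τ)) : Prop := ∀ o : O, o ≠ 0 → ∀ u, C o * u ∈ J → u ∈ J

/-- the sum of the ideals of the blocks -/
def sumI {β σ : Type} {τ : β → Type} (e : (Σ b, τ b) ↪ σ) (J : ∀ b, Ideal (PS O (τ b))) :
    Ideal (PS O σ) := ⨆ b, (J b).map (rename (R := O) (emb e b))

/-- a closed point of the generic fibre -/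
structure Pt {σ Ω : Type} [CommRing Ω] [Algebra O Ω] (J : Ideal (PS O σ))
    (x : PS O σ →ₐ[O] Ω) : Prop where
  ker : ∀ u ∈ J, x u = 0
  int : ∀ u, IsIntegral O (x u)

end alg

/-! ### local rings -/

/-- row LU: existence of the universal lift; a chart without equations; the equations of a block
lie in the ideal -/
def LU : Prop := ∀ (G F O τ : Type) [Group G] [TopologicalSpace G] [IsTopologicalGroup G]
  [Field F] [Finite F] [CommRing O] [IsDomain O] [IsDiscreteValuationRing O] [Cf O] [Algebra O F]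
  [Fintype τ] (r : G →* M2 F) (s : F → O) (d : G → O) (g : τ → G) (p q : τ → Fin 2),
  IsLocallyConstant r → (∀ x, algebraMap O F (s x) = x) →
  (∀ x, algebraMap O F (d x) = (r x).det) → TnG r g p q →
    (∃ I f, Uni r s d g p q I f) ∧ OutG r s d (Fintype.card τ) ∧
    ∀ I f, Uni r s d g p q I f → ∀ u : PS O τ,
      (∀ (A : Type) [CommRing A] [Algebra O A] [Finite A] (ρ : G →* M2 A), Lift r s d ρ →
        ∀ φ : PS O τ →ₐ[O] A, (∀ t, φ (X t) = coG r s g p q ρ t) → φ u = 0) → u ∈ I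

/-- row LUC: points with values in complete local rings -/
def LUC : Prop := ∀ (G F O τ : Type) [Group G] [TopologicalSpace G] [IsTopologicalGroup G]
  [Field F] [Finite F] [CommRing O] [IsDomain O] [IsDiscreteValuationRing O] [Cf O] [Algebra O F]
  [Fintype τ] (r : G →* M2 F) (s : F → O) (d : G → O) (g : τ → G) (p q : τ → Fin 2)
  (I : Ideal (PS O τ)) (f : G → M2 (PS O τ)), (∀ x, algebraMap O F (s x) = x) →
  Uni r s d g p q I f → ∀ (A : Type) [CommRing A] [Base A] [Algebra O A],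
    (∀ ρ : G →* M2 A, LiftC r s d ρ → ∃ φ : PS O τ →ₐ[O] A,
      (∀ t, φ (X t) = coG r s g p q ρ t) ∧ (∀ u ∈ I, φ u = 0) ∧ ∀ x, (f x).map φ = ρ x) ∧
    (∀ φ : PS O τ →ₐ[O] A, (∀ a ∈ maximalIdeal O, algebraMap O A a ∈ maximalIdeal A) →
      (∀ t, φ (X t) ∈ maximalIdeal A) → (∀ u ∈ I, φ u = 0) →
      ∃ ρ : G →* M2 A, (∀ x, ρ x = (f x).map φ) ∧ LiftC r s d ρ ∧
        ∀ t, coG r s g p q ρ t = φ (X t)) ∧
    ∀ φ φ' : PS O τ →ₐ[O] A, (∀ t, φ (X t) ∈ maximalIdeal A) → (∀ t, φ (X t) = φ' (X t)) → φ = φ'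

/-- no invariants in the twisted adjoint module -/
def Nt {A : Type} [CommRing A] (l : ℕ) (P : Id) (ρ : dec P → M2 A) : Prop :=
  ∃ φ : dec P, Fb l P φ ∧ ∀ N : M2 A, N.trace = 0 →
    (∀ i : dec P, Inert P i → ρ i * N = N * ρ i) → (l : A) • (ρ φ * N) = N * ρ φ → N = 0

/-- row Z1L: charts at the primes prime to the characteristic -/
def Z1L : Prop := ∀ (F : Type) [Field F] [Finite F] (l : ℕ) (P : Id) (r : dec P →* M2 F),
  Ov l P → (l : F) ≠ 0 → IsLocallyConstant r →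
    (∃ (n : ℕ) (g : Fin n → dec P) (p q : Fin n → Fin 2), TnG r g p q) ∧
    ((2 : F) ≠ 0 → Nt l P r → ∃ (g : Fin 3 → dec P) (p q : Fin 3 → Fin 2), TnG r g p q)

/-- row SMO: smooth points in characteristic zero -/
def SMO : Prop := ∀ (F O τ : Type) [Field F] [Finite F] [CommRing O] [IsDomain O]
  [IsDiscreteValuationRing O] [Cf O] [CharZero O] [Algebra O F] [Fintype τ] (l : ℕ) (P : Id)
  (r : dec P →* M2 F) (s : F → O) (d : dec P → O) (g : τ → dec P) (p q : τ → Fin 2)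
  (I : Ideal (PS O τ)) (f : dec P → M2 (PS O τ)) (x : PS O τ →ₐ[O] O),
  Ov l P → (l : F) ≠ 0 → (∀ x, algebraMap O F (s x) = x) → Uni r s d g p q I f →
  (∀ u ∈ I, x u = 0) → Nt l P (fun y => (f y).map x) → Sm I x 3

/-- row CMP: the component through a smooth point -/
def CMP : Prop := ∀ (O τ : Type) [CommRing O] [IsDomain O] [IsDiscreteValuationRing O] [Cf O]
  [Fintype τ] (m k : ℕ) (I : Ideal (PS O τ)) (ψ : PS O τ →ₐ[O] PS O (Fin m))
  (x : PS O τ →ₐ[O] O), (∀ u, x u = constantCoeff (ψ u)) → (∀ u ∈ I, ψ u = 0) → Sm I x k →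
  (∃ (t : Fin k → τ) (e : Fin k → Fin m),
    (Matrix.of fun i j => coeff (Finsupp.single (e j) 1) (ψ (X (t i)))).det ≠ 0) →
    Par (RingHom.ker ψ) k ∧ ∃ h, x h ≠ 0 ∧ ∀ u, ψ u = 0 → h * u ∈ I

/-- row UFR: unramified representations -/
def UFR : Prop := ∀ (l : ℕ) (P : Id) (φ : dec P), Ov l P → Fb l P φ →
  ∀ (A : Type) [CommRing A] [Base A],
    (∀ γ : M2 A, IsUnit γ → ∃ ρ : dec P →* M2 A, ρ φ = γ ∧ (∀ i : dec P, Inert P i → ρ i = 1) ∧
      (∀ n : ℕ, IsOpen {x | Cg (maximalIdeal A ^ n) (ρ x) 1}) ∧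
      ∀ (n : ℕ) (x : dec P), ∃ k : ℕ, Cg (maximalIdeal A ^ n) (ρ x) (γ ^ k)) ∧
    ∀ ρ ρ' : dec P →* M2 A, (∀ n : ℕ, IsOpen {x | Cg (maximalIdeal A ^ n) (ρ x) 1}) →
      (∀ n : ℕ, IsOpen {x | Cg (maximalIdeal A ^ n) (ρ' x) 1}) → ρ φ = ρ' φ →
      (∀ i : dec P, Inert P i → ρ i = ρ' i) → ρ = ρ'

/-- row ORB: the component of a type with finite non scalar inertia -/
def ORB : Prop := ∀ (F O τ : Type) [Field F] [Finite F] [CommRing O] [IsDomain O]
  [IsDiscreteValuationRing O] [Cf O] [CharZero O] [Algebra O F] [Fintype τ] (l : ℕ) (P : Id)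
  (r : dec P →* M2 F) (s : F → O) (d : dec P → O) (g : τ → dec P) (p q : τ → Fin 2)
  (I : Ideal (PS O τ)) (f : dec P → M2 (PS O τ)) (x : PS O τ →ₐ[O] O),
  Ov l P → (l : F) ≠ 0 → (∀ x, algebraMap O F (s x) = x) → Uni r s d g p q I f →
  (∀ u ∈ I, x u = 0) → (∃ n : ℕ, 0 < n ∧ ∀ i : dec P, Inert P i → (f i).map x ^ n = 1) →
  (∃ i : dec P, Inert P i ∧ ((f i).map x).trace ^ 2 ≠ 4 * ((f i).map x).det) →
    ∃ (J : Ideal (PS O τ)) (h : PS O τ) (n : ℕ), Par J 3 ∧ I ≤ J ∧ (∀ u ∈ J, x u = 0) ∧ x h ≠ 0 ∧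
      (∀ u ∈ J, h * u ∈ I) ∧ 0 < n ∧ ∀ i : dec P, Inert P i →
        (f i).trace - C ((f i).map x).trace ∈ J ∧ Cg J (f i ^ n) 1

/-- row UNRB: the unramified component -/
def UNRB : Prop := ∀ (F O τ : Type) [Field F] [Finite F] [CommRing O] [IsDomain O]
  [IsDiscreteValuationRing O] [Cf O] [Algebra O F] [Fintype τ] (l : ℕ) (P : Id)
  (r : dec P →* M2 F) (s : F → O) (d : dec P →* O) (g : τ → dec P) (p q : τ → Fin 2)
  (I : Ideal (PS O τ)) (f : dec P → M2 (PS O τ)),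
  Ov l P → IsLocallyConstant r → (∀ x, algebraMap O F (s x) = x) →
  (∀ x, algebraMap O F (d x) = (r x).det) → Cd d → Uni r s d g p q I f →
  (∀ i : dec P, Inert P i → r i = 1 ∧ d i = 1) →
    Par (I ⊔ Ideal.span {u | ∃ (i : dec P) (a b : Fin 2), Inert P i ∧ u = (f i - 1) a b}) 3

/-- the block at an odd prime `p` -/
def LPo (p : ℕ) [Fact p.Prime] : Prop := ∀ (F O : Type) [Field F] [Finite F] [CharP F p]
  [CommRing O] [IsDomain O] [IsDiscreteValuationRing O] [Cf O] [Algebra O F] (P : Id)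
  (ω : dec P →* (ZMod p)ˣ) (r : dec P →* M2 F) (s : F → O) (d : dec P →* O),
  Ov p P → Cy (dec P).subtype p ω → IsLocallyConstant r → Spl r →
  (∀ x, (r x).det = (up ω x : Fˣ)) → (∀ x, algebraMap O F (s x) = x) →
  (∀ x, algebraMap O F (d x) = (r x).det) → Cd d → OutG r s d 6

/-- row LP5 -/
def LP5 : Prop := ∀ (p : ℕ) [Fact p.Prime], 5 ≤ p → LPo p

/-- row LP3 -/
def LP3 : Prop := LPo 3

/-- row LP2: transport of the block at two to a decomposition group -/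
def LP2 : Prop := ∀ (F O : Type) [Field F] [Finite F] [CharP F 2]
  [CommRing O] [IsDomain O] [IsDiscreteValuationRing O] [Cf O] [Algebra O F] (P : Id)
  (r : dec P →* M2 F) (s : F → O) (d : dec P → O), Ov 2 P → IsLocallyConstant r → Spl r →
  (∀ x, (r x).det = 1) → (∀ x, algebraMap O F (s x) = x) → (∀ x, algebraMap O F (d x) = 1) →
  OutG r s d 6

/-! ### commutative algebra -/

/-- row FLAT -/
def FLAT : Prop := ∀ (O β σ : Type) [CommRing O] [IsDomain O] [IsDiscreteValuationRing O] [Cf O]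
  [Fintype β] [Fintype σ] (τ : β → Type) [∀ b, Fintype (τ b)] (e : (Σ b, τ b) ↪ σ)
  (J : ∀ b, Ideal (PS O (τ b))), (∀ b, Sat (J b)) → Sat (sumI e J)

/-- row SUMD: the dimension of a sum, from above -/
def SUMD : Prop := ∀ (O β σ : Type) [CommRing O] [IsDomain O] [IsDiscreteValuationRing O] [Cf O]
  [Fintype β] [Fintype σ] (τ : β → Type) [∀ b, Fintype (τ b)] (e : (Σ b, τ b) ↪ σ)
  (J : ∀ b, Ideal (PS O (τ b))) (k : β → ℕ) (n : ℕ), (∀ b, Sat (J b)) →
  (∀ b, ringKrullDim (PS O (τ b) ⧸ J b) ≤ (k b + 1 : ℕ)) →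
  ∑ b, k b + Fintype.card σ ≤ n + ∑ b, Fintype.card (τ b) →
    ringKrullDim (PS O σ ⧸ sumI e J) ≤ (n + 1 : ℕ)

/-- row GEO: one prime and several parametrised primes -/
def GEO : Prop := ∀ (O β σ σ₀ : Type) [CommRing O] [IsDomain O] [IsDiscreteValuationRing O] [Cf O]
  [Fintype β] [Fintype σ] [Fintype σ₀] (τ : β → Type) [∀ b, Fintype (τ b)]
  (e : (Σ b, τ b) ↪ σ) (e₀ : σ₀ ↪ σ) (J : ∀ b, Ideal (PS O (τ b))) (J₀ : Ideal (PS O σ₀))
  (k : β → ℕ) (k₀ n : ℕ), (∀ a b, e a ≠ e₀ b) → J₀.IsPrime → Sat J₀ →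
  ringKrullDim (PS O σ₀ ⧸ J₀) = (k₀ + 1 : ℕ) → (∀ b, Par (J b) (k b)) →
  k₀ + ∑ b, k b + Fintype.card σ = n + Fintype.card σ₀ + ∑ b, Fintype.card (τ b) →
    (J₀.map (rename (R := O) e₀) ⊔ sumI e J).IsPrime ∧
    Sat (J₀.map (rename (R := O) e₀) ⊔ sumI e J) ∧
    ringKrullDim (PS O σ ⧸ (J₀.map (rename (R := O) e₀) ⊔ sumI e J)) = (n + 1 : ℕ)

/-- row JAC: the closed points of the generic fibre are dense -/
def JAC : Prop := ∀ (O σ Ω : Type) [CommRing O] [IsDomain O] [IsDiscreteValuationRing O] [Cf O]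
  [Fintype σ] [Field Ω] [IsAlgClosed Ω] [Algebra O Ω] [FaithfulSMul O Ω] (J : Ideal (PS O σ))
  (u : PS O σ), Sat J → (∀ x : PS O σ →ₐ[O] Ω, Pt J x → x u = 0) → u ∈ J.radical

/-! ### the Iwasawa algebra -/

/-- ordered monomials -/
def mon {K : Type} [Monoid K] {e r : ℕ} (k : Fin e ⊕ Fin r → K) (a : Fin e ⊕ Fin r → ℕ) : K :=
  (List.ofFn fun i => k (Sum.inl i) ^ a (Sum.inl i)).prod *
    (List.ofFn fun s => k (Sum.inr s) ^ a (Sum.inr s)).prod

/-- a uniform group with an ordered basis; the last `r` generators are central -/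
structure Unf {K : Type} [Group K] {e r : ℕ} (p : ℕ) (k : Fin e ⊕ Fin r → K)
    (N : ℕ → Subgroup K) : Prop where
  nor : ∀ m, (N m).Normal
  anti : Antitone N
  cen : ∀ s, k (Sum.inr s) ∈ Subgroup.center K
  pow : ∀ m i, k i ^ p ^ m ∈ N m
  ex : ∀ m g, ∃ a, (mon k a)⁻¹ * g ∈ N m
  inj : ∀ m a a', (mon k a)⁻¹ * mon k a' ∈ N m → ∀ i, a i ≡ a' i [MOD p ^ m]
  com : ∀ m g h, ∃ u, (u ^ p ^ 2)⁻¹ * (g * h * g⁻¹ * h⁻¹) ∈ N m

/-- the left regular representation on the power series ring -/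
structure Reg {O K : Type} [CommRing O] [IsLocalRing O] [Group K] {e r : ℕ}
    (k : Fin e ⊕ Fin r → K) (N : ℕ → Subgroup K)
    (lam : K →* Module.End O (PS O (Fin e ⊕ Fin r))) : Prop where
  op : Op O (Fin e) r (V := PS O (Fin e ⊕ Fin r))
    fun i => (lam (k (Sum.inl i)) - 1).toAddMonoidHom
  cen : ∀ s a, lam (k (Sum.inr s)) a = (1 + y1 O (Fin e) s) * a
  up : ∀ g j a, a ∈ Fl O (Fin e) r (PS O (Fin e ⊕ Fin r)) j →
    lam g a - a ∈ Fl O (Fin e) r (PS O (Fin e ⊕ Fin r)) (j + 1)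
  sm : ∀ j, ∃ m, ∀ g ∈ N m, ∀ a, lam g a - a ∈ Fl O (Fin e) r (PS O (Fin e ⊕ Fin r)) j
  den : ∀ j a, ∃ c : K →₀ O,
    a - c.sum (fun g o => o • lam g 1) ∈ Fl O (Fin e) r (PS O (Fin e ⊕ Fin r)) j
  ev : ∀ (M : Type) [AddCommGroup M] [Module O M] (ρ : K →* Module.End O M) (m c : ℕ),
    (∀ o ∈ maximalIdeal O ^ c, ∀ w : M, o • w = 0) → (∀ g ∈ N m, ρ g = 1) →
    ∃ j, ∀ w, ∃ π : PS O (Fin e ⊕ Fin r) →ₗ[O] M, π 1 = w ∧ (∀ g a, π (lam g a) = ρ g (π a)) ∧
      ∀ a ∈ Fl O (Fin e) r (PS O (Fin e ⊕ Fin r)) j, π a = 0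

/-- row IWA -/
def IWA : Prop := ∀ (O K : Type) [CommRing O] [IsDomain O] [IsDiscreteValuationRing O] [Cf O]
  [Group K] (p e r : ℕ) [Fact p.Prime] (k : Fin e ⊕ Fin r → K) (N : ℕ → Subgroup K),
  (p : O) ∈ maximalIdeal O → Unf p k N → ∃ lam, Reg (O := O) k N lam

/-! ### the global ring over the local rings -/

/-- the adjoint representation on all matrices -/
def ad {G k : Type} [Group G] [Field k] (ρ : G →* GL (Fin 2) k) : Representation k G (M2 k) where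
  toFun g :=
    { toFun := fun m => (ρ g).1 * m * (ρ g⁻¹).1
      map_add' := fun a b => by simp [mul_add, add_mul]
      map_smul' := fun c a => by simp }
  map_one' := by ext1 m; simp
  map_mul' g h := by ext1 m; simp [mul_assoc]

/-- representatives of the orbits, with stabilisers inside the local groups -/
structure Rp {G X T : Type} [Group G] (π : G →* Equiv.Perm X) (x : T → X) (D : T → Set G) :
    Prop where
  all : ∀ y, ∃ t g, π g (x t) = y
  inj : ∀ t t' g, π g (x t) = x t' → t = t'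
  stb : ∀ t g, π g (x t) = x t ↔ g ∈ D t

/-- row TANB: the tangent space and the framed cocycles -/
def TANB : Prop := ∀ (G k X T : Type) [Group G] [TopologicalSpace G] [IsTopologicalGroup G]
  [Field k] [Fintype T] [Nonempty T] (ρ : G →* GL (Fin 2) k) (π : G →* Equiv.Perm X) (x : T → X)
  (D : T → Set G) (I₀ I : Set G) (n : ℕ), Rp π x D → I₀ ⊆ I → (∀ g ∈ I₀, ρ g = 1) →
    (Module.Finite k (Zc π I₀ (ad ρ)) → Module.finrank k (Zc π I₀ (ad ρ)) ≤ n →
      ∀ E, RU.Tan ((Units.coeHom _).comp ρ) D E I n) ∧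
    (Module.Finite k (Zc π I₀ (ad0 ρ)) → Module.finrank k (Zc π I₀ (ad0 ρ)) ≤ n →
      RU.Tan ((Units.coeHom _).comp ρ) D Set.univ I (n + Fintype.card T))

section glob

variable {O F G T : Type} [CommRing O] [Field F] [Group G] [TopologicalSpace G]

/-- the local charts: groups `L t` with maps `j t` to `G`, changes of basis `c t`, residual
representations `r t`, coordinates, universal rings -/
structure Ch (O F G T : Type) [CommRing O] [Field F] [Group G] (L τ : T → Type)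
    [∀ t, Group (L t)] where
  j : ∀ t, L t →* G
  c : T → M2 O
  c' : T → M2 O
  r : ∀ t, L t →* M2 F
  s : F → O
  δ : G → O
  g : ∀ t, τ t → L t
  p : ∀ t, τ t → Fin 2
  q : ∀ t, τ t → Fin 2
  I : ∀ t, Ideal (PS O (τ t))
  f : ∀ t, L t → M2 (PS O (τ t))

variable {L τ : T → Type} [∀ t, Group (L t)] (H : Ch O F G T L τ) {S : RU.Dat O F G T}

/-- the local groups -/
def Ch.D (t : T) : Set G := Set.range (H.j t)

/-- the local representation of an object -/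
def Ch.lr {A : Type} [CommRing A] (X : RU.Obj S A) (t : T) (x : L t) : M2 A :=
  (H.c' t).map X.ι * (X.β t * X.ρ (H.j t x) * X.α t) * (H.c t).map X.ι

variable (S) in
/-- the coordinates -/
def Ch.κ : RU.Crd S (Σ t, τ t) := fun _ _ X u =>
  H.lr X u.1 (H.g u.1 u.2) (H.p u.1 u.2) (H.q u.1 u.2) -
    X.ι (H.s (H.r u.1 (H.g u.1 u.2) (H.p u.1 u.2) (H.q u.1 u.2)))

variable (S) in
/-- the class of the objects with determinant `δ` on `E` -/
def Ch.C (E : Set G) : RU.Cl S := fun _ _ X => ∀ x ∈ E, (X.ρ x).det = X.ι (H.δ x)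

variable (S) in
/-- the hypotheses on the charts -/
structure Ch.Ok [IsLocalRing O] [Algebra O F] [∀ t, TopologicalSpace (L t)] (E : Set G) :
    Prop where
  red : S.red = algebraMap O F
  sec : ∀ x, algebraMap O F (H.s x) = x
  lam : S.red S.lam = S.rb S.g1 0 1
  cts : ∀ t, Continuous (H.j t)
  inv : ∀ t, H.c t * H.c' t = 1
  res : ∀ t x, H.r t x = (H.c' t).map S.red * S.rb (H.j t x) * (H.c t).map S.red
  sub : ∀ t, H.D t ⊆ E
  det : ∀ x ∈ E, S.red (H.δ x) = (S.rb x).det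
  tn : ∀ t, TnG (H.r t) (H.g t) (H.p t) (H.q t)
  uni : ∀ t, Uni (H.r t) H.s (fun x => H.δ (H.j t x)) (H.g t) (H.p t) (H.q t) (H.I t) (H.f t)

/-- the ideal of the universal ring -/
def kerU {σ : Type} {g : ℕ} (C : RU.Cl S) (Φ : RU.Fam S σ g) : Ideal (RU.PS O σ g) :=
  sInf {a | ∃ (A : Type) (_ : CommRing A) (X : RU.Obj S A), C A X ∧ a = RingHom.ker (Φ A X)}

end glob

/-- row CHART -/
def CHART : Prop := ∀ (O F G T : Type) [CommRing O] [IsDomain O] [IsDiscreteValuationRing O]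
  [Cf O] [Field F] [Finite F] [Algebra O F] [Group G] [TopologicalSpace G] [IsTopologicalGroup G]
  (L τ : T → Type) [∀ t, Group (L t)] [∀ t, TopologicalSpace (L t)]
  [∀ t, IsTopologicalGroup (L t)] [∀ t, Fintype (τ t)] (H : Ch O F G T L τ) (S : RU.Dat O F G T)
  (E : Set G), H.Ok S E → RU.Closed (H.C S E) ∧ RU.Loc H.D E (H.C S E) (H.κ S) ∧
    ∀ (I : Set G) (g : ℕ) (Φ : RU.Fam S (Σ t, τ t) g), RU.Univ (RU.Ty (H.C S E) I) (H.κ S) Φ →
      ∀ (A : Type) [CommRing A] (X : RU.Obj S A), RU.Ty (H.C S E) I A X → ∀ t,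
        (∀ u ∈ H.I t, Φ A X (rename (emb Function.Embedding.inl t) u) = 0) ∧
        ∀ x a b, Φ A X (rename (emb Function.Embedding.inl t) (H.f t x a b)) = H.lr X t x a b

/-- row PRES: the number of relations over the local rings -/
def PRES : Prop := ∀ (O F G T X : Type) [CommRing O] [IsDomain O] [IsDiscreteValuationRing O]
  [Cf O] [Field F] [Finite F] [Algebra O F] [Group G] [TopologicalSpace G] [IsTopologicalGroup G]
  [CompactSpace G] [T2Space G] [TotallyDisconnectedSpace G] [Fintype T] (L τ : T → Type)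
  [∀ t, Group (L t)] [∀ t, TopologicalSpace (L t)]
  [∀ t, IsTopologicalGroup (L t)] [∀ t, CompactSpace (L t)] [∀ t, Fintype (τ t)]
  (H : Ch O F G T L τ) (S : RU.Dat O F G T) (ρ : G →* GL (Fin 2) F) (π : G →* Equiv.Perm X)
  (x : T → X) (I : Set G) (g : ℕ) (Φ : RU.Fam S (Σ t, τ t) g),
  H.Ok S Set.univ → (∀ t, Function.Injective (H.j t)) → S.rb = (Units.coeHom _).comp ρ →
  IsOpen {y | ρ y = 1} → (∀ y z, H.δ (y * z) = H.δ y * H.δ z) → Cd H.δ →
  (∀ y ∈ I, ρ y = 1 ∧ H.δ y = 1) → Rp π x H.D →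
  RU.Univ (RU.Ty (H.C S Set.univ) I) (H.κ S) Φ →
  Module.Finite F (Zc π I (ad0 ρ)) → Module.Finite F (H2 π I (ad0 ρ)) →
    ∃ (n : ℕ) (u : Fin n → RU.PS O (Σ t, τ t) g),
      n + Module.finrank F (Zc π I (ad0 ρ)) + Fintype.card T ≤
        Module.finrank F (H2 π I (ad0 ρ)) + g + 4 ∧
      kerU (RU.Ty (H.C S Set.univ) I) Φ =
        sumI Function.Embedding.inl H.I ⊔ Ideal.span (Set.range u)

end Vale.Agent.P022K.RT
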