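import Vale.Agent.P022K.RT.St
import Vale.Agent.P022K.RU.Obj

/-!
# P022K, block RT, row NF: the normal form of the residual representation
-/

set_option linter.all false

noncomputable section

namespace Vale.Agent.P022K.RT.Nf

open Vale.Agent.P022D.L2b (M2)
open Vale.Agent.P022K.GW (Adq Rg)

variable {G F : Type} [Group G] [Field F]

/-- no invariant line -/
def Irr (ρ : G →* GL (Fin 2) F) : Prop := ∀ c : GL (Fin 2) F, ∃ g, (c * ρ g * c⁻¹).1 1 0 ≠ 0

theorem tr_cj (c m : GL (Fin 2) F) : (c * m * c⁻¹).1.trace = m.1.trace := by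
  rw [Units.val_mul, Units.val_mul, Matrix.trace_mul_cycle, ← Units.val_mul, inv_mul_cancel,
    Units.val_one, one_mul]

theorem det_cj (c m : GL (Fin 2) F) : (c * m * c⁻¹).1.det = m.1.det := by
  rw [Units.val_mul, Units.val_mul, Matrix.det_mul, Matrix.det_mul, mul_right_comm,
    ← Matrix.det_mul, ← Units.val_mul, mul_inv_cancel, Units.val_one, Matrix.det_one, one_mul]

theorem rg_cj (c : GL (Fin 2) F) {m : GL (Fin 2) F} : Rg (c * m * c⁻¹) ↔ Rg m := by
  rw [Rg, Rg, tr_cj, det_cj]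

theorem rg_ne {m : GL (Fin 2) F} (h : Rg m) (e : m.1 1 0 = 0) : m.1 0 0 ≠ m.1 1 1 := fun k =>
  h (by rw [Matrix.trace_fin_two, Matrix.det_fin_two, e, k]; ring)

/-- a diagonal entry of a triangular representation -/
def dia (B : G →* GL (Fin 2) F) (h : ∀ g, (B g).1 1 0 = 0) (i : Fin 2) : G →* Fˣ :=
  MonoidHom.toHomUnits
    { toFun := fun g => (B g).1 i i
      map_one' := by simp
      map_mul' := fun g g' => by
        rw [map_mul, Units.val_mul, Matrix.mul_apply, Fin.sum_univ_two]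
        fin_cases i <;> simp [h] }

theorem dia_ap (B : G →* GL (Fin 2) F) (h : ∀ g, (B g).1 1 0 = 0) (i : Fin 2) (g : G) :
    (dia B h i g : F) = (B g).1 i i := rfl

theorem adq_reg {ρ : G →* GL (Fin 2) F} {ω : G →* Fˣ} (h : Adq ρ ω) : ∃ g, Rg (ρ g) := by
  obtain ⟨s, -, -, h1, -⟩ := h.2 F 1 fun _ _ _ => rfl
  exact ⟨s, h1⟩

theorem adq_irr {ρ : G →* GL (Fin 2) F} {ω : G →* Fˣ} (h : Adq ρ ω) : Irr ρ := fun c => by
  by_contra! k
  let B : G →* GL (Fin 2) F := (MulAut.conj c).toMonoidHom.comp ρ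
  let χ : G →* Fˣ := dia B k 0 / dia B k 1
  obtain ⟨s, w, -, h1, h2, h3⟩ := h.2 F (GW.tw χ 1) fun z hz _ => by
    have e : B z = ρ z := by
      show c * ρ z * c⁻¹ = ρ z
      rw [Subgroup.mem_center_iff.1 hz c, mul_inv_cancel_right]
    have e1 := congrArg (fun m : GL (Fin 2) F => m.1 0 1) (Subgroup.mem_center_iff.1 hz
      (Matrix.GeneralLinearGroup.mkOfDetNeZero !![0, 1; 1, 0] (by simp)))
    have e2 : dia B k 0 z = dia B k 1 z := Units.ext (by
      show (B z).1 0 0 = (B z).1 1 1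
      rw [e]
      simpa [Matrix.mul_apply, Fin.sum_univ_two] using e1.symm)
    show ((χ z : Fˣ) : F) • (1 : Module.End F F) = 1
    rw [show χ z = 1 from div_eq_one.2 e2, Units.val_one, one_smul]
  have e : χ s = 1 := Units.ext (mul_right_cancel₀ h2 (h3.trans (one_mul w).symm))
  exact rg_ne ((rg_cj c).2 h1) (k s) (congrArg Units.val (div_eq_one.1 e))

theorem ns_irr {ρ : G →* GL (Fin 2) F} (h : ¬ IsSolvable ρ.range) : Irr ρ := fun c => by
  by_contra! k
  let B : ρ.range →* GL (Fin 2) F := (MulAut.conj c).toMonoidHom.comp ρ.range.subtype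
  have k' : ∀ g, (B g).1 1 0 = 0 := by
    rintro ⟨_, g, rfl⟩
    exact k g
  let χ := (dia B k' 0).prod (dia B k' 1)
  have hB : Function.Injective B := (MulAut.conj c).injective.comp Subtype.val_injective
  have : Group.IsSolvable χ.ker := isSolvable_of_comm fun a b => Subtype.ext (hB (Units.ext (by
    have a0 : (B a).1 0 0 = 1 := congrArg (fun x : Fˣ × Fˣ => (x.1 : F)) a.2
    have a1 : (B a).1 1 1 = 1 := congrArg (fun x : Fˣ × Fˣ => (x.2 : F)) a.2
    have b0 : (B b).1 0 0 = 1 := congrArg (fun x : Fˣ × Fˣ => (x.1 : F)) b.2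
    have b1 : (B b).1 1 1 = 1 := congrArg (fun x : Fˣ × Fˣ => (x.2 : F)) b.2
    rw [Subgroup.coe_mul, Subgroup.coe_mul, map_mul, map_mul, Units.val_mul, Units.val_mul]
    ext i j
    fin_cases i <;> fin_cases j <;>
      simp [Matrix.mul_apply, Fin.sum_univ_two, a0, a1, b0, b1, k', add_comm])))
  exact h (solvable_of_ker_le_range χ.ker.subtype χ (by simp))

theorem ns_reg [CharP F 2] {ρ : G →* GL (Fin 2) F} (h : ¬ IsSolvable ρ.range)
    (hd : ∀ g, (ρ g).1.det = 1) : ∃ g, Rg (ρ g) := by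
  by_contra! k
  have h2 : (2 : F) = 0 := CharP.cast_eq_zero F 2
  have sq : ∀ a : ρ.range, a * a = 1 := by
    rintro ⟨_, g, rfl⟩
    have e1 : (ρ g).1.trace = 0 := by
      have := not_not.1 (k g)
      rw [show (4 : F) = 2 * 2 by norm_num, h2, zero_mul, zero_mul] at this
      exact pow_eq_zero_iff two_ne_zero |>.1 this
    have e2 := hd g
    rw [Matrix.trace_fin_two] at e1
    rw [Matrix.det_fin_two] at e2
    refine Subtype.ext (Units.ext ?_)
    show (ρ g).1 * (ρ g).1 = 1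
    ext i j
    fin_cases i <;> fin_cases j <;> simp [Matrix.mul_apply, Fin.sum_univ_two]
    · linear_combination (ρ g).1 0 0 * e1 - e2 - h2
    · linear_combination (ρ g).1 0 1 * e1
    · linear_combination (ρ g).1 1 0 * e1
    · linear_combination (ρ g).1 1 1 * e1 - e2 - h2
  refine h (isSolvable_of_comm fun a b => ?_)
  have i : ∀ a : ρ.range, a⁻¹ = a := fun a => inv_eq_of_mul_eq_one_right (sq a)
  rw [← i (a * b), mul_inv_rev, i, i]

/-- diagonalisation over a field -/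
theorem ex_dg (m : GL (Fin 2) F) (h : Rg m) {a : F} (ha : a ^ 2 - m.1.trace * a + m.1.det = 0) :
    ∃ c : GL (Fin 2) F, (c * m * c⁻¹).1 0 1 = 0 ∧ (c * m * c⁻¹).1 1 0 = 0 := by
  set b := m.1.trace - a with hb
  have hab : a - b ≠ 0 := fun e => h (by linear_combination (a - b) * e - 4 * ha)
  have key : ∀ P : M2 F, P.det ≠ 0 → m.1 * P = P * !![a, 0; 0, b] →
      ∃ c : GL (Fin 2) F, (c * m * c⁻¹).1 0 1 = 0 ∧ (c * m * c⁻¹).1 1 0 = 0 := fun P h1 h2 => by
    let c := Matrix.GeneralLinearGroup.mkOfDetNeZero P h1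
    have : (c⁻¹ * m * c⁻¹⁻¹).1 = !![a, 0; 0, b] := by
      rw [inv_inv, mul_assoc, Units.val_mul, Units.val_mul, show m.1 * c.1 = c.1 * _ from h2,
        ← mul_assoc, ← Units.val_mul, inv_mul_cancel, Units.val_one, one_mul]
    exact ⟨c⁻¹, by rw [this]; rfl, by rw [this]; rfl⟩
  rw [Matrix.trace_fin_two] at hb
  rw [Matrix.trace_fin_two, Matrix.det_fin_two] at ha
  by_cases h1 : m.1 0 1 = 0
  · by_cases h2 : m.1 1 0 = 0
    · exact ⟨1, by simpa using h1, by simpa using h2⟩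
    · refine key !![a - m.1 1 1, b - m.1 1 1; m.1 1 0, m.1 1 0] ?_ ?_
      · rw [Matrix.det_fin_two_of, show ∀ x y z : F, (a - x) * y - (b - x) * y = (a - b) * y from
          fun x y z => by ring]
        exacts [mul_ne_zero hab h2, 0]
      · ext i j
        fin_cases i <;> fin_cases j <;> simp [Matrix.mul_apply, Fin.sum_univ_two, hb]
        · linear_combination -ha
        · linear_combination -ha
        · ring
        · ring
  · refine key !![m.1 0 1, m.1 0 1; b - m.1 1 1 - (b - a) - (m.1 0 0 - m.1 1 1),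
      b - m.1 0 0] ?_ ?_
    · rw [Matrix.det_fin_two_of]
      refine fun e => mul_ne_zero h1 hab ?_
      linear_combination -e
    · ext i j
      fin_cases i <;> fin_cases j <;> simp [Matrix.mul_apply, Fin.sum_univ_two, hb]
      · ring
      · ring
      · linear_combination -ha
      · linear_combination -ha

variable {O T : Type} [CommRing O] [Algebra O F]

/-- `S` is a normal form of `ρ` -/
structure Nm (ρ : G →* GL (Fin 2) F) (S : RU.Dat O F G T) (c c' : M2 O) : Prop where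
  inv : c * c' = 1
  red : S.red = algebraMap O F
  rb : ∀ g, S.rb g = c.map S.red * (ρ g).1 * c'.map S.red
  lam : S.red S.lam = S.rb S.g1 0 1
  n10 : ∃ g, S.rb g 1 0 ≠ 0

/-- **NF** -/
theorem ex_nm (hs : Function.Surjective (algebraMap O F))
    (hu : ∀ c, algebraMap O F c ≠ 0 → IsUnit c) (l0 : T) (ρ : G →* GL (Fin 2) F)
    (spl : Spl ((Units.coeHom _).comp ρ)) (K : Subgroup G) (reg : ∃ g, Rg (ρ.comp K.subtype g))
    (irr : Irr (ρ.comp K.subtype)) : ∃ (S : RU.Dat O F G T) (c c' : M2 O),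
      Nm ρ S c c' ∧ S.l0 = l0 ∧ S.g0 ∈ K ∧ S.g1 ∈ K := by
  obtain ⟨⟨g0, m0⟩, h0 : Rg (ρ g0)⟩ := reg
  obtain ⟨a, ha⟩ := spl g0
  obtain ⟨k, k1, k2⟩ := ex_dg (ρ g0) h0 ha
  choose s hs' using hs
  have e1 : (k.1.map s).map (algebraMap O F) = k.1 := Matrix.ext fun _ _ => hs' _
  obtain ⟨c', hc⟩ : ∃ c', k.1.map s * c' = 1 := ((Matrix.isUnit_iff_isUnit_det _).2 (hu _ (by
    rw [RingHom.map_det, RingHom.mapMatrix_apply, e1]
    exact k.det_ne_zero))).exists_right_inv
  have e2 : c'.map (algebraMap O F) = (k⁻¹).1 := by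
    have := congrArg (fun m : M2 O => m.map (algebraMap O F)) hc
    simp only [Matrix.map_mul, e1, RU.map_one'] at this
    rw [← one_mul (c'.map _), ← Units.inv_mul k, mul_assoc, this, mul_one]
  let w : GL (Fin 2) F := Matrix.GeneralLinearGroup.mkOfDetNeZero !![0, 1; 1, 0] (by simp)
  have hw : w⁻¹ = w := inv_eq_of_mul_eq_one_right (Units.ext (by
    ext i j
    fin_cases i <;> fin_cases j <;> simp [w, Matrix.mul_apply, Fin.sum_univ_two]))
  obtain ⟨⟨g1, m1⟩, h1 : (w * k * ρ g1 * (w * k)⁻¹).1 1 0 ≠ 0⟩ := irr (w * k)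
  have h1' : (k * ρ g1 * k⁻¹).1 0 1 ≠ 0 := by
    rw [mul_inv_rev, hw, show w * k * ρ g1 * (k⁻¹ * w) = w * (k * ρ g1 * k⁻¹) * w by group] at h1
    generalize k * ρ g1 * k⁻¹ = m at h1
    simpa [w, Matrix.mul_apply, Fin.sum_univ_two, Matrix.vecMul, dotProduct] using h1
  refine ⟨⟨algebraMap O F, (Units.coeHom _).comp ((MulAut.conj k).toMonoidHom.comp ρ), g0, g1,
    s ((k * ρ g1 * k⁻¹).1 0 1), l0, fun x => ⟨s x, hs' x⟩, k1, k2, rg_ne ((rg_cj k).2 h0) k2, h1'⟩,
    k.1.map s, c', ⟨hc, rfl, fun g => ?_, hs' _, (irr k).elim fun g hg => ⟨g, hg⟩⟩, rfl, m0, m1⟩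
  show (k * ρ g * k⁻¹).1 = (k.1.map s).map (algebraMap O F) * _ * c'.map (algebraMap O F)
  rw [e1, e2]
  rfl

theorem ns_com {ρ : G →* GL (Fin 2) F} (h : ¬ IsSolvable ρ.range) :
    ¬ IsSolvable (ρ.comp (commutator G).subtype).range := fun k => by
  have e : (ρ.comp (commutator G).subtype).range = (commutator ρ.range).map ρ.range.subtype := by
    rw [MonoidHom.range_comp, Subgroup.range_subtype, commutator, commutator,
      Subgroup.map_commutator, Subgroup.map_commutator, ← MonoidHom.range_eq_map,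
      ← MonoidHom.range_eq_map, Subgroup.range_subtype]
  rw [e] at k
  have k' : Group.IsSolvable _ := k
  have : Group.IsSolvable (commutator ρ.range) := solvable_of_solvable_injective
    (f := (Subgroup.equivMapOfInjective _ _ ρ.range.subtype_injective).toMonoidHom)
    (MulEquiv.injective _)
  exact h (solvable_of_ker_le_range (commutator ρ.range).subtype Abelianization.of (by simp))

/-- NF for adequate representations -/
theorem nm_adq (hs : Function.Surjective (algebraMap O F))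
    (hu : ∀ c, algebraMap O F c ≠ 0 → IsUnit c) (l0 : T) (ρ : G →* GL (Fin 2) F)
    (spl : Spl ((Units.coeHom _).comp ρ)) {ω : G →* Fˣ} (h : Adq ρ ω) :
    ∃ (S : RU.Dat O F G T) (c c' : M2 O), Nm ρ S c c' ∧ S.l0 = l0 := by
  obtain ⟨S, c, c', h1, h2, -⟩ := ex_nm hs hu l0 ρ spl ⊤
    ((adq_reg h).elim fun g hg => ⟨⟨g, trivial⟩, hg⟩)
    fun c => (adq_irr h c).elim fun g hg => ⟨⟨g, trivial⟩, hg⟩
  exact ⟨S, c, c', h1, h2⟩

/-- NF for non solvable image in characteristic two -/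
theorem nm_ns [CharP F 2] (hs : Function.Surjective (algebraMap O F))
    (hu : ∀ c, algebraMap O F c ≠ 0 → IsUnit c) (l0 : T) (ρ : G →* GL (Fin 2) F)
    (spl : Spl ((Units.coeHom _).comp ρ)) (h : ¬ IsSolvable ρ.range)
    (hd : ∀ g, (ρ g).1.det = 1) : ∃ (S : RU.Dat O F G T) (c c' : M2 O),
      Nm ρ S c c' ∧ S.l0 = l0 ∧ S.g0 ∈ commutator G ∧ S.g1 ∈ commutator G :=
  ex_nm hs hu l0 ρ spl _ (ns_reg (ns_com h) fun g => hd g) (ns_irr (ns_com h))

section nm

variable {ρ : G →* GL (Fin 2) F} {S : RU.Dat O F G T} {c c' : M2 O} (h : Nm ρ S c c')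
include h

theorem Nm.cc : c.map S.red * c'.map S.red = 1 := by rw [← Matrix.map_mul, h.inv, RU.map_one']

theorem Nm.cc' : c'.map S.red * c.map S.red = 1 := mul_eq_one_comm.1 h.cc

theorem Nm.res (g : G) : (ρ g).1 = c'.map S.red * S.rb g * c.map S.red := by
  rw [h.rb, ← mul_assoc, ← mul_assoc, h.cc', one_mul, mul_assoc, h.cc', mul_one]

theorem Nm.one {g : G} : S.rb g = 1 ↔ ρ g = 1 :=
  ⟨fun e => Units.ext (by rw [h.res, e, mul_one, h.cc', Units.val_one]),
    fun e => by rw [h.rb, e, Units.val_one, mul_one, h.cc]⟩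

theorem Nm.tr (g : G) : (S.rb g).trace = (ρ g).1.trace := by
  rw [h.rb, Matrix.trace_mul_cycle, h.cc', one_mul]

theorem Nm.det (g : G) : (S.rb g).det = (ρ g).1.det := by
  rw [h.rb, Matrix.det_mul, Matrix.det_mul, mul_right_comm, ← Matrix.det_mul, h.cc, Matrix.det_one,
    one_mul]

end nm

/-- the tangent bound is invariant under conjugation -/
theorem tan_conj [TopologicalSpace G] {r r' : G →* M2 F} {k k' : M2 F} (hk : k' * k = 1)
    (e : ∀ g, r g = k' * r' g * k) {D : T → Set G} {E I : Set G} {N : ℕ} (h : RU.Tan r D E I N) :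
    RU.Tan r' D E I N := fun Z hZ => by
  have hk' := mul_eq_one_comm.1 hk
  let φ : M2 F →ₗ[F] M2 F := (LinearMap.mulLeft F k').comp (LinearMap.mulRight F k)
  have hφ : ∀ m, φ m = k' * (m * k) := fun _ => rfl
  have cj : ∀ x m y, φ (x * m * y) = k' * x * k * φ m * (k' * y * k) := fun x m y => by
    simp only [hφ, mul_assoc]
    rw [← mul_assoc k k', hk', one_mul, ← mul_assoc k k', hk', one_mul]
  have inj : Function.Injective φ := fun m m' t => by
    have := congrArg (fun x => k * x * k') t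
    simpa only [hφ, ← mul_assoc, hk', one_mul, mul_assoc _ k k', mul_one] using this
  let Φ := (φ.compLeft G).prodMap (φ.compLeft T)
  have hΦ : Function.Injective Φ := fun z z' t => Prod.ext
    (funext fun g => inj (congrFun (congrArg Prod.fst t) g))
    (funext fun l => inj (congrFun (congrArg Prod.snd t) l))
  rw [(Submodule.equivMapOfInjective Φ hΦ Z).rank_eq]
  refine h _ ?_
  rintro _ ⟨z, hz, rfl⟩
  obtain ⟨h1, ⟨U, u1, u2, u3⟩, h3, h4, h5⟩ := hZ z hz
  refine ⟨fun g g' => ?_, ⟨U, u1, u2, fun σ hσ => ⟨?_, ?_⟩⟩, fun g hg => ?_, fun l g hg => ?_,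
    fun g hg => ?_⟩
  · show φ (z.1 _) = φ (z.1 _) + _ * φ (z.1 _) * _
    rw [h1, map_add, cj, e, e]
  · show φ (z.1 _) = 0
    rw [(u3 σ hσ).1, map_zero]
  · rw [e, (u3 σ hσ).2, mul_one, hk]
  · show φ (z.1 _) = 0
    rw [h3 g hg, map_zero]
  · show φ (z.1 _) = φ (z.2 _) - _ * φ (z.2 _) * _
    rw [h4 l g hg, map_sub, cj, e, e]
  · show (φ (z.1 _)).trace = 0
    rw [hφ, Matrix.trace_mul_comm, mul_assoc, hk', mul_one, h5 g hg]

theorem Nm.tan [TopologicalSpace G] {ρ : G →* GL (Fin 2) F} {S : RU.Dat O F G T} {c c' : M2 O}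
    (h : Nm ρ S c c') {D : T → Set G} {E I : Set G} {N : ℕ}
    (k : RU.Tan ((Units.coeHom _).comp ρ) D E I N) : RU.Tan S.rb D E I N :=
  tan_conj h.cc' h.res k

theorem tan_mono [TopologicalSpace G] {r : G →* M2 F} {D : T → Set G} {E I : Set G} {N N' : ℕ}
    (h : RU.Tan r D E I N) (e : N ≤ N') : RU.Tan r D E I N' :=
  fun Z hZ => (h Z hZ).trans (Nat.cast_le.2 e)

end Vale.Agent.P022K.RT.Nf
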