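import Vale.Agent.P022K.RT.Bigp
import Vale.Agent.P022K.RT.Nf
import Vale.Agent.P022K.CH.Grd

/-!
# P022K, block RT: modularity lifting on a site
-/

set_option linter.all false

noncomputable section

namespace Vale.Agent.P022K.RT

open IsLocalRing
open Vale.Agent.P022 Vale.Agent.P022.C
open Vale.Agent.P022D.L2b (M2)
open Vale.Agent.P022D.Core (PS)
open Vale.Agent.P022E.GW (Ov)
open Vale.Agent.P022K.PL (Cf)
open Vale.Agent.P022K.Top (Si cy Bad Uu)
open Vale.Agent.P022K.WB (LocR ok0 SURJ PHI)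
open Vale.Agent.P022K.Glue (Spans)
open Vale.Agent.P022K.FI (CS)

theorem Nf.Nm.spans {G F O T : Type} [Group G] [Field F] [CommRing O] [Algebra O F]
    {ρ : G →* GL (Fin 2) F} {S : RU.Dat O F G T} {c c' : M2 O} (h : Nf.Nm ρ S c c') :
    Spans (fun g => (ρ g : M2 F)) Set.univ := CH.Loc.spans_of_ext fun x hx => by
  have e : ∀ g, (c.map S.red * x * c'.map S.red * S.rb g).trace = 0 := fun g => by
    rw [← hx g trivial, h.res, ← mul_assoc x, Matrix.trace_mul_comm _ (c.map S.red)]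
    simp only [mul_assoc]
  have : c.map S.red * x * c'.map S.red = 0 := by
    generalize c.map S.red * x * c'.map S.red = y at e
    obtain ⟨g2, n10⟩ := h.n10
    have e0 := e 1
    have e1 := e S.g0
    have e2 := fun g => e (S.g0 * g)
    simp only [map_one, map_mul, Matrix.trace_fin_two, Matrix.mul_apply, Fin.sum_univ_two, S.d01,
      S.d10, mul_one, mul_zero, zero_mul, add_zero, zero_add] at e0 e1 e2 e
    have hd := sub_ne_zero.2 S.dne
    have a0 : y 0 0 = 0 := mul_right_cancel₀ hd (by linear_combination e1 - S.rb S.g0 1 1 * e0)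
    have a1 : y 1 1 = 0 := by linear_combination e0 - a0
    have a2 : y 1 0 = 0 := mul_right_cancel₀ (mul_ne_zero hd S.n01) (by
      have := e2 S.g1
      have := e S.g1
      grind)
    have a3 : y 0 1 = 0 := mul_right_cancel₀ n10 (by
      have := e g2
      grind)
    ext i j
    fin_cases i <;> fin_cases j
    exacts [a0, a3, a2, a1]
  have := congrArg (c'.map S.red * · * c.map S.red) this
  simpa only [mul_assoc, h.cc', mul_one, ← mul_assoc (c'.map S.red) (c.map S.red), one_mul,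
    mul_zero, zero_mul] using this

variable {p : ℕ} [Fact p.Prime] {O F : Type} [CommRing O] [IsDomain O]
  [IsDiscreteValuationRing O] [Algebra ℤ_[p] O] [Field F] [Algebra O F] [CharP F p] {Z : Si p O}
  {C : Fr Z F}

theorem Rb.hy {rb : Z.H →* GL (Fin 2) F} {s : F → O} (h : Rb Z rb s) : Hy Z rb s :=
  ⟨h.1, h.2, h.3, h.4, h.5, h.6, h.7⟩

theorem Fr.Ok.spans (hC : C.Ok) : Spans (fun g => (C.rb g : M2 F)) Set.univ := by
  have hu : ∀ c, algebraMap O F c ≠ 0 → IsUnit c := fun c hc =>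
    not_not.1 fun n => hc ((ker_res hC.sec).2 n)
  by_cases h2 : p = 2
  · subst h2
    obtain ⟨S, c, c', h, -⟩ := Nf.nm_ns hC.sur hu () C.rb hC.spl (hC.two rfl)
      fun g => (hC.det g).trans (Sy.co_two _)
    exact h.spans
  · obtain ⟨ω, -, h1⟩ := hC.odd h2
    obtain ⟨S, c, c', h, -⟩ := Nf.nm_adq hC.sur hu () C.rb hC.spl h1
    exact h.spans

theorem Fr.Ok.rt (hC : C.Ok) : Z.Rt (algebraMap O F) C.rb C.t :=
  ⟨fun _ => ker_res hC.sec, hC.opn, hC.spans, fun _ => hC.sec _, fun s => (hC.det s).symm⟩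

/-- **TRD: the transfer on the patched module** -/
def TRD : Prop := ∀ (p : ℕ) [Fact p.Prime] (O F : Type) [CommRing O] [IsDomain O]
  [IsDiscreteValuationRing O] [Cf O] [CharZero O] [Algebra ℤ_[p] O] [Field F] [Finite F]
  [CharP F p] [Algebra O F] (Z : Si p O) (C : Fr Z F) (D : Pd C) (η : MonoidAlgebra O Z.G)
  (J : ∀ t, Ideal (PS O (C.τ t))) (φ : D.R →ₐ[O] O) (r : Z.H →* M2 O) (m : ℕ)
  (c : Option (GL (Fin 2) (ZMod p) → O)) (L : ∀ k, Z.Pl k), Z.Ok → C.Ok → D.Ok → Z.Ty η →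
  (∀ k, (L k).P = C.P (C.u k)) → (∀ k, (L k).Inj C.t) → D.Sup (D.th η) J →
  (∀ k, ∃ x : Fin 4 → P022D.W.dec (C.P (C.u k)), d4 (fun i => C.f (C.u k) (x i)) ∉ J (C.u k)) →
  LiftC C.r C.s (fun g => cy p O g.1) r → D.Gp φ r → D.J0 J ≤ RingHom.ker φ →
  (∀ k, LocR (ok0 p) (r.comp (L k).d) m c) → Z.Alg η (fun g => (r g).trace) m c

section

variable [Cf O] [CharZero O] [Finite F] {D : Pd C} (hZ : Z.Ok) (hC : C.Ok) (hD : D.Ok)
  (hS : SURJ p (CS p)) (hF : PHI p (CS p)) (wn : Z.Wn) (hu : p = 2 → ∀ P, Ov p P → ¬ Uu P C.rb)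

include hZ hC hS hF wn hu

theorem Fr.Ok.gk : Z.Gk C.t := wn.gk hZ.ok1 hS hF hC.rt fun e _ P h _ => hu e P h

include hD

/-- the component through a pro-automorphic seed -/
theorem Pd.Ok.seed (gd : C.Gd) {η : MonoidAlgebra O Z.G} (ty : Z.Ty η) {r₀ r : Z.H →* M2 O}
    (l₀ : Lt Z C.rb C.s r₀) (oa : Oa Z C.rb C.s r₀ r) (pro : Z.Pro η fun g => (r₀ g).trace)
    {φ : D.R →ₐ[O] O} (gp : D.Gp φ r) : ∃ J, D.Sup (D.th η) J ∧ D.J0 J ≤ RingHom.ker φ := by
  obtain ⟨φ₀, g0, -, a0⟩ := hD.src hZ hC.sec l₀.lift l₀.unr ty.1 pro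
  have : ∀ t, ∃ J g, t ∉ Set.range C.u → Cm (C.I t) (φ₀.comp (D.io t)) J g ∧
      ∀ u ∈ J, φ (D.io t u) = 0 := fun t => by
    by_cases ht : t ∈ Set.range C.u
    · exact ⟨⊥, 0, fun e => (e ht).elim⟩
    · obtain ⟨J, g, h⟩ := oa (C.P t) (C.le t) (hC.bad t) (mt (hC.ov_iff hZ t).1 ht) _ _ _ _ _ _
        (hC.uni t) (φ₀.comp (D.io t)) (φ.comp (D.io t)) (fun u hu => g0.ker _ (Pd.io_I0 hu))
        (fun u hu => gp.ker _ (Pd.io_I0 hu)) (g0.sc t) (gp.sc t)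
      exact ⟨J, g, fun _ => h⟩
  choose J g hJ using this
  obtain ⟨J', j1, j2⟩ := hD.big hZ hC (fun k => gd.blk _ (hC.u k).1) (hC.gk hZ hS hF wn hu)
    (hD.prj ty) a0 fun t ht => (hJ t ht).1
  exact ⟨J', j2, j2.ker gp.ker fun t ht => j1 t ht ▸ (hJ t ht).2⟩

end

theorem mls_of (sys : SYS) (pkg : PKG fun _ _ _ _ _ Z => Z.Twi) (hG : GIR) (hG2 : GIR2)
    (hS : ∀ (p : ℕ) [Fact p.Prime], SURJ p (CS p)) (hF : ∀ (p : ℕ) [Fact p.Prime], PHI p (CS p))
    (trd : TRD) : MLS := by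
  intro p _ O F _ _ _ _ _ _ _ _ _ _ Z η rb s r₀ r m c hZ ty tw wn hb hu l₀ l oa loc pro
  obtain ⟨C, rfl, rfl, hC, gd, -⟩ := sys p O F Z rb s ∅ hZ hb.hy (Set.injOn_empty _)
  obtain ⟨D, hD⟩ := pkg p O F Z C hZ hC tw
  obtain ⟨φ, gp, -⟩ := hD.gps r l.lift l.unr
  obtain ⟨J, j1, j2⟩ := hD.seed hZ hC (hS p) (hF p) wn hu gd ty l₀ oa pro gp
  choose L hL using fun k => hZ.ok1.pl_at (hC.u k).1.2.1 (hC.u k).2
  exact trd p O F Z C D η J φ r m c L hZ hC hD ty hL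
    (fun k => (wn k).inj hZ.cc hC.rt (L k) fun e => hu e _ (L k).ovp) j1
    (j1.irr hG hG2 hC hu) l.lift gp j2 fun k => loc k (L k)

end Vale.Agent.P022K.RT
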