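import Vale.Agent.P022K.RT.Pd0
import Vale.Agent.P022K.WB.Tp
import Vale.Agent.P022K.WB.Pw
import Vale.Agent.P022K.WB.R2
import Vale.Agent.P022K.WB.Top

/-!
# P022K, block RT: the patched module as a module with matrix units and functionals at the places
over `p`
-/

set_option linter.all false

noncomputable section

namespace Vale.Agent.P022K.RT

open IsLocalRing Filter
open Vale.Agent.P022D.L2b (M2)
open Vale.Agent.P022D.Core (PS)
open Vale.Agent.P022K.PL (Cf)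
open Vale.Agent.P022K.WB (G2 Iso Wg Tp Cs Adm Gs Fx Aw PHI ok0 dd rs)
open Vale.Agent.P022K.FI (CS)
open Vale.Agent.P022K.Top (Si)

section quo

variable {R S M : Type} [CommRing R] [CommRing S] [Algebra R S] [AddCommGroup M] [Module R M]
  [Module S M] [IsScalarTower R S M] (hs : Function.Surjective (algebraMap R S))

/-- endomorphisms over a quotient -/
def qEn : Module.End R M →+* Module.End S M where
  toFun f := f.extendScalarsOfSurjective hs
  map_one' := rfl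
  map_mul' _ _ := rfl
  map_zero' := rfl
  map_add' _ _ := rfl

/-- matrix units over a quotient, as a linear map -/
def qL (E : M2 R →ₐ[R] Module.End R M) : M2 S →ₗ[S] Module.End S M :=
  ∑ i, ∑ j, (Matrix.entryLinearMap S S i j).smulRight (qEn hs (E (Matrix.single i j 1)))

theorem qL_map (E : M2 R →ₐ[R] Module.End R M) (m : M2 R) :
    qL hs E (m.map (algebraMap R S)) = qEn hs (E m) := LinearMap.ext fun v => by
  have e : m = ∑ i, ∑ j, m i j • Matrix.single i j 1 := by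
    simpa using Matrix.matrix_eq_sum_single m
  conv_rhs => rw [e]
  simp only [qL, map_sum, map_smul, LinearMap.sum_apply, LinearMap.smulRight_apply,
    LinearMap.smul_apply, Matrix.entryLinearMap_apply, Matrix.map_apply, algebraMap_smul]
  rfl

include hs in
theorem map_sur (m : M2 S) : ∃ m' : M2 R, m'.map (algebraMap R S) = m :=
  ⟨m.map (Function.surjInv hs), Matrix.ext fun i j => Function.surjInv_eq hs _⟩

/-- matrix units over a quotient -/
def qE (E : M2 R →ₐ[R] Module.End R M) : M2 S →ₐ[S] Module.End S M :=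
  AlgHom.ofLinearMap (qL hs E)
    (by rw [← Matrix.map_one _ (map_zero (algebraMap R S)) (map_one _), qL_map, map_one, map_one])
    fun a b => by
      obtain ⟨a, rfl⟩ := map_sur hs a
      obtain ⟨b, rfl⟩ := map_sur hs b
      rw [← Matrix.map_mul, qL_map, qL_map, qL_map, map_mul, map_mul]

end quo

namespace Mo

variable {O R A T : Type} [CommRing O] [CommRing R] [Algebra O R] [Group A] {r : ℕ}
  (Y : Mo O R A T r) (I : Ideal R) (h : ∀ v, v ∈ Kl Y.Y I)

include h in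
theorem tbs : Module.IsTorsionBySet R Y.Y I := fun v u => h v u.1 u.2

/-- the same module over a quotient of the ring -/
def quo : Mo O (R ⧸ I) A T r :=
  letI := (Y.tbs I h).module
  haveI : IsScalarTower R (R ⧸ I) Y.Y := (Y.tbs I h).isScalarTower
  { Y := Y.Y
    tw := (Y.tbs I h).isScalarTower
    a := (qEn Ideal.Quotient.mk_surjective).toMonoidHom.comp Y.a
    E := fun t => qE Ideal.Quotient.mk_surjective (Y.E t)
    com := fun t m x => by
      obtain ⟨m, rfl⟩ := map_sur (R := R) Ideal.Quotient.mk_surjective m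
      exact (congrArg (Commute · _) (qL_map _ _ m)).mpr ((Y.com t m x).map _) }

/-- operators on it -/
def qo : Module.End R Y.Y →+* Module.End (R ⧸ I) (Y.quo I h).Y :=
  @qEn R (R ⧸ I) Y.Y _ _ _ _ _ (Y.tbs I h).module (Y.tbs I h).isScalarTower
    Ideal.Quotient.mk_surjective

theorem qo_apply (θ : Module.End R Y.Y) (v : Y.Y) : Y.qo I h θ v = θ v := rfl

theorem quo_a (x : A × Zr r) : (Y.quo I h).a x = Y.qo I h (Y.a x) := rfl

theorem quo_E (t : T) (m : M2 R) :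
    (Y.quo I h).E t (m.map (Ideal.Quotient.mk I)) = Y.qo I h (Y.E t m) :=
  @qL_map R (R ⧸ I) Y.Y _ _ _ _ _ (Y.tbs I h).module (Y.tbs I h).isScalarTower
    Ideal.Quotient.mk_surjective (Y.E t) m

theorem quo_smul (u : R) (v : (Y.quo I h).Y) :
    Ideal.Quotient.mk I u • v = (u • show Y.Y from v : Y.Y) := rfl

theorem quo_kl {𝔞 : Ideal (R ⧸ I)} {v : (Y.quo I h).Y} :
    v ∈ WB.R1.Kl (Y.quo I h).Y 𝔞 ↔ v ∈ Kl Y.Y (𝔞.comap (Ideal.Quotient.mk I)) :=
  WB.R1.mem_Kl.trans ⟨fun e u hu => e _ hu, fun e u hu => by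
    obtain ⟨u, rfl⟩ := Ideal.Quotient.mk_surjective u
    exact e u hu⟩

theorem quo_kl' {𝔮 : Ideal R} {v : (Y.quo I h).Y} :
    v ∈ WB.R1.Kl (Y.quo I h).Y (𝔮.map (Ideal.Quotient.mk I)) ↔ v ∈ Kl Y.Y 𝔮 :=
  WB.R1.mem_Kl.trans ⟨fun e u hu => e _ (Ideal.mem_map_of_mem _ hu), fun e u hu => by
    obtain ⟨w, hw, rfl⟩ := (Ideal.mem_map_iff_of_surjective _ Ideal.Quotient.mk_surjective).1 hu
    exact e w hw⟩

end Mo

namespace Pw

open WB in
theorem adm {p : ℕ} [Fact p.Prime] {R M J : Type} [CommRing R] [AddCommGroup M] [Module R M]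
    [Finite J] {σ : J → Representation R (G2 p) M}
    (hc : ∀ v w, v ≠ w → ∀ g h z, σ v g (σ w h z) = σ w h (σ v g z)) (sm : ∀ k v, WB.Sm (σ k) v)
    (tor : ∀ v : M, ∃ n : ℕ, p ^ n • v = 0) {B : Submodule R M} (gs : ∀ k, Gs (σ k) B)
    (fin : ∀ n, {v | v ∈ B ∧ p • v = 0 ∧ ∀ k, v ∈ Fx (σ k) (WB.Kn p n)}.Finite) (k : J) {v : M}
    (hv : v ∈ B) : ∃ P, Adm (σ k) P ∧ v ∈ P := by
  classical
  choose f hf using fun k => sm k v
  obtain ⟨n, hn⟩ := (Set.finite_range f).bddAbove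
  refine ⟨Aw σ B k fun _ => WB.Kn p (n + 1), ⟨Aw_gs hc (gs k) _, fun x _ => sm k x,
    fun x _ => tor x, (fin (n + 1)).subset fun x hx => ⟨hx.1.1, hx.2.1, fun w g hg => ?_⟩⟩,
    mem_Aw.2 ⟨hv, fun w _ g hg => hf w g (Kn_anti ((hn ⟨w, rfl⟩).trans n.le_succ) hg)⟩⟩
  by_cases e : w = k
  · subst e
    exact hx.2.2 g (Kn_le_I1 n.succ_pos hg)
  · exact (mem_Aw.1 hx.1).2 w e g hg

theorem pow_le {O : Type} [CommRing O] [IsDomain O] [IsDiscreteValuationRing O] {q : O}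
    (hq : q ≠ 0) : ∃ e : ℕ, maximalIdeal O ^ e ≤ Ideal.span {q} := by
  obtain ⟨ϖ, hϖ⟩ := IsDiscreteValuationRing.exists_irreducible O
  obtain ⟨n, hn⟩ := IsDiscreteValuationRing.associated_pow_irreducible hq hϖ
  exact ⟨n, by rw [hϖ.maximalIdeal_eq, Ideal.span_singleton_pow,
    Ideal.span_singleton_eq_span_singleton.2 hn]⟩

end Pw

variable {p : ℕ} [Fact p.Prime] {O F : Type} [CommRing O] [IsDomain O]
  [IsDiscreteValuationRing O] [Algebra ℤ_[p] O] [Field F] {Z : Si p O} {C : Fr Z F}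

/-- the local Galois group at a place over `p` -/
def Fr.dk (C : Fr Z F) {k : Z.J} (L : Z.Pl k) (e : L.P = C.P (C.u k)) :
    Iso (CS p) →* P022D.W.dec (C.P (C.u k)) := (rs L.e).codRestrict _ fun σ => e ▸ L.hP.mem σ

theorem Fr.j_dk {k : Z.J} (L : Z.Pl k) (e : L.P = C.P (C.u k)) (σ : Iso (CS p)) :
    C.j (C.u k) (C.dk L e σ) = L.d σ := Subtype.ext (L.hd σ).symm

namespace Pd

variable (D : Pd C)

/-- the ring that acts -/
abbrev A : Type := D.R ⧸ D.I0

/-- the quotient map -/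
abbrev qm : D.R →+* D.A := Ideal.Quotient.mk D.I0

/-- the powers of the maximal ideal -/
def JN (N : ℕ) : Ideal D.A := (maximalIdeal D.R ^ N).map D.qm

theorem JN_anti : Antitone D.JN := fun _ _ e => Ideal.map_mono (Ideal.pow_le_pow_right e)

variable {D}

theorem qm_io {t : C.T} {u : PS O (C.τ t)} (hu : u ∈ C.I t) : D.qm (D.io t u) = 0 :=
  Ideal.Quotient.eq_zero_iff_mem.2
    (Ideal.mem_sup_left (Ideal.mem_iSup_of_mem t (Ideal.mem_map_of_mem _ hu)))

theorem cg_map {t : C.T} {a b : M2 (PS O (C.τ t))} (h : Cg (C.I t) a b) :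
    (D.qm.comp (D.io t).toRingHom).mapMatrix a = (D.qm.comp (D.io t).toRingHom).mapMatrix b :=
  Matrix.ext fun i j => sub_eq_zero.1 ((map_sub (D.qm.comp (D.io t).toRingHom) _ _).symm.trans
    (qm_io (h i j)))

theorem ak_ak (Y : Mo O D.R (Gr Z) C.T D.r) (k k' : Z.J) (e : k ≠ k') (g g' : G2 p) (v : Y.Y) :
    D.ak Y k g (D.ak Y k' g' v) = D.ak Y k' g' (D.ak Y k g v) :=
  LinearMap.congr_fun ((Pi.mulSingle_commute (f := fun _ => G2 p) e g g').map
    (Y.a.comp ((MonoidHom.inl _ _).comp D.ψ))).eq v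

theorem lv_fx {Y : Mo O D.R (Gr Z) C.T D.r} {j : ℕ} {v : Y.Y} (hv : v ∈ Lv O D.N (D.rho Y) j)
    (k : Z.J) : v ∈ Fx (D.ak Y k) (WB.Kn p (j + (0 + 2))) := fun g hg => by
  have := hv.1 (Pi.mulSingle k ⟨g, WB.Kn_anti (Nat.le_add_left _ _) hg⟩, 1)
    ⟨mem_NG.2 fun w => ⟨1, _, ?_, by rw [WB.dd_one, one_mul]⟩, one_mem _⟩
  · rwa [rho_single] at this
  · dsimp only
    by_cases e : w = k
    · subst e
      rwa [Pi.mulSingle_eq_same]
    · rw [Pi.mulSingle_eq_of_ne e]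
      exact one_mem _

theorem lv_z {Y : Mo O D.R (Gr Z) C.T D.r} {j : ℕ} {v : Y.Y} (hv : v ∈ Lv O D.N (D.rho Y) j)
    (z : Zr D.r) (hz : z ∈ NZ p D.r j) : Y.a (1, z) v = v := by
  rw [← rho_inr]
  exact hv.1 _ ⟨one_mem _, hz⟩

variable [Algebra O F]

variable (D) in
/-- the local universal representations -/
def fq [CharP F p] (hC : C.Ok) (t : C.T) : P022D.W.dec (C.P t) →* M2 D.A where
  toFun s := (D.fm t s).map D.qm
  map_one' := (cg_map (hC.uni t).one).trans (map_one _)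
  map_mul' x y := (cg_map ((hC.uni t).mul x y)).trans (map_mul _ _ _)

variable (D) in
/-- the representation of the local Galois group at `k` -/
def fk [CharP F p] (hC : C.Ok) {k : Z.J} (L : Z.Pl k) (e : L.P = C.P (C.u k)) :
    Iso (CS p) →* M2 D.A := (D.fq hC (C.u k)).comp (C.dk L e)

theorem fk_apply [CharP F p] (hC : C.Ok) {k : Z.J} (L : Z.Pl k) (e : L.P = C.P (C.u k))
    (σ : Iso (CS p)) : D.fk hC L e σ = (D.fm (C.u k) (C.dk L e σ)).map D.qm := rfl

theorem p_max [CharP F p] (hC : C.Ok) : (p : O) ∈ maximalIdeal O :=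
  (ker_res hC.sec).1 (by rw [map_natCast, CharP.cast_eq_zero])

variable (D) in
/-- **continuity** -/
theorem cs [Cf O] [CharP F p] (hC : C.Ok) {k : Z.J} (L : Z.Pl k) (e : L.P = C.P (C.u k)) :
    Cs p (MonoidHom.id _) (D.fk hC L e) D.JN := by
  refine ⟨fun N => ?_, fun N => ⟨N, ?_⟩, fun N => ?_⟩
  · have : Finite (D.R ⧸ maximalIdeal D.R) := (PL.base_ps O D.σ).fin
    have := Ideal.finite_quotient_pow (IsNoetherian.noetherian (maximalIdeal D.R)) N
    exact Finite.of_surjective (Ideal.quotientMap (D.JN N) D.qm Ideal.le_comap_map)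
      (Ideal.quotientMap_surjective Ideal.Quotient.mk_surjective)
  · rw [← map_natCast D.qm, ← map_pow]
    exact Ideal.mem_map_of_mem _ (Ideal.pow_mem_pow (mem_ps.2 (by
      rw [map_natCast]; exact p_max hC)) N)
  · obtain ⟨U, h1, h2⟩ := isOpen_induced_iff.1 ((hC.uni (C.u k)).opn N)
    obtain ⟨s, s1, s2⟩ := WB.rs_opn L.e h1 (show (1 : P022D.W.dec (C.P (C.u k))) ∈
      Subtype.val ⁻¹' U from h2 ▸ fun i j => Ideal.mem_sup_left ((hC.uni (C.u k)).one i j))
    refine ⟨s, s1, fun σ hσ i j => ?_⟩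
    have h3 : C.dk L e σ ∈ Subtype.val ⁻¹' U := s2 σ hσ
    rw [h2] at h3
    obtain ⟨a, ha, b, hb, h4⟩ := Submodule.mem_sup.1 (h3 i j)
    have h5 : (D.fk hC L e σ - 1) i j = D.qm (D.io (C.u k) (a + b)) := by
      rw [h4, ← map_one (D.qm.comp (D.io (C.u k)).toRingHom).mapMatrix]
      exact (map_sub (D.qm.comp (D.io (C.u k)).toRingHom) _ _).symm
    rw [h5, map_add, map_add, qm_io ha, zero_add]
    refine Ideal.mem_map_of_mem _ (Ideal.pow_right_mono (Ideal.map_le_iff_le_comap.2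
      fun u hu => mem_ps.2 ?_) N (Ideal.map_pow (D.io (C.u k)) _ N ▸ Ideal.mem_map_of_mem _ hb))
    rw [MvPowerSeries.constantCoeff_rename]
    exact mem_ps.1 hu

namespace Ok

variable (h : D.Ok)

/-- the patched module over `A` -/
def N : Mo O D.A (Gr Z) C.T D.r := D.M.quo D.I0 h.kil

/-- operators on it -/
abbrev qo : Module.End D.R D.M.Y →+* Module.End D.A h.N.Y := D.M.qo D.I0 h.kil

/-- the action of `GL₂(ℚ_p)` at a place over `p` -/
def sg (k : Z.J) : Representation D.A (G2 p) h.N.Y := h.qo.toMonoidHom.comp (D.ak D.M k)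

theorem sg_apply (k : Z.J) (g : G2 p) : h.sg k g = h.qo (D.ak D.M k g) := rfl

theorem N_E (t : C.T) (m : M2 D.R) : h.N.E t (m.map D.qm) = h.qo (D.M.E t m) :=
  D.M.quo_E D.I0 h.kil t m

theorem qo_com {θ : Module.End D.R D.M.Y} {t : C.T} (e : ∀ m, Commute (D.M.E t m) θ)
    (m : M2 D.A) : Commute (h.N.E t m) (h.qo θ) := by
  obtain ⟨m, rfl⟩ := map_sur (R := D.R) Ideal.Quotient.mk_surjective m
  exact (congrArg (Commute · _) (h.N_E t m)).mpr ((e m).map _)

include h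

theorem ak_cen (hZ : Z.Ok) (k : Z.J) (a : ℚ_[p]ˣ) (v : D.M.Y) : D.ak D.M k (dd a a) v = v := by
  obtain ⟨x, hx⟩ := h.ult.ex v
  refine (h.ult.eq _ _ _ _ (h.ra (D.ψ (Pi.mulSingle k (dd a a)), 1) v x hx) hx).2
    (.of_forall fun n => h.inj n (funext fun ξ => ?_))
  rw [h.eva, h.psi]
  exact hZ.ap_cen k a _

theorem tor [CharP F p] (hC : C.Ok) (v : D.M.Y) : ∃ n : ℕ, p ^ n • v = 0 :=
  (h.cof.sm v).imp fun n hn => by
    rw [← Nat.cast_smul_eq_nsmul O, Nat.cast_pow]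
    exact hn.2 _ (Ideal.pow_mem_pow (p_max hC) n)

variable [Cf O]

theorem lvf (j : ℕ) : (Lv O D.N (D.rho D.M) j : Set D.M.Y).Finite :=
  lv_fin (h.unf (Fintype.equivFin (Z.J × Fin 3)).symm) h.cof j

theorem nilR (v : D.M.Y) : ∃ N, v ∈ Kl D.M.Y (maximalIdeal D.R ^ N) := by
  obtain ⟨j, hj⟩ := h.cof.sm v
  obtain ⟨n, hn⟩ := Ideal.exists_pow_le_of_le_radical_of_fg (I := maximalIdeal D.R)
    (J := (Submodule.span D.R {v}).annihilator) (fun u hu => (nil (h.lvf j) hu hj).imp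
      fun n e => (Submodule.mem_annihilator_span_singleton _ _).2 e) (IsNoetherian.noetherian _)
  exact ⟨n, fun u hu => (Submodule.mem_annihilator_span_singleton _ _).1 (hn hu)⟩

/-- every vector is killed by a power of the maximal ideal -/
theorem nilA (v : h.N.Y) : ∃ N, v ∈ WB.R1.Kl h.N.Y (D.JN N) :=
  (h.nilR v).imp fun _ e => (D.M.quo_kl' D.I0 h.kil).2 e

theorem finZ [CharZero O] (hZ : Z.Ok) (j n : ℕ) : {v : D.M.Y | (∀ z ∈ NZ p D.r j,
    D.M.a (1, z) v = v) ∧ p • v = 0 ∧ ∀ k, v ∈ Fx (D.ak D.M k) (WB.Kn p n)}.Finite := by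
  obtain ⟨e, he⟩ := Pw.pow_le (O := O) (Nat.cast_ne_zero.2 (Fact.out : p.Prime).ne_zero)
  refine (h.lvf (j + n + e)).subset fun v hv => ⟨fun g hg => ?_, fun o ho => ?_⟩
  · have h1 : NG p 0 Z.J (j + n + e) ≤ (Top.Gk.Sb (D.rho D.M) v).comap (MonoidHom.inl _ _) :=
      Subgroup.pi_le_iff.2 fun k => by
        rintro _ ⟨x, hx, rfl⟩
        obtain ⟨z, y, hy, e1⟩ := Iw.mem_NK.1 hx
        show D.rho D.M (Pi.mulSingle k x, 1) v = v
        rw [rho_single, e1, map_mul, Module.End.mul_apply,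
          hv.2.2 k y (WB.Kn_anti (by omega) hy), h.ak_cen hZ]
    have h2 : D.rho D.M (1, g.2) v = v := by
      rw [rho_inr]
      exact hv.1 _ (Up.anti_Z p D.r (by omega) hg.2)
    have h3 : D.rho D.M (g.1, 1) v = v := h1 hg.1
    rw [← Prod.fst_mul_snd g, map_mul, Module.End.mul_apply, h2, h3]
  · obtain ⟨c, rfl⟩ := Ideal.mem_span_singleton'.1 (he (Ideal.pow_le_pow_right (by omega) ho))
    rw [mul_smul, Nat.cast_smul_eq_nsmul, hv.2.1, smul_zero]

variable [CharZero O] [CharP F p] (hZ : Z.Ok) (hC : C.Ok)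
include hZ hC

/-- the functionals of the site have limits on the patched module -/
theorem lim {k : Z.J} (L : Z.Pl k) (e : L.P = C.P (C.u k)) {W : Z.M →+ WB.Y p (CS p)} (w : L.W W) :
    ∃ W' : D.M.Y →+ WB.Y p (CS p), Wg (ok0 p) (D.ak D.M k)
      (fun s => D.M.E (C.u k) (D.fm (C.u k) (C.dk L e s))) ⊤ W' ∧ ∀ z, W' (D.κ z) = W z := by
  choose x hx using h.ult.ex
  have h1 : ∀ g {v y}, D.Rp v y → ∀ᶠ n in (D.U : Filter ℕ),
      D.lw n (x (D.ak D.M k g v) n) = Z.ap k g (D.lw n (y n)) := fun g v y hy =>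
    ((h.ult.eq _ _ _ _ (hx _) (h.ra (D.ψ (Pi.mulSingle k g), 1) v y hy)).1 rfl).mono fun n e => by
      rw [ak_apply, e, h.lwa, h.psi]
      rfl
  obtain ⟨W', h2, h3⟩ := WB.ult (ok0 p) (ρ := D.ak D.M k)
    (γ := fun s => D.M.E (C.u k) (D.fm (C.u k) (C.dk L e s))) (fun v => by
      obtain ⟨j, hj⟩ := h.cof.sm v
      exact Pw.adm (σ := D.ak D.M) (ak_ak D.M) (fun k v => (h.cof.sm v).elim fun j e => ⟨_, lv_fx e k⟩)
        (h.tor hC) (B := Sh.Fv (D.M.a.comp (MonoidHom.inr _ _)) (NZ p D.r j))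
        (fun k g v hv z hz => (LinearMap.congr_fun (com_z D.M _ z).eq v).symm.trans
          (congrArg (D.ak D.M k g) (hv z hz))) (h.finZ hZ j) k (lv_z hj))
    (h.ak_cen hZ k) D.U (fun n v => W (D.lw n (x v n)))
    (fun a b => ((h.ult.eq _ _ _ _ (hx _) (h.ult.add _ _ _ _ (hx a) (hx b))).1 rfl).mono
      fun n e => by rw [e, Pi.add_apply, map_add, map_add])
    (fun b v => (h1 _ (hx v)).mono fun n e => (congrArg W e).trans (w.n b _ trivial))
    (fun v => (h1 _ (hx v)).mono fun n e => (congrArg W e).trans (w.t _ trivial))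
    fun s v => (h1 _ (h.rE _ _ v _ (hx v))).mono fun n e => by
      rw [e, h.lwg, Fr.j_dk]
      exact w.s s _ trivial
  refine ⟨W', h2, fun z => ?_⟩
  obtain ⟨n, a, b⟩ := ((h3 (D.κ z)).and (h.lwk z _ (hx _))).exists
  rw [← a, b]

/-- the functionals separate the vectors -/
theorem sepW (hF : PHI p (CS p)) {k : Z.J} (L : Z.Pl k) (e : L.P = C.P (C.u k)) (i : L.Inj C.t)
    {v : D.M.Y} (hv : ∀ W : D.M.Y →+ WB.Y p (CS p), Wg (ok0 p) (D.ak D.M k)
      (fun s => D.M.E (C.u k) (D.fm (C.u k) (C.dk L e s))) ⊤ W → ∀ m, W (D.M.E (C.u k) m v) = 0) :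
    v = 0 := by
  by_contra ne
  let N : Submodule D.R D.M.Y :=
    { carrier := {v | ∀ W : D.M.Y →+ WB.Y p (CS p), Wg (ok0 p) (D.ak D.M k) (fun s =>
        D.M.E (C.u k) (D.fm (C.u k) (C.dk L e s))) ⊤ W → ∀ m, W (D.M.E (C.u k) m v) = 0}
      zero_mem' := fun W _ m => by rw [map_zero, map_zero]
      add_mem' := fun ha hb W w m => by rw [map_add, map_add, ha W w, hb W w, add_zero]
      smul_mem' := fun o v hv W w m => by
        rw [map_smul, ← LinearMap.smul_apply, ← map_smul]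
        exact hv W w _ }
  have n1 : ∀ z, ∀ v ∈ N, D.M.a (1, z) v ∈ N := fun z v hv W w m =>
    (congrArg W (LinearMap.congr_fun (D.M.com _ m _).eq v)).trans (hv _ (w.cmp
      (D.M.a (1, z)).toAddMonoidHom (fun _ _ => trivial) (fun _ _ _ => trivial)
      (fun x v _ => (LinearMap.congr_fun (com_z D.M _ z).eq v).symm)
      fun s v _ => (LinearMap.congr_fun (D.M.com _ _ _).eq v).symm) m)
  obtain ⟨j, hj⟩ := h.cof.sm v
  let S := Lv O D.N (D.rho D.M) j ⊓ N
  have f : (S : Set D.M.Y).Finite := (h.lvf j).subset fun _ a => a.1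
  obtain ⟨u, u1, u2, u3⟩ := Top.Gk.ex_ker (fun o : maximalIdeal D.R =>
    DistribSMul.toAddMonoidHom D.M.Y o.1) (Y := S.toAddSubgroup) f
    (fun e => ne (AddSubgroup.mem_bot.1 (e ▸ (⟨hj, hv⟩ : v ∈ S)))) (fun o _ => S.smul_mem o.1)
    (fun a b v _ => smul_comm a.1 b.1 v) fun o v hv => (nil f o.2 hv).imp fun n e => by
      rw [← e]
      exact congrFun (smul_iterate o.1 n) v
  let S' := S ⊓ WB.R1.Kl D.M.Y (maximalIdeal D.R)
  obtain ⟨y, y1, y2, y3⟩ := Top.Gk.ex_ker (fun s => (D.M.a (1, zg s) - 1).toAddMonoidHom)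
    (Y := S'.toAddSubgroup) (f.subset fun _ a => a.1)
    (fun e => u2 (AddSubgroup.mem_bot.1 (e ▸ (⟨u1, WB.R1.mem_Kl.2 fun o ho => u3 ⟨o, ho⟩⟩ : u ∈ S'))))
    (fun s v hv => S'.sub_mem ⟨⟨⟨fun g hg => (LinearMap.congr_fun (com_z D.M _ _).eq v).trans
      (congrArg _ (hv.1.1.1 g hg)), fun o ho => by
        rw [← Tl.mapO, hv.1.1.2 o ho, map_zero]⟩, n1 _ v hv.1.2⟩, WB.R1.Kl_map _ hv.2⟩ hv)
    (fun s s' v _ => LinearMap.congr_fun (((com_z D.M (1, zg s) (zg s')).sub_left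
      (Commute.one_left _)).sub_right (Commute.one_right _)).eq v)
    fun s v hv => ⟨2, by
      have := LinearMap.congr_fun (h.quad s) v
      rwa [LinearMap.add_apply, LinearMap.sub_apply, LinearMap.smul_apply, LinearMap.smul_apply,
        ← map_smul, Module.End.one_apply, WB.R1.mem_Kl.1 hv.2 _ (h.mem s).1,
        WB.R1.mem_Kl.1 hv.2 _ (h.mem s).2, map_zero, sub_zero, add_zero, pow_two] at this⟩
  obtain ⟨z, rfl⟩ := (h.krg y).2 (fix_all (D.M.a.comp (MonoidHom.inr _ _)) fun s =>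
    sub_eq_zero.1 (y3 s))
  refine y2 ((congrArg D.κ (Subtype.ext (Top.Si.Soc.eg i hZ hF (WB.sur0 p)
    (h.k_eg (h.tr_mem hC.sec) (WB.R1.mem_Kl.1 y1.2)) fun W w s => ?_))).trans (map_zero _))
  obtain ⟨W', a, b⟩ := h.lim hZ hC L e w
  obtain ⟨m, -, c⟩ := h.kl (C.u k) s
  obtain ⟨z', c1, c2⟩ := c z
  rw [← c1, ← b, c2]
  exact y1.1.2 W' a m

omit [Cf O] [CharZero O] hZ in
/-- the functionals at the place `k` -/
def Wk {k : Z.J} (L : Z.Pl k) (e : L.P = C.P (C.u k)) : Type := {W : h.N.Y →+ WB.Y p (CS p) //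
  Wg (ok0 p) (h.sg k) (fun s => h.N.E (C.u k) (D.fk hC L e s)) ⊤ W}

/-- **the patched module has matrix units and separating functionals at the places over `p`** -/
theorem tp (hF : PHI p (CS p)) (L : ∀ k, Z.Pl k) (e : ∀ k, (L k).P = C.P (C.u k))
    (i : ∀ k, (L k).Inj C.t) : Tp (ok0 p) h.sg (fun k => h.N.E (C.u k))
      (fun k => D.fk hC (L k) (e k)) (L := fun k => h.Wk hC (L k) (e k)) fun _ W => W.1 := by
  have c : ∀ t x m v, h.N.a x (h.N.E t m v) = h.N.E t m (h.N.a x v) := fun t x m v =>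
    (LinearMap.congr_fun (h.N.com t m x).eq v).symm
  refine ⟨ak_ak D.M, fun k v => (h.cof.sm v).elim fun j e => ⟨_, lv_fx e k⟩, h.tor hC,
    ⟨fun j => Sh.Fv (h.N.a.comp (MonoidHom.inr _ _)) (NZ p D.r j),
      fun a b le v hv z hz => hv z (Up.anti_Z p D.r le hz),
      fun v => (h.cof.sm v).imp fun j e => lv_z e,
      fun j k g v hv z hz => (LinearMap.congr_fun (com_z D.M _ z).eq v).symm.trans
        (congrArg (D.ak D.M k g) (hv z hz)),
      fun j k m v hv z hz => (c _ _ m v).trans (congrArg _ (hv z hz)), h.finZ hZ⟩,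
    fun k k' g m v => c _ (D.ψ (Pi.mulSingle k g), 1) m v, h.ak_cen hZ, fun k W => W.2,
    fun k v hv => h.sepW hZ hC hF (L k) (e k) (i k) fun W w m => ?_⟩
  have := hv ⟨W, fun b v _ => w.n b v trivial, fun v _ => w.t v trivial, fun s v _ => by
    rw [fk_apply, h.N_E]
    exact w.s s v trivial⟩ (m.map D.qm)
  rwa [h.N_E] at this

end Ok

end Pd

end Vale.Agent.P022K.RT
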