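import Vale.Agent.P022K.RT.MlsSt

/-!
# P022K, block RT: lifts over `ℚ` from a site (statement)
-/

set_option linter.all false

noncomputable section

namespace Vale.Agent.P022K.RT

open IsLocalRing
open Vale.Agent.P022 Vale.Agent.P022.C
open Vale.Agent.P022.H443 (inP)
open Vale.Agent.P022D.L2b (M2)
open Vale.Agent.P022D.Core (PS)
open Vale.Agent.P022D.W (dec)
open Vale.Agent.P022E.GW (Ov)
open Vale.Agent.P022K.PL (Cf)
open Vale.Agent.P022K.GW (Id Cy up Adq)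
open Vale.Agent.P022K.Top (Si cy Uu)
open Vale.Agent.P022K.WB (LocR ok0 rs)
open Vale.Agent.P022K.FI (CS)

/-- in one chart `V'` lies on the component through the smooth point `V` -/
def Og {G O F W : Type} [Group G] [TopologicalSpace G] [CommRing O] [IsLocalRing O] [Field F]
    [Algebra O F] [CommRing W] [Algebra O W] (r : G →* M2 F) (s : F → O) (d : G → O)
    (V : G → M2 O) (V' : G → M2 W) : Prop :=
  ∃ (τ : Type) (_ : Fintype τ) (g : τ → G) (a b : τ → Fin 2) (I : Ideal (PS O τ))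
    (f : G → M2 (PS O τ)) (x₀ : PS O τ →ₐ[O] O) (J : Ideal (PS O τ)) (h : PS O τ)
    (x : PS O τ →ₐ[O] W), Uni r s d g a b I f ∧ Cm I x₀ J h ∧ (∀ y, (f y).map x₀ = V y) ∧
    (∀ u ∈ J, x u = 0) ∧ ∀ y, (f y).map x = V' y

section

variable {p : ℕ} [Fact p.Prime] {O F : Type} [CommRing O] [IsLocalRing O] [Algebra ℤ_[p] O]
  [Field F] [Algebra O F]

/-- **the data over `ℚ`**: a residual representation, a seed `r₀` over the field of the site, and
local lifts `V l` on the components of the seed -/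
structure Qd [CharP F p] (Z : Si p O) (ρ : GQ →* GL (Fin 2) F) (s : F → O) (r₀ : Z.H →* M2 O)
    (P : ℕ → Id) (V : ∀ l, dec (P l) →* M2 O) : Prop where
  nor : Z.H.Normal
  spl : CH.Spl Z.H Z.S
  rb : Rb Z (ρ.comp Z.H.subtype) s
  opn : IsOpen {g | ρ g = 1}
  det : ∀ g, (mr ρ g).det = algebraMap O F (cy p O g)
  sp : Spl (mr ρ)
  unr : CH.Unr ρ Z.S
  lt : Lt Z (ρ.comp Z.H.subtype) s r₀
  ov : ∀ l ∈ Z.S, Ov l (P l)
  lv : ∀ l ∈ Z.S, l ≠ p →
    LiftC ((mr ρ).comp (dec (P l)).subtype) s (fun g => cy p O g.1) (V l)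
  on : ∀ l ∈ Z.S, l ≠ p → ∀ σ : GQ, ∃ (y y' : M2 O) (U : dec (P l) →* M2 O), y * y' = 1 ∧
    y.map (algebraMap O F) = mr ρ σ ∧
    (∀ (g : dec (P l)) (g' : Z.H), g'.1 = σ * g.1 * σ⁻¹ → U g = y' * r₀ g' * y) ∧
    Oc ((mr ρ).comp (dec (P l)).subtype) s (fun g => cy p O g.1) U (V l) ∧
    Oc ((mr ρ).comp (dec (P l)).subtype) s (fun g => cy p O g.1) (V l) U
  odd : p ≠ 2 → ∃ ω : GQ →* (ZMod p)ˣ, Cy (MonoidHom.id _) p ω ∧ Adq ρ (up ω)

variable (p) in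
/-- **a lift over `ℚ`** on the components of the local lifts -/
structure Qo (S : Finset ℕ) (ρ : GQ →* GL (Fin 2) F) (s : F → O) (P : ℕ → Id)
    (V : ∀ l, dec (P l) →* M2 O) {W : Type} [CommRing W] [IsLocalRing W] [Algebra O W]
    (r : GQ →* M2 W) : Prop where
  lift : LiftC (mr ρ) s (cy p O) r
  unr : ∀ l ∉ S, ∀ Q, Ov l Q → ∀ g ∈ inP Q, r g = 1
  loc : ∀ l ∈ S, l ≠ p → Og ((mr ρ).comp (dec (P l)).subtype) s (fun g => cy p O g.1) (V l)
    fun g => r g.1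

/-- the types which occur in some weight: idempotent up to a scalar, unit on the centre -/
def Idt (c : GL (Fin 2) (ZMod p) → O) : Prop :=
  ∃ e : O, e ≠ 0 ∧ (∀ g, ∑ h, c h * c (h⁻¹ * g) = e * c g) ∧
    IsUnit (∑ z : (ZMod p)ˣ, c (Matrix.GeneralLinearGroup.scalar (Fin 2) z))

end

/-- **LFS: lifts over `ℚ` of some weight and of a given type at `p`** -/
def LFS : Prop := ∀ (p : ℕ) [Fact p.Prime] (O F : Type) [CommRing O] [IsDomain O]
  [IsDiscreteValuationRing O] [Cf O] [CharZero O] [Algebra ℤ_[p] O] [Field F] [Finite F]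
  [CharP F p] [Algebra O F] (Z : Si p O) (η : MonoidAlgebra O Z.G) (ρ : GQ →* GL (Fin 2) F)
  (s : F → O) (r₀ : Z.H →* M2 O) (P : ℕ → Id) (V : ∀ l, dec (P l) →* M2 O)
  (c : GL (Fin 2) (ZMod p) → O), Z.Ok → Z.Ty η → (p = 2 → Z.Twi) → Z.Wn → Qd Z ρ s r₀ P V →
  (p = 2 → ∀ Q, Ov p Q → ¬ Uu Q (ρ.comp Z.H.subtype)) → Z.Pro η (fun g => (r₀ g).trace) →
  Idt c → ∃ (W : Type) (_ : CommRing W) (_ : IsDomain W) (_ : IsDiscreteValuationRing W)
    (_ : Cf W) (_ : CharZero W) (_ : Algebra O W) (_ : Algebra ℤ_[p] W)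
    (_ : IsScalarTower ℤ_[p] O W) (m : ℕ) (r : GQ →* M2 W), Module.Finite O W ∧
    Function.Injective (algebraMap O W) ∧ Qo p Z.S ρ s P V r ∧
    ∀ e : Qb →+* CS p, LocR (ok0 p) (r.comp (rs e)) m (some fun g => algebraMap O W (c g))

end Vale.Agent.P022K.RT
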