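import Vale.Agent.P022K.RT.St
import Vale.Agent.P022K.Top.Defs

/-!
# P022K, block RT: existence of lifts over `ℚ` with local conditions. The row.
-/

set_option linter.all false

noncomputable section

namespace Vale.Agent.P022K.RT

open IsLocalRing
open Vale.Agent.P022 Vale.Agent.P022.C
open Vale.Agent.P022.H443 (inP)
open Vale.Agent.P022D.L2b (M2)
open Vale.Agent.P022D.Loc2 (TnG)
open Vale.Agent.P022D.Core (PS)
open Vale.Agent.P022D.PA (Base)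
open Vale.Agent.P022D.W (dec)
open Vale.Agent.P022E.GW (Ov)
open Vale.Agent.P022K.PL (Cf)
open Vale.Agent.P022K.GW (Id Cy up Adq)
open Vale.Agent.P022K.Top (cy)

/-- a lift whose local representations are points of the ideals `J l` -/
structure Gq (p : ℕ) [Fact p.Prime] {O F : Type} [CommRing O] [IsLocalRing O] [Algebra ℤ_[p] O]
    [Field F] (S : Finset ℕ) (ρ : GQ →* M2 F) (s : F → O) (P : S → Id) {τ : S → Type}
    (f : ∀ l, dec (P l) → M2 (PS O (τ l))) (J : ∀ l, Ideal (PS O (τ l))) {A : Type} [CommRing A]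
    [IsLocalRing A] [Algebra O A] (r : GQ →* M2 A) : Prop where
  lift : LiftC ρ s (cy p O) r
  unr : ∀ l ∉ S, ∀ Q, Ov l Q → ∀ g ∈ inP Q, r g = 1
  loc : ∀ l, ∃ x : PS O (τ l) →ₐ[O] A, (∀ u, x (MvPowerSeries.X u) ∈ maximalIdeal A) ∧
    (∀ u ∈ J l, x u = 0) ∧ ∀ y, (f l y).map x = r y.1

/-- **row QB** -/
def QB : Prop := ∀ (p : ℕ) [Fact p.Prime] (O F : Type) [CommRing O] [IsDomain O]
  [IsDiscreteValuationRing O] [Cf O] [CharZero O] [Algebra ℤ_[p] O] [Field F] [Finite F]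
  [CharP F p] [Algebra O F] (S : Finset ℕ) (hp : p ∈ S) (ρ : GQ →* GL (Fin 2) F) (s : F → O)
  (P : S → Id) (τ : S → Type) [∀ l, Fintype (τ l)] (g : ∀ l, τ l → dec (P l))
  (a b : ∀ l, τ l → Fin 2) (I J : ∀ l, Ideal (PS O (τ l))) (f : ∀ l, dec (P l) → M2 (PS O (τ l))),
  (∀ x, algebraMap O F (s x) = x) → IsOpen {x | ρ x = 1} →
  (∀ x, (ρ x).1.det = algebraMap O F (cy p O x)) → Spl ((Units.coeHom _).comp ρ : GQ →* M2 F) →
  CH.Unr ρ S →
  (p ≠ 2 → ∃ ω : GQ →* (ZMod p)ˣ, Cy (MonoidHom.id GQ) p ω ∧ Adq ρ (up ω)) →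
  (p = 2 → ¬ IsSolvable ρ.range) → (∀ l : S, Ov l (P l)) →
  (∀ l, TnG (((Units.coeHom _).comp ρ).comp (dec (P l)).subtype) (g l) (a l) (b l)) →
  (∀ l, Uni (((Units.coeHom _).comp ρ).comp (dec (P l)).subtype) s (fun x => cy p O x.1) (g l)
    (a l) (b l) (I l) (f l)) →
  (∀ l, I l ≤ J l) → (J ⟨p, hp⟩).IsPrime → Sat (J ⟨p, hp⟩) →
  ((4 + 1 : ℕ) : WithBot ℕ∞) ≤ ringKrullDim (PS O (τ ⟨p, hp⟩) ⧸ J ⟨p, hp⟩) →
  (∀ l : S, l.1 ≠ p → Par (J l) 3) →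
  (∀ (A : Type) [CommRing A] [IsDomain A] [Base A] [Algebra O A] (r : GQ →* M2 A),
    Gq p S ((Units.coeHom _).comp ρ) s P f J r →
    ∃ B : Subgroup GQ, B.FiniteIndex ∧ ∀ y ∈ B, IsIntegral O (r y).trace) →
    ∃ (W : Type) (_ : CommRing W) (_ : IsDomain W) (_ : IsDiscreteValuationRing W) (_ : Cf W)
      (_ : CharZero W) (_ : Algebra O W) (r : GQ →* M2 W), Module.Finite O W ∧
      Function.Injective (algebraMap O W) ∧ Gq p S ((Units.coeHom _).comp ρ) s P f J r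

end Vale.Agent.P022K.RT
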