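import Vale.Agent.P022K.RT.St

/-!
# P022K, block RT: tools for row SYS (charts at one prime, finiteness of the bad places)
-/

set_option linter.all false

noncomputable section

namespace Vale.Agent.P022K.RT

open IsLocalRing MvPowerSeries NumberField
open Vale.Agent.P022
open Vale.Agent.P022D.L2b (M2)
open Vale.Agent.P022D.Loc2 (TnG OutG)
open Vale.Agent.P022D.Core (PS)
open Vale.Agent.P022D.CA (BlkPt)
open Vale.Agent.P022K.PL (Cf)
open Vale.Agent.P022D.W (dec)
open Vale.Agent.P022E.GW (Ov)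
open Vale.Agent.P022K.GW (Id Cy up)

/-- equations of a block of relative dimension `k` inside `I` -/
def Bk {O τ : Type} [CommRing O] [IsLocalRing O] [Fintype τ] (F : Type) [Field F] [Algebra O F]
    (I : Ideal (PS O τ)) (k : ℕ) : Prop :=
  ∃ (ι : Type) (_ : Fintype ι) (f : ι → PS O τ), Fintype.card τ = Fintype.card ι + k ∧
    (∀ i, f i ∈ I) ∧ (∀ i, f i ∈ maximalIdeal (PS O τ)) ∧
    BlkPt fun i => MvPowerSeries.map (algebraMap O F) (f i)

namespace Sy

section res

variable {O F : Type} [CommRing O] [IsLocalRing O] [Field F] [Algebra O F] {s : F → O}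

theorem ker_eq (hs : ∀ x, algebraMap O F (s x) = x) (x : O) :
    algebraMap O F x = 0 ↔ x ∈ maximalIdeal O := by
  have h : (RingHom.ker (algebraMap O F)).IsMaximal :=
    RingHom.ker_isMaximal_of_surjective _ fun y => ⟨s y, hs y⟩
  rw [← eq_maximalIdeal h, RingHom.mem_ker]

theorem p_mem (hs : ∀ x, algebraMap O F (s x) = x) (p : ℕ) [CharP F p] :
    (p : O) ∈ maximalIdeal O := by
  rw [← ker_eq hs, map_natCast, CharP.cast_eq_zero]

end res

section cyc

variable (p : ℕ) [hp : Fact p.Prime] (O : Type) [CommRing O] [Algebra ℤ_[p] O]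

/-- the cyclotomic character with values in `ℤ_p` -/
def cz : GQ →* ℤ_[p] := (Units.coeHom _).comp
  ((cyclotomicCharacter Qb p).comp (MulSemiringAction.toRingAut GQ Qb))

/-- the cyclotomic character with values in `O` -/
def co : GQ →* O := (algebraMap ℤ_[p] O).toMonoidHom.comp (cz p)

theorem cz_cont : Continuous (cz p) :=
  Units.continuous_val.comp (cyclotomicCharacter.continuous p ℚ Qb)

variable {p O}

theorem cd_co [IsLocalRing O] (h : (p : O) ∈ maximalIdeal O) : Cd (co p O) := fun n => by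
  have o : IsOpen {x : ℤ_[p] | algebraMap ℤ_[p] O x - 1 ∈ maximalIdeal O ^ n} := by
    rw [Metric.isOpen_iff]
    refine fun x hx => ⟨(p : ℝ) ^ (-(n : ℤ)), zpow_pos (by exact_mod_cast hp.out.pos) _,
      fun y hy => ?_⟩
    have h1 : y - x ∈ Ideal.span {(p : ℤ_[p]) ^ n} :=
      (PadicInt.norm_le_pow_iff_mem_span_pow _ n).1 (by rw [← dist_eq_norm]; exact le_of_lt hy)
    obtain ⟨c, hc⟩ := Ideal.mem_span_singleton'.1 h1
    have h2 : algebraMap ℤ_[p] O (y - x) ∈ maximalIdeal O ^ n := by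
      rw [← hc, map_mul, map_pow, map_natCast]
      exact Ideal.mul_mem_left _ _ (Ideal.pow_mem_pow h n)
    have h3 := add_mem h2 hx
    rw [map_sub] at h3
    show algebraMap ℤ_[p] O y - 1 ∈ maximalIdeal O ^ n
    convert h3 using 1
    ring
  exact o.preimage (cz_cont p)

theorem Cd.comp [IsLocalRing O] {G G' : Type} [TopologicalSpace G] [TopologicalSpace G']
    {d : G → O} (h : Cd d) {j : G' → G} (hj : Continuous j) : Cd fun x => d (j x) :=
  fun n => (h n).preimage hj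

variable {F : Type} [Field F] [CharP F p] [Algebra O F]

/-- the reduction of a `p`-adic integer -/
theorem red_eq (x : ℤ_[p]) {k : ℕ} (h : PadicInt.toZModPow 1 x = k) :
    algebraMap O F (algebraMap ℤ_[p] O x) = k := by
  have h1 : x - k ∈ RingHom.ker (PadicInt.toZModPow (p := p) 1) := by
    rw [RingHom.mem_ker, map_sub, h, map_natCast, sub_self]
  rw [PadicInt.ker_toZModPow] at h1
  obtain ⟨c, hc⟩ := Ideal.mem_span_singleton'.1 h1
  rw [← sub_add_cancel x k, ← hc]
  simp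

theorem co_pow (g : GQ) {k : ℕ} (h : ∀ x : Qb, x ^ p = 1 → g x = x ^ k) :
    algebraMap O F (co p O g) = k := by
  haveI : ∀ i, HasEnoughRootsOfUnity Qb (p ^ i) := fun i => by
    have : NeZero ((p ^ i : ℕ) : Qb) := ⟨by exact_mod_cast (NeZero.ne (p ^ i))⟩
    infer_instance
  obtain ⟨z, hz⟩ := HasEnoughRootsOfUnity.exists_primitiveRoot Qb (p ^ 1)
  have h1 := cyclotomicCharacter.spec p (n := 1) (MulSemiringAction.toRingAut GQ Qb g) _
    hz.pow_eq_one
  have h2 := h z (by simpa using hz.pow_eq_one)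
  have h3 : z ^ (PadicInt.toZModPow 1 (cz p g)).val = z ^ k := h1.symm.trans h2
  refine red_eq _ ?_
  have h4 := (hz.isOfFinOrder (NeZero.ne _)).pow_eq_pow_iff_modEq.1 h3
  rw [← hz.eq_orderOf] at h4
  rw [← ZMod.natCast_zmod_val (PadicInt.toZModPow 1 (cz p g)), ZMod.natCast_eq_natCast_iff]
  exact h4

theorem co_up {G : Type} [Group G] {ι : G →* GQ} {ω : G →* (ZMod p)ˣ} (h : Cy ι p ω) (g : G) :
    algebraMap O F (co p O (ι g)) = (up ω g : Fˣ) := by
  rw [co_pow (ι g) (h g)]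
  exact (ZMod.cast_eq_val _).symm

end cyc

theorem co_two {O F : Type} [CommRing O] [Algebra ℤ_[2] O] [Field F] [CharP F 2] [Algebra O F]
    (g : GQ) : algebraMap O F (co 2 O g) = 1 := by
  rw [co_pow (k := 1) g fun x hx => ?_, Nat.cast_one]
  rcases sq_eq_one_iff.1 hx with rfl | rfl <;> simp

/-- two primes below the same prime ideal are equal -/
theorem ov_eq {l l' : ℕ} {P : Id} (h : Ov l P) (h' : Ov l' P) : l = l' := by
  by_contra hn
  obtain ⟨a, b, e⟩ := Nat.isCoprime_iff_coprime.2 ((Nat.coprime_primes h.1 h'.1).2 hn)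
  have e' : (a : 𝓞 Qb) * l + b * l' = 1 := by exact_mod_cast congrArg (Int.cast : ℤ → 𝓞 Qb) e
  exact h.2.1.one_notMem (e' ▸ add_mem (P.mul_mem_left _ h.2.2) (P.mul_mem_left _ h'.2.2))

/-- there are finitely many places over a finite set of primes -/
theorem fin_below {K : Type} [Field K] [NumberField K] (j : K →+* Qb) (S : Finset ℕ) :
    {v : Ideal (𝓞 K) | ∃ l ∈ S, ∃ P, Ov l P ∧ below j P = v}.Finite := by
  refine (S.finite_toSet.biUnion (t := fun l => {v : Ideal (𝓞 K) | ∃ P, Ov l P ∧ below j P = v})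
    fun l _ => ?_).subset fun v ⟨l, hl, h⟩ => Set.mem_biUnion hl h
  by_cases hl : l = 0
  · exact Set.Finite.subset Set.finite_empty fun v ⟨P, h, _⟩ => h.1.ne_zero hl
  have h0 : Ideal.span {(l : 𝓞 K)} ≠ ⊥ := by
    rw [Ne, Ideal.span_singleton_eq_bot]
    exact_mod_cast hl
  refine ((Ideal.finite_factors h0).image fun w => w.asIdeal).subset ?_
  rintro _ ⟨P, h, rfl⟩
  have m : (l : 𝓞 K) ∈ below j P := by
    show RingOfIntegers.mapRingHom j l ∈ P
    rw [map_natCast]
    exact h.2.2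
  have := h.2.1
  refine ⟨⟨below j P, Ideal.comap_isPrime _ _, fun e => hl ?_⟩, Ideal.dvd_span_singleton.2 m, rfl⟩
  rw [e, Ideal.mem_bot] at m
  exact_mod_cast m

theorem above {K : Type} [Field K] (j : K →+* Qb) (v : Ideal (𝓞 K)) (hv : v.IsPrime) :
    ∃ P : Id, P.IsPrime ∧ below j P = v := by
  letI : Algebra (𝓞 K) (𝓞 Qb) := (RingOfIntegers.mapRingHom j).toAlgebra
  haveI : Algebra.IsIntegral (𝓞 K) (𝓞 Qb) :=
    ⟨fun x => (Algebra.IsIntegral.isIntegral (R := ℤ) x).tower_top⟩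
  refine Ideal.exists_ideal_over_prime_of_isIntegral_of_isDomain (S := 𝓞 Qb) v fun x hx => ?_
  have e : x = 0 := RingOfIntegers.ext (j.injective
    ((congrArg (fun z : 𝓞 Qb => (z : Qb)) hx).trans (map_zero j).symm))
  exact e ▸ v.zero_mem

section chart

variable {G F O : Type} [Group G] [TopologicalSpace G] [Field F] [CommRing O] [IsLocalRing O]
  [Algebra O F]

/-- a chart of the universal lift -/
structure Lc (r : G →* M2 F) (s : F → O) (d : G → O) : Type 1 where
  τ : Type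
  [fτ : Fintype τ]
  g : τ → G
  a : τ → Fin 2
  b : τ → Fin 2
  I : Ideal (PS O τ)
  f : G → M2 (PS O τ)
  tn : TnG r g a b
  uni : Uni r s d g a b I f

attribute [instance] Lc.fτ

end chart

section ex

variable {G F O : Type} [Group G] [TopologicalSpace G] [IsTopologicalGroup G] [Field F] [Finite F]
  [CommRing O] [IsDomain O] [IsDiscreteValuationRing O] [Cf O] [Algebra O F] {r : G →* M2 F}
  {s : F → O} {d : G → O}

theorem of_out (lu : LU) (hr : IsLocallyConstant r) (hs : ∀ x, algebraMap O F (s x) = x)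
    (hd : ∀ x, algebraMap O F (d x) = (r x).det) {k : ℕ} (h : OutG r s d k) :
    ∃ L : Lc r s d, Bk F L.I k := by
  obtain ⟨τ, ι, _, _, g, a, b, f, h1, h2, h3, h4, h5⟩ := h
  obtain ⟨⟨I, f', hu⟩, -, h6⟩ := lu G F O τ r s d g a b hr hs hd h4
  exact ⟨⟨τ, g, a, b, I, f', h4, hu⟩, ι, inferInstance, f, h1,
    fun i => h6 I f' hu _ fun A _ _ _ ρ hρ φ hφ => (h5 A ρ hρ).2 φ hφ i, h2, h3⟩

theorem of_tn (lu : LU) (hr : IsLocallyConstant r) (hs : ∀ x, algebraMap O F (s x) = x)
    (hd : ∀ x, algebraMap O F (d x) = (r x).det) {n : ℕ} {g : Fin n → G} {a b : Fin n → Fin 2}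
    (h : TnG r g a b) : ∃ L : Lc r s d, Fintype.card L.τ = n := by
  obtain ⟨⟨I, f', hu⟩, -⟩ := lu G F O (Fin n) r s d g a b hr hs hd h
  exact ⟨⟨Fin n, g, a, b, I, f', h, hu⟩, Fintype.card_fin n⟩

end ex

/-- **the chart at one prime** -/
theorem chart (lu : LU) (z1 : Z1L) {p : ℕ} [hp : Fact p.Prime] (lo : p ≠ 2 → LPo p) (l2 : LP2)
    {F O : Type} [Field F] [Finite F] [CharP F p] [CommRing O] [IsDomain O]
    [IsDiscreteValuationRing O] [Cf O] [Algebra ℤ_[p] O] [Algebra O F] {l : ℕ} {P : Id}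
    (hP : Ov l P) {r : dec P →* M2 F} {s : F → O} (hr : IsLocallyConstant r) (sp : Spl r)
    (hs : ∀ x, algebraMap O F (s x) = x)
    (hd : ∀ x : dec P, algebraMap O F (co p O x.1) = (r x).det)
    (hw : p ≠ 2 → ∃ ω : dec P →* (ZMod p)ˣ, Cy (dec P).subtype p ω) :
    ∃ L : Lc r s fun x => co p O x.1, (Ov p P → Bk F L.I 6) ∧
      ∀ l', Ov l' P → l' ≠ p → p ≠ 2 → Nt l' P r → Fintype.card L.τ = 3 := by
  by_cases e : l = p
  · subst e
    suffices h : OutG r s (fun x => co l O x.1) 6 by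
      obtain ⟨L, hL⟩ := of_out lu hr hs hd h
      exact ⟨L, fun _ => hL, fun l' h' n => absurd (ov_eq h' hP) n⟩
    by_cases e2 : l = 2
    · subst e2
      exact l2 F O P r s _ hP hr sp (fun x => (hd x).symm.trans (co_two _)) hs fun x => co_two _
    · obtain ⟨ω, hω⟩ := hw e2
      exact lo e2 F O P ω r s ((co l O).comp (dec P).subtype) hP hω hr sp
        (fun x => (hd x).symm.trans (co_up hω x)) hs hd
        (Cd.comp (cd_co (p_mem hs l)) continuous_subtype_val)
  · have hl : (l : F) ≠ 0 := fun h => e ((Nat.prime_dvd_prime_iff_eq hp.out hP.1).1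
      ((CharP.cast_eq_zero_iff F p l).1 h)).symm
    obtain ⟨⟨n, g, a, b, h1⟩, h2⟩ := z1 F l P r hP hl hr
    by_cases c : p ≠ 2 ∧ Nt l P r
    · have h3 : (2 : F) ≠ 0 := fun h => c.1 ((Nat.prime_dvd_prime_iff_eq hp.out Nat.prime_two).1
        ((CharP.cast_eq_zero_iff F p 2).1 (by exact_mod_cast h)))
      obtain ⟨g', a', b', h4⟩ := h2 h3 c.2
      obtain ⟨L, hL⟩ := of_tn lu hr hs hd h4
      exact ⟨L, fun h => absurd (ov_eq hP h) e, fun _ _ _ _ _ => hL⟩
    · obtain ⟨L, -⟩ := of_tn lu hr hs hd h1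
      exact ⟨L, fun h => absurd (ov_eq hP h) e, fun l' h' _ n N =>
        absurd ⟨n, ov_eq h' hP ▸ N⟩ c⟩

end Sy

end Vale.Agent.P022K.RT
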