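import Vale.Agent.P022K.RT.Trn
import Vale.Agent.P022K.RT.QbSt
import Vale.Agent.P022K.RT.LfSt
import Vale.Agent.P022K.RT.Sys0
import Vale.Agent.P022K.Top.Eg
import Vale.Agent.P022K.GW.Pl

/-!
# P022K, block RT: from the patched module of a site to lifts over `ℚ`
-/

set_option linter.all false

noncomputable section

namespace Vale.Agent.P022K.RT

open IsLocalRing NumberField Pointwise
open Vale.Agent.P022 Vale.Agent.P022.C
open Vale.Agent.P022.H443 (inP)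
open Vale.Agent.P022D.L2b (M2)
open Vale.Agent.P022D.Loc2 (TnG)
open Vale.Agent.P022D.Core (PS)
open Vale.Agent.P022D.PA (Base)
open Vale.Agent.P022D.W (dec)
open Vale.Agent.P022E.GW (Ov)
open Vale.Agent.P022K.PL (Cf)
open Vale.Agent.P022K.GW (Id Cy up Adq)
open Vale.Agent.P022K.Top (Si cy)
open Vale.Agent.P022D

theorem LiftC.comp {G G' F O A : Type} [Group G] [TopologicalSpace G] [Group G']
    [TopologicalSpace G'] [Field F] [CommRing O] [IsLocalRing O] [CommRing A] [IsLocalRing A]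
    [Algebra O A] {r : G →* M2 F} {r' : G' →* M2 F} {s : F → O} {d : G → O} {ρ : G →* M2 A}
    (h : LiftC r s d ρ) (j : G' →* G) (hj : Continuous j) (e : ∀ x, r' x = r (j x)) :
    LiftC r' s (fun x => d (j x)) (ρ.comp j) :=
  ⟨fun n => (h.lc n).preimage hj, h.loc, fun x a b => e x ▸ h.red (j x) a b, fun x => h.det _⟩

section cm

variable {O : Type} [CommRing O] [IsDomain O] [IsDiscreteValuationRing O]

theorem cg_of_map {F : Type} [Field F] [Algebra O F] {s : F → O}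
    (hs : ∀ x, algebraMap O F (s x) = x) {c : M2 O} : Cg (maximalIdeal O) c 1 ↔
      c.map (algebraMap O F) = 1 := by
  rw [← Matrix.map_one (algebraMap O F) (map_zero _) (map_one _), ← Matrix.ext_iff]
  refine forall₂_congr fun i j => ?_
  rw [← L2b.ker_eq hs, RingHom.mem_ker, map_sub, sub_eq_zero]
  rfl

variable {τ τ' : Type} [Fintype τ] [Fintype τ'] {I J J' : Ideal (PS O τ)}
  {x x' : PS O τ →ₐ[O] O} {h h' : PS O τ}

theorem Cm.le' (H : Cm I x J h) (H' : Cm I x' J' h') (k : ∀ u ∈ J', x u = 0) : J ≤ J' :=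
  fun u hu => (H'.par.prime.mem_or_mem (H'.le (H.mul u hu))).resolve_left fun e => H.ne (k h e)

theorem Cm.sat (H : Cm I x J h) : Sat J := H.par.par.gd.sat

theorem Trn.cm' [Cf O] {G G' : Type} [Group G] [TopologicalSpace G] [IsTopologicalGroup G]
    [Group G'] [TopologicalSpace G'] [IsTopologicalGroup G'] {I' : Ideal (PS O τ')} {f : G → M2 (PS O τ)}
    {f' : G' → M2 (PS O τ')} {i : G' → G} {γ γ' : M2 O} {δ : PS O τ' →ₐ[O] PS O τ}
    (T : Trn I' f' I f i γ γ' δ) (H : Cm I x J h) : ∃ a, Cm I' (x.comp δ) (J.comap δ) a := by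
  obtain ⟨a, a1, a2⟩ := T.ex_h H.mul
  refine ⟨a, T.par H.par H.le, T.le H.le, fun u hu => H.ker _ hu, fun e => H.ne ?_, a2⟩
  have := H.ker _ (H.le a1)
  rwa [map_sub, show x (δ a) = 0 from e, zero_sub, neg_eq_zero] at this

end cm

variable {p : ℕ} [Fact p.Prime] {O F : Type} [CommRing O] [IsDomain O]
  [IsDiscreteValuationRing O] [Cf O] [Algebra ℤ_[p] O] [Field F] [Finite F]
  [CharP F p] [Algebra O F] {Z : Si p O} {ρ : GQ →* GL (Fin 2) F} {r₀ : Z.H →* M2 O} {P : ℕ → Id}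
  {V : ∀ l, dec (P l) →* M2 O}

/-- the components of the local lifts -/
theorem Qd.comp {s : F → O} (hQ : Qd Z ρ s r₀ P V) {l : ℕ} (hl : l ∈ Z.S) (ne : l ≠ p)
    (L : Sy.Lc ((mr ρ).comp (dec (P l)).subtype) s fun g => cy p O g.1) :
    ∃ x J h, Cm L.I x J h ∧ (∀ y, (L.f y).map x = V l y) ∧
      ∀ (x' : PS O L.τ →ₐ[O] O) (σ : GQ) (c c' : M2 O), (∀ u ∈ L.I, x' u = 0) → c * c' = 1 →
        c.map (algebraMap O F) = mr ρ σ → (∀ (g : dec (P l)) (g' : Z.H), g'.1 = σ * g.1 * σ⁻¹ →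
          (L.f g).map x' = c' * r₀ g' * c) → ∃ h', Cm L.I x' J h' := by
  have hs := hQ.rb.sec
  have := Or.base_cf O
  have le := hQ.spl l hl _ (hQ.ov l hl)
  obtain ⟨x, x1, x2⟩ := L.uni.ex_pt hs (hQ.lv l hl ne)
  have key : ∀ (x' : PS O L.τ →ₐ[O] O) (σ : GQ) (c c' : M2 O), (∀ u ∈ L.I, x' u = 0) →
      c * c' = 1 → c.map (algebraMap O F) = mr ρ σ → (∀ (g : dec (P l)) (g' : Z.H),
        g'.1 = σ * g.1 * σ⁻¹ → (L.f g).map x' = c' * r₀ g' * c) →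
      ∃ J h h', Cm L.I x J h ∧ Cm L.I x' J h' := fun x' σ c c' a1 a2 a3 a4 => by
    obtain ⟨y, y', U, b1, b2, b3, b4, b5⟩ := hQ.on l hl ne σ
    have s1 : Sc x L.f (V l) := ⟨1, 1, mul_one _, Cg.rfl, fun g => by rw [x2, mul_one, one_mul]⟩
    have s2 : Sc x' L.f U := by
      refine ⟨c' * y, y' * c, ?_, (cg_of_map hs).2 ?_, fun g => ?_⟩
      · rw [mul_assoc, ← mul_assoc y, b1, one_mul, mul_eq_one_comm.1 a2]
      · rw [Matrix.map_mul, b2, ← a3, map_inv _ (mul_eq_one_comm.1 a2)]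
      · rw [a4 g ⟨_, hQ.nor.conj_mem _ (le g.2) σ⟩ rfl, b3 g ⟨_, hQ.nor.conj_mem _ (le g.2) σ⟩ rfl]
        simp only [mul_assoc]
        rw [← mul_assoc y y', ← mul_assoc y y', b1, one_mul, one_mul]
    obtain ⟨J', h', c1, c2⟩ := b4 _ _ _ _ _ _ L.uni x' x a1 x1 s2 s1
    obtain ⟨J, h, c3, c4⟩ := b5 _ _ _ _ _ _ L.uni x x' x1 a1 s1 s2
    exact ⟨J, h, h', c3, le_antisymm (c1.le' c3 c4) (c3.le' c1 c2) ▸ c1⟩
  obtain ⟨x₀, y1, y2⟩ := L.uni.ex_pt hs (hQ.lt.lift.comp (Subgroup.inclusion le)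
    (continuous_inclusion le) fun _ => rfl)
  obtain ⟨J, h, -, c, -⟩ := key x₀ 1 1 1 y1 (mul_one _) (by simp) fun g g' e => by
    rw [y2, mul_one, one_mul]
    exact congrArg r₀ (Subtype.ext (by simpa using e.symm))
  refine ⟨x, J, h, c, x2, fun x' σ c c' a1 a2 a3 a4 => ?_⟩
  obtain ⟨J', h', h'', c1, c2⟩ := key x' σ c c' a1 a2 a3 a4
  exact ⟨h'', le_antisymm (c1.le' ‹_› (Cm.ker ‹Cm L.I x J h›)) (Cm.le' ‹_› c1 c1.ker) ▸ c2⟩

/-- charts over `ℚ` -/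
theorem Qd.lc {s : F → O} (hQ : Qd Z ρ s r₀ P V) (lo : p ≠ 2 → LPo p) (l2 : LP2) {l : ℕ}
    {Q : Id} (h : Ov l Q) :
    Nonempty (Sy.Lc ((mr ρ).comp (dec Q).subtype) s fun g => cy p O g.1) :=
  ⟨(Sy.chart lu z1l lo l2 h (r := (mr ρ).comp (dec Q).subtype) ((lc_of_open (mr ρ) (by simpa using hQ.opn)).comp_continuous
    continuous_subtype_val) (fun x => hQ.sp _) hQ.rb.sec (fun x => (hQ.det x.1).symm)
    fun k => (hQ.odd k).elim fun ω a => ⟨ω.comp (dec Q).subtype, fun g => a.1 g.1⟩).choose⟩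

variable {C : Fr Z F}

/-- the transport from a place of the site to a prime of `ℚ` -/
theorem Fr.Ok.trn (hC : C.Ok) (e : C.rb = ρ.comp Z.H.subtype) {l : ℕ} {Q : Id} (hQ : Ov l Q)
    (L : Sy.Lc ((mr ρ).comp (dec Q).subtype) C.s fun g => cy p O g.1) (t : C.T)
    (h : Ov l (C.P t)) : ∃ δ : PS O (C.τ t) →ₐ[O] PS O L.τ, (∃ σ k γ', σ • Q = C.P t ∧
      Trn (C.I t) (C.f t) L.I L.f (cjH σ k) ((mr ρ σ).map C.s) γ' δ) ∧
      ∀ (D : Pd C) (A : Type) [CommRing A] [Base A] [Algebra O A] (r : GQ →* M2 A)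
        (J : Ideal (PS O L.τ)) (x : PS O L.τ →ₐ[O] A) (φ : D.R →ₐ[O] A),
        LiftC (mr ρ) C.s (cy p O) r → L.I ≤ J → Inv L.I J L.f →
        (∀ u, x (MvPowerSeries.X u) ∈ maximalIdeal A) → (∀ u ∈ J, x u = 0) →
        (∀ y, (L.f y).map x = r y.1) → D.Gp φ (r.comp Z.H.subtype) →
        ∀ u, δ u ∈ J → φ (D.io t u) = 0 := by
  obtain ⟨σ, hσ⟩ := GW.Pl.ov_trans hQ h
  have k : ∀ y ∈ dec (C.P t), σ⁻¹ * y * σ ∈ dec Q := fun y hy =>
    CH.Fld.mem_dec_smul.1 (hσ ▸ hy)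
  obtain ⟨γ', δ, T, H⟩ := ex_trn_cj (hC.uni t) L.uni hC.sec (mr ρ) σ k
    (fun y hy => hσ ▸ CH.Fld.mem_dec_smul.2 (by simpa [mul_assoc] using hy))
    (fun y => by simp only [Fr.r, e]; rfl) (fun _ => rfl) fun y => by
      show _ = cy p O (σ⁻¹ * y * σ)
      rw [Top.cy_mul, Top.cy_mul, mul_right_comm, ← Top.cy_mul, inv_mul_cancel, Top.cy_one, one_mul]
  refine ⟨δ, ⟨σ, k, γ', hσ, T⟩, fun D A _ _ _ r J x φ a1 a2 a3 a4 a5 a6 a7 => ?_⟩
  obtain ⟨c, c', c1, c2, c3⟩ := a7.cj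
  exact H A r J x (φ.comp (D.io t)) c c' (a1.red σ) a2 a3 (lc_of a1.loc a4) a5 a6
    (fun u hu => a7.ker _ (Ideal.mem_sup_left (Ideal.mem_iSup_of_mem t
      (Ideal.mem_map_of_mem _ hu)))) c1 c2 (c3 t)

variable [CharZero O] {D : Pd C} {φ₀ : D.R →ₐ[O] O}

/-- **from the patched module to lifts over `ℚ`** -/
theorem mid (qb : QB) (hZ : Z.Ok) (hQ : Qd Z ρ C.s r₀ P V)
    (e : C.rb = ρ.comp Z.H.subtype) (hC : C.Ok) (hD : D.Ok) (h₀ : D.Gp φ₀ r₀)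
    (L₀ : Sy.Lc ((mr ρ).comp (dec (P p)).subtype) C.s fun g => cy p O g.1) :
    ∃ (δ : ∀ t, Ov p (C.P t) → (PS O (C.τ t) →ₐ[O] PS O L₀.τ)) (J : ∀ t, Ideal (PS O (C.τ t))),
      (∀ t h, ∃ σ k γ', σ • P p = C.P t ∧
        Trn (C.I t) (C.f t) L₀.I L₀.f (cjH σ k) ((mr ρ σ).map C.s) γ' (δ t h)) ∧
      (∀ t, ¬ Ov p (C.P t) → ∃ h, Cm (C.I t) (φ₀.comp (D.io t)) (J t) h) ∧
      ∀ J₀ : Ideal (PS O L₀.τ), J₀.IsPrime → Sat J₀ → L₀.I ≤ J₀ →
        ((4 + 1 : ℕ) : WithBot ℕ∞) ≤ ringKrullDim (PS O L₀.τ ⧸ J₀) → Inv L₀.I J₀ L₀.f →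
        (∀ 𝔮 : Ideal D.R, 𝔮.IsPrime → (∀ t h u, δ t h u ∈ J₀ → D.io t u ∈ 𝔮) →
          (∀ t, ¬ Ov p (C.P t) → ∀ u ∈ J t, D.io t u ∈ 𝔮) → D.J1 ≤ 𝔮 → D.L0 𝔮 →
          Module.Finite O (D.R ⧸ 𝔮)) →
        ∃ (W : Type) (_ : CommRing W) (_ : IsDomain W) (_ : IsDiscreteValuationRing W) (_ : Cf W)
          (_ : CharZero W) (_ : Algebra O W) (r : GQ →* M2 W), Module.Finite O W ∧
          Function.Injective (algebraMap O W) ∧ Qo p Z.S ρ C.s P V r ∧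
          (∃ x : PS O L₀.τ →ₐ[O] W, (∀ u ∈ J₀, x u = 0) ∧ ∀ y, (L₀.f y).map x = r y.1) ∧
          ∃ φ : D.R →ₐ[O] W, D.Gp φ (r.comp Z.H.subtype) ∧
            (∀ t h u, δ t h u ∈ J₀ → φ (D.io t u) = 0) ∧
            ∀ t, ¬ Ov p (C.P t) → ∀ u ∈ J t, φ (D.io t u) = 0 := by
  classical
  have hs := hC.sec
  let p' : Z.S := ⟨p, hZ.mem⟩
  obtain ⟨L, rfl⟩ : ∃ L : ∀ l : Z.S, Sy.Lc ((mr ρ).comp (dec (P l)).subtype) C.s
      fun g => cy p O g.1, L p' = L₀ := by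
    have : ∀ l : Z.S, Nonempty (Sy.Lc ((mr ρ).comp (dec (P l)).subtype) C.s
        fun g => cy p O g.1) := fun l => by
      by_cases k : l = p'
      · exact k ▸ ⟨L₀⟩
      have lc : IsLocallyConstant ((mr ρ).comp (dec (P l)).subtype) :=
        (lc_of_open (mr ρ) (by simpa using hQ.opn)).comp_continuous continuous_subtype_val
      obtain ⟨n, g, a, b, c⟩ := (z1l F l _ _ (hQ.ov l l.2) (fun h => k (Subtype.ext
        ((Nat.prime_dvd_prime_iff_eq Fact.out (hZ.prm l l.2)).1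
          ((CharP.cast_eq_zero_iff F p l).1 h)).symm)) lc).1
      exact ⟨(Sy.of_tn lu lc hs (fun x => (hQ.det _).symm) c).choose⟩
    exact ⟨Function.update (fun l => (this l).some) p' L₀, Function.update_self ..⟩
  choose x Jq h q1 q2 q3 using fun (l : Z.S) (k : l.1 ≠ p) => hQ.comp l.2 k (L l)
  choose δ d1 d2 using fun (l : Z.S) => hC.trn e (hQ.ov l l.2) (L l)
  have hl : ∀ t, ¬ Ov p (C.P t) → ∃ l : Z.S, l.1 ≠ p ∧ Ov l (C.P t) := fun t k => by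
    obtain ⟨l, a, b, -⟩ := hC.bad t
    exact ⟨⟨l, a⟩, fun c => k (by rwa [show l = p from c] at b), b⟩
  choose l l1 l2 using hl
  refine ⟨δ p', fun t => if k : Ov p (C.P t) then ⊥ else
    (Jq _ (l1 t k)).comap (δ _ t (l2 t k)), d1 p', fun t k => ?_, fun J₀ j1 j2 j3 j4 j5 fin => ?_⟩
  · simp only [dif_neg k]
    obtain ⟨σ, k', γ', a1, T⟩ := d1 _ t (l2 t k)
    obtain ⟨c, c', c1, c2, c3⟩ := h₀.cj
    obtain ⟨x', b1, b2, -⟩ := T.ex (φ := φ₀.comp (D.io t)) fun u hu => h₀.ker _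
      (Ideal.mem_sup_left (Ideal.mem_iSup_of_mem t (Ideal.mem_map_of_mem _ hu)))
    have e1 := mul_eq_one_comm.1 T.inv
    obtain ⟨a, ha⟩ := q3 _ (l1 t k) x' σ (c' * (mr ρ σ).map C.s) (γ' * c) b1
      (by rw [mul_assoc, ← mul_assoc _ γ', T.inv, one_mul, mul_eq_one_comm.1 c1])
      (by
        rw [Matrix.map_mul, (cg_of_map hs).1 (c2.inv c1), one_mul]
        exact Matrix.ext fun _ _ => hs _) fun g g' eg => by
      have m : g'.1 ∈ dec (C.P t) :=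
        a1 ▸ CH.Fld.mem_dec_smul.2 (by simpa [eg, mul_assoc] using g.2)
      have m1 := T.map b1 ⟨g'.1, m⟩
      rw [← b2, show cjH σ k' ⟨g'.1, m⟩ = g from Subtype.ext (by simp [cjH, eg, mul_assoc]),
        show ((C.f t ⟨g'.1, m⟩).map (φ₀.comp (D.io t)) : M2 O) = c * r₀ g' * c' from c3 t _] at m1
      simp only [Algebra.algebraMap_self, RingHom.coe_id, Matrix.map_id] at m1
      rw [show γ' * c * r₀ g' * (c' * (mr ρ σ).map C.s) = γ' * (c * r₀ g' * c') *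
        (mr ρ σ).map C.s by simp only [mul_assoc], m1]
      simp only [mul_assoc]
      rw [e1, mul_one, ← mul_assoc, e1, one_mul]
    exact b2 ▸ T.cm' ha
  obtain ⟨J, rfl, hJ⟩ : ∃ J : ∀ l, Ideal (PS O (L l).τ), J p' = J₀ ∧ ∀ l k, J l = Jq l k :=
    ⟨Function.update (fun l => if k : l.1 = p then ⊥ else Jq l k) p' J₀, Function.update_self ..,
      fun l k => (Function.update_of_ne (fun c => k (congrArg Subtype.val c)) ..).trans (dif_neg k)⟩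
  have cs : ∀ l : Z.S, (L l).I ≤ J l ∧ Inv (L l).I (J l) (L l).f := fun l => by
    by_cases k : l.1 = p
    · obtain rfl : l = p' := Subtype.ext k
      exact ⟨j3, j5⟩
    · have c := q1 l k
      rw [hJ l k]
      exact ⟨c.le, (L l).uni.inv_h hs c.par.prime c.sat c.le (fun a => c.ne (c.ker _ a)) c.mul⟩
  have key : ∀ (A : Type) [CommRing A] [Base A] [Algebra O A] (r : GQ →* M2 A),
      Gq p Z.S (mr ρ) C.s (fun l => P l) (fun l => (L l).f) J r → ∃ φ : D.R →ₐ[O] A,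
        D.Gp φ (r.comp Z.H.subtype) ∧ (∀ t h u, δ p' t h u ∈ J p' → φ (D.io t u) = 0) ∧
        ∀ t, ¬ Ov p (C.P t) → ∀ u ∈ (if k : Ov p (C.P t) then ⊥ else
          (Jq _ (l1 t k)).comap (δ _ t (l2 t k)) : Ideal _), φ (D.io t u) = 0 :=
    fun A _ _ _ r hr => by
      obtain ⟨φ, hφ⟩ := hD.gpt A (r.comp Z.H.subtype)
        (hr.lift.comp Z.H.subtype continuous_subtype_val fun y => by simp only [Fr.r, e]; rfl)
        fun l Q a b y c => hr.unr l (fun k => b ⟨l, k, a, hQ.spl l k Q a⟩) Q a _ c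
      have k : ∀ (l : Z.S) t h u, δ l t h u ∈ J l → φ (D.io t u) = 0 := fun l t h => by
        obtain ⟨y, y1, y2, y3⟩ := hr.loc l
        exact d2 l t h D A r _ y φ hr.lift (cs l).1 (cs l).2 y1 y2 y3 hφ
      exact ⟨φ, hφ, k p', fun t c u hu => k _ t (l2 t c) u (by rwa [dif_neg c, ← hJ] at hu)⟩
  obtain ⟨W, _, _, _, _, _, _, r, w1, w2, w3⟩ := qb p O F Z.S hZ.mem ρ C.s (fun l => P l)
    (fun l => (L l).τ) (fun l => (L l).g) (fun l => (L l).a) (fun l => (L l).b) (fun l => (L l).I)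
    J (fun l => (L l).f) hs hQ.opn hQ.det hQ.sp hQ.unr hQ.odd
    (fun k c => hQ.rb.two k (haveI : Group.IsSolvable ρ.range := c; solvable_of_solvable_injective
      (Subgroup.inclusion_injective (show (ρ.comp Z.H.subtype).range ≤ ρ.range from
        fun _ ⟨y, a⟩ => ⟨y.1, a⟩))))
    (fun l => hQ.ov l l.2) (fun l => (L l).tn) (fun l => (L l).uni) (fun l => (cs l).1) j1 j2 j4
    (fun l k => hJ l k ▸ (q1 l k).par) fun A _ _ _ _ r hr => by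
      obtain ⟨φ, hφ, k1, k2⟩ := key A r hr
      have := fin (RingHom.ker φ) (RingHom.ker_isPrime _) k1 k2
        (fun u hu => hφ.ker u (Ideal.mem_sup_right hu)) hφ.l0
      have := GW.Pl.cpt
      have := Z.H.quotient_finite_of_isOpen (H916.isOpen_GK Z.j)
      refine ⟨Z.H, Subgroup.finiteIndex_of_finite_quotient, fun y hy => ?_⟩
      exact hφ.tr ⟨y, hy⟩ ▸ (Algebra.IsIntegral.isIntegral (R := O)
        (Ideal.Quotient.mk (RingHom.ker φ) (D.tr ⟨y, hy⟩))).map (Ideal.kerLiftAlg φ)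
  have := Or.base_cf W
  refine ⟨W, _, ‹_›, ‹_›, ‹_›, ‹_›, _, r, w1, w2, ⟨w3.lift, w3.unr, fun l a k => ?_⟩,
    (w3.loc p').imp fun _ c => c.2, key W r w3⟩
  obtain ⟨y, -, y2, y3⟩ := w3.loc ⟨l, a⟩
  exact ⟨_, inferInstance, _, _, _, _, _, _, _, _, y, (L ⟨l, a⟩).uni, q1 ⟨l, a⟩ k, q2 ⟨l, a⟩ k,
    hJ ⟨l, a⟩ k ▸ y2, y3⟩

end Vale.Agent.P022K.RT
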