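import Vale.Agent.P022K.RT.St2
import Vale.Agent.P022K.RU.Obj

/-!
# P022K, block RT, row OBJ: the universal ring acts on discrete modules; points
-/

set_option linter.all false

noncomputable section

namespace Vale.Agent.P022K.RT.Ob

open Vale.Agent.P022K.RU (Dat Obj Hom Cl Closed Univ Fam Crd W Ty Unr map_one' ev_C ev_X)
open Vale.Agent.P022D.L2b (M2)

variable {O F G T : Type} [CommRing O] [Field F] [Group G] [TopologicalSpace G]
  [IsTopologicalGroup G] {S : Dat O F G T}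

/-- framed matrices in normal form over an arbitrary ring -/
structure Fd (S : Dat O F G T) (B : Type) [CommRing B] where
  ι : O →+* B
  π : B →+* F
  ρ : G →* M2 B
  α : T → M2 B
  β : T → M2 B
  alg : ∀ c, π (ι c) = S.red c
  res : ∀ g, (ρ g).map π = S.rb g
  dg : ρ S.g0 0 1 = 0 ∧ ρ S.g0 1 0 = 0
  nm : ρ S.g1 0 1 = ι S.lam
  inv : ∀ l, α l * β l = 1
  one : ∀ l, (α l).map π = 1
  fr : α S.l0 0 0 = 1

/-- the standing hypotheses on the fixed data -/
structure Sd (S : Dat O F G T) : Prop where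
  unit : ∀ c, S.red c ≠ 0 → IsUnit c
  fin : Finite F
  opn : IsOpen {g | S.rb g = 1}

variable {A A' B B' : Type} [CommRing A] [CommRing A'] [CommRing B] [CommRing B']

/-- the matrices -/
def Fd.mat (D : Fd S B) : G ⊕ T ⊕ T → M2 B := Sum.elim (fun g => D.ρ g) (Sum.elim D.α D.β)

/-- evaluation of polynomials in the entries -/
def Fd.ev (D : Fd S B) : W O G T →+* B :=
  MvPolynomial.eval₂Hom D.ι fun v => D.mat v.1 v.2.1 v.2.2

theorem Fd.ev_C (D : Fd S B) (c : O) : D.ev (MvPolynomial.C c) = D.ι c :=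
  MvPolynomial.eval₂Hom_C _ _ c

theorem Fd.ev_X (D : Fd S B) (v : G ⊕ T ⊕ T) (i j : Fin 2) :
    D.ev (MvPolynomial.X (v, i, j)) = D.mat v i j := MvPolynomial.eval₂Hom_X' _ _ _

/-- `X` is the image of `D` along `u` -/
structure Im (D : Fd S B) (X : Obj S A) (u : B →+* A) : Prop where
  ι : ∀ c, u (D.ι c) = X.ι c
  π : ∀ b, X.π (u b) = D.π b
  ρ : ∀ g, (D.ρ g).map u = X.ρ g
  α : ∀ l, (D.α l).map u = X.α l

variable {D : Fd S B} {X : Obj S A} {u : B →+* A}

theorem Im.β (h : Im D X u) (l : T) : (D.β l).map u = X.β l := by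
  have h1 : X.α l * (D.β l).map u = 1 := by rw [← h.α, ← Matrix.map_mul, D.inv, map_one']
  rw [← one_mul ((D.β l).map u), ← X.inv' l, mul_assoc, h1, mul_one]

theorem Im.ev (h : Im D X u) (w : W O G T) : u (D.ev w) = X.ev w := by
  have : u.comp D.ev = X.ev := by
    refine MvPolynomial.ringHom_ext (fun c => ?_) fun v => ?_
    · rw [RingHom.comp_apply, D.ev_C, ev_C, h.ι]
    · obtain ⟨v, i, j⟩ := v
      rw [RingHom.comp_apply, D.ev_X, ev_X]
      rcases v with g | l | l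
      exacts [congrFun (congrFun (h.ρ g) i) j, congrFun (congrFun (h.α l) i) j,
        congrFun (congrFun (h.β l) i) j]
  exact congrArg (fun f : W O G T →+* A => f w) this

theorem Im.comp (h : Im D X u) {Y : Obj S A'} {v : A →+* A'} (k : Hom X Y v) :
    Im D Y (v.comp u) where
  ι c := by rw [RingHom.comp_apply, h.ι, k.ι]
  π b := by rw [RingHom.comp_apply, k.π, h.π]
  ρ g := by rw [← k.ρ, ← h.ρ, Matrix.map_map]; rfl
  α l := by rw [← k.α, ← h.α, Matrix.map_map]; rfl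

theorem Im.hom (h : Im D X u) {Y : Obj S A'} {v : A →+* A'} (k : Im D Y (v.comp u)) :
    Hom X Y v where
  ι c := by rw [← h.ι, ← k.ι]; rfl
  ρ g := by rw [← k.ρ, ← h.ρ, Matrix.map_map]; rfl
  α l := by rw [← k.α, ← h.α, Matrix.map_map]; rfl

/-- the ideals with a test object as quotient -/
structure Gd (D : Fd S B) (a : Ideal B) : Prop where
  fin : Finite (B ⧸ a)
  le : ∀ b ∈ a, D.π b = 0
  nil : ∀ b, D.π b = 0 → ∃ n : ℕ, b ^ n ∈ a
  opn : {g | Cg a (D.ρ g) 1} ∈ nhds (1 : G)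

theorem cg_one {a : Ideal B} {m : M2 B} : Cg a m 1 ↔ m.map (Ideal.Quotient.mk a) = 1 := by
  rw [← map_one' (Ideal.Quotient.mk a)]
  refine ⟨fun h => Matrix.ext fun i j => Ideal.Quotient.eq.2 (h i j), fun h i j => ?_⟩
  exact Ideal.Quotient.eq.1 (congrFun (congrFun h i) j)

/-- the quotient object -/
def quo (hS : Sd S) {a : Ideal B} (h : Gd D a) : Obj S (B ⧸ a) where
  ι := (Ideal.Quotient.mk a).comp D.ι
  π := Ideal.Quotient.lift a D.π h.le
  ρ := (Ideal.Quotient.mk a).mapMatrix.toMonoidHom.comp D.ρ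
  α l := (D.α l).map (Ideal.Quotient.mk a)
  β l := (D.β l).map (Ideal.Quotient.mk a)
  fin := h.fin
  loc x hx := by
    obtain ⟨b, rfl⟩ := Ideal.Quotient.mk_surjective x
    obtain ⟨c, hc⟩ := S.surj (D.π b)
    have h1 : IsUnit (Ideal.Quotient.mk a (D.ι c)) :=
      ((hS.unit c (hc ▸ hx)).map D.ι).map _
    obtain ⟨n, hn⟩ := h.nil (b - D.ι c) (by rw [map_sub, D.alg, hc, sub_self])
    have h2 : IsNilpotent (Ideal.Quotient.mk a (b - D.ι c)) :=
      ⟨n, by rw [← map_pow, Ideal.Quotient.eq_zero_iff_mem.2 hn]⟩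
    simpa using h2.isUnit_add_left_of_commute h1 (Commute.all _ _)
  alg c := D.alg c
  res g := by
    rw [← D.res g]
    rfl
  opn := by
    rw [← RU.ker_set]
    refine Subgroup.isOpen_of_mem_nhds _ (g := 1) (Filter.mem_of_superset h.opn fun g hg => ?_)
    exact Units.ext (cg_one.1 hg)
  dg := ⟨(congrArg (Ideal.Quotient.mk a) D.dg.1).trans (map_zero _),
    (congrArg (Ideal.Quotient.mk a) D.dg.2).trans (map_zero _)⟩
  nm := congrArg (Ideal.Quotient.mk a) D.nm
  inv l := by rw [← Matrix.map_mul, D.inv, map_one']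
  one l := by
    rw [← D.one l]
    rfl
  fr := (congrArg (Ideal.Quotient.mk a) D.fr).trans (map_one _)

theorem im_quo (hS : Sd S) {a : Ideal B} (h : Gd D a) :
    Im D (quo hS h) (Ideal.Quotient.mk a) :=
  ⟨fun _ => rfl, fun _ => rfl, fun _ => rfl, fun _ => rfl⟩

theorem Im.gd (h : Im D X u) : Gd D (RingHom.ker u) where
  fin := by
    have := X.fin
    exact Finite.of_injective _ (RingHom.kerLift_injective u)
  le b hb := by rw [← h.π, RingHom.mem_ker.1 hb, map_zero]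
  nil b hb := by
    obtain ⟨n, hn⟩ := X.nil
    have : u b ∈ RingHom.ker X.π := (h.π b).trans hb
    exact ⟨n, (map_pow u b n).trans (Ideal.mem_bot.1 (hn ▸ Ideal.pow_mem_pow this n))⟩
  opn := Filter.mem_of_superset (X.opn.mem_nhds (map_one X.ρ)) fun g hg i j => by
    have e := congrFun (congrFun ((h.ρ g).trans (hg.trans (map_one' u).symm)) i) j
    exact (map_sub u _ _).trans (sub_eq_zero.2 e)

theorem hom_lift (hS : Sd S) {a : Ideal B} (k : Gd D a) (h : Im D X u) (e : ∀ b ∈ a, u b = 0) :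
    Hom (quo hS k) X (Ideal.Quotient.lift a u e) := (im_quo hS k).hom h

variable {τ : Type} {g : ℕ} {C : Cl S} {κ : Crd S τ} {Φ : Fam S τ g}

/-- comparison of two images -/
theorem Im.cmp (hS : Sd S) (hC : Closed C) (hΦ : Univ C κ Φ) (h : Im D X u) (hX : C A X)
    {Y : Obj S A'} {v : B →+* A'} (k : Im D Y v) (e : ∀ b, u b = 0 → v b = 0) :
    C A' Y ∧ ∀ f b, Φ A X f = u b → Φ A' Y f = v b := by
  have h1 := hom_lift hS h.gd h fun _ hb => hb
  have h2 := hom_lift hS h.gd k e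
  have hi : ∀ x, Ideal.Quotient.lift (RingHom.ker u) u (fun _ hb => hb) x = 0 → x = 0 := fun x => by
    obtain ⟨b, rfl⟩ := Ideal.Quotient.mk_surjective x
    exact fun e => Ideal.Quotient.eq_zero_iff_mem.2 (show b ∈ RingHom.ker u from e)
  have h3 := hC.pull _ _ _ _ _ _ _ _ h1 h1 (fun x hx _ => hi x hx) hX hX
  have h4 := hC.push _ _ _ _ _ h2 h3
  refine ⟨h4, fun f b hb => ?_⟩
  have h5 : Φ _ (quo hS h.gd) f = Ideal.Quotient.mk _ b := sub_eq_zero.1 (hi _ (by
    rw [map_sub, hΦ.nat _ _ _ _ _ h3 hX h1, hb]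
    exact sub_self _))
  rw [← hΦ.nat _ _ _ _ _ h3 h4 h2, h5]
  rfl

/-- one polynomial for two objects -/
theorem two (hC : Closed C) (hΦ : Univ C κ Φ) {Y : Obj S A'} (hX : C A X) (hY : C A' Y)
    (f : RU.PS O τ g) : ∃ w, Φ A X f = X.ev w ∧ Φ A' Y f = Y.ev w := by
  obtain ⟨Z, u, u', e, h, h', i⟩ := RU.exists_can X Y (RingHom.ker X.ev ⊓ RingHom.ker Y.ev)
    fun _ => Iff.rfl
  have hZ := hC.pull _ _ _ _ _ _ _ _ h h' i hX hY
  obtain ⟨w, hw⟩ := hΦ.rng _ Z hZ f
  exact ⟨w, by rw [← hΦ.nat _ _ _ _ _ hZ hX h, hw, h.ev],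
    by rw [← hΦ.nat _ _ _ _ _ hZ hY h', hw, h'.ev]⟩

/-- `f` represents the polynomial `w` -/
def Rep (C : Cl S) (Φ : Fam S τ g) (w : W O G T) (f : RU.PS O τ g) : Prop :=
  ∀ (A : Type) [CommRing A] (X : Obj S A), C A X → Φ A X f = X.ev w

/-! ### modules -/

variable {M M' : Type} [AddCommGroup M] [Module B M] [AddCommGroup M'] [Module B' M']

/-- a discrete module over the ring of `D`, of class `C` -/
structure Md (D : Fd S B) (M : Type) [AddCommGroup M] [Module B M] (C : Cl S) : Prop where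
  fin : ∀ v : M, (Set.range fun b : B => b • v).Finite
  nil : ∀ b, D.π b = 0 → ∀ v : M, ∃ n : ℕ, b ^ n • v = 0
  opn : ∀ v : M, {g | ∀ i j, (D.ρ g - 1) i j • v = 0} ∈ nhds (1 : G)
  cl : ∀ (A : Type) [CommRing A] (X : Obj S A) (u : B →+* A), Im D X u →
    (∀ b, D.π b = 0 → (∀ v : M, b • v = 0) → u b = 0) → C A X

/-- the ideal of a finite set of vectors -/
def an (D : Fd S B) (Z : Finset M) : Ideal B where
  carrier := {b | D.π b = 0 ∧ ∀ v ∈ Z, b • v = 0}
  add_mem' {a b} ha hb := ⟨by rw [map_add, ha.1, hb.1, add_zero],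
    fun v hv => by rw [add_smul, ha.2 v hv, hb.2 v hv, add_zero]⟩
  zero_mem' := ⟨map_zero _, fun v _ => zero_smul B v⟩
  smul_mem' c a ha := ⟨by rw [smul_eq_mul, map_mul, ha.1, mul_zero],
    fun v hv => by rw [smul_eq_mul, mul_smul, ha.2 v hv, smul_zero]⟩

theorem Md.gd (hS : Sd S) (h : Md D M C) (Z : Finset M) : Gd D (an D Z) where
  fin := by
    have := hS.fin
    have := fun v => (h.fin v).to_subtype
    let φ : B → F × ∀ v : Z, Set.range fun b : B => b • (v : M) :=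
      fun b => (D.π b, fun v => ⟨b • v.1, b, rfl⟩)
    choose s hs using fun x : B ⧸ an D Z => Ideal.Quotient.mk_surjective x
    refine Finite.of_injective (φ ∘ s) fun x y e => ?_
    rw [← hs x, ← hs y]
    refine Ideal.Quotient.eq.2 ⟨(map_sub _ _ _).trans (sub_eq_zero.2 (congrArg Prod.fst e)),
      fun v hv => (sub_smul _ _ _).trans (sub_eq_zero.2 ?_)⟩
    exact congrArg Subtype.val (congrFun (congrArg Prod.snd e) ⟨v, hv⟩)
  le _ hb := hb.1
  nil b hb := by
    choose n hn using h.nil b hb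
    refine ⟨Z.sup n + 1, by rw [map_pow, hb, zero_pow (Nat.succ_ne_zero _)], fun v hv => ?_⟩
    obtain ⟨k, hk⟩ := Nat.exists_eq_add_of_le' ((Finset.le_sup (f := n) hv).trans (Nat.le_succ _))
    rw [Nat.succ_eq_add_one] at hk
    rw [hk, pow_add, mul_smul, hn, smul_zero]
  opn := by
    have h1 := (Filter.biInter_finset_mem Z).2 fun v _ => h.opn v
    filter_upwards [h1, hS.opn.mem_nhds (map_one S.rb)] with x hx hx' i j
    refine ⟨?_, fun v hv => Set.mem_iInter₂.1 hx v hv i j⟩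
    have e := congrFun (congrFun ((D.res x).trans (hx'.trans (map_one' D.π).symm)) i) j
    exact (map_sub _ _ _).trans (sub_eq_zero.2 e)

theorem Md.cq (hS : Sd S) (h : Md D M C) (Z : Finset M) : C _ (quo hS (h.gd hS Z)) :=
  h.cl _ _ _ (im_quo hS _) fun _ e e' => Ideal.Quotient.eq_zero_iff_mem.2 ⟨e, fun v _ => e' v⟩

/-- the action of the universal ring -/
def Ac (D : Fd S B) (M : Type) [AddCommGroup M] [Module B M] (C : Cl S) (Φ : Fam S τ g)
    [Module (RU.PS O τ g) M] : Prop :=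
  ∀ (A : Type) [CommRing A] (X : Obj S A) (u : B →+* A), Im D X u → C A X → ∀ v : M,
    (∀ b, u b = 0 → b • v = 0) → ∀ f b, Φ A X f = u b → f • v = b • v

/-- **OBJ**: existence of the action -/
theorem ex_ac (hS : Sd S) (hC : Closed C) (hΦ : Univ C κ Φ) (h : Md D M C) :
    ∃ _ : Module (RU.PS O τ g) M, Ac D M C Φ := by
  classical
  choose s hs using fun (Z : Finset M) (f : RU.PS O τ g) =>
    Ideal.Quotient.mk_surjective (Φ _ (quo hS (h.gd hS Z)) f)
  have key : ∀ (A : Type) [CommRing A] (X : Obj S A) (u : B →+* A), Im D X u → C A X → ∀ v : M,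
      (∀ b, u b = 0 → b • v = 0) → ∀ f b, Φ A X f = u b → s {v} f • v = b • v := by
    intro A _ X u hu hX v hv f b hb
    have := (hu.cmp hS hC hΦ hX (im_quo hS (h.gd hS {v})) fun b e =>
      Ideal.Quotient.eq_zero_iff_mem.2 ⟨hu.gd.le b e, fun x hx =>
        Finset.mem_singleton.1 hx ▸ hv b e⟩).2 f b hb
    rw [← hs] at this
    exact sub_eq_zero.1 ((sub_smul _ _ _).symm.trans
      ((Ideal.Quotient.eq.1 this).2 v (Finset.mem_singleton_self v)))
  have k1 : ∀ (Z : Finset M) (v : M), (∀ b ∈ an D Z, b • v = 0) → ∀ f b,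
      Φ _ (quo hS (h.gd hS Z)) f = Ideal.Quotient.mk _ b → s {v} f • v = b • v :=
    fun Z v hv => key _ _ _ (im_quo hS _) (h.cq hS Z) v fun b e =>
      hv b (Ideal.Quotient.eq_zero_iff_mem.1 e)
  have k2 : ∀ v : M, ∀ b ∈ an D {v}, b • v = 0 := fun v b e => e.2 v (Finset.mem_singleton_self v)
  have k3 : ∀ (v : M) (c : B), ∀ b ∈ an D {v}, b • c • v = 0 := fun v c b e => by
    rw [smul_comm, k2 v b e, smul_zero]
  let _ : SMul (RU.PS O τ g) M := ⟨fun f v => s {v} f • v⟩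
  have df : ∀ (f : RU.PS O τ g) (v : M), f • v = s {v} f • v := fun _ _ => rfl
  refine ⟨Module.ofMinimalAxioms (fun f v v' => ?_) (fun f f' v => ?_) (fun f f' v => ?_)
    fun v => ?_, key⟩
  · have e := fun x hx => k1 {v, v'} x hx f _ (hs _ _).symm
    rw [df, df, df, e v fun b hb => hb.2 v (by simp), e v' fun b hb => hb.2 v' (by simp),
      e (v + v') fun b hb => by rw [smul_add, hb.2 v (by simp), hb.2 v' (by simp), add_zero],
      smul_add]
  · rw [df, df, df, ← add_smul]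
    exact k1 {v} v (k2 v) _ _ (by rw [map_add, map_add, hs, hs])
  · rw [df, df, df f' v, k1 {v} _ (k3 v _) f _ (hs _ _).symm, ← mul_smul]
    exact k1 {v} v (k2 v) _ _ (by rw [map_mul, map_mul, hs, hs])
  · rw [df, k1 {v} v (k2 v) 1 1 (by rw [map_one, map_one]), one_smul]

section use

variable [Module (RU.PS O τ g) M] (hS : Sd S) (hΦ : Univ C κ Φ) (h : Md D M C) (a : Ac D M C Φ)
include hS h a

theorem Ac.q (Z : Finset M) {f : RU.PS O τ g} {b : B}
    (e : Φ _ (quo hS (h.gd hS Z)) f = Ideal.Quotient.mk _ b) : ∀ v ∈ Z, f • v = b • v :=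
  fun v hv => a _ _ _ (im_quo hS _) (h.cq hS Z) v
    (fun _ e => (Ideal.Quotient.eq_zero_iff_mem.1 e).2 v hv) f b e

/-- a representative of `w` acts as `w` -/
theorem Ac.rep {w : W O G T} {f : RU.PS O τ g} (e : Rep C Φ w f) (v : M) : f • v = D.ev w • v :=
  a.q hS h {v} ((e _ _ (h.cq hS _)).trans ((im_quo hS _).ev w).symm) v
    (Finset.mem_singleton_self v)

theorem Ac.zero {f : RU.PS O τ g}
    (e : ∀ (A : Type) [CommRing A] (X : Obj S A), C A X → Φ A X f = 0) (v : M) : f • v = 0 := by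
  simpa using a.rep hS h (w := 0) (fun A _ X hX => (e A X hX).trans (map_zero _).symm) v

theorem Ac.ker {f : RU.PS O τ g} (e : f ∈ kerU C Φ) (v : M) : f • v = 0 :=
  a.zero hS h (fun A _ X hX => Ideal.mem_sInf.1 e ⟨A, _, X, hX, rfl⟩) v

include hΦ

/-- on a finite set every element acts as a polynomial in the entries -/
theorem Ac.pol (Z : Finset M) (f : RU.PS O τ g) : ∃ w, ∀ v ∈ Z, f • v = D.ev w • v := by
  obtain ⟨w, hw⟩ := hΦ.rng _ _ (h.cq hS Z) f
  exact ⟨w, a.q hS h Z (hw.trans ((im_quo hS _).ev w).symm)⟩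

theorem Ac.cst (c : O) (v : M) : (MvPowerSeries.C c : RU.PS O τ g) • v = D.ι c • v :=
  a.q hS h {v} (hΦ.cst _ _ (h.cq hS _) c) v (Finset.mem_singleton_self v)

theorem Ac.tower [Module O M] (e : ∀ (c : O) (v : M), D.ι c • v = c • v) :
    IsScalarTower O (RU.PS O τ g) M := ⟨fun c f v => by
  rw [← e, ← a.cst hS hΦ h, ← mul_smul, MvPowerSeries.smul_eq_C_mul]⟩

theorem Ac.nil {f : RU.PS O τ g} (e : S.red (MvPowerSeries.constantCoeff f) = 0) (v : M) :
    ∃ n : ℕ, f ^ n • v = 0 := by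
  obtain ⟨b, hb⟩ := Ideal.Quotient.mk_surjective (Φ _ (quo hS (h.gd hS {v})) f)
  have h1 : D.π b = 0 := by
    rw [← e, ← hΦ.res _ _ (h.cq hS {v}), ← hb]
    rfl
  obtain ⟨n, hn⟩ := h.nil b h1 v
  exact ⟨n, (a.q hS h {v} (by rw [map_pow, ← hb, map_pow]) v
    (Finset.mem_singleton_self v)).trans hn⟩

/-- the scalars of `B` commute with the action -/
theorem Ac.com (f : RU.PS O τ g) (b : B) (v : M) : f • b • v = b • f • v := by
  classical
  obtain ⟨w, hw⟩ := a.pol hS hΦ h {v, b • v} f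
  rw [hw _ (by simp), hw _ (by simp), smul_comm]

end use

/-- maps that commute with the entries -/
theorem ev_lin {D' : Fd S B'} (θ : M →+ M') (h1 : ∀ c v, θ (D.ι c • v) = D'.ι c • θ v)
    (h2 : ∀ x i j v, θ (D.mat x i j • v) = D'.mat x i j • θ v) (w : W O G T) (v : M) :
    θ (D.ev w • v) = D'.ev w • θ v := by
  induction w using MvPolynomial.induction_on generalizing v with
  | C c => rw [D.ev_C, D'.ev_C, h1]
  | add p q hp hq => rw [map_add, map_add, add_smul, add_smul, map_add, hp, hq]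
  | mul_X p x hp =>
    obtain ⟨x, i, j⟩ := x
    rw [map_mul, map_mul, mul_smul, mul_smul, hp, D.ev_X, D'.ev_X, h2]

/-- **linearity**: `C₀` is a subclass of `C` on which `Φ₀` and `Φ` agree -/
theorem Ac.lin [Module (RU.PS O τ g) M] [Module (RU.PS O τ g) M'] (hS : Sd S) (hC : Closed C)
    (hΦ : Univ C κ Φ) {C₀ C₁ : Cl S} {Φ₀ Φ₁ : Fam S τ g}
    (e₀ : ∀ (A : Type) [CommRing A] (X : Obj S A), C₀ A X → C A X ∧ Φ A X = Φ₀ A X)
    (e₁ : ∀ (A : Type) [CommRing A] (X : Obj S A), C₁ A X → C A X ∧ Φ A X = Φ₁ A X)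
    {D' : Fd S B'} (h : Md D M C₀) (a : Ac D M C₀ Φ₀) (h' : Md D' M' C₁) (a' : Ac D' M' C₁ Φ₁)
    (θ : M → M') (k : ∀ w v, θ (D.ev w • v) = D'.ev w • θ v) (f : RU.PS O τ g) (v : M) :
    θ (f • v) = f • θ v := by
  obtain ⟨c, e⟩ := e₀ _ _ (h.cq hS {v})
  obtain ⟨c', e'⟩ := e₁ _ _ (h'.cq hS {θ v})
  obtain ⟨w, h1, h2⟩ := two hC hΦ c c' f
  rw [a.q hS h {v} (e ▸ h1.trans ((im_quo hS _).ev w).symm) v (Finset.mem_singleton_self _),
    a'.q hS h' {θ v} (e' ▸ h2.trans ((im_quo hS _).ev w).symm) _ (Finset.mem_singleton_self _), k]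

/-- endomorphisms that commute with the entries -/
theorem Ac.lin1 [Module (RU.PS O τ g) M] (hS : Sd S) (hΦ : Univ C κ Φ) (h : Md D M C)
    (a : Ac D M C Φ) (θ : M → M) (k : ∀ w v, θ (D.ev w • v) = D.ev w • θ v) (f : RU.PS O τ g)
    (v : M) : θ (f • v) = f • θ v := by
  classical
  obtain ⟨w, hw⟩ := a.pol hS hΦ h {v, θ v} f
  rw [hw _ (by simp), hw _ (by simp), k]

/-! ### points -/

/-- data over a complete ring -/
structure Cp (D : Fd S B) (C : Cl S) : Prop where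
  cpl : IsAdicComplete (RingHom.ker D.π) B
  fin : ∀ n : ℕ, Finite (B ⧸ RingHom.ker D.π ^ n)
  opn : ∀ n : ℕ, {g | Cg (RingHom.ker D.π ^ n) (D.ρ g) 1} ∈ nhds (1 : G)
  cl : ∀ (A : Type) [CommRing A] (X : Obj S A) (u : B →+* A), Im D X u → C A X

/-- the point of `D` -/
def Pn (D : Fd S B) (C : Cl S) (Φ : Fam S τ g) (x : RU.PS O τ g →+* B) : Prop :=
  ∀ (A : Type) [CommRing A] (X : Obj S A) (u : B →+* A), Im D X u → ∀ f, Φ A X f = u (x f)

theorem Cp.gd (h : Cp D C) (n : ℕ) : Gd D (RingHom.ker D.π ^ (n + 1)) where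
  fin := h.fin _
  le _ hb := Ideal.pow_le_self n.succ_ne_zero hb
  nil _ hb := ⟨_, Ideal.pow_mem_pow hb _⟩
  opn := h.opn _

theorem Cp.ext (h : Cp D C) {b b' : B} (e : ∀ n, Ideal.Quotient.mk (RingHom.ker D.π ^ (n + 1)) b =
    Ideal.Quotient.mk _ b') : b = b' := by
  have := h.cpl
  refine sub_eq_zero.1 (IsHausdorff.haus (I := RingHom.ker D.π) inferInstance _ fun n => ?_)
  rw [SModEq.zero, smul_eq_mul, Ideal.mul_top]
  exact Ideal.pow_le_pow_right n.le_succ (Ideal.Quotient.eq.1 (e n))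

/-- **PT**: existence of the point -/
theorem ex_pn (hS : Sd S) (hC : Closed C) (hΦ : Univ C κ Φ) (h : Cp D C) : ∃ x, Pn D C Φ x := by
  have := h.cpl
  have ha : StrictMono fun n : ℕ => n + 1 := fun _ _ e => Nat.succ_lt_succ e
  have hf : ∀ {m}, (Ideal.Quotient.factorPow (RingHom.ker D.π) (ha.monotone m.le_succ)).comp
      (Φ _ (quo hS (h.gd (m + 1)))) = Φ _ (quo hS (h.gd m)) := fun {m} => RingHom.ext fun f =>
    hΦ.nat _ _ _ _ (Ideal.Quotient.factorPow (RingHom.ker D.π) (ha.monotone m.le_succ))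
      (h.cl _ _ _ (im_quo hS (h.gd (m + 1)))) (h.cl _ _ _ (im_quo hS (h.gd m)))
      ((im_quo hS (h.gd (m + 1))).hom (im_quo hS (h.gd m))) f
  refine ⟨IsAdicComplete.StrictMono.liftRingHom _ ha (fun n => Φ _ (quo hS (h.gd n))) hf,
    fun A _ X u hu f => ?_⟩
  obtain ⟨n, hn⟩ := X.nil
  refine ((im_quo hS (h.gd n)).cmp hS hC hΦ (h.cl _ _ _ (im_quo hS _)) hu fun b hb => ?_).2 f _
    (IsAdicComplete.StrictMono.mk_liftRingHom (RingHom.ker D.π) ha
      (fun n => Φ _ (quo hS (h.gd n))) hf (n := n) f).symm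
  have h1 : (RingHom.ker D.π).map u ≤ RingHom.ker X.π :=
    Ideal.map_le_iff_le_comap.2 fun b hb => (hu.π b).trans hb
  have h2 := Ideal.mem_map_of_mem u
    (Ideal.pow_le_pow_right n.le_succ (Ideal.Quotient.eq_zero_iff_mem.1 hb))
  rw [Ideal.map_pow] at h2
  exact Ideal.mem_bot.1 (hn ▸ Ideal.pow_right_mono h1 n h2)

section pt

variable {x : RU.PS O τ g →+* B} (hS : Sd S) (h : Cp D C) (a : Pn D C Φ x)
include hS h a

theorem Pn.rep {w : W O G T} {f : RU.PS O τ g} (e : Rep C Φ w f) : x f = D.ev w :=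
  h.ext fun n => by
    rw [← a _ _ _ (im_quo hS (h.gd n)), e _ _ (h.cl _ _ _ (im_quo hS _)), (im_quo hS _).ev]

theorem Pn.zero {f : RU.PS O τ g}
    (e : ∀ (A : Type) [CommRing A] (X : Obj S A), C A X → Φ A X f = 0) : x f = 0 := by
  simpa using a.rep hS h (w := 0) fun A _ X hX => (e A X hX).trans (map_zero _).symm

theorem Pn.cst (hΦ : Univ C κ Φ) (c : O) : x (MvPowerSeries.C c) = D.ι c :=
  h.ext fun n => by
    rw [← a _ _ _ (im_quo hS (h.gd n)), hΦ.cst _ _ (h.cl _ _ _ (im_quo hS _))]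
    rfl

theorem Pn.res (hΦ : Univ C κ Φ) (f : RU.PS O τ g) :
    D.π (x f) = S.red (MvPowerSeries.constantCoeff f) := by
  rw [← hΦ.res _ _ (h.cl _ _ _ (im_quo hS (h.gd 0))), a _ _ _ (im_quo hS (h.gd 0))]
  rfl

omit hS h in
/-- on a module over the ring of the point the universal ring acts through the point -/
theorem Pn.act [Module (RU.PS O τ g) M] (hS : Sd S) {C' : Cl S} {Φ' : Fam S τ g} (m : Md D M C')
    (a' : Ac D M C' Φ') (e : ∀ (A : Type) [CommRing A] (X : Obj S A) (u : B →+* A), Im D X u →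
      Φ' A X = Φ A X) (f : RU.PS O τ g) (v : M) : f • v = x f • v :=
  a'.q hS m {v} (by rw [e _ _ _ (im_quo hS _), a _ _ _ (im_quo hS _)]) v
    (Finset.mem_singleton_self v)

end pt

end Vale.Agent.P022K.RT.Ob
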