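import Vale.Agent.P022K.RT.Pnt
import Vale.Agent.P022K.RT.Obj

/-!
# P022K, block RT, row GPT: the point of a continuous lift, with trivial frames
-/

set_option linter.all false

noncomputable section

namespace Vale.Agent.P022K.RT.Ob

open IsLocalRing
open Vale.Agent.P022K.RU (Dat Obj Cl Closed Univ Fam Crd Ty map_one')
open Vale.Agent.P022D.L2b (M2)
open Vale.Agent.P022D.PA (Base)
open Vale.Agent.P022K.RT.Pn (Gl cj cj_ap cg_cj)

variable {O F G T : Type} [CommRing O] [Field F] [Group G] [TopologicalSpace G]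
  [IsTopologicalGroup G] {S : Dat O F G T}

/-- `P` is the normal form of `ρ`, over a subring, with trivial frames -/
structure Nr {A Λ : Type} [CommRing A] [Algebra O A] [CommRing Λ] [IsLocalRing Λ] [Algebra O Λ]
    (P : Fd S A) (j : A →ₐ[O] Λ) (c c' : M2 O) (ρ : G →* M2 Λ) : Prop where
  io : ∀ o, P.ι o = algebraMap O A o
  al : ∀ l, P.α l = 1
  be : ∀ l, P.β l = 1
  inj : Function.Injective j
  loc : ∀ b, P.π b = 0 → j b ∈ maximalIdeal Λ
  cj : ∃ h h' : M2 Λ, h * h' = 1 ∧ Cg (maximalIdeal Λ) h 1 ∧ ∀ x,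
    c'.map (algebraMap O Λ) * (P.ρ x).map j * c.map (algebraMap O Λ) = h * ρ x * h'
  tr : ∀ x, j (P.ρ x).trace = (ρ x).trace
  det : ∀ x, j (P.ρ x).det = (ρ x).det
  one : ∀ x, ρ x = 1 → P.ρ x = 1
  cp : ∀ C : Cl S, (∀ (A' : Type) [CommRing A'] (X : Obj S A') (u : A →+* A'), Im P X u → C A' X) →
    Cp P C

theorem Nr.ty {A Λ : Type} [CommRing A] [Algebra O A] [CommRing Λ] [IsLocalRing Λ] [Algebra O Λ]
    {P : Fd S A} {j : A →ₐ[O] Λ} {c c' : M2 O} {ρ : G →* M2 Λ} (h : Nr P j c c' ρ) {δ : G → O}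
    {E I : Set G} (h1 : ∀ x ∈ E, (ρ x).det = algebraMap O Λ (δ x)) (h2 : ∀ x ∈ I, ρ x = 1) :
    Cp P (Ty (fun _ _ X => ∀ x ∈ E, (X.ρ x).det = X.ι (δ x)) I) :=
  h.cp _ fun A' _ X u k => ⟨fun x hx => by
    rw [← k.ρ, ← k.ι, h.io, ← RingHom.mapMatrix_apply, ← RingHom.map_det,
      h.inj (((h.det x).trans (h1 x hx)).trans (j.commutes _).symm)],
    fun x hx => by rw [← k.ρ, h.one x (h2 x hx), map_one']⟩

variable {c c' : M2 O} {r : G →* M2 F}

theorem ex_nr0 {A : Type} [CommRing A] [IsLocalRing A] [IsAdicComplete (maximalIdeal A) A]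
    [Algebra O A] (fin : ∀ n : ℕ, Finite (A ⧸ maximalIdeal A ^ n)) (hc : c * c' = 1)
    (res : ∀ x, r x = c'.map S.red * S.rb x * c.map S.red) (lam : S.red S.lam = S.rb S.g1 0 1)
    (π : A →+* F) (alg : ∀ o, π (algebraMap O A o) = S.red o) (ρ : G →* M2 A)
    (red : ∀ x, (ρ x).map π = r x) (lc : ∀ n : ℕ, IsOpen {x | Cg (maximalIdeal A ^ n) (ρ x) 1}) :
    ∃ P : Fd S A, P.π = π ∧ Nr P (AlgHom.id O A) c c' ρ := by
  have e1 : ∀ {R : Type} [CommRing R] (u : O →+* R), c.map u * c'.map u = 1 := fun u => by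
    rw [← Matrix.map_mul, hc, map_one']
  have e2 := mul_eq_one_comm.1 (e1 (algebraMap O A))
  have e3 : ∀ m : M2 O, (m.map (algebraMap O A)).map π = m.map S.red := fun m =>
    Matrix.ext fun _ _ => alg _
  have g1 : Gl S π (cj _ _ e2 ρ) := ⟨alg, fun x => by
    rw [cj_ap, Matrix.map_mul, Matrix.map_mul, e3, e3, red, res, ← mul_assoc, ← mul_assoc, e1,
      one_mul, mul_assoc, e1, mul_one], fun n => by
    refine (congrArg IsOpen (Set.ext fun x => ?_)).mpr (lc n)
    refine ⟨fun e => ?_, cg_cj e2⟩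
    have := cg_cj (e1 (algebraMap O A)) e
    rwa [cj_ap, ← mul_assoc, ← mul_assoc, e2, one_mul, mul_assoc, e2, mul_one] at this⟩
  obtain ⟨k, k', hk, k1, n⟩ := g1.ex_nf lam
  have g2 := g1.conj hk k1
  have hk' := mul_eq_one_comm.1 hk
  have ker : RingHom.ker π = maximalIdeal A := Ideal.ext fun _ => g1.ker
  have ap : ∀ x, cj k k' hk (cj _ _ e2 ρ) x =
      k' * c.map (algebraMap O A) * ρ x * (c'.map (algebraMap O A) * k) := fun x => by
    simp only [cj_ap, mul_assoc]
  have e4 : c'.map (algebraMap O A) * k * (k' * c.map (algebraMap O A)) = 1 := by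
    rw [mul_assoc, ← mul_assoc k, hk, one_mul, e2]
  refine ⟨⟨algebraMap O A, π, cj k k' hk (cj _ _ e2 ρ), fun _ => 1, fun _ => 1, alg, g2.res, n.dg,
    n.nm, fun _ => one_mul _, fun _ => map_one' π, rfl⟩, rfl, fun _ => rfl, fun _ => rfl,
    fun _ => rfl, Function.injective_id, fun b hb => g1.ker.1 hb,
    ⟨c'.map (algebraMap O A) * k' * c.map (algebraMap O A),
      c'.map (algebraMap O A) * k * c.map (algebraMap O A), ?_, fun a b => g1.ker.1 ?_, fun x => ?_⟩,
    fun x => ?_, fun x => ?_, fun x hx => ?_, fun C hC => ⟨?_, fun n => ?_, fun n => ?_, hC⟩⟩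
  · simp only [mul_assoc]
    rw [← mul_assoc (c.map _), e1, one_mul, ← mul_assoc k', hk', one_mul, e2]
  · have := congrFun (congrFun (show (c'.map (algebraMap O A) * k' * c.map (algebraMap O A)).map π =
      (1 : M2 A).map π by rw [Matrix.map_mul, Matrix.map_mul, n.one S.l0, mul_one, e3, e3,
        mul_eq_one_comm.1 (e1 _), map_one']) a) b
    exact (map_sub π _ _).trans (sub_eq_zero.2 this)
  · show _ * cj k k' hk (cj _ _ e2 ρ) x * _ = _
    simp only [ap, mul_assoc]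
  · show (cj k k' hk (cj _ _ e2 ρ) x).trace = _
    rw [ap, Matrix.trace_mul_cycle, e4, one_mul]
  · show (cj k k' hk (cj _ _ e2 ρ) x).det = _
    rw [ap, Matrix.det_mul, Matrix.det_mul, mul_right_comm, mul_comm (Matrix.det _),
      ← Matrix.det_mul, e4, Matrix.det_one, one_mul]
  · show cj k k' hk (cj _ _ e2 ρ) x = 1
    rw [ap, hx, mul_one, mul_eq_one_comm.1 e4]
  · show IsAdicComplete (RingHom.ker π) A
    rw [ker]
    infer_instance
  · show Finite (A ⧸ RingHom.ker π ^ n)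
    rw [ker]
    exact fin n
  · show {g | Cg (RingHom.ker π ^ n) _ 1} ∈ _
    rw [ker]
    exact (g2.lc n).mem_nhds fun a b => by rw [map_one, sub_self]; exact zero_mem _

section sub

variable (O) (Λ : Type) [CommRing Λ] [IsLocalRing Λ] [Algebra O Λ]

/-- the elements whose residue comes from `O` -/
def Sb : Subalgebra O Λ where
  carrier := {a | ∃ o, a - algebraMap O Λ o ∈ maximalIdeal Λ}
  mul_mem' := by
    rintro a b ⟨o, h⟩ ⟨o', h'⟩
    refine ⟨o * o', ?_⟩
    have := add_mem (Ideal.mul_mem_right b _ h) (Ideal.mul_mem_left _ (algebraMap O Λ o) h')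
    rwa [show (a - algebraMap O Λ o) * b + algebraMap O Λ o * (b - algebraMap O Λ o') =
      a * b - algebraMap O Λ (o * o') by rw [map_mul]; ring] at this
  add_mem' := by
    rintro a b ⟨o, h⟩ ⟨o', h'⟩
    exact ⟨o + o', by rw [map_add, add_sub_add_comm]; exact add_mem h h'⟩
  algebraMap_mem' o := ⟨o, by rw [sub_self]; exact zero_mem _⟩

variable {O Λ}

theorem mem_Sb {a : Λ} (h : a ∈ maximalIdeal Λ) : a ∈ Sb O Λ := ⟨0, by simpa using h⟩

theorem Sb_pow (n : ℕ) : ((maximalIdeal Λ).comap (Sb O Λ).val) ^ (n + 1) =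
    (maximalIdeal Λ ^ (n + 1)).comap (Sb O Λ).val := by
  refine le_antisymm (Ideal.le_comap_pow _ _) fun a ha => ?_
  have key : ∀ n, ∀ x ∈ maximalIdeal Λ ^ (n + 1),
      ∃ y ∈ ((maximalIdeal Λ).comap (Sb O Λ).val) ^ (n + 1), y.1 = x := fun n => by
    induction n with
    | zero =>
      simp only [zero_add, pow_one]
      exact fun x hx => ⟨⟨x, mem_Sb hx⟩, hx, rfl⟩
    | succ n ih =>
      intro x hx
      rw [pow_succ] at hx
      refine Submodule.mul_induction_on hx (fun a ha b hb => ?_) ?_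
      · obtain ⟨y, hy, rfl⟩ := ih a ha
        exact ⟨y * ⟨b, mem_Sb hb⟩, by rw [pow_succ]; exact Ideal.mul_mem_mul hy hb, rfl⟩
      · rintro _ _ ⟨y, hy, rfl⟩ ⟨y', hy', rfl⟩
        exact ⟨y + y', add_mem hy hy', rfl⟩
  obtain ⟨y, hy, e⟩ := key n _ ha
  exact Subtype.ext e ▸ hy

end sub

/-- **GPT** -/
theorem ex_nr [IsLocalRing O] {Λ : Type} [CommRing Λ] [Base Λ] [Algebra O Λ] {s : F → O}
    {d : G → O} (hs : ∀ x, S.red (s x) = x) (hc : c * c' = 1)
    (res : ∀ x, r x = c'.map S.red * S.rb x * c.map S.red) (lam : S.red S.lam = S.rb S.g1 0 1)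
    {ρ : G →* M2 Λ} (h : LiftC r s d ρ) : ∃ (A : Type) (_ : CommRing A) (_ : Algebra O A)
      (P : Fd S A) (j : A →ₐ[O] Λ), Nr P j c c' ρ := by
  have hO : ∀ o, S.red o = 0 ↔ o ∈ maximalIdeal O := fun o => by
    rw [← RingHom.mem_ker, eq_maximalIdeal (RingHom.ker_isMaximal_of_surjective _ S.surj)]
  have h1 : ∀ o, algebraMap O Λ o ∈ maximalIdeal Λ ↔ S.red o = 0 := fun o =>
    ⟨fun e => (hO o).2 fun u => e (u.map _), fun e => h.loc o ((hO o).1 e)⟩
  let A := Sb O Λ
  let m : Ideal A := (maximalIdeal Λ).comap A.val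
  let φ := (Ideal.Quotient.mk m).comp (algebraMap O A)
  have hφ : Function.Surjective φ := fun x => by
    obtain ⟨⟨b, o, ho⟩, rfl⟩ := Ideal.Quotient.mk_surjective x
    exact ⟨o, ((Ideal.Quotient.eq (I := m)).2 ho).symm⟩
  let π := (φ.liftOfSurjective hφ ⟨S.red, fun o ho =>
    (h1 o).1 ((Ideal.Quotient.eq_zero_iff_mem (I := m)).1 ho)⟩).comp (Ideal.Quotient.mk m)
  have p1 : ∀ o, π (algebraMap O A o) = S.red o := fun o => φ.liftOfSurjective_comp_apply hφ _ o
  have p2 : ∀ (b : A) o, b.1 - algebraMap O Λ o ∈ maximalIdeal Λ → π b = S.red o := fun b o e =>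
    (congrArg (φ.liftOfSurjective hφ _) ((Ideal.Quotient.eq (I := m)).2 e)).trans (p1 o)
  have un : ∀ b : A, b ∉ m → IsUnit b := by
    rintro ⟨b, o, ho⟩ hb
    obtain ⟨v, hv⟩ := (notMem_maximalIdeal.1 hb).exists_left_inv
    obtain ⟨o', ho'⟩ := (notMem_maximalIdeal.1 fun e : o ∈ maximalIdeal O =>
      hb (show b ∈ maximalIdeal Λ by simpa using add_mem ho (h.loc o e))).exists_left_inv
    refine IsUnit.of_mul_eq_one_right ⟨v, o', ?_⟩ (Subtype.ext hv)
    have := Ideal.mul_mem_left _ (-(v * algebraMap O Λ o')) ho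
    have e := congrArg (algebraMap O Λ) ho'
    rw [map_mul, map_one] at e
    have hv' : v * b = 1 := hv
    convert this using 1
    linear_combination (algebraMap O Λ o') * hv' - v * e
  have hm : m ≠ ⊤ := Ideal.comap_ne_top _ (maximalIdeal.isMaximal Λ).ne_top
  have : IsLocalRing A := .of_isUnit_or_isUnit_one_sub_self fun b => by
    by_cases hb : b ∈ m
    · exact Or.inr (un _ fun e => hm ((Ideal.eq_top_iff_one _).2 (by simpa using add_mem e hb)))
    · exact Or.inl (un b hb)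
  have em : maximalIdeal A = m := le_antisymm (fun b hb => by_contra fun e => hb (un b e))
    (le_maximalIdeal hm)
  have pw : ∀ n (b : A), b ∈ maximalIdeal A ^ n ↔ b.1 ∈ maximalIdeal Λ ^ n := fun n b => by
    rcases n with _ | n
    · simp
    · rw [em, Sb_pow]
      rfl
  have cΛ : IsAdicComplete (maximalIdeal Λ) Λ := Base.cpl
  have : IsAdicComplete (maximalIdeal A) A :=
    { haus' := fun x hx => Subtype.ext (IsHausdorff.haus (I := maximalIdeal Λ) inferInstance _
        fun n => by simpa [SModEq.zero, pw] using hx n)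
      prec' := fun f hf => by
        obtain ⟨L, hL⟩ := IsPrecomplete.prec (I := maximalIdeal Λ) (M := Λ) inferInstance
          (f := fun n => (f n).1) fun {a b} e => by simpa [SModEq.sub_mem, pw] using hf e
        have h2 : (f 1).1 - L ∈ maximalIdeal Λ := by simpa [SModEq.sub_mem] using hL 1
        have h3 : L ∈ A := by simpa using sub_mem (f 1).2 (mem_Sb h2)
        exact ⟨⟨L, h3⟩, fun n => by simpa [SModEq.sub_mem, pw] using hL n⟩ }
  have fin : ∀ n : ℕ, Finite (A ⧸ maximalIdeal A ^ n) := fun n => by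
    have := fin_pow Λ n
    refine Finite.of_injective (Ideal.quotientMap (maximalIdeal Λ ^ n) A.val.toRingHom
      fun b hb => (pw n b).1 hb) (Ideal.quotientMap_injective' fun b hb => (pw n b).2 hb)
  have vi : ∀ {m m' : M2 A}, m.map A.val = m'.map A.val → m = m' := fun e =>
    Matrix.ext fun a b => Subtype.ext (congrFun (congrFun e a) b)
  let ρ0 : G → M2 A := fun x => Matrix.of fun a b => ⟨ρ x a b, _, h.red x a b⟩
  have r0 : ∀ x, (ρ0 x).map A.val = ρ x := fun _ => rfl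
  let ρ' : G →* M2 A := ⟨⟨ρ0, vi (by rw [r0, map_one]; exact (map_one' A.val.toRingHom).symm)⟩,
    fun x y => vi (by rw [r0, map_mul, ← r0, ← r0]; exact (Matrix.map_mul (f := A.val)).symm)⟩
  obtain ⟨P, e, n⟩ := ex_nr0 fin hc res lam π p1 ρ' (fun x => Matrix.ext fun a b =>
    (p2 _ _ (h.red x a b)).trans (hs _)) fun n => by
      refine (congrArg IsOpen (Set.ext fun x => forall₂_congr fun a b => ?_)).mpr (h.lc n)
      rw [pw, ← map_one' A.val.toRingHom]
      rfl
  obtain ⟨k, k', k1, k2, k3⟩ := n.cj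
  refine ⟨A, inferInstance, inferInstance, P, A.val, n.io, n.al, n.be, Subtype.val_injective,
    fun b hb => by simpa using (pw 1 b).1 (by simpa using n.loc b hb),
    ⟨k.map A.val, k'.map A.val, ?_, fun a b => ?_, fun x => ?_⟩, fun x => ?_, fun x => ?_,
    fun x hx => n.one x (vi (hx.trans (map_one' A.val.toRingHom).symm)), n.cp⟩
  · rw [← Matrix.map_mul, k1]
    exact map_one' A.val.toRingHom
  · rw [← map_one' A.val.toRingHom]
    exact (em ▸ k2 a b : _ ∈ m)
  · rw [← r0, ← Matrix.map_mul, ← Matrix.map_mul, ← show _ = k * ρ0 x * k' from k3 x,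
      Matrix.map_mul, Matrix.map_mul]
    rfl
  · rw [show (P.ρ x).trace = _ from n.tr x, ← r0]
    exact AddMonoidHom.map_trace A.val _
  · rw [show (P.ρ x).det = _ from n.det x, ← r0]
    exact RingHom.map_det A.val.toRingHom _

/-- GPT over `O` itself -/
theorem ex_nrO [IsDomain O] [IsDiscreteValuationRing O] [hO : PL.Cf O] {s : F → O} {d : G → O}
    (hs : ∀ x, S.red (s x) = x) (hc : c * c' = 1)
    (res : ∀ x, r x = c'.map S.red * S.rb x * c.map S.red) (lam : S.red S.lam = S.rb S.g1 0 1)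
    {ρ : G →* M2 O} (h : LiftC r s d ρ) : ∃ P : Fd S O, Nr P (AlgHom.id O O) c c' ρ := by
  have := hO.cpl
  have : Base O := { cpl := hO.cpl, fin := hO.fin }
  have hk := eq_maximalIdeal (RingHom.ker_isMaximal_of_surjective _ S.surj)
  obtain ⟨P, -, n⟩ := ex_nr0 (A := O) (fin_pow O) hc res lam S.red (fun _ => rfl) ρ (fun x => Matrix.ext fun a b => by
      have : S.red _ = 0 := (hk ▸ h.red x a b : _ ∈ RingHom.ker S.red)
      rw [map_sub, sub_eq_zero] at this
      exact this.trans (hs _)) h.lc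
  exact ⟨P, n⟩

/-- the point as a homomorphism of algebras -/
theorem Nr.pt {A Λ : Type} [CommRing A] [Algebra O A] [CommRing Λ] [IsLocalRing Λ] [Algebra O Λ]
    {P : Fd S A} {j : A →ₐ[O] Λ} {ρ : G →* M2 Λ} (h : Nr P j c c' ρ) {τ : Type} {g : ℕ} {C : Cl S}
    {κ : Crd S τ} {Φ : Fam S τ g} (hS : Sd S) (hC : Closed C) (hΦ : Univ C κ Φ) (k : Cp P C) :
    ∃ (x : RU.PS O τ g →+* A) (φ : RU.PS O τ g →ₐ[O] Λ), Pn P C Φ x ∧ (∀ f, φ f = j (x f)) ∧
      (∀ i, φ (MvPowerSeries.X i) ∈ maximalIdeal Λ) ∧ ∀ f b, (∀ (A' : Type) [CommRing A']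
        (X : Obj S A') (u : A →+* A'), Im P X u → C A' X → Φ A' X f = u b) → φ f = j b := by
  obtain ⟨x, hx⟩ := ex_pn hS hC hΦ k
  refine ⟨x, ⟨j.toRingHom.comp x, fun o => ?_⟩, hx, fun _ => rfl, fun i => h.loc _ ?_,
    fun f b e => congrArg j (k.ext fun n => ?_)⟩
  · exact (congrArg j ((hx.cst hS k hΦ o).trans (h.io o))).trans (j.commutes o)
  · rw [hx.res hS k hΦ, MvPowerSeries.constantCoeff_X, map_zero]
  · rw [← hx _ _ _ (im_quo hS (k.gd n)), e _ _ _ (im_quo hS _) (k.cl _ _ _ (im_quo hS _))]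

end Vale.Agent.P022K.RT.Ob
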