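import Vale.Agent.P022K.RT.St2

/-!
# P022K, block RT, row FRAME, part A: functions on a finite abelian group with values in a module
-/

set_option linter.all false

noncomputable section

namespace Vale.Agent.P022K.RT.Fm

open IsLocalRing Module

section

variable {O R K M : Type} [CommRing O] [IsLocalRing O] [CommRing R] [Algebra O R] [Group K]
  [AddCommGroup M] [Module O M] [Module R M] [IsScalarTower O R M]

theorem mem_Lv {N : ℕ → Subgroup K} {ρ : K →* End R M} {j : ℕ} {v : M} : v ∈ Lv O N ρ j ↔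
    (∀ g ∈ N j, ρ g v = v) ∧ ∀ o ∈ maximalIdeal O ^ j, o • v = 0 := Iff.rfl

/-- change of the group along a surjection -/
theorem lv_comp {K' : Type} [Group K'] {N : ℕ → Subgroup K} {N' : ℕ → Subgroup K'}
    (ρ : K →* End R M) (e : K' →* K) (he : Function.Surjective e) {j : ℕ}
    (hN : ∀ g, g ∈ N' j ↔ e g ∈ N j) : Lv O N' (ρ.comp e) j = Lv O N ρ j := by
  ext v
  refine and_congr_left' ⟨fun h g hg => ?_, fun h g hg => h _ ((hN g).1 hg)⟩
  obtain ⟨g', rfl⟩ := he g
  exact h g' ((hN g').2 hg)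

theorem fre_comp {K' : Type} [Group K'] {N : ℕ → Subgroup K} {N' : ℕ → Subgroup K'}
    {ρ : K →* End R M} (e : K' →* K) (he : Function.Surjective e) {b j : ℕ}
    (hN : ∀ g, g ∈ N' j ↔ e g ∈ N j) (h : Fre O N ρ b j) : Fre O N' (ρ.comp e) b j := by
  classical
  obtain ⟨x, h1, h2, h3⟩ := h
  refine ⟨x, fun i => lv_comp (O := O) ρ e he hN ▸ h1 i, fun v hv => ?_, fun s c hs h0 γ hγ i => ?_⟩
  · refine Submodule.span_mono ?_ (h2 v (lv_comp (O := O) ρ e he hN ▸ hv))
    rintro _ ⟨⟨g, i⟩, rfl⟩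
    obtain ⟨g', rfl⟩ := he g
    exact ⟨(g', i), rfl⟩
  · have inj : Set.InjOn e s := fun a ha a' ha' h =>
      hs a ha a' ha' ((hN _).2 (by rw [map_mul, map_inv, h, inv_mul_cancel]; exact one_mem _))
    have key := h3 (s.image e) (fun k i => c (Function.invFunOn e s k) i) (fun a ha a' ha' h => by
      obtain ⟨a, hb, rfl⟩ := Finset.mem_image.1 ha
      obtain ⟨a', hb', rfl⟩ := Finset.mem_image.1 ha'
      rw [hs a hb a' hb' ((hN _).2 (by rwa [map_mul, map_inv]))]) (by
      rw [Finset.sum_image inj, ← h0]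
      exact Finset.sum_congr rfl fun a ha => by rw [inj.leftInvOn_invFunOn ha]; rfl)
      (e γ) (Finset.mem_image_of_mem e hγ) i
    rwa [inj.leftInvOn_invFunOn hγ] at key

/-- change of the module along an equivariant isomorphism, and change of the ring -/
theorem fre_equiv {R' M' : Type} [CommRing R'] [Algebra O R'] [AddCommGroup M'] [Module O M']
    [Module R' M'] [IsScalarTower O R' M'] {N : ℕ → Subgroup K} {ρ : K →* End R M}
    {ρ' : K →* End R' M'} (e : M ≃ₗ[O] M') (he : ∀ g v, e (ρ g v) = ρ' g (e v)) {b j : ℕ}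
    (h : Fre O N ρ b j) : Fre O N ρ' b j := by
  obtain ⟨x, h1, h2, h3⟩ := h
  have lv : ∀ v, v ∈ Lv O N ρ j ↔ e v ∈ Lv O N ρ' j := fun v =>
    and_congr (forall₂_congr fun g _ => by rw [← he, e.injective.eq_iff])
      (forall₂_congr fun o _ => by rw [← map_smul, e.map_eq_zero_iff])
  refine ⟨fun i => e (x i), fun i => (lv _).1 (h1 i), fun v hv => ?_, fun s c hs h0 => h3 s c hs ?_⟩
  · obtain ⟨v, rfl⟩ := e.surjective v
    have := Submodule.mem_map_of_mem (f := (e : M →ₗ[O] M')) (h2 v ((lv v).2 hv))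
    rw [Submodule.map_span, ← Set.range_comp] at this
    refine Submodule.span_mono ?_ this
    rintro _ ⟨q, rfl⟩
    exact ⟨q, (he _ _).symm⟩
  · apply e.injective
    simp only [map_sum, map_smul, he, h0, map_zero]

end

section

variable {R M : Type} [CommRing R] [AddCommGroup M] [Module R M] (Δ : Type)

/-- operators acting on the values -/
def pw : End R M →+* End R (Δ → M) where
  toFun θ := θ.compLeft Δ
  map_one' := rfl
  map_mul' _ _ := rfl
  map_zero' := rfl
  map_add' _ _ := rfl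

variable {Δ}

@[simp] theorem pw_apply (θ : End R M) (f : Δ → M) (d : Δ) : pw Δ θ f d = θ (f d) := rfl

variable [CommGroup Δ]

variable (R M) in
/-- translations -/
def tl : Δ →* End R (Δ → M) where
  toFun z := LinearMap.funLeft R M (· * z)
  map_one' := by ext1 f; funext d; simp
  map_mul' z z' := by ext1 f; funext d; simp [mul_assoc]

@[simp] theorem tl_apply (z : Δ) (f : Δ → M) (d : Δ) : tl R M z f d = f (d * z) := rfl

theorem pw_tl (θ : End R M) (z : Δ) : Commute (pw Δ θ) (tl R M z) := rfl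

variable {K K2 : Type} [Group K] [Group K2]

/-- the action of the product -/
def co (ρ : K →* End R M) (c : K2 →* Δ) : K × K2 →* End R (Δ → M) where
  toFun g := pw Δ (ρ g.1) * tl R M (c g.2)
  map_one' := by simp
  map_mul' g h := by
    ext1 f; funext d
    simp [mul_assoc]

@[simp] theorem co_apply (ρ : K →* End R M) (c : K2 →* Δ) (g : K × K2) (f : Δ → M) (d : Δ) :
    co ρ c g f d = ρ g.1 (f (d * c g.2)) := rfl

variable {O : Type} [CommRing O] [IsLocalRing O] [Algebra O R] [Module O M] [IsScalarTower O R M]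
  {N : ℕ → Subgroup K} {N2 : ℕ → Subgroup K2} {ρ : K →* End R M} {c : K2 →* Δ}

theorem mem_lv_co {j : ℕ} {f : Δ → M} : f ∈ Lv O (fun m => (N m).prod (N2 m)) (co ρ c) j ↔
    (∀ d, f d ∈ Lv O N ρ j) ∧ ∀ z ∈ N2 j, ∀ d, f (d * c z) = f d := by
  refine ⟨fun h => ⟨fun d => ⟨fun g hg => ?_, fun o ho => congrFun (h.2 o ho) d⟩, fun z hz d => ?_⟩,
    fun h => ⟨fun g hg => funext fun d => ?_, fun o ho => funext fun d => (h.1 d).2 o ho⟩⟩
  · simpa using congrFun (h.1 (g, 1) ⟨hg, one_mem _⟩) d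
  · simpa using congrFun (h.1 (1, z) ⟨one_mem _, hz⟩) d
  · rw [co_apply, h.2 _ hg.2, (h.1 d).1 _ hg.1]

open Classical in
/-- the function with the value `v` on a coset -/
def ind (O : Type) [CommRing O] [Module O M] (A : Subgroup Δ) (z : Δ) : M →ₗ[O] Δ → M where
  toFun v d := if d * z ∈ A then v else 0
  map_add' a b := funext fun d => by simp only [Pi.add_apply]; split_ifs <;> simp
  map_smul' o a := funext fun d => by simp only [Pi.smul_apply]; split_ifs <;> simp

open Classical in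
theorem ind_apply (A : Subgroup Δ) (z : Δ) (v : M) (d : Δ) :
    ind O A z v d = if d * z ∈ A then v else 0 := rfl

theorem co_ind (A : Subgroup Δ) (g : K × K2) (v : M) :
    co ρ c g (ind O A 1 v) = ind O A (c g.2) (ρ g.1 v) := by
  funext d
  rw [co_apply, ind_apply, ind_apply, mul_one]
  split_ifs
  exacts [rfl, map_zero _]

/-- **freeness of the module of functions** -/
theorem fre_co {b j : ℕ} (hc : Function.Surjective c) (hk : ∀ z, c z = 1 → z ∈ N2 j)
    (hi : (N2 j).index ≠ 0) (h : Fre O N ρ b j) :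
    Fre O (fun m => (N m).prod (N2 m)) (co ρ c) b j := by
  classical
  obtain ⟨x, h1, h2, h3⟩ := h
  set A := (N2 j).map c with hA
  have mem : ∀ z, c z ∈ A ↔ z ∈ N2 j := fun z => ⟨fun ⟨z', hz', e⟩ => by
    have := mul_mem hz' (hk (z'⁻¹ * z) (by rw [map_mul, map_inv, e, inv_mul_cancel]))
    rwa [mul_inv_cancel_left] at this, fun hz => ⟨z, hz, rfl⟩⟩
  refine ⟨fun i => ind O A 1 (x i), fun i => mem_lv_co.2 ⟨fun d => ?_, fun z hz d => ?_⟩,
    fun f hf => ?_, fun s t hs h0 γ hγ i => ?_⟩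
  · show ind O A 1 (x i) d ∈ _
    rw [ind_apply]
    split_ifs
    exacts [h1 i, zero_mem _]
  · simp only [ind_apply, mul_one, A.mul_mem_cancel_right ((mem z).2 hz)]
  · obtain ⟨f1, f2⟩ := mem_lv_co.1 hf
    have : Finite (Δ ⧸ A) := Subgroup.index_ne_zero_iff_finite.1 fun e =>
      hi (Nat.eq_zero_of_zero_dvd (e ▸ Subgroup.index_map_dvd _ hc))
    have := Fintype.ofFinite (Δ ⧸ A)
    have e : f = ∑ q : Δ ⧸ A, ind O A q.out⁻¹ (f q.out) := by
      funext d
      rw [Finset.sum_apply, Finset.sum_eq_single (d : Δ ⧸ A) (fun q _ hq => ?_) (by simp)]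
      · have m : (d : Δ ⧸ A).out⁻¹ * d ∈ A := QuotientGroup.eq.1 (QuotientGroup.out_eq' _)
        rw [ind_apply, if_pos (by rwa [mul_comm])]
        obtain ⟨z, hz, e⟩ := m
        rw [← f2 z hz (d : Δ ⧸ A).out, e, mul_inv_cancel_left]
      · rw [ind_apply, if_neg fun m => hq ?_]
        rw [mul_comm] at m
        exact (QuotientGroup.out_eq' q).symm.trans (QuotientGroup.eq.2 m)
    rw [e]
    refine Submodule.sum_mem _ fun q _ => ?_
    obtain ⟨z, hz⟩ := hc q.out⁻¹
    have := Submodule.mem_map_of_mem (f := ind O A q.out⁻¹) (h2 _ (f1 q.out))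
    rw [Submodule.map_span] at this
    refine Submodule.span_mono ?_ this
    rintro _ ⟨_, ⟨⟨g, i⟩, rfl⟩, rfl⟩
    exact ⟨((g, z), i), by rw [← hz]; exact co_ind A (g, z) (x i)⟩
  · set s0 := s.filter fun a => γ.2⁻¹ * a.2 ∈ N2 j with hs0
    have rel : ∀ a ∈ s0, ∀ a' ∈ s0, a.1⁻¹ * a'.1 ∈ N j → a = a' := fun a ha a' ha' h => by
      rw [hs0, Finset.mem_filter] at ha ha'
      refine hs a ha.1 a' ha'.1 ⟨h, ?_⟩
      have := mul_mem (inv_mem ha.2) ha'.2
      rwa [mul_inv_rev, inv_inv, mul_assoc, mul_inv_cancel_left] at this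
    have inj : Set.InjOn Prod.fst (s0 : Set (K × K2)) := fun a ha a' ha' h =>
      rel a ha a' ha' (by rw [show a.1 = a'.1 from h, inv_mul_cancel]; exact one_mem _)
    have hγ0 : γ ∈ s0 := Finset.mem_filter.2 ⟨hγ, by rw [inv_mul_cancel]; exact one_mem _⟩
    have key := h3 (s0.image Prod.fst) (fun k i => t (Function.invFunOn Prod.fst s0 k) i)
      (fun a ha a' ha' h => by
        obtain ⟨a, hb, rfl⟩ := Finset.mem_image.1 ha
        obtain ⟨a', hb', rfl⟩ := Finset.mem_image.1 ha'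
        rw [rel a hb a' hb' h]) (by
      rw [Finset.sum_image inj]
      have e := congrFun h0 (c γ.2)⁻¹
      simp only [Finset.sum_apply, Pi.smul_apply, co_ind, ind_apply, Pi.zero_apply, ← map_inv,
        ← map_mul, mem] at e
      rw [← e, hs0, Finset.sum_filter]
      refine Finset.sum_congr rfl fun a ha => ?_
      split_ifs with h
      · rw [inj.leftInvOn_invFunOn (Finset.mem_filter.2 ⟨ha, h⟩)]
      · simp) γ.1 (Finset.mem_image_of_mem _ hγ0) i
    rwa [inj.leftInvOn_invFunOn hγ0] at key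

end

/-! ### the group of the new variables -/

section

/-- the group `(ℤ / q) ^ a` -/
abbrev Dn (q a : ℕ) : Type := Multiplicative (Fin a → ZMod q)

/-- reduction -/
def rd (q a : ℕ) : Zr a →* Dn q a :=
  AddMonoidHom.toMultiplicative ((Int.castAddHom (ZMod q)).compLeft (Fin a))

theorem rd_apply {q a : ℕ} (z : Zr a) (s : Fin a) : (rd q a z).toAdd s = (z.toAdd s : ℤ) := rfl

theorem rd_surj (q a : ℕ) : Function.Surjective (rd q a) := fun d => by
  choose z hz using fun s => ZMod.intCast_surjective (d.toAdd s)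
  exact ⟨Multiplicative.ofAdd z, funext hz⟩

theorem mem_NZ {p a j : ℕ} {z : Zr a} : z ∈ NZ p a j ↔ ∀ s, (p : ℤ) ^ j ∣ z.toAdd s := Iff.rfl

theorem rd_eq_one {p a n : ℕ} {z : Zr a} : rd (p ^ n) a z = 1 ↔ z ∈ NZ p a n := by
  rw [mem_NZ, ← Nat.cast_pow]
  simp only [← ZMod.intCast_zmod_eq_zero_iff_dvd]
  exact ⟨fun h s => congrFun h s, fun h => funext h⟩

theorem NZ_anti (p a : ℕ) : Antitone (NZ p a) := fun _ _ h _ hz s =>
  (pow_dvd_pow _ h).trans (hz s)

theorem NZ_index {p : ℕ} (hp : p ≠ 0) (a j : ℕ) : (NZ p a j).index ≠ 0 := by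
  have : NeZero (p ^ j) := ⟨pow_ne_zero _ hp⟩
  rw [show NZ p a j = (rd (p ^ j) a).ker from Subgroup.ext fun z => rd_eq_one.symm,
    Subgroup.index_ker]
  exact Nat.card_pos.ne'

theorem mem_NZ' {p a j : ℕ} {z : Zr a} : z ∈ NZ p a j ↔ ∃ y, z = y ^ p ^ j := by
  refine ⟨fun h => ?_, ?_⟩
  · choose y hy using h
    refine ⟨Multiplicative.ofAdd y, Multiplicative.toAdd.injective (funext fun s => ?_)⟩
    simp [hy s]
  · rintro ⟨y, rfl⟩ s
    simp

theorem zg_gen {a : ℕ} (A : Subgroup (Zr a)) (h : ∀ s, zg s ∈ A) (z : Zr a) : z ∈ A := by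
  have e : z = ∏ s, zg s ^ z.toAdd s := by
    apply Multiplicative.toAdd.injective
    funext t
    simp [zg, toAdd_prod, Finset.sum_apply, Pi.single_apply]
  rw [e]
  exact prod_mem fun s _ => zpow_mem (h s) _

/-- the generators of the finite group -/
def dg (q : ℕ) {a : ℕ} (s : Fin a) : Dn q a := rd q a (zg s)

theorem dg_gen {q a : ℕ} (A : Subgroup (Dn q a)) (h : ∀ s, dg q s ∈ A) (d : Dn q a) : d ∈ A := by
  obtain ⟨z, rfl⟩ := rd_surj q a d
  exact zg_gen (A.comap (rd q a)) h z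

theorem dn_pow {q a : ℕ} (d : Dn q a) : d ^ q = 1 := by
  apply Multiplicative.toAdd.injective
  funext s
  simp

/-- the first block of variables -/
def z1 (r a : ℕ) : Zr (r + a) →* Zr r :=
  AddMonoidHom.toMultiplicative (LinearMap.funLeft ℤ ℤ (Fin.castAdd a)).toAddMonoidHom

/-- the second block of variables -/
def z2 (r a : ℕ) : Zr (r + a) →* Zr a :=
  AddMonoidHom.toMultiplicative (LinearMap.funLeft ℤ ℤ (Fin.natAdd r)).toAddMonoidHom

theorem z1_apply {r a : ℕ} (z : Zr (r + a)) (s : Fin r) :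
    (z1 r a z).toAdd s = z.toAdd (Fin.castAdd a s) := rfl

theorem z2_apply {r a : ℕ} (z : Zr (r + a)) (s : Fin a) :
    (z2 r a z).toAdd s = z.toAdd (Fin.natAdd r s) := rfl

theorem cast_ne_nat {r a : ℕ} (s : Fin r) (t : Fin a) : Fin.castAdd a s ≠ Fin.natAdd r t :=
  fun e => by
    have := congrArg Fin.val e
    simp only [Fin.val_castAdd, Fin.val_natAdd] at this
    omega

theorem z1_l {r a : ℕ} (s : Fin r) : z1 r a (zg (Fin.castAdd a s)) = zg s := by
  apply Multiplicative.toAdd.injective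
  funext t
  simp [z1_apply, zg, Pi.single_apply]

theorem z1_r {r a : ℕ} (s : Fin a) : z1 r a (zg (Fin.natAdd r s)) = 1 := by
  apply Multiplicative.toAdd.injective
  funext t
  simp [z1_apply, zg, Pi.single_apply, cast_ne_nat]

theorem z2_l {r a : ℕ} (s : Fin r) : z2 r a (zg (Fin.castAdd a s)) = 1 := by
  apply Multiplicative.toAdd.injective
  funext t
  simp [z2_apply, zg, Pi.single_apply, (cast_ne_nat _ _).symm]

theorem z2_r {r a : ℕ} (s : Fin a) : z2 r a (zg (Fin.natAdd r s)) = zg s := by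
  apply Multiplicative.toAdd.injective
  funext t
  simp [z2_apply, zg, Pi.single_apply]

theorem mem_NZ_add {p r a j : ℕ} {z : Zr (r + a)} :
    z ∈ NZ p (r + a) j ↔ z1 r a z ∈ NZ p r j ∧ z2 r a z ∈ NZ p a j :=
  ⟨fun h => ⟨fun _ => h _, fun _ => h _⟩, fun h s => Fin.addCases h.1 h.2 s⟩

variable {K : Type} [Group K] {r a : ℕ}

variable (K) in
/-- the splitting of the variables, sheared by `l` -/
def sp (l : Zr r →* Zr a) : K × Zr (r + a) →* (K × Zr r) × Zr a where
  toFun g := ((g.1, z1 r a g.2), l (z1 r a g.2) * z2 r a g.2)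
  map_one' := by simp
  map_mul' g h := by simp [mul_mul_mul_comm]

theorem sp_apply (l : Zr r →* Zr a) (g : K × Zr (r + a)) :
    sp K l g = ((g.1, z1 r a g.2), l (z1 r a g.2) * z2 r a g.2) := rfl

theorem sp_surj (l : Zr r →* Zr a) : Function.Surjective (sp K l) := fun g => by
  have e1 : ∀ (x : Zr r) (y : Zr a),
      z1 r a (Multiplicative.ofAdd (Fin.append x.toAdd y.toAdd)) = x := fun x y =>
    funext fun s => Fin.append_left _ _ s
  have e2 : ∀ (x : Zr r) (y : Zr a),
      z2 r a (Multiplicative.ofAdd (Fin.append x.toAdd y.toAdd)) = y := fun x y =>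
    funext fun s => Fin.append_right _ _ s
  exact ⟨(g.1.1, Multiplicative.ofAdd (Fin.append g.1.2.toAdd ((l g.1.2)⁻¹ * g.2).toAdd)), by
    rw [sp_apply, e1, e2, mul_inv_cancel_left]⟩

theorem sp_mem (l : Zr r →* Zr a) (N : ℕ → Subgroup K) (p j : ℕ) (g : K × Zr (r + a)) :
    g ∈ NP N p (r + a) j ↔ sp K l g ∈ NP (NP N p r) p a j := by
  have hl : z1 r a g.2 ∈ NZ p r j → l (z1 r a g.2) ∈ NZ p a j := fun h => by
    obtain ⟨y, e⟩ := mem_NZ'.1 h
    exact mem_NZ'.2 ⟨l y, by rw [e, map_pow]⟩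
  exact ⟨fun h => ⟨⟨h.1, (mem_NZ_add.1 h.2).1⟩,
      mul_mem (hl (mem_NZ_add.1 h.2).1) (mem_NZ_add.1 h.2).2⟩,
    fun h => ⟨h.1.1, mem_NZ_add.2 ⟨h.1.2, ((NZ p a j).mul_mem_cancel_left (hl h.1.2)).1 h.2⟩⟩⟩

variable {R M : Type} [CommRing R] [AddCommGroup M] [Module R M]

/-- **the action on the framed module** -/
def fr (ρ : K × Zr r →* End R M) (l : Zr r →* Zr a) (q : ℕ) :
    K × Zr (r + a) →* End R (Dn q a → M) := (co ρ (rd q a)).comp (sp K l)

variable (ρ : K × Zr r →* End R M) (l : Zr r →* Zr a) (q : ℕ)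

theorem fr_apply (g : K × Zr (r + a)) : fr ρ l q g =
    pw _ (ρ (g.1, z1 r a g.2)) * tl R M (rd q a (l (z1 r a g.2) * z2 r a g.2)) := rfl

theorem fr_k (k : K) : fr ρ l q (k, 1) = pw _ (ρ (k, 1)) := by simp [fr_apply]

theorem fr_l (s : Fin r) : fr ρ l q (1, zg (Fin.castAdd a s)) =
    pw _ (ρ (1, zg s)) * tl R M (rd q a (l (zg s))) := by simp [fr_apply, z1_l, z2_l]

theorem fr_r (s : Fin a) : fr ρ l q (1, zg (Fin.natAdd r s)) = tl R M (dg q s) := by
  rw [fr_apply, z1_r, z2_r, map_one, one_mul, Prod.mk_one_one, map_one, map_one, one_mul, dg]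

/-- the vectors fixed by the new variables are the constant functions -/
theorem const_of {q a : ℕ} {f : Dn q a → M} (h : ∀ s, tl R M (dg q s) f = f) (d : Dn q a) :
    f d = f 1 := by
  let A : Subgroup (Dn q a) :=
    { carrier := {z | tl R M z f = f}
      mul_mem' := fun {x y} hx hy => by
        show tl R M (x * y) f = f
        rw [map_mul, End.mul_apply, hy, hx]
      one_mem' := by simp
      inv_mem' := fun {x} hx => by
        show tl R M x⁻¹ f = f
        conv_lhs => rw [← show tl R M x f = f from hx]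
        rw [← End.mul_apply, ← map_mul, inv_mul_cancel, map_one, End.one_apply] }
  simpa using congrFun (dg_gen A h d) 1

variable {O : Type} [CommRing O] [IsLocalRing O] [Algebra O R] [Module O M] [IsScalarTower O R M]
  {N : ℕ → Subgroup K} {p : ℕ} {ρ}

/-- **the framed module is free** -/
theorem fre_fr (hp : p ≠ 0) {b j n : ℕ} (hj : j ≤ n) (h : Fre O (NP N p r) ρ b j) :
    Fre O (NP N p (r + a)) (fr ρ l (p ^ n)) b j :=
  fre_comp (N := NP (NP N p r) p a) _ (sp_surj l) (sp_mem l N p j)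
    (fre_co (rd_surj _ _) (fun _ hz => NZ_anti p a hj (rd_eq_one.1 hz)) (NZ_index hp a j) h)

theorem mem_lv_fr {j : ℕ} {f : Dn q a → M} : f ∈ Lv O (NP N p (r + a)) (fr ρ l q) j ↔
    (∀ d, f d ∈ Lv O (NP N p r) ρ j) ∧ ∀ z ∈ NZ p a j, ∀ d, f (d * rd q a z) = f d := by
  rw [fr, lv_comp (N := NP (NP N p r) p a) _ _ (sp_surj l) (sp_mem l N p j)]
  exact mem_lv_co

/-- operators on the values which keep the level bounded -/
theorem lv_pw {θ : M → M} {j j' : ℕ} (hj : j ≤ j')
    (h : ∀ v ∈ Lv O (NP N p r) ρ j, θ v ∈ Lv O (NP N p r) ρ j') {f : Dn q a → M}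
    (hf : f ∈ Lv O (NP N p (r + a)) (fr ρ l q) j) :
    (fun d => θ (f d)) ∈ Lv O (NP N p (r + a)) (fr ρ l q) j' := by
  rw [mem_lv_fr] at hf ⊢
  exact ⟨fun d => h _ (hf.1 d), fun z hz d => by rw [hf.2 z (NZ_anti p a hj hz)]⟩

end

end Vale.Agent.P022K.RT.Fm
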