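import Vale.Agent.P022K.RT.St2
import Vale.Agent.P022K.Iw.Inst

/-!
# P022K, block RT: row UNP and the uniform group at the places over `p`
-/

set_option linter.all false

noncomputable section

namespace Vale.Agent.P022K.RT

open Vale.Agent.P022K.WB

namespace Up

theorem prod_zg {r : ℕ} (a : Fin r → ℕ) :
    (List.ofFn fun s => zg s ^ a s).prod = Multiplicative.ofAdd fun s => (a s : ℤ) := by
  rw [List.prod_ofFn]
  refine Multiplicative.toAdd.injective (funext fun s => ?_)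
  simp [zg, toAdd_prod, Finset.sum_apply, Pi.single_apply]

variable {K : Type} [Group K] {e r : ℕ} (k : Fin e → K)

theorem mon_fst (a : Fin e ⊕ Fin r → ℕ) :
    (mon (kP k r) a).1 = (List.ofFn fun i => k i ^ a (Sum.inl i)).prod := by
  have h := map_list_prod (MonoidHom.fst K (Zr r))
  simp only [MonoidHom.coe_fst] at h
  simp [mon, h, List.map_ofFn, Function.comp_def, kP]

theorem mon_snd (a : Fin e ⊕ Fin r → ℕ) :
    (mon (kP k r) a).2 = Multiplicative.ofAdd fun s => (a (Sum.inr s) : ℤ) := by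
  have h := map_list_prod (MonoidHom.snd K (Zr r))
  simp only [MonoidHom.coe_snd] at h
  simp [mon, h, List.map_ofFn, Function.comp_def, kP, prod_zg]

theorem mon_zero (a : Fin e ⊕ Fin 0 → ℕ) :
    mon (fun i => (kP k 0 i).1) a = (List.ofFn fun i => k i ^ a (Sum.inl i)).prod := by
  simp [mon, kP]

theorem ex_Z {p : ℕ} (hp : p ≠ 0) (m : ℕ) (z : Zr r) : ∃ a : Fin r → ℕ,
    (Multiplicative.ofAdd fun s => (a s : ℤ))⁻¹ * z ∈ NZ p r m := by
  have h0 : (p : ℤ) ^ m ≠ 0 := pow_ne_zero _ (Nat.cast_ne_zero.2 hp)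
  refine ⟨fun s => (z.toAdd s % (p : ℤ) ^ m).toNat, fun s => ?_⟩
  have := Int.dvd_self_sub_emod (x := z.toAdd s) (m := (p : ℤ) ^ m)
  simpa [Int.toNat_of_nonneg (Int.emod_nonneg _ h0), neg_add_eq_sub] using this

theorem inj_Z {p m : ℕ} {a a' : Fin r → ℕ} (h : (Multiplicative.ofAdd fun s => (a s : ℤ))⁻¹ *
    (Multiplicative.ofAdd fun s => (a' s : ℤ)) ∈ NZ p r m) (s : Fin r) :
    a s ≡ a' s [MOD p ^ m] := by
  rw [Nat.modEq_iff_dvd]
  simpa [neg_add_eq_sub] using h s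

theorem anti_Z (p r : ℕ) : Antitone (NZ p r) :=
  fun _ _ h _ hx s => (pow_dvd_pow _ h).trans (hx s)

theorem pow_Z (p m : ℕ) (s : Fin r) : zg s ^ p ^ m ∈ NZ p r m := fun s' => by
  simp [zg]

theorem unf_prod {p : ℕ} (hp : p ≠ 0) {N : ℕ → Subgroup K}
    (h : Unf p (fun i => (kP k 0 i).1) N) : Unf p (kP k r) (NP N p r) where
  nor m := by have := h.nor m; unfold NP; infer_instance
  anti _ _ e := Subgroup.prod_mono (h.anti e) (anti_Z p r e)
  cen s := Subgroup.mem_center_iff.2 fun x => Prod.ext (by simp [kP]) (mul_comm _ _)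
  pow m i := by
    rcases i with i | s
    · exact ⟨h.pow m (Sum.inl i), by simp [kP]⟩
    · exact ⟨by simp [kP], pow_Z p m s⟩
  ex m g := by
    obtain ⟨a, ha⟩ := h.ex m g.1
    obtain ⟨c, hc⟩ := ex_Z hp m g.2
    refine ⟨Sum.elim (fun i => a (Sum.inl i)) c, ?_, ?_⟩
    · rw [mon_zero] at ha
      show (mon (kP k r) _).1⁻¹ * g.1 ∈ N m
      rwa [mon_fst]
    · show (mon (kP k r) _).2⁻¹ * g.2 ∈ NZ p r m
      rwa [mon_snd]
  inj m a a' e i := by
    rcases i with i | s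
    · refine h.inj m (Sum.elim (fun i => a (Sum.inl i)) Fin.elim0)
        (Sum.elim (fun i => a' (Sum.inl i)) Fin.elim0) ?_ (Sum.inl i)
      have h1 : (mon (kP k r) a).1⁻¹ * (mon (kP k r) a').1 ∈ N m := e.1
      rw [mon_fst, mon_fst] at h1
      rwa [mon_zero, mon_zero]
    · have h1 : (mon (kP k r) a).2⁻¹ * (mon (kP k r) a').2 ∈ NZ p r m := e.2
      rw [mon_snd, mon_snd] at h1
      exact inj_Z h1 s
  com m g g' := by
    obtain ⟨u, hu⟩ := h.com m g.1 g'.1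
    exact ⟨(u, 1), hu, by simp [mul_comm g.2]⟩

theorem unf_Z {p : ℕ} (hp : p ≠ 0) :
    Unf p (fun s : Fin 0 ⊕ Fin r => (kP (Fin.elim0 : Fin 0 → Unit) r s).2) (NZ p r) := by
  have hm : ∀ a, mon (fun s : Fin 0 ⊕ Fin r => (kP (Fin.elim0 : Fin 0 → Unit) r s).2) a =
      Multiplicative.ofAdd fun s => (a (Sum.inr s) : ℤ) := fun a => by
    simp [mon, kP, prod_zg]
  refine ⟨fun m => inferInstance, anti_Z p r, fun s => by rw [CommGroup.center_eq_top]; trivial,
    fun m i => ?_, fun m g => ?_, fun m a a' e i => ?_, fun m g g' => ⟨1, by simp [mul_comm g]⟩⟩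
  · rcases i with i | s
    · exact i.elim0
    · exact pow_Z p m s
  · obtain ⟨c, hc⟩ := ex_Z hp m g
    exact ⟨Sum.elim Fin.elim0 c, by rwa [hm]⟩
  · rcases i with i | s
    · exact i.elim0
    · rw [hm, hm] at e
      exact inj_Z e s

end Up

/-- **row UNP** -/
theorem unp : UNP := fun _ _ _ _ _ hp k _ h =>
  ⟨Up.unf_prod k hp.out.ne_zero h, Up.unf_Z hp.out.ne_zero⟩

variable (p q : ℕ) [Fact p.Prime] {δ : Type} [DecidableEq δ] {e : ℕ}

/-- the generators of `K(p ^ (q + 2)) ^ δ` modulo the centre -/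
def kG (ε : Fin e ≃ δ × Fin 3) (i : Fin e) : δ → Kn p (q + 2) :=
  Pi.mulSingle (ε i).1 (Iw.gK p q (ε i).2)

variable (δ) in
/-- the filtration of `K(p ^ (q + 2)) ^ δ` -/
def NG (m : ℕ) : Subgroup (δ → Kn p (q + 2)) := Subgroup.pi Set.univ fun _ => Iw.NK p q m

variable {p q}

omit [DecidableEq δ] in
theorem mem_NG {m : ℕ} {x : δ → Kn p (q + 2)} : x ∈ NG p q δ m ↔
    ∀ v, ∃ z : ℚ_[p]ˣ, ∃ k' ∈ Kn p (m + (q + 2)), (x v).1 = dd z z * k' :=
  ⟨fun h v => Iw.mem_NK.1 (h v trivial), fun h v _ => Iw.mem_NK.2 (h v)⟩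

/-- **the uniform group at the places over `p`** -/
theorem unf_G [Finite δ] (ε : Fin e ≃ δ × Fin 3) :
    Unf p (kP (kG p q ε) 0 · |>.1) (NG p q δ) := by
  have h := (Iw.Uo.pi fun _ : δ => Iw.uo_K (p := p) (q := q)).reindex
    ((Equiv.sumEmpty (Fin e) (Fin 0)).trans (ε.trans (Equiv.sigmaEquivProd δ (Fin 3)).symm))
  refine Iw.unf_of_uo ?_ Fact.out fun s => s.elim0
  convert h using 1
  · funext i
    rcases i with i | s
    · rfl
    · exact s.elim0
  · rfl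

theorem unf_GP [Finite δ] (ε : Fin e ≃ δ × Fin 3) (r : ℕ) :
    Unf p (kP (kG p q ε) r) (NP (NG p q δ) p r) :=
  (unp _ p e r _ _ (unf_G ε)).1

end Vale.Agent.P022K.RT
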