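import Vale.Agent.P022K.RT.TwlB
import Vale.Agent.P022K.RT.Unp
import Vale.Agent.P022K.Top.Defs
import Mathlib.GroupTheory.NoncommPiCoprod
import Mathlib.GroupTheory.NoncommCoprod

/-!
# P022K, block RT, row TWL, part D: Taylor-Wiles levels on a site, definitions
-/

set_option linter.all false

noncomputable section

namespace Vale.Agent.P022K.RT.Tl

open IsLocalRing Module Vale.Agent.P022 Vale.Agent.P022.C CH Sh Top
open Vale.Agent.P022.H443 (inP)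
open Vale.Agent.P022E.GW (Ov)
open Vale.Agent.P022K.WB (Kn)

/-- upper triangular matrices whose ratio of diagonal entries is an `m`-th power -/
def Bn (k : Type) [Field k] (m : ℕ) : Subgroup (GL (Fin 2) k) where
  carrier := {g | g 1 0 = 0 ∧ ∃ x : kˣ, g 0 0 = x ^ m * g 1 1}
  mul_mem' := by
    rintro a b ⟨ha, x, hx⟩ ⟨hb, y, hy⟩
    refine ⟨by simp [Matrix.mul_apply, Fin.sum_univ_two, ha, hb], x * y, ?_⟩
    simp [Matrix.mul_apply, Fin.sum_univ_two, ha, hb, hx, hy, mul_pow]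
    ring
  one_mem' := ⟨by simp, 1, by simp⟩
  inv_mem' := by
    rintro a ⟨ha, x, hx⟩
    refine ⟨by simp [Matrix.inv_def, Matrix.adjugate_fin_two, ha], x⁻¹, ?_⟩
    simp [Matrix.inv_def, Matrix.adjugate_fin_two, ha, hx]
    field_simp

/-- the Taylor-Wiles level -/
def Iwn (O K : Type) [CommRing O] [IsDomain O] [IsDiscreteValuationRing O] [Field K] [Algebra O K]
    (m : ℕ) : Subgroup (GL (Fin 2) K) := Up O K (Bn _ m)

/-- `φ` identifies `Y` with the submodule `X`, on which `K` acts through `κ` -/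
structure Emb {O R G K M Y : Type} [CommRing O] [CommRing R] [Group G] [Group K] [AddCommGroup M]
    [Module O M] [AddCommGroup Y] [Module O Y] [Module R Y] (a : G →* End O M)
    (X : Submodule O M) (κ : K →* G) (ρ : K →* End R Y) (φ : Y →ₗ[O] M) : Prop where
  inj : Function.Injective φ
  rng : ∀ v, (∃ y, φ y = v) ↔ v ∈ X
  eqv : ∀ g y, φ (ρ g y) = a (κ g) (φ y)

/-- the restriction to a stable submodule -/
def rst {O G K M : Type} [CommRing O] [Group G] [Group K] [AddCommGroup M] [Module O M]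
    (a : G →* End O M) (X : Submodule O M) (κ : K →* G) (h : ∀ g, ∀ v ∈ X, a (κ g) v ∈ X) :
    K →* End O X where
  toFun g := (a (κ g)).restrict (h g)
  map_one' := LinearMap.ext fun v => Subtype.ext (by show a (κ 1) v.1 = v; simp)
  map_mul' g g' := LinearMap.ext fun v => Subtype.ext (by
    show a (κ (g * g')) v.1 = a (κ g) (a (κ g') v.1); simp)

theorem emb_rst {O G K M : Type} [CommRing O] [Group G] [Group K] [AddCommGroup M] [Module O M]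
    (a : G →* End O M) (X : Submodule O M) (κ : K →* G) (h : ∀ g, ∀ v ∈ X, a (κ g) v ∈ X) :
    Emb a X κ (rst a X κ h) X.subtype :=
  ⟨X.injective_subtype, fun v => ⟨fun ⟨y, e⟩ => e ▸ y.2, fun hv => ⟨⟨v, hv⟩, rfl⟩⟩, fun _ _ => rfl⟩

theorem com_ne {G0 G : Type} [Group G0] [Group G] {T : Tw G0 G} {O K O' K' : Type} [CommRing O]
    [IsDomain O] [IsDiscreteValuationRing O] [Field K] [Algebra O K] [CommRing O'] [IsDomain O']
    [IsDiscreteValuationRing O'] [Field K'] [Algebra O' K'] {w : T.Lc O K} {w' : T.Lc O' K'}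
    (h : w.Ne w') (g : GL (Fin 2) K) (g' : GL (Fin 2) K') : Commute (w.ι g) (w'.ι g') :=
  w.com g _ (h.1 g')

variable {p : ℕ} [Fact p.Prime] {O : Type} [CommRing O] [Algebra ℤ_[p] O] {Z : Si p O}

/-- the group at the places over `p` -/
def xp (h : Z.Ok) : (Z.J → GL (Fin 2) ℚ_[p]) →* Z.G :=
  MonoidHom.noncommPiCoprod (fun k => (Z.x k).ι) fun k k' e => com_ne (h.xx k k' e)

/-- the uniform group at the places over `p` -/
def xk (h : Z.Ok) (q : ℕ) : (Z.J → Kn p (q + 2)) →* Z.G :=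
  (xp h).comp (MonoidHom.compLeft (Kn p (q + 2)).subtype Z.J)

variable (Z) in
/-- the cyclotomic character as a homomorphism -/
def cyH : Z.H →* O := ((algebraMap ℤ_[p] O).toMonoidHom.comp ((Units.coeHom _).comp
  ((cyclotomicCharacter Qb p).comp (MulSemiringAction.toRingAut GQ Qb)))).comp Z.H.subtype

theorem cyH_apply (s : Z.H) : cyH Z s = cy p O s := rfl

variable (Z) in
/-- the part on which the trace operators are residually the scalars `t` -/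
def Mm (t : Z.H → O) : Submodule O Z.M := ⨅ s, Nl (Z.tg s - t s • 1)

variable (Z) in
/-- the localised completed cohomology of the tame level -/
def Y0 (t : Z.H → O) : Submodule O Z.M := Z.Mp ⊓ Mm Z t

variable [IsLocalRing O]

variable (Z) in
/-- **Taylor-Wiles data** -/
structure TW (t : Z.H → O) (r n : ℕ) : Type where
  ok : Z.Ok
  Q : Fin r → Z.I
  α : Fin r → O
  P : Fin r → Id
  φ : Fin r → Z.H
  τ : Fin r → Z.H
  c : ∀ s, ℤ_[Z.l (Q s)]ˣ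
  inj : Function.Injective Q
  pos : 0 < n
  dvd : ∀ s, p ^ n ∣ (Z.l (Q s) : ℕ) - 1
  ov : ∀ s, Ov (Z.l (Q s)) (P s)
  fr : ∀ s, FrI Z.j (Z.v (Q s)) (P s) (φ s)
  un : ∀ s, IsUnit (α s ^ 2 - 1)
  tr : ∀ s, α s ^ 2 - t (φ s) * α s + 1 ∈ maximalIdeal O
  ine : ∀ s, (τ s).1 ∈ inP (P s)
  twm : ∀ s, (Z.w (Q s)).TwM Z.a (Z.g (τ s)) (c s)
  gen : ∀ s (x : ResidueField ℤ_[Z.l (Q s)]), x ≠ 0 → ∃ e : ℕ, residue _ (c s : ℤ_[Z.l (Q s)]) ^ e = x

namespace TW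

variable {t : Z.H → O} {r n : ℕ} (D : TW Z t r n)

/-- the module of Taylor-Wiles level -/
def Y : Submodule O Z.M := Fv Z.a (Z.aw (Set.range D.Q)) ⊓ Mm Z t ⊓
  ⨅ s, (Z.w (D.Q s)).Fl Z.a (Iwn ℤ_[Z.l (D.Q s)] _ (p ^ n)) ⊓ Nl (Uw (Z.w (D.Q s)) Z.a - D.α s • 1)

/-- the diamond element -/
def d (s : Fin r) : Z.G := (Z.w (D.Q s)).ι (dO _ (D.c s))

/-- the group at the Taylor-Wiles places -/
def xq : (∀ s, GL (Fin 2) ℚ_[Z.l (D.Q s)]) →* Z.G :=
  MonoidHom.noncommPiCoprod (fun s => (Z.w (D.Q s)).ι) fun s s' e =>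
    com_ne (D.ok.ww _ _ fun e' => e (D.inj e'))

theorem com_pq (x : Z.J → GL (Fin 2) ℚ_[p]) (y : ∀ s, GL (Fin 2) ℚ_[Z.l (D.Q s)]) :
    Commute (xp D.ok x) (D.xq y) :=
  MonoidHom.commute_noncommPiCoprod _ (fun s y => (MonoidHom.commute_noncommPiCoprod _
    (fun k x => (com_ne (D.ok.xw k (D.Q s)) x y).symm) x).symm) y

/-- the diamond matrices -/
def dz : Zr r →* ∀ s, GL (Fin 2) ℚ_[Z.l (D.Q s)] where
  toFun z s := dO _ (D.c s) ^ z.toAdd s
  map_one' := funext fun s => zpow_zero _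
  map_mul' z z' := funext fun s => zpow_add _ _ _

/-- the action of the patching group -/
def kap (q : ℕ) : (Z.J → Kn p (q + 2)) × Zr r →* Z.G :=
  (xk D.ok q).noncommCoprod (D.xq.comp D.dz) fun x z => D.com_pq (fun k => x k) (D.dz z)

/-- the trace to the tame level -/
def E : End O Z.M := ((List.finRange r).map fun s => Ew (Z.w (D.Q s)) Z.a).prod

/-- the vectors which are fixed by the diamonds -/
def Yd : Submodule O Z.M := D.Y ⊓ ⨅ s, LinearMap.ker (Z.a (D.d s) - 1)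

end TW

/-- operators which commute with everything that defines the modules -/
structure Nt (Q : Set Z.I) (θ : End O Z.M) : Prop where
  fv : ∀ v ∈ Fv Z.a (Z.aw Q), θ v ∈ Fv Z.a (Z.aw Q)
  tg : ∀ s, ∀ v ∈ Fv Z.a (Z.aw Q), θ (Z.tg s v) = Z.tg s (θ v)
  cm : ∀ i ∈ Q, Cm (Z.w i) Z.a θ

omit [IsLocalRing O] in
/-- the part of `Gm` which speaks about the module -/
structure Gq {Y : Type} [AddCommGroup Y] [Module O Y] (t : Z.H → O) (γ : Z.H →* End O Y) :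
    Prop where
  cen : ∀ g h, Commute (tt γ (cyH Z) g) (γ h)
  fin : ∀ v, ∃ X : Submodule O Y, v ∈ X ∧ (X : Set Y).Finite ∧ ∀ g, ∀ w ∈ X, γ g w ∈ X
  nil : ∀ g, Lnil (tt γ (cyH Z) g - t g • 1)

/-- **the output at Taylor-Wiles level** -/
structure TW.Out {t : Z.H → O} {r n : ℕ} (D : TW Z t r n) (q b : ℕ) : Prop where
  stab : ∀ g, ∀ v ∈ D.Y, Z.a (D.kap q g) v ∈ D.Y
  nat : ∀ θ, Nt (Set.range D.Q) θ → (∀ v ∈ D.Y, θ v ∈ D.Y) ∧ Commute θ D.E
  fre : ∀ (R Y : Type) [CommRing R] [Algebra O R] [AddCommGroup Y] [Module O Y] [Module R Y]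
    [IsScalarTower O R Y] (ρ : (Z.J → Kn p (q + 2)) × Zr r →* End R Y) (φ : Y →ₗ[O] Z.M),
    Emb Z.a D.Y (D.kap q) ρ φ → (∀ j ≤ n, Fre O (NP (NG p q Z.J) p r) ρ b j) ∧
      ∀ v, ∃ j, v ∈ Lv O (NP (NG p q Z.J) p r) ρ j
  bij : Set.BijOn D.E D.Yd (Y0 Z t)
  tau : ∀ s, ∀ v ∈ D.Y, Z.tg (D.τ s) v = Z.a (D.d s) v + Z.a (D.d s)⁻¹ v
  gq : ∀ (Y : Type) [AddCommGroup Y] [Module O Y] (γ : Z.H →* End O Y) (φ : Y →ₗ[O] Z.M),
    Emb Z.g D.Y (MonoidHom.id _) γ φ → Gq t γ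

/-- the output at the tame level -/
structure Out0 (h : Z.Ok) (t : Z.H → O) (q b : ℕ) : Prop where
  nat : ∀ θ, Nt (∅ : Set Z.I) θ → ∀ v ∈ Y0 Z t, θ v ∈ Y0 Z t
  cof : ∀ (R Y : Type) [CommRing R] [Algebra O R] [AddCommGroup Y] [Module O Y] [Module R Y]
    [IsScalarTower O R Y] (ρ : (Z.J → Kn p (q + 2)) →* End R Y) (φ : Y →ₗ[O] Z.M),
    Emb Z.a (Y0 Z t) (xk h q) ρ φ → Cof O (NG p q Z.J) ρ b
  gq : ∀ (Y : Type) [AddCommGroup Y] [Module O Y] (γ : Z.H →* End O Y) (φ : Y →ₗ[O] Z.M),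
    Emb Z.g (Y0 Z t) (MonoidHom.id _) γ φ → Gq t γ

/-- the natural operators -/
structure Nts (h : Z.Ok) (Q : Set Z.I) : Prop where
  gal : ∀ s, Nt Q (Z.g s)
  xp : ∀ y, Nt Q (Z.a (xp h y))
  tm : ∀ y, Z.Tm y → Nt Q (Z.a y)
  op : ∀ η : MonoidAlgebra O Z.G, (∀ y ∈ η.coeff.support, Z.Tm y) → Nt Q (Z.op η)

/-- **row TWL** -/
def TWL : Prop := ∀ (p : ℕ) [Fact p.Prime] (O : Type) [CommRing O] [IsDomain O]
  [IsDiscreteValuationRing O] [Algebra ℤ_[p] O] (Z : Si p O) (h : Z.Ok) (t : Z.H → O) (q : ℕ),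
  (p : O) ∈ maximalIdeal O → (p : O) ≠ 0 → (∀ Q : Set Z.I, Q.Finite → Nts h Q) ∧
    (∃ b, Out0 h t q b ∧ ∀ (r n : ℕ) (D : TW Z t r n), D.Out q b) ∧
    ∀ (r n : ℕ) (Q : Fin r → Z.I) (α : Fin r → O) (P : Fin r → Id) (φ : Fin r → Z.H),
      Function.Injective Q → 0 < n → (∀ s, p ^ n ∣ (Z.l (Q s) : ℕ) - 1) →
      (∀ s, Ov (Z.l (Q s)) (P s)) → (∀ s, FrI Z.j (Z.v (Q s)) (P s) (φ s)) →
      (∀ s, IsUnit (α s ^ 2 - 1)) → (∀ s, α s ^ 2 - t (φ s) * α s + 1 ∈ maximalIdeal O) →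
      ∃ D : TW Z t r n, D.Q = Q ∧ D.α = α ∧ D.P = P ∧ D.φ = φ

end Vale.Agent.P022K.RT.Tl
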