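import Vale.Agent.P022K.RT.St3
import Vale.Agent.P022K.RT.TwlD
import Vale.Agent.P022K.RT.Frm
import Vale.Agent.P022K.Top.Twi

/-!
# P022K, block RT: the global Galois data of the patched module (statement)
-/

set_option linter.all false

noncomputable section

namespace Vale.Agent.P022K.RT

open IsLocalRing MvPowerSeries
open Vale.Agent.P022 Vale.Agent.P022.C
open Vale.Agent.P022D.L2b (M2)
open Vale.Agent.P022D.CA (emb)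
open Vale.Agent.P022E.GW (Ov)
open Vale.Agent.P022.H443 (inP)
open Vale.Agent.P022K.PL (Cf)
open Vale.Agent.P022K.Top (Si cy Bad)

/-- the objects with determinant `δ` on `E` -/
def dC {O F G T : Type} [CommRing O] [Field F] [Group G] [TopologicalSpace G]
    (S : RU.Dat O F G T) (δ : G → O) (E : Set G) : RU.Cl S :=
  fun _ _ X => ∀ x ∈ E, (X.ρ x).det = X.ι (δ x)

section site

variable {p : ℕ} [Fact p.Prime] {O : Type} [CommRing O] [IsLocalRing O] [Algebra ℤ_[p] O]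
  (Z : Si p O)

/-- inertia at the primes which are not bad and not over `Q` -/
def Inq (Q : Set Z.I) : Set Z.H := {s | ∃ l P, Ov l P ∧ ¬ Bad Z.H Z.S P ∧
  (∀ i ∈ Q, below Z.j P ≠ (Z.v i).asIdeal) ∧ s.1 ∈ inP P}

variable {Z} {F : Type} [Field F] (C : Fr Z F)

/-- **global data**: framed places, normal form, universal families, auxiliary primes, twists -/
structure Gda : Type 1 where
  T : Type
  [ft : Fintype T]
  i : C.T → T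
  S : RU.Dat O F Z.H T
  c : M2 O
  c' : M2 O
  τ : Type
  [fτ : Fintype τ]
  g : ℕ
  e : (Σ t, C.τ t) ↪ τ ⊕ Fin g
  J1 : Ideal (RU.PS O τ g)
  n1 : ℕ
  r : ℕ
  a : ℕ
  E : Set Z.H
  κ : RU.Crd S τ
  Φ0 : RU.Fam S τ g
  Φ : ℕ → RU.Fam S τ g
  D : ∀ n, Tl.TW Z C.t r (n + 1)
  χ : ∀ n, Z.H →* Fm.Dn (p ^ (n + 1)) a

attribute [instance] Gda.ft Gda.fτ

namespace Gda

variable {C} (Γ : Gda C)

/-- the determinant is cyclotomic on `E` -/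
abbrev Cd : RU.Cl Γ.S := dC Γ.S (fun s => cy p O s.1) Γ.E

/-- the class of level zero -/
abbrev C0 : RU.Cl Γ.S := RU.Ty Γ.Cd (Inq Z ∅)

/-- the class of level `n` -/
abbrev Cn (n : ℕ) : RU.Cl Γ.S := RU.Ty Γ.Cd (Inq Z (Set.range (Γ.D n).Q))

/-- the properties -/
structure Ok [Algebra O F] : Prop where
  red : Γ.S.red = algebraMap O F
  lam : Γ.S.red Γ.S.lam = Γ.S.rb Γ.S.g1 0 1
  n10 : ∃ s, Γ.S.rb s 1 0 ≠ 0
  inv : Γ.c * Γ.c' = 1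
  res : ∀ s, C.r s = Γ.c'.map Γ.S.red * Γ.S.rb s * Γ.c.map Γ.S.red
  clo : RU.Closed Γ.Cd
  aux : Aux Γ.e Γ.J1 Γ.n1
  num : 3 * Fintype.card C.T + Fintype.card Z.J + Γ.n1 + 1 ≤ Γ.r + Γ.a + 4 * Fintype.card Γ.T
  un0 : RU.Univ Γ.C0 Γ.κ Γ.Φ0
  un : ∀ n, RU.Univ (Γ.Cn n) Γ.κ (Γ.Φ n)
  cmp : ∀ n (A : Type) [CommRing A] (X : RU.Obj Γ.S A), Γ.C0 A X → Γ.Φ n A X = Γ.Φ0 A X
  hf : ∀ n (A : Type) [CommRing A] (X : RU.Obj Γ.S A), Γ.Cn n A X → ∀ t s a b,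
    Γ.Φ n A X (rename (emb Γ.e t) (C.f t s a b)) = (Γ.c'.map X.ι *
      (X.β (Γ.i t) * X.ρ (C.j t s) * X.α (Γ.i t)) * Γ.c.map X.ι) a b
  hI : ∀ n (A : Type) [CommRing A] (X : RU.Obj Γ.S A), Γ.Cn n A X →
    ∀ u ∈ sumI Γ.e C.I ⊔ Γ.J1, Γ.Φ n A X u = 0
  sub : ∀ t s, C.j t s ∈ Γ.E
  cy1 : ∀ s ∈ Inq Z ∅, cy p O s.1 = 1
  tin : ∀ n s, (Γ.D n).τ s ∈ Inq Z ∅
  opn : ∀ n, IsOpen {s | Γ.χ n s = 1}
  cE : ∀ n, ∀ s ∈ Γ.E, Γ.χ n s = 1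
  cI : ∀ n, ∀ s ∈ Inq Z (Set.range (Γ.D n).Q), Γ.χ n s = 1
  ont : ∀ n k, ∃ s ∈ Inq Z ∅, Γ.χ n s = Fm.dg _ k
  sgn : ∀ n k, p = 2 ∧ ∃ (k' : Fin Γ.r) (σ : Fm.Dn (p ^ (n + 1)) Γ.a →* ℤˣ) (ν : Z.G →* ℤˣ)
    (m : Module.End O Z.M), σ (Fm.dg _ k) = -1 ∧ (∀ k2, k2 ≠ k → σ (Fm.dg _ k2) = 1) ∧
      Z.Qc (σ.comp (Γ.χ n)) ((Γ.D n).Q k') ∧ Z.Twd (σ.comp (Γ.χ n)) ((Γ.D n).Q k') ν m

end Gda

end site

/-- **row GDA** -/
def GDA : Prop :=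
  ∀ (p : ℕ) [Fact p.Prime] (O F : Type) [CommRing O] [IsDomain O] [IsDiscreteValuationRing O]
    [Cf O] [CharZero O] [Algebra ℤ_[p] O] [Field F] [Finite F] [CharP F p] [Algebra O F]
    (Z : Si p O) (C : Fr Z F), Z.Ok → C.Ok → (p = 2 → Z.Twi) → ∃ Γ : Gda C, Γ.Ok

/-- **row LVL**: from the global data to the patched module -/
def LVL : Prop :=
  ∀ (p : ℕ) [Fact p.Prime] (O F : Type) [CommRing O] [IsDomain O] [IsDiscreteValuationRing O]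
    [Cf O] [CharZero O] [Algebra ℤ_[p] O] [Field F] [Finite F] [CharP F p] [Algebra O F]
    (Z : Si p O) (C : Fr Z F) (Γ : Gda C), Z.Ok → C.Ok → Γ.Ok → ∃ D : Pd C, D.Ok

theorem pkg_of (h1 : GDA) (h2 : LVL) : PKG fun _ _ _ _ _ Z => Z.Twi := by
  intro p _ O F _ _ _ _ _ _ _ _ _ _ Z C hZ hC ht
  obtain ⟨Γ, h⟩ := h1 p O F Z C hZ hC ht
  exact h2 p O F Z C Γ hZ hC h

end Vale.Agent.P022K.RT
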