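import Vale.Agent.P022K.LF.Nzs0

/-!
# P022K, block RT, row TWL, part U: diamonds and twists, the level
-/

set_option linter.all false

noncomputable section

namespace Vale.Agent.P022K.RT.Tl.TW

open IsLocalRing Module Vale.Agent.P022 Vale.Agent.P022.C CH Sh Top Top.Si
open Vale.Agent.P022K.WB (Kn)

variable {p : ℕ} [Fact p.Prime] {O : Type} [CommRing O] [Algebra ℤ_[p] O] {Z : Si p O}

section

variable [IsLocalRing O] {t : Z.H → O} {r n : ℕ} (D : TW Z t r n)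

theorem lev' : ∃ U', Z.Sl U' ∧ Z.aw (Set.range D.Q) ≤ U' ∧
    ∀ v ∈ D.Y, v ∈ Fv Z.a (U' ⊓ ⨅ k, (Z.x k).π.ker) := by
  let U' : Subgroup Z.G := Z.U ⊓ ⨅ s, (Iwn ℤ_[Z.l (D.Q s)] _ (p ^ n) ⊔ Zl _).comap (Z.w (D.Q s)).π
  have m : ∀ u, u ∈ U' ↔ u ∈ Z.U ∧
      ∀ s, (Z.w (D.Q s)).π u ∈ Iwn ℤ_[Z.l (D.Q s)] _ (p ^ n) ⊔ Zl _ := fun u =>
    and_congr_right fun _ => Subgroup.mem_iInf
  have h1 : Z.aw (Set.range D.Q) ≤ U' := fun u hu => (m u).2 ⟨(mem_aw.1 hu).1, fun s => by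
    rw [(mem_aw.1 hu).2.2 _ ⟨s, rfl⟩]; exact one_mem _⟩
  have h2 : ∀ k, ∀ y ∈ KK ℤ_[p] ℚ_[p], (Z.x k).ι y ∈ U' := fun k y hy =>
    (m _).2 ⟨(D.ok.atx k).1 y hy, fun s => by rw [(D.ok.xw k _).2]; exact one_mem _⟩
  refine ⟨U', ⟨(lev_of D.ok (Set.finite_range D.Q) inf_le_left h1 (fun z hz => (m z).2
    ⟨Tl.z_le D.ok hz, fun s => Subgroup.mem_sup_right ((Z.w _).cen' z hz)⟩)
    (fun k => ⟨1, fun y hy => h2 k y (Up_le _ (Km_le_Iw1 hy))⟩) ?_).1, inf_le_left,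
    fun k => ⟨h2 k, fun u hu => (D.ok.atx k).2 u hu.1⟩⟩, h1, fun v hv u hu => ?_⟩
  · rintro _ ⟨s, rfl⟩
    refine ⟨1, fun y hy => (m _).2 ⟨(D.ok.atw _).1 y (Up_le _ (Km_le_Iw1 hy)), fun s' => ?_⟩⟩
    by_cases e : s' = s
    · subst e
      rw [(Z.w _).πι]
      exact Subgroup.mem_sup_left (Iw1_le_n _ (Km_le_Iw1 hy))
    · rw [(D.ne e).1]
      exact one_mem _
  · refine peelS D.ok (Set.finite_range D.Q) (X := stb Z.a v) (D.mem_Y.1 hv).1.1 hu.1.1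
      (fun k => by rw [show (Z.x k).π u = 1 from Subgroup.mem_iInf.1 hu.2 k, map_one]
                   exact one_mem _) ?_
    rintro _ ⟨s, rfl⟩
    exact (sup_le (mem_Fl.1 ((D.mem_Y.1 hv).2 s).1) (fun z hz => fv_z D.ok v _ ((Z.w _).cen z hz)) :
      _ ≤ (stb Z.a v).comap (Z.w (D.Q s)).ι) (((m u).1 hu.1).2 s)

theorem sm (q : ℕ) {v : Z.M} (hv : v ∈ D.Y) :
    ∃ j, ∀ g ∈ NP (NG p q Z.J) p r j, Z.a (D.kap q g) v = v := by
  obtain ⟨j, hj⟩ := xk_sm D.ok q v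
  refine ⟨max n j, fun g hg => ?_⟩
  rw [kap_apply, act_mul, show Z.a (D.xq (D.dz g.2)) v = v from
    D.xq_mem (X := stb Z.a v) fun s => mem_Fl.1 ((D.mem_Y.1 hv).2 s).1 _
      (dO_Iwn _ (by exact_mod_cast (pow_dvd_pow _ (le_max_left _ _)).trans (hg.2 s)))]
  exact hj _ ((unf_G (Fintype.equivFin (Z.J × Fin 3)).symm).anti (le_max_right _ _) hg.1)

/-- a non zero module contains invariant vectors of any order -/
theorem ex_inv {v : Z.M} (hv : v ∈ D.Y) (v0 : v ≠ 0) (k : ℕ) :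
    ∃ w ∈ D.Y, p ^ k • w ≠ 0 ∧ ∀ g, Z.a (D.kap 0 g) w = w := by
  have e := emb_rst Z.a D.Y (D.kap 0) fun g v => D.nm_Y (D.nm_kap 0 g)
  induction k with
  | zero =>
    obtain ⟨j, a1, a2⟩ := ex_ptor v0 (D.ok.cc.tor v)
    obtain ⟨m, hm⟩ := D.sm 0 (nsmul_mem hv (p ^ j))
    obtain ⟨i1, i2⟩ := idx_GP p 0 Z.J r m
    obtain ⟨w, b1, -, b3⟩ := ex_fix' (rst Z.a D.Y (D.kap 0) fun g v => D.nm_Y (D.nm_kap 0 g)) _ i2
      (v := ⟨p ^ j • v, nsmul_mem hv _⟩) (fun e => a1 (congrArg Subtype.val e)) (Subtype.ext a2)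
      fun g hg => Subtype.ext (hm g hg)
    exact ⟨w, w.2, by simpa using b1, fun g => congrArg Subtype.val (b3 g)⟩
  | succ k ih =>
    obtain ⟨w, a1, a2, a3⟩ := ih
    obtain ⟨w', b1, b2⟩ := (D.dt 0 n.zero_le e).div ⟨w, a1⟩ fun g => Subtype.ext (a3 g)
    exact ⟨w', w'.2, by rwa [pow_succ, mul_smul, show p • w'.1 = w from congrArg Subtype.val b2],
      fun g => congrArg Subtype.val (b1 g)⟩

end

variable [IsDomain O] [IsDiscreteValuationRing O] {t : Z.H → O} {r n : ℕ} (D : TW Z t r n)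
  {η : Z.H →* ℤˣ} {k : Fin r} {ν : Z.G →* ℤˣ} {m : End O Z.M}

theorem eta_ne (hq : Z.Qc η (D.Q k)) {s : Fin r} (e : s ≠ k) : η (D.τ s) = 1 :=
  hq.unr _ _ (D.ov s) (fun c => e (D.inj (D.ok.vinj (IsDedekindDomain.HeightOneSpectrum.ext
    ((D.fr s).2.1.symm.trans c))))) _ (D.ine s)

/-- **diamonds and twists** -/
theorem md [CharZero O] (p2 : p = 2) (hp : (p : O) ∈ maximalIdeal O) (hq : Z.Qc η (D.Q k))
    (h : Z.Twd η (D.Q k) ν m) (s : Fin r) {v : Z.M} (hv : v ∈ D.Y) :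
    Z.a (D.d s) (m v) = η (D.τ s) • m (Z.a (D.d s) v) := by
  have k0 : ∀ x v, Z.a x (m v) = ν x • m (Z.a x v) := fun x => LinearMap.congr_fun (h.a x)
  by_cases e : s = k
  · subst e
    rcases Int.units_eq_one_or (η (D.τ s)) with e | e
    · by_cases v0 : v = 0
      · simp [v0]
      · obtain ⟨w, a1, a2, a3⟩ := D.ex_inv hv v0 2
        have a4 : Z.a (D.d s) w = w := D.kap_zg 0 s ▸ a3 _
        have a5 : Z.a (D.d s)⁻¹ w = w := (stb Z.a w).inv_mem a4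
        have a6 := D.tau s (D.twd_Y p2 hp (Nat.cast_ne_zero.2 (Fact.out : p.Prime).ne_zero) h a1)
        rw [← Module.End.mul_apply, h.tg, e, one_smul, Module.End.mul_apply, D.tau s a1, k0, k0,
          map_inv ν, D.nu_d p2 h, a4, a5] at a6
        have a7 : m (p ^ 2 • w) = 0 := by
          rw [show p ^ 2 = 4 by rw [p2]; rfl, show 4 • w = (w + w) + (w + w) by abel, map_add]
          nth_rewrite 1 [a6]
          simp
        have := congrArg m a7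
        rw [← Module.End.mul_apply, h.sq, map_zero] at this
        exact (a2 this).elim
    · rw [k0, D.nu_d p2 h, e]
  · rw [k0, D.nu_d_ne h e, D.eta_ne hq e]

end Vale.Agent.P022K.RT.Tl.TW
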