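import Vale.Agent.P022K.RT.Lvb
import Vale.Agent.P022K.RT.Gda
import Vale.Agent.P022K.RT.TwlU

/-!
# P022K, block RT, row LVL: the input of one finite level
-/

set_option linter.all false

noncomputable section

namespace Vale.Agent.P022K.RT

open IsLocalRing Module
open Vale.Agent.P022 Vale.Agent.P022.C
open Vale.Agent.P022D.L2b (M2)
open Vale.Agent.P022K.Top (Si cy Bad)
open Vale.Agent.P022K.Sh (Fv)

namespace Fm

/-- the first block of the finite group -/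
def d1 (q a b : ℕ) : Dn q (a + b) →* Dn q a :=
  AddMonoidHom.toMultiplicative (LinearMap.funLeft ℤ (ZMod q) (Fin.castAdd b)).toAddMonoidHom

/-- the inclusion of the first block -/
def em (q a b : ℕ) : Dn q a →* Dn q (a + b) := AddMonoidHom.toMultiplicative
  { toFun := fun d => Fin.append d 0
    map_zero' := funext fun s => Fin.addCases (fun s => by simp) (fun s => by simp) s
    map_add' := fun d d' => funext fun s => Fin.addCases (fun s => by simp) (fun s => by simp) s }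

variable {q a b : ℕ}

theorem d1_em (d : Dn q a) : d1 q a b (em q a b d) = d :=
  funext fun s => Fin.append_left d.toAdd 0 s

theorem d1_l (k : Fin a) : d1 q a b (dg q (Fin.castAdd b k)) = dg q k :=
  congrArg (rd q a) (z1_l k)

theorem d1_r (k : Fin b) : d1 q a b (dg q (Fin.natAdd a k)) = 1 :=
  (congrArg (rd q a) (z1_r k)).trans (map_one _)

theorem em_dg (k : Fin a) : em q a b (dg q k) = dg q (Fin.castAdd b k) :=
  funext fun s => Fin.addCases (fun s => (Fin.append_left (dg q k).toAdd 0 s).trans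
    (congrFun (d1_l (q := q) (b := b) k) s).symm)
    (fun s => (Fin.append_right (dg q k).toAdd 0 s).trans
      (congrFun ((congrArg (rd q b) (z2_l k)).trans (map_one _)) s).symm) s

end Fm

open Fm Tl

variable {p : ℕ} [Fact p.Prime] {O : Type} [CommRing O] [IsDomain O] [IsDiscreteValuationRing O]
  [Algebra ℤ_[p] O] {Z : Si p O}

namespace Tl.TW

variable {t : Z.H → O} {r n : ℕ} (D : TW Z t r n)

/-- the group `Gr` and the diamonds -/
def ka : Gr Z × Zr r →* Z.G :=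
  (Gr Z).subtype.noncommCoprod (D.xq.comp D.dz) fun y z => D.gr_xq y.2 (D.dz z)

theorem ka_apply (y : Gr Z) (z : Zr r) : D.ka (y, z) = y * D.xq (D.dz z) := rfl

theorem ka_l (y : Gr Z) : D.ka (y, 1) = y := by rw [ka_apply, map_one, map_one, mul_one]

theorem ka_zg (s : Fin r) : D.ka (1, zg s) = D.d s := by
  rw [← D.kap_zg 0, kap_apply, map_one]
  rfl

theorem ka_Y (g : Gr Z × Zr r) : ∀ v ∈ D.Y, Z.a (D.ka g) v ∈ D.Y := fun v hv => by
  rw [ka_apply, map_mul]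
  exact D.nat_Y (nt_gr D.ok _ g.1.2) (D.xq_Y _ hv)

theorem g_Y (s : Z.H) : ∀ v ∈ D.Y, Z.g (MonoidHom.id _ s) v ∈ D.Y := fun _ =>
  D.nat_Y ((nts D.ok (Set.finite_range _)).gal s)

/-- the action on the module of Taylor-Wiles level -/
def ro : Gr Z × Zr r →* End O D.Y := rst Z.a D.Y D.ka D.ka_Y

/-- the Galois action on it -/
def ga : Z.H →* End O D.Y := rst Z.g D.Y (MonoidHom.id _) D.g_Y

theorem ro_apply (g : Gr Z × Zr r) (v : D.Y) : (D.ro g v).1 = Z.a (D.ka g) v := rfl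

theorem ga_apply (s : Z.H) (v : D.Y) : (D.ga s v).1 = Z.g s v := rfl

theorem tt_apply (s : Z.H) (v : D.Y) : (tt D.ga (cyH Z) s v).1 = Z.tg s v := rfl

end Tl.TW

theorem inq_le {Q : Set Z.I} : Inq Z Q ⊆ Inq Z ∅ := fun _ ⟨l, P, h1, h2, _, h3⟩ =>
  ⟨l, P, h1, h2, fun _ e => e.elim, h3⟩

namespace Gda

variable {F : Type} [Field F] {C : Fr Z F} (Γ : Gda C)

/-- the number of frame variables -/
def f : ℕ := Nat.card {x : Γ.T × Fin 2 × Fin 2 // x ≠ (Γ.S.l0, 0, 0)}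

theorem f_eq : Γ.f + 1 = 4 * Fintype.card Γ.T := by
  classical
  have : 0 < Fintype.card Γ.T := Fintype.card_pos_iff.2 ⟨Γ.S.l0⟩
  simp only [f, Nat.card_eq_fintype_card, Fintype.card_subtype_compl, Fintype.card_prod,
    Fintype.card_fin, Fintype.card_unique]
  omega

open Classical in
/-- the frames -/
def ph (q : ℕ) (t : Γ.T) (i j : Fin 2) : Dn q (Γ.a + Γ.f) :=
  if h : (t, i, j) = (Γ.S.l0, 0, 0) then 1 else
    dg q (Fin.natAdd Γ.a (Finite.equivFin {x : Γ.T × Fin 2 × Fin 2 // x ≠ (Γ.S.l0, 0, 0)} ⟨_, h⟩))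

/-- **the input at level `n`** -/
def inp (n : ℕ) (g : Fin Γ.a → Z.H) (m : Fin Γ.a → End O (Γ.D n).Y)
    (σ : Fin Γ.a → Dn (p ^ (n + 1)) Γ.a →* ℤˣ) :
    In O Z.H Γ.T (Gr Z) (Γ.D n).Y (p ^ (n + 1)) Γ.r (Γ.a + Γ.f) where
  ρ := (Γ.D n).ro
  γ := (Γ.D n).ga
  ε := cyH Z
  χ := (em _ _ _).comp (Γ.χ n)
  φ := Γ.ph _
  τ := (Γ.D n).τ
  W := Set.range (Fin.castAdd Γ.f)
  g := Fin.append g 1
  m := Fin.append m 1
  σ := Fin.append (fun k => (σ k).comp (d1 _ _ _)) 1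
  E := Γ.E
  I := Inq Z (Set.range (Γ.D n).Q)

variable {Γ} [Algebra O F] [CharP F p]

theorem Ok.cc (h : Γ.Ok) : Γ.c.map Γ.S.red * Γ.c'.map Γ.S.red = 1 := by
  rw [← Matrix.map_mul, h.inv, RU.map_one']

theorem Ok.rb (h : Γ.Ok) (s : Z.H) :
    Γ.S.rb s = Γ.c.map Γ.S.red * C.r s * Γ.c'.map Γ.S.red := by
  rw [h.res, ← mul_assoc, ← mul_assoc, h.cc, one_mul, mul_assoc, h.cc, mul_one]

theorem Ok.tr (h : Γ.Ok) (s : Z.H) : (C.r s).trace = (Γ.S.rb s).trace := by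
  rw [h.res, Matrix.trace_mul_cycle, h.cc, one_mul]

theorem Ok.det (h : Γ.Ok) (hC : C.Ok) (s : Z.H) : Γ.S.red (cy p O s.1) = (Γ.S.rb s).det := by
  rw [h.red, ← hC.det, h.res, Matrix.det_mul, Matrix.det_mul, mul_right_comm, mul_comm (Matrix.det _)
    (Matrix.det (Γ.c.map _)), ← Matrix.det_mul, h.cc, Matrix.det_one, one_mul]

theorem Ok.one (h : Γ.Ok) {s : Z.H} : Γ.S.rb s = 1 ↔ C.rb s = 1 := by
  rw [← Units.val_eq_one]
  refine ⟨fun e => (h.res s).trans ?_, fun e => (h.rb s).trans ?_⟩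
  · rw [e, mul_one, mul_eq_one_comm.1 h.cc]
  · rw [show C.r s = 1 from e, mul_one, h.cc]

theorem Ok.inq (h : Γ.Ok) (hC : C.Ok) {s : Z.H} (hs : s ∈ Inq Z ∅) : Γ.S.rb s = 1 := by
  obtain ⟨l, P, h1, h2, -, h3⟩ := hs
  exact h.one.2 (hC.unr l P h1 h2 s h3)

theorem Ok.ker (h : Γ.Ok) (c : O) : Γ.S.red c = 0 ↔ c ∈ maximalIdeal O := by
  rw [← eq_maximalIdeal (RingHom.ker_isMaximal_of_surjective _ Γ.S.surj)]
  rfl

theorem Ok.hp (h : Γ.Ok) : (p : O) ∈ maximalIdeal O :=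
  (h.ker _).1 (by rw [map_natCast, CharP.cast_eq_zero])

theorem Ok.sd [Finite F] (h : Γ.Ok) (hC : C.Ok) : Ob.Sd Γ.S :=
  ⟨fun c e => by
    by_contra k
    exact e ((h.ker c).2 k), inferInstance, by simpa only [h.one] using hC.opn⟩

theorem Ok.ex [Finite F] (h : Γ.Ok) (hC : C.Ok) (n : ℕ) :
    ∃ (A : Type) (_ : CommRing A) (X : RU.Obj Γ.S A), Γ.Cn n A X :=
  ⟨F, inferInstance,
    { ι := Γ.S.red, π := RingHom.id F, ρ := Γ.S.rb, α := fun _ => 1, β := fun _ => 1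
      fin := inferInstance, loc := fun _ e => Ne.isUnit e, alg := fun _ => rfl, res := fun _ => rfl
      opn := (h.sd hC).opn, dg := ⟨Γ.S.d01, Γ.S.d10⟩, nm := h.lam.symm, inv := fun _ => mul_one _
      one := fun _ => rfl, fr := rfl },
    fun s _ => (h.det hC s).symm, fun _ hs => h.inq hC (inq_le hs)⟩

theorem Ok.inp [Finite F] (h : Γ.Ok) (hC : C.Ok) (n : ℕ) {g : Fin Γ.a → Z.H}
    {m : Fin Γ.a → End O (Γ.D n).Y} {σ : Fin Γ.a → Dn (p ^ (n + 1)) Γ.a →* ℤˣ}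
    (hg : ∀ k, g k ∈ Inq Z ∅ ∧ Γ.χ n (g k) = dg _ k)
    (hs : ∀ k, σ k (dg _ k) = -1 ∧ ∀ k2, k2 ≠ k → σ k (dg _ k2) = 1)
    (hm : ∀ k, ∃ i ν m', Z.Twd ((σ k).comp (Γ.χ n)) i ν m' ∧ (∀ v, (m k v).1 = m' v) ∧
      ∀ s, ∀ v ∈ (Γ.D n).Y, Z.a ((Γ.D n).d s) (m' v) =
        σ k (Γ.χ n ((Γ.D n).τ s)) • m' (Z.a ((Γ.D n).d s) v)) :
    (Γ.inp n g m σ).Ok Γ.S C.s (Γ.Cn n) := by
  have hZ := (Γ.D n).ok
  have gq := gq_of (t := C.t) hZ (Set.finite_range _) (fun v hv => ((Γ.D n).mem_Y.1 hv).1.1)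
    (fun v hv => ((Γ.D n).mem_Y.1 hv).1.2) (emb_rst Z.g _ _ (Γ.D n).g_Y)
  have e1 : ∀ k, (Γ.inp n g m σ).g (Fin.castAdd _ k) = g k := Fin.append_left _ _
  have e2 : ∀ k, (Γ.inp n g m σ).m (Fin.castAdd _ k) = m k := Fin.append_left _ _
  have e3 : ∀ k, (Γ.inp n g m σ).σ (Fin.castAdd _ k) = (σ k).comp (d1 _ _ _) :=
    Fin.append_left (fun k => (σ k).comp (d1 _ _ _)) _
  have e4 : ∀ k x, (Γ.inp n g m σ).σ (Fin.castAdd _ k) ((Γ.inp n g m σ).χ x) = σ k (Γ.χ n x) :=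
    fun k x => by rw [e3]; exact congrArg _ (d1_em _)
  have e5 : ∀ x, Γ.χ n x = 1 → (Γ.inp n g m σ).χ x = 1 := fun x e =>
    (congrArg (em _ _ _) e).trans (map_one _)
  refine ⟨⟨fun x => by rw [h.red]; exact hC.sec x, h.lam, h.n10, h.det hC, gq.cen, gq.fin,
    fun x => by rw [← h.tr]; exact gq.nil x⟩, fun v => ?_, fun y x => ?_,
    Filter.mem_of_superset ((h.opn n).mem_nhds (map_one _)) e5, dif_pos rfl,
    fun _ _ _ h1 h2 => ⟨h1, h2⟩, h.ex hC n, fun x hx => e5 x (h.cE n x hx),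
    fun x hx => ⟨e5 x (h.cI n x hx), ?_⟩,
    fun s => ⟨h.cy1 _ (h.tin n s), h.inq hC (h.tin n s), fun v => Subtype.ext ?_⟩, ?_,
    fun w hw => ?_, ?_, ?_, ?_, ?_, ?_⟩
  · exact Filter.mem_of_superset ((hZ.cc.opn v.1).mem_nhds (by simp)) fun x e => Subtype.ext e
  · exact LinearMap.ext fun v => Subtype.ext (LinearMap.congr_fun (hZ.cc.com _ x).eq v.1)
  · obtain ⟨l, P, h1, h2, h3, h4⟩ := hx
    exact LinearMap.ext fun v => Subtype.ext (hZ.unr _ l P (Set.finite_range _) h1 h2 h3 x h4 _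
      ((Γ.D n).mem_Y.1 v.2).1.1)
  · refine ((Γ.D n).tau s v.2).trans ?_
    rw [← (Γ.D n).ka_zg, ← map_inv, Prod.inv_mk, inv_one]
    rfl
  · rintro _ ⟨k, rfl⟩
    rw [e1]
    exact ⟨(congrArg (em _ _ _) (hg k).2).trans (em_dg k), h.cy1 _ (hg k).1, h.inq hC (hg k).1⟩
  · induction w using Fin.addCases with
    | left k => exact (hw ⟨k, rfl⟩).elim
    | right k =>
      obtain ⟨⟨⟨t, i, j⟩, e⟩, rfl⟩ := (Finite.equivFin
        {x : Γ.T × Fin 2 × Fin 2 // x ≠ (Γ.S.l0, 0, 0)}).surjective k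
      exact ⟨t, i, j, dif_neg e⟩
  · rintro _ ⟨k, rfl⟩
    obtain ⟨i, ν, m', h1, h2, -⟩ := hm k
    have : ∀ v, m' (m' v) = v := LinearMap.congr_fun h1.sq
    rw [e2]
    exact fun v w e => Subtype.ext (by rw [← this v.1, ← h2, e, h2, this])
  · rintro _ ⟨k, rfl⟩ y
    obtain ⟨i, ν, m', h1, h2, -⟩ := hm k
    rw [e2]
    refine LinearMap.ext fun v => Subtype.ext ?_
    show Z.a _ (m k v).1 = (m k _).1
    rw [h2, h2, TW.ka_l]
    refine (LinearMap.congr_fun (twd_gr h1 y.2).eq v.1).trans (congrArg m' ?_)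
    rw [← (Γ.D n).ka_l]
    rfl
  · rintro _ ⟨k, rfl⟩ s v
    obtain ⟨i, ν, m', h1, h2, h3⟩ := hm k
    rw [e2, e4]
    refine Subtype.ext ?_
    show Z.a _ (m k v).1 = _ • (m k _).1
    rw [h2, h2, TW.ka_zg]
    refine (h3 s _ v.2).trans ?_
    rw [← (Γ.D n).ka_zg]
    rfl
  · rintro _ ⟨k, rfl⟩ x v
    obtain ⟨i, ν, m', h1, h2, -⟩ := hm k
    rw [e2, e4]
    refine Subtype.ext ?_
    show Z.tg x (m k v).1 = _ • (m k _).1
    rw [h2, h2]
    exact LinearMap.congr_fun (h1.tg x) v.1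
  · rintro _ ⟨k, rfl⟩
    rw [e3]
    refine ⟨(congrArg (σ k) (d1_l k)).trans (hs k).1, fun w e => ?_, fun t i j => ?_⟩
    · induction w using Fin.addCases with
      | left k' => exact (congrArg (σ k) (d1_l k')).trans ((hs k).2 _ fun e' => e (by rw [e']))
      | right k' => exact (congrArg (σ k) (d1_r k')).trans (map_one _)
    · show σ k (d1 _ _ _ (Γ.ph _ t i j)) = 1
      rw [ph]
      split_ifs
      · rw [map_one, map_one]
      · exact (congrArg (σ k) (d1_r _)).trans (map_one _)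

/-- **the output at level `n`** -/
theorem Ok.out [CharZero O] [Finite F] (h : Γ.Ok) (hC : C.Ok) (n : ℕ) :
    ∃ g m σ, (∀ k, g k ∈ Inq Z ∅) ∧
      ∃ (_ : Module (RU.PS O Γ.τ Γ.g) (Dn (p ^ (n + 1)) (Γ.a + Γ.f) → (Γ.D n).Y))
        (_ : IsScalarTower O (RU.PS O Γ.τ Γ.g) (Dn (p ^ (n + 1)) (Γ.a + Γ.f) → (Γ.D n).Y))
        (l : _) (b : _) (E : _) (u : _) (qa qb : _) (π : _),
        (Γ.inp n g m σ).Out (Γ.Cn n) (Γ.Φ n) p l b E u qa qb π := by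
  choose g g1 g2 using h.ont n
  choose p2 k' σ ν m s1 s2 q1 q2 using h.sgn n
  have p0 : (p : O) ≠ 0 := Nat.cast_ne_zero.2 (Fact.out : p.Prime).ne_zero
  refine ⟨g, fun k => (m k).restrict fun v => (Γ.D n).twd_Y (p2 k) h.hp p0 (q2 k), σ, g1,
    lva Fact.out h.hp (h.sd hC) h.ker (h.clo.ty _) (h.un n) _ (h.inp hC n (fun k => ⟨g1 k, g2 k⟩)
      (fun k => ⟨s1 k, s2 k⟩) fun k => ⟨_, _, _, q2 k, fun _ => rfl, fun s v hv =>
        (Γ.D n).md (p2 k) h.hp (q1 k) (q2 k) s hv⟩) ?_⟩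
  rintro _ ⟨k, -⟩
  exact p2 k

end Gda

end Vale.Agent.P022K.RT
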