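import Vale.Agent.P022K.RT.LvoA
import Vale.Agent.P022K.RT.Lvs
import Vale.Agent.P022K.RT.Gpt
import Vale.Agent.P022K.RT.TwlU

/-!
# P022K, block RT, row LVL: from the finite levels to the patched module
-/

set_option linter.all false

noncomputable section

namespace Vale.Agent.P022K.RT

open IsLocalRing Module Filter Fm Tl
open Vale.Agent.P022 Vale.Agent.P022.C
open Vale.Agent.P022D.L2b (M2)
open Vale.Agent.P022D.PA (Base)
open Vale.Agent.P022K.PL (Cf)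
open Vale.Agent.P022K.WB (G2 Kn)
open Vale.Agent.P022K.Top (Si cy Bad)
open Vale.Agent.P022K.Sh (Fv)

variable {p : ℕ} [Fact p.Prime] {O : Type} [CommRing O] [IsDomain O] [IsDiscreteValuationRing O]
  [Algebra ℤ_[p] O] {Z : Si p O}

/-- the section of the trace to the tame level -/
structure Tl.TW.Kp {t : Z.H → O} {r n : ℕ} (D : TW Z t r n) (κ : Ym Z t →ₗ[O] D.Y) : Prop where
  sec : ∀ z, D.E (κ z) = z
  rng : ∀ v, (∃ z, κ z = v) ↔ ∀ s, D.ro (1, zg s) v = v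
  nat : ∀ (θ : End O Z.M) (z : Ym Z t) (v : D.Y), v.1 = θ (κ z) → Commute θ D.E →
    (∀ s, Commute θ (Z.a (D.d s))) → ∃ z' : Ym Z t, z'.1 = θ z ∧ κ z' = v

theorem Tl.TW.ex_kp {t : Z.H → O} {r n q b : ℕ} (D : TW Z t r n) (o : D.Out q b) :
    ∃ κ, D.Kp κ := by
  let e : D.Yd ≃ₗ[O] Ym Z t := LinearEquiv.ofBijective (D.E.restrict fun _ hv => o.bij.mapsTo hv)
    o.bij.bijective
  let κ : Ym Z t →ₗ[O] D.Y := Submodule.inclusion inf_le_left ∘ₗ e.symm.toLinearMap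
  have h1 : ∀ z, D.E (κ z) = z := fun z => congrArg Subtype.val (e.apply_symm_apply z)
  have h2 : ∀ z s, Z.a (D.d s) (κ z) = κ z := fun z => (D.mem_Yd.1 (e.symm z).2).2
  have h3 : ∀ (v : D.Y) (hv : ∀ s, Z.a (D.d s) v = v), κ (e ⟨v, D.mem_Yd.2 ⟨v.2, hv⟩⟩) = v :=
    fun v hv => Subtype.ext (congrArg (fun x : D.Yd => x.1) (e.symm_apply_apply _))
  refine ⟨κ, h1, fun v => ⟨?_, fun hv => ⟨_, h3 v fun s => ?_⟩⟩, fun θ z v e1 c1 c2 =>
    ⟨_, ?_, h3 v fun s => ?_⟩⟩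
  · rintro ⟨z, rfl⟩ s
    exact Subtype.ext (by rw [D.ro_apply, D.ka_zg, h2])
  · rw [← D.ka_zg, ← D.ro_apply, hv]
  · show D.E v = _
    rw [e1, ← End.mul_apply, ← c1, End.mul_apply, h1]
  · rw [e1, ← End.mul_apply, ← c2, End.mul_apply, h2]

/-- the groups at `p` -/
def psG (h : Z.Ok) : (Z.J → G2 p) →* Gr Z := (xp h).codRestrict _ fun y =>
  xp_mem h fun k => Subgroup.subset_closure (Or.inr (Set.mem_iUnion.2 ⟨k, y k, rfl⟩))

namespace Gda

variable {F : Type} [Field F] {C : Fr Z F} (Γ : Gda C)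

/-- the module of level `n` -/
abbrev Yn (n : ℕ) : Type := Dn (p ^ (n + 1)) (Γ.a + Γ.f) → (Γ.D n).Y

/-- the output at level `n` -/
structure Lo (n : ℕ) : Type where
  g : Fin Γ.a → Z.H
  m : Fin Γ.a → End O (Γ.D n).Y
  σ : Fin Γ.a → Dn (p ^ (n + 1)) Γ.a →* ℤˣ
  [mr : Module (RU.PS O Γ.τ Γ.g) (Γ.Yn n)]
  [tw : IsScalarTower O (RU.PS O Γ.τ Γ.g) (Γ.Yn n)]
  l : Zr Γ.r →* Zr (Γ.a + Γ.f)
  b : Gr Z × Zr (Γ.r + (Γ.a + Γ.f)) →* End (RU.PS O Γ.τ Γ.g) (Γ.Yn n)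
  E : M2 (RU.PS O Γ.τ Γ.g) →ₐ[RU.PS O Γ.τ Γ.g] End (RU.PS O Γ.τ Γ.g) (Γ.Yn n)
  u : Z.H ⊕ Γ.T ⊕ Γ.T → M2 (RU.PS O Γ.τ Γ.g)
  qa : Fin (Γ.r + (Γ.a + Γ.f)) → RU.PS O Γ.τ Γ.g
  qb : Fin (Γ.r + (Γ.a + Γ.f)) → RU.PS O Γ.τ Γ.g
  π : (Fin (Γ.a + Γ.f) → Bool) → End (RU.PS O Γ.τ Γ.g) (Γ.Yn n)
  hg : ∀ k, g k ∈ Inq Z ∅
  out : (Γ.inp n g m σ).Out (Γ.Cn n) (Γ.Φ n) p l b E u qa qb π

variable {Γ} [Algebra O F] (h : Γ.Ok) (hZ : Z.Ok) (L : ∀ n, Γ.Lo n) (b : ℕ)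
  (κ : ∀ n, Ym Z C.t →ₗ[O] (Γ.D n).Y)

/-- the module with its operators -/
@[reducible] def mo (n : ℕ) : Mo O (RU.PS O Γ.τ Γ.g) (Gr Z) C.T (Γ.r + (Γ.a + Γ.f)) :=
  letI := (L n).mr
  letI := (L n).tw
  { Y := Γ.Yn n, a := (L n).b, E := fun t => (L n).out.Et (h.un n) h.inv (Γ.i t)
    com := fun _ _ x => (L n).out.com _ x }

/-- the finite levels -/
@[reducible] def pf : Pf C where
  σ := Γ.τ ⊕ Fin Γ.g
  e := Γ.e
  J1 := Γ.J1
  n1 := Γ.n1
  r := Γ.r + (Γ.a + Γ.f)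
  b := b
  ψ := psG hZ
  Y := mo h L
  X n := Dn (p ^ (n + 1)) (Γ.a + Γ.f)
  ev n := (Γ.D n).Y.subtype.compLeft _
  lw n := (Γ.D n).E ∘ₗ (Γ.D n).Y.subtype ∘ₗ LinearMap.proj 1
  qa n := (L n).qa
  qb n := (L n).qb
  S := {s | ∀ w ∈ Set.range (Fin.castAdd Γ.f), s ≠ Fin.natAdd Γ.r w}
  κ n := LinearMap.pi fun _ => κ n
  tr n s := ((L n).u (Sum.inl s)).trace

variable [CharP F p] [Finite F]

theorem gp (hC : C.Ok) (n : ℕ) {Λ A : Type} [CommRing Λ] [IsLocalRing Λ] [Algebra O Λ] [CommRing A]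
    [Algebra O A] {ρ : Z.H →* M2 Λ} (h1 : LiftC C.r C.s (fun s => cy p O s.1) ρ) (h2 : Ub Z ρ)
    {P : Ob.Fd Γ.S A} {j : A →ₐ[O] Λ} (k : Ob.Nr P j Γ.c Γ.c' ρ) :
    ∃ x φ, Ob.Pn P (Γ.Cn n) (Γ.Φ n) x ∧ (∀ f, φ f = j (x f)) ∧ ((pf h hZ L b κ).lv n).Gp φ ρ := by
  letI := (L n).mr
  letI := (L n).tw
  have u1 : ∀ s ∈ Inq Z ∅, ρ s = 1 := fun s ⟨l, Q, a1, a2, _, a3⟩ => h2 l Q a1 a2 s a3
  obtain ⟨x, φ, p1, p2, p3, p4⟩ := k.pt (h.sd hC) ⟨fun A B _ _ X Y u a e =>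
    ⟨h.clo.push A B X Y u a e.1, fun s hs => by rw [← a.ρ, e.2 s hs, RU.map_one']⟩,
    fun A B B' _ _ _ X Y Y' u u' a a' i e e' => ⟨h.clo.pull A B B' X Y Y' u u' a a' i e.1 e'.1,
      fun s hs => Matrix.ext fun i' j' => sub_eq_zero.1 (i _ (by
        rw [map_sub, ← Matrix.map_apply (f := u), a.ρ, e.2 s hs, ← Matrix.map_apply (f := u),
          RU.map_one', sub_self]) (by
        rw [map_sub, ← Matrix.map_apply (f := u'), a'.ρ, e'.2 s hs, ← Matrix.map_apply (f := u'),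
          RU.map_one', sub_self]))⟩⟩ (h.un n)
    (k.ty (fun s _ => h1.det s) fun s hs => u1 s (inq_le hs))
  have m1 : ∀ y, ((L n).u y).map φ = (P.mat y).map j := fun y => Matrix.ext fun a c =>
    p4 _ _ fun A' _ X v i hX => (congrFun (congrFun ((L n).out.rep y A' X hX) a) c).trans (by
      rcases y with y | y | y
      exacts [(congrFun (congrFun (i.ρ y) a) c).symm, (congrFun (congrFun (i.α y) a) c).symm,
        (congrFun (congrFun (i.β y) a) c).symm])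
  have m2 : ∀ s ∈ Inq Z ∅, ((L n).u (Sum.inl s)).map φ = 1 := fun s hs =>
    (m1 _).trans ((congrArg (·.map j) (k.one s (u1 s hs))).trans (RU.map_one' j.toRingHom))
  obtain ⟨g, g', c1, c2, c3⟩ := k.cj
  refine ⟨x, φ, p1, p2, p3, fun v hv => (p4 v 0 fun A' _ X w _ hX =>
    (h.hI n A' X hX v hv).trans (map_zero w).symm).trans (map_zero j),
    (L n).out.l0 Λ φ.toRingHom (fun s => m2 _ (h.tin n s)) ?_ fun t => ?_, fun s => ?_,
    g, g', c1, c2, fun t s => ?_⟩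
  · rintro _ ⟨w, rfl⟩
    refine m2 _ ?_
    rw [show (Γ.inp n (L n).g (L n).m (L n).σ).g (Fin.castAdd Γ.f w) = (L n).g w from
      Fin.append_left _ _ w]
    exact (L n).hg w
  · exact (m1 _).trans ((congrArg (·.map j) (k.al t)).trans (RU.map_one' j.toRingHom))
  · rw [← k.tr]
    exact (AddMonoidHom.map_trace φ _).trans ((congrArg _ (m1 _)).trans
      (AddMonoidHom.map_trace j _).symm)
  · rw [← c3]
    refine Matrix.ext fun a c => (p4 _ ((Γ.c'.map P.ι * P.ρ (C.j t s) * Γ.c.map P.ι) a c)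
      fun A' _ X w i hX => (h.hf n A' X hX t s a c).trans ?_).trans ?_
    · rw [← i.β, ← i.α, ← i.ρ, k.al, k.be, RU.map_one', one_mul, mul_one, ← Matrix.map_apply (f := w),
        Matrix.map_mul, Matrix.map_mul, Matrix.map_map, Matrix.map_map,
        show (w ∘ P.ι : O → A') = X.ι from funext i.ι]
    · have e1 : (j.toRingHom ∘ P.ι : O → Λ) = algebraMap O Λ :=
        funext fun o => (congrArg j (k.io o)).trans (j.commutes o)
      refine (Matrix.map_apply (f := j.toRingHom)).symm.trans ?_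
      rw [Matrix.map_mul, Matrix.map_mul, Matrix.map_map, Matrix.map_map, e1]
      rfl

theorem pf_ok [Cf O] [CharZero O] (hC : C.Ok) (ho : ∀ n, (Γ.D n).Out 0 b)
    (hκ : ∀ n, (Γ.D n).Kp (κ n)) : (pf h hZ L b κ).Ok := by
  have hp := (Fact.out : p.Prime).ne_zero
  have hs : ∀ x, Γ.S.red (C.s x) = x := h.red ▸ hC.sec
  have nt := fun n => nts hZ (Set.finite_range (Γ.D n).Q)
  have em := fun n => ho n |>.fre O _ ((Γ.D n).ro.comp (((psG hZ).comp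
    ((Kn p (0 + 2)).subtype.compLeft Z.J)).prodMap (MonoidHom.id _))) _
    ⟨(Γ.D n).Y.injective_subtype, fun v => ⟨fun ⟨y, e⟩ => e ▸ y.2, fun hv => ⟨⟨v, hv⟩, rfl⟩⟩,
      fun _ _ => rfl⟩
  have cE : ∀ n {θ : End O Z.M}, Tl.Nt (Set.range (Γ.D n).Q) θ → Commute θ (Γ.D n).E := fun n θ e =>
    ((ho n).nat θ e).2
  have cd : ∀ n {θ : End O Z.M}, Tl.Nt (Set.range (Γ.D n).Q) θ → ∀ s, Commute θ (Z.a ((Γ.D n).d s)) :=
    fun n θ e s => e.cm _ ⟨s, rfl⟩ _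
  have lc : ∀ n t s, (mo h L n).E t (((pf h hZ L b κ).lv n).fm t s) =
      letI := (L n).mr; (L n).E ((L n).u (Sum.inl (C.j t s))) := fun n t s =>
    letI := (L n).mr; letI := (L n).tw
    (L n).out.Et_loc (h.un n) h.inv _ _ fun A _ X hX => h.hf n A X hX t s
  have gl : ∀ n t s f d, (mo h L n).E t (((pf h hZ L b κ).lv n).fm t s) f d =
      (Γ.D n).ga (C.j t s) (f d) := fun n t s f d => by
    letI := (L n).mr
    letI := (L n).tw
    refine (congrFun (LinearMap.congr_fun (lc n t s) f) d).trans (((L n).out.gal _ f d).trans ?_)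
    rw [show (Γ.inp n (L n).g (L n).m (L n).σ).χ (C.j t s) = 1 from
      (congrArg (Fm.em _ _ _) (h.cE n _ (h.sub t s))).trans (map_one _), mul_one]
    rfl
  have lf : ∀ n t (s : Z.H), ∃ m, ((pf h hZ L b κ).lv n).Lf s m ∧ ∀ (f : Γ.Yn n) d,
      (mo h L n).E t m f d =
      (Γ.D n).ga s (f (d * Fm.em _ _ _ (Γ.χ n s))) := fun n t s =>
    letI := (L n).mr; letI := (L n).tw
    ⟨fQ (L n).u Γ.c' (Γ.i t) * (L n).u (Sum.inl s) * fP (L n).u Γ.c (Γ.i t), fun i j => by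
      rw [← h.red, h.res]; exact (L n).out.res_cj Γ.c Γ.c' (Γ.i t) s i j, fun f d =>
      (congrFun (LinearMap.congr_fun (cjE_cj _ _ _ ((L n).out.PQ (h.un n) h.inv _)
        ((L n).out.QP (h.un n) h.inv _) _) f) d).trans ((L n).out.gal s f d)⟩
  have bk : ∀ n y f d, ((mo h L n).a (y, 1) f d).1 = Z.a y (f d) := fun n y f d =>
    letI := (L n).mr; letI := (L n).tw
    (congrArg Subtype.val ((L n).out.b_k y f d)).trans
      (congrArg (fun g => Z.a g (f d).1) ((Γ.D n).ka_l y))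
  have kn : ∀ n (θ : End O Z.M) z (f : Γ.Yn n), (∀ d, (f d).1 = θ (κ n z)) →
      Commute θ (Γ.D n).E → (∀ s, Commute θ (Z.a ((Γ.D n).d s))) →
      ∃ z' : Ym Z C.t, z'.1 = θ z ∧ (pf h hZ L b κ).κ n z' = f := fun n θ z f e c1 c2 =>
    ((hκ n).nat θ z (f 1) (e 1) c1 c2).imp fun z' e' => ⟨e'.1, funext fun d =>
      e'.2.trans (Subtype.ext ((e 1).trans (e d).symm))⟩
  refine ⟨h.aux, ?_, fun k g => xp_single hZ k g, fun j => ?_, fun n => ?_, fun n s => ?_,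
    fun n => (letI := (L n).mr; letI := (L n).tw; (L n).out.quad),
    fun s hs => ⟨-2, fun n => (letI := (L n).mr; letI := (L n).tw; (L n).out.cst s hs)⟩,
    fun n v u hu => (letI := (L n).mr; letI := (L n).tw
      (L n).out.zero u (fun A _ X hX => h.hI n A X hX u hu) v),
    fun n f f' e => funext fun d => Subtype.ext (congrFun e d), fun n y f d => bk n y f d,
    fun n t s f d => congrArg Subtype.val (gl n t s f d), fun n t s => ?_, fun n => ?_,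
    fun n y f => ?_, fun n t s f => ?_, fun n => (hκ n).sec, fun n f => ?_,
    fun n y z => kn n _ z _ (bk n y _) (cE n (nt_gr hZ _ y.2)) (cd n (nt_gr hZ _ y.2)),
    fun n t s z => kn n _ z _ (fun d => congrArg Subtype.val (gl n t s _ d)) (cE n ((nt n).gal _))
      (cd n ((nt n).gal _)), fun n t s => (lf n t s).imp fun m e => ⟨e.1, fun z =>
        kn n _ z _ (fun d => congrArg Subtype.val (e.2 _ d)) (cE n ((nt n).gal _))
          (cd n ((nt n).gal _))⟩, fun n s z => ?_, fun n s => ?_,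
    ⟨_, inferInstance, fun n => (L n).π, 2 ^ (Γ.a + Γ.f), pow_ne_zero _ two_ne_zero,
      fun n => (letI := (L n).mr; letI := (L n).tw; (L n).out.pa),
      fun j => ⟨j, fun n i => (letI := (L n).mr; letI := (L n).tw; (L n).out.pl _ _ _ i j)⟩,
      fun n => (letI := (L n).mr; letI := (L n).tw; (L n).out.dsc)⟩,
    fun Λ _ _ _ ρ h1 h2 n => ?_, fun ρ h1 h2 n => ?_⟩
  · have h1 := h.num
    have h2 := Γ.f_eq
    show _ + _ + Γ.n1 ≤ Γ.r + (Γ.a + Γ.f)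
    omega
  · letI := fun n => (L n).mr
    letI := fun n => (L n).tw
    exact (eventually_ge_atTop j).mono fun n hn => (L n).out.fre _ hp rfl (Nat.le_succ_of_le hn)
      ((em n).1 j (Nat.le_succ_of_le hn))
  · letI := (L n).mr
    letI := (L n).tw
    exact (L n).out.sm _ hp rfl
      (unf_GP (p := p) (q := 0) (Fintype.equivFin (Z.J × Fin 3)).symm Γ.r).anti (em n).2
  · letI := (L n).mr
    letI := (L n).tw
    exact ⟨(P022D.CA.Cpl.mem_max_iff _).2 ((h.ker _).1 ((L n).out.mem s).1),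
      (P022D.CA.Cpl.mem_max_iff _).2 ((h.ker _).1 ((L n).out.mem s).2)⟩
  · letI := (L n).mr
    letI := (L n).tw
    obtain ⟨m, h1, h2⟩ := lf n t s
    obtain ⟨z, hz⟩ := (L n).out.ex_z (Fm.em _ _ _ (Γ.χ n s))⁻¹
    refine ⟨m, z, h1, fun f d => (congrArg Subtype.val (h2 _ d)).trans ?_⟩
    exact congrArg (fun v : (Γ.D n).Y => Z.g s v.1) ((hz f _).trans (by rw [mul_inv_cancel_right]))
  · obtain ⟨U', h1, h2, h3⟩ := (Γ.D n).lev'
    exact ⟨_, U', Set.finite_range _, h1, h2, fun f d =>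
      ⟨h3 _ (f d).2, ((Γ.D n).mem_Y.1 (f d).2).1.2⟩⟩
  · exact (congrArg (Γ.D n).E (bk n y f 1)).trans
      (LinearMap.congr_fun (cE n (nt_gr hZ _ y.2)) _).symm
  · exact (congrArg (fun v : (Γ.D n).Y => (Γ.D n).E v.1) (gl n t s f 1)).trans
      (LinearMap.congr_fun (cE n ((nt n).gal _)) _).symm
  · letI := (L n).mr
    letI := (L n).tw
    refine Iff.trans ⟨?_, ?_⟩ ((L n).out.fix_iff f).symm
    · rintro ⟨z, rfl⟩
      exact ⟨_, ((hκ n).rng _).1 ⟨z, rfl⟩, rfl⟩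
    · rintro ⟨v, hv, rfl⟩
      obtain ⟨z, rfl⟩ := ((hκ n).rng v).2 hv
      exact ⟨z, rfl⟩
  · letI := (L n).mr
    letI := (L n).tw
    exact kn n (Z.tg s) z _ (fun d => congrArg Subtype.val ((L n).out.tr s _ d))
      ((cE n ((nt n).gal _)).add_left ((cE n ((nt n).gal _)).smul_left _))
      fun s => (cd n ((nt n).gal _) s).add_left ((cd n ((nt n).gal _) s).smul_left _)
  · letI := (L n).mr
    letI := (L n).tw
    rw [h.tr, ← h.red]
    exact (AddMonoidHom.map_trace (Γ.S.red.comp MvPowerSeries.constantCoeff) _).trans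
      (congrArg _ (Matrix.ext ((L n).out.res s)))
  · obtain ⟨A, _, _, P, j, k⟩ := Ob.ex_nr hs h.inv h.res h.lam h1
    obtain ⟨x, φ, -, -, e⟩ := gp h hZ L b κ hC n h1 h2 k
    exact ⟨φ, e⟩
  · letI := (L n).mr
    letI := (L n).tw
    obtain ⟨P, k⟩ := Ob.ex_nrO hs h.inv h.res h.lam h1
    obtain ⟨x, φ, e1, e2, e⟩ := gp h hZ L b κ hC n h1 h2 k
    refine ⟨φ, e, fun z hz u hu => ((L n).out.pt P x k.io e1 k.al ((k.det _).trans (h1.det _))
      (κ n z) (fun s => ?_) u).trans ?_⟩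
    · obtain ⟨z', a1, a2⟩ := (hκ n).nat (Z.tg s) z (tt (Γ.D n).ga (cyH Z) s (κ n z)) rfl
        ((cE n ((nt n).gal _)).add_left ((cE n ((nt n).gal _)).smul_left _))
        fun s => (cd n ((nt n).gal _) s).add_left ((cd n ((nt n).gal _) s).smul_left _)
      refine a2.symm.trans (Eq.trans (congrArg _ (Subtype.ext ?_)) (map_smul _ _ _))
      exact a1.trans ((sub_eq_zero.1 ((Submodule.mem_iInf _).1 hz s)).trans
        (congrArg (· • z.1) (k.tr s).symm))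
    · rw [show x u = 0 from (e2 u).symm.trans hu, zero_smul]

end Gda

/-- row LVL from the existence of the outputs -/
theorem lvl_of (hL : ∀ (p : ℕ) [Fact p.Prime] (O F : Type) [CommRing O] [IsDomain O]
    [IsDiscreteValuationRing O] [CharZero O] [Algebra ℤ_[p] O] [Field F] [Finite F] [CharP F p]
    [Algebra O F] (Z : Si p O) (C : Fr Z F) (Γ : Gda C), Γ.Ok → C.Ok → ∀ n, Nonempty (Γ.Lo n)) :
    LVL := by
  intro p _ O F _ _ _ _ _ _ _ _ _ _ Z C Γ hZ hC h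
  obtain ⟨b, -, ho⟩ := (twl p O Z hZ C.t 0 h.hp
    (Nat.cast_ne_zero.2 (Fact.out : p.Prime).ne_zero)).2.1
  choose κ hκ using fun n => (Γ.D n).ex_kp (ho _ _ _)
  exact (Gda.pf_ok h hZ (fun n => (hL p O F Z C Γ h hC n).some) b κ hC (fun n => ho _ _ _)
    hκ).lim hC.sec

/-- **row LVL** -/
theorem lvl : LVL := lvl_of fun p _ O F _ _ _ _ _ _ _ _ _ Z C Γ h hC n =>
  let ⟨g, m, σ, hg, i, i', l, b, E, u, qa, qb, π, o⟩ := h.out hC n
  ⟨@Gda.Lo.mk p _ O _ _ _ _ Z F _ C Γ n g m σ i i' l b E u qa qb π hg o⟩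

end Vale.Agent.P022K.RT
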