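import Vale.Agent.P022K.RT.St3
import Vale.Agent.P022K.RT.Sys0

/-!
# P022K, block RT: row SYS (existence of the system of charts), from the local rows
-/

set_option linter.all false

noncomputable section

namespace Vale.Agent.P022K.RT

open IsLocalRing NumberField
open Vale.Agent.P022
open Vale.Agent.P022D.L2b (M2)
open Vale.Agent.P022D.W (dec)
open Vale.Agent.P022E.GW (Ov)
open Vale.Agent.P022K.PL (Cf)
open Vale.Agent.P022K.GW (Id Cy up Adq)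
open Vale.Agent.P022K.Top (Si cy Bad)

/-- the hypotheses on the residual representation -/
structure Hy {p : ℕ} [Fact p.Prime] {O : Type} [CommRing O] [Algebra ℤ_[p] O] (Z : Si p O)
    {F : Type} [Field F] [Algebra O F] [CharP F p] (rb : Z.H →* GL (Fin 2) F) (s : F → O) :
    Prop where
  sec : ∀ x, algebraMap O F (s x) = x
  opn : IsOpen {g | rb g = 1}
  det : ∀ g, (rb g : M2 F).det = algebraMap O F (cy p O g.1)
  spl : Spl fun g => (rb g : M2 F)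
  odd : p ≠ 2 → ∃ ω : Z.H →* (ZMod p)ˣ, Cy Z.H.subtype p ω ∧ Adq rb (up ω)
  two : p = 2 → ¬ IsSolvable rb.range
  unr : Ub Z rb

/-- the charts at `p` contain the equations of a block; the charts at the primes without
obstruction have three variables -/
structure Fr.Gd {p : ℕ} [Fact p.Prime] {O : Type} [CommRing O] [IsLocalRing O] {Z : Si p O}
    {F : Type} [Field F] [Algebra O F] (C : Fr Z F) : Prop where
  blk : ∀ t, Ov p (C.P t) → Bk F (C.I t) 6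
  thr : ∀ t l, Ov l (C.P t) → l ≠ p → p ≠ 2 → Nt l (C.P t) (C.r.comp (C.j t)) →
    Fintype.card (C.τ t) = 3

/-- **row SYS** -/
def SYS : Prop := ∀ (p : ℕ) [Fact p.Prime] (O F : Type) [CommRing O] [IsDomain O]
  [IsDiscreteValuationRing O] [Cf O] [Algebra ℤ_[p] O] [Field F] [Finite F] [CharP F p]
  [Algebra O F] (Z : Si p O) (rb : Z.H →* GL (Fin 2) F) (s : F → O) (Q : Set Id), Z.Ok →
  Hy Z rb s → Set.InjOn (below Z.j) Q → ∃ C : Fr Z F, C.rb = rb ∧ C.s = s ∧ C.Ok ∧ C.Gd ∧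
    ∀ P ∈ Q, Bad Z.H Z.S P → ∃ t, C.P t = P

namespace Sy

theorem lc_r {G F : Type} [Group G] [TopologicalSpace G] [IsTopologicalGroup G] [Field F]
    {rb : G →* GL (Fin 2) F} (h : IsOpen {g | rb g = 1}) :
    IsLocallyConstant ((Units.coeHom (M2 F)).comp rb) := by
  refine (IsLocallyConstant.iff_exists_open _).2 fun x =>
    ⟨(fun y => x⁻¹ * y) ⁻¹' {g | rb g = 1}, h.preimage (by fun_prop), by simp, fun y hy => ?_⟩
  have e : rb y = rb x := by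
    rw [← mul_inv_cancel_left x y, map_mul, show rb (x⁻¹ * y) = 1 from hy, mul_one]
  exact congrArg Units.val e

theorem fin_bad {K : Type} [Field K] [NumberField K] (j : K →+* Qb) (H : Subgroup GQ)
    (S : Finset ℕ) : {v : Ideal (𝓞 K) | ∃ P, Bad H S P ∧ below j P = v}.Finite :=
  (fin_below j S).subset fun _ ⟨P, ⟨l, h1, h2, _⟩, e⟩ => ⟨l, h1, P, h2, e⟩

variable {p : ℕ} [Fact p.Prime] {O : Type} [CommRing O] [Algebra ℤ_[p] O] {Z : Si p O}

theorem bad_p (hZ : Z.Ok) {P : Id} (h : Ov p P) : Bad Z.H Z.S P :=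
  ⟨p, hZ.mem, h, hZ.spl p (Finset.mem_singleton_self p) P h⟩

theorem ov_below {K : Type} [Field K] {j : K →+* Qb} {l : ℕ} {P Q : Id} (h : Ov l P)
    (hQ : Q.IsPrime) (e : below j P = below j Q) : Ov l Q := by
  have m : (l : 𝓞 K) ∈ below j P := by
    show RingOfIntegers.mapRingHom j l ∈ P
    rw [map_natCast]
    exact h.2.2
  rw [e] at m
  exact ⟨h.1, hQ, by simpa [below] using m⟩

end Sy

open Sy in
theorem sys_of (lu : LU) (z1 : Z1L) (lo : ∀ (p : ℕ) [Fact p.Prime], p ≠ 2 → LPo p) (l2 : LP2) :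
    SYS := by
  intro p _ O F _ _ _ _ _ _ _ _ _ Z rb s Q hZ h hQ
  classical
  let T : Type := {v : Ideal (𝓞 Z.F) // ∃ P, Bad Z.H Z.S P ∧ below Z.j P = v}
  haveI : Finite T := (fin_bad Z.j Z.H Z.S).to_subtype
  letI : Fintype T := Fintype.ofFinite T
  have hP : ∀ t : T, ∃ P, Bad Z.H Z.S P ∧ below Z.j P = t.1 ∧
      ∀ P' ∈ Q, Bad Z.H Z.S P' → below Z.j P' = t.1 → P = P' := fun t => by
    by_cases c : ∃ P' ∈ Q, Bad Z.H Z.S P' ∧ below Z.j P' = t.1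
    · obtain ⟨P, h1, h2, h3⟩ := c
      exact ⟨P, h2, h3, fun P' k1 _ k3 => hQ h1 k1 (h3.trans k3.symm)⟩
    · obtain ⟨P, h2, h3⟩ := t.2
      exact ⟨P, h2, h3, fun P' k1 k2 k3 => absurd ⟨P', k1, k2, k3⟩ c⟩
  choose P b1 b2 b3 using hP
  have le : ∀ t, dec (P t) ≤ Z.H := fun t => (b1 t).choose_spec.2.2
  have hu : ∀ k, ∃ t : T, t.1 = (Z.u k).asIdeal ∧ Ov p (P t) := fun k => by
    obtain ⟨P', h1, h2⟩ := above Z.j _ (Z.u k).isPrime
    have h3 := (hZ.up P').2 ⟨h1, k, h2⟩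
    refine ⟨⟨_, P', bad_p hZ h3, h2⟩, rfl, ?_⟩
    exact ov_below h3 (b1 _).choose_spec.2.1.2.1 (h2.trans (b2 ⟨_, P', bad_p hZ h3, h2⟩).symm)
  choose u u1 u2 using hu
  let r : Z.H →* M2 F := (Units.coeHom _).comp rb
  have hc : ∀ t, ∃ L : Lc (r.comp (Subgroup.inclusion (le t))) s fun x => co p O x.1,
      (Ov p (P t) → Bk F L.I 6) ∧ ∀ l', Ov l' (P t) → l' ≠ p → p ≠ 2 →
        Nt l' (P t) (r.comp (Subgroup.inclusion (le t))) → Fintype.card L.τ = 3 := fun t =>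
    chart lu z1 (lo p) l2 (b1 t).choose_spec.2.1
      ((lc_r h.opn).comp_continuous (continuous_inclusion (le t))) (fun x => h.spl _) h.sec
      (fun x => (h.det (Subgroup.inclusion (le t) x)).symm) fun n => by
        obtain ⟨ω, hω, -⟩ := h.odd n
        exact ⟨ω.comp (Subgroup.inclusion (le t)), fun g => hω (Subgroup.inclusion (le t) g)⟩
  choose L c1 c2 using hc
  refine ⟨⟨rb, s, T, P, le, u, fun t => (L t).τ, fun t => (L t).g, fun t => (L t).a,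
    fun t => (L t).b, fun t => (L t).I, fun t => (L t).f⟩, rfl, rfl,
    ⟨h.sec, h.opn, h.det, h.spl, h.odd, h.two, h.unr, b1,
      fun P' k => ⟨⟨_, P', k, rfl⟩, (b2 ⟨_, P', k, rfl⟩).symm⟩,
      fun t t' e => Subtype.ext ((b2 t).symm.trans (e.trans (b2 t'))),
      fun k => ⟨u2 k, (b2 _).trans (u1 k)⟩, fun t => (L t).tn, fun t => (L t).uni⟩, ⟨c1, c2⟩,
    fun P' k1 k2 => ⟨⟨_, P', k2, rfl⟩, b3 _ P' k1 k2 rfl⟩⟩

/-- prescribed primes at the places over `p` -/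
theorem SYS.pre (H : SYS) {p : ℕ} [Fact p.Prime] {O F : Type} [CommRing O] [IsDomain O]
    [IsDiscreteValuationRing O] [Cf O] [Algebra ℤ_[p] O] [Field F] [Finite F] [CharP F p]
    [Algebra O F] {Z : Si p O} {rb : Z.H →* GL (Fin 2) F} {s : F → O} (hZ : Z.Ok) (h : Hy Z rb s)
    (Q : Z.J → Id) (hQ : ∀ k, (Q k).IsPrime ∧ below Z.j (Q k) = (Z.u k).asIdeal) :
    ∃ C : Fr Z F, C.rb = rb ∧ C.s = s ∧ C.Ok ∧ C.Gd ∧ ∀ k, C.P (C.u k) = Q k := by
  obtain ⟨C, h1, h2, h3, h4, h5⟩ := H p O F Z rb s (Set.range Q) hZ h (by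
    rintro _ ⟨k, rfl⟩ _ ⟨k', rfl⟩ e
    rw [(hQ k).2, (hQ k').2] at e
    rw [hZ.uinj (IsDedekindDomain.HeightOneSpectrum.ext e)])
  refine ⟨C, h1, h2, h3, h4, fun k => ?_⟩
  obtain ⟨t, e⟩ := h5 _ ⟨k, rfl⟩ (Sy.bad_p hZ ((hZ.up _).2 ⟨(hQ k).1, k, (hQ k).2⟩))
  rw [h3.inj (C.u k) t (by rw [(h3.u k).2, e, (hQ k).2]), e]

section ok

variable {p : ℕ} [Fact p.Prime] {O : Type} [CommRing O] [IsLocalRing O] [Algebra ℤ_[p] O]
  {Z : Si p O} {F : Type} [Field F] [Algebra O F] [CharP F p] {C : Fr Z F}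

theorem Fr.Ok.hy (h : C.Ok) : Hy Z C.rb C.s := ⟨h.sec, h.opn, h.det, h.spl, h.odd, h.two, h.unr⟩

theorem Fr.Ok.u_inj (h : C.Ok) (hZ : Z.Ok) : Function.Injective C.u := fun k k' e =>
  hZ.uinj (IsDedekindDomain.HeightOneSpectrum.ext (by rw [← (h.u k).2, e, (h.u k').2]))

theorem Fr.Ok.ov_iff (h : C.Ok) (hZ : Z.Ok) (t : C.T) : Ov p (C.P t) ↔ t ∈ Set.range C.u := by
  refine ⟨fun o => ?_, fun ⟨k, e⟩ => e ▸ (h.u k).1⟩
  obtain ⟨k, e⟩ := ((hZ.up _).1 o).2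
  exact ⟨k, h.inj _ _ ((h.u k).2.trans e.symm)⟩

theorem Fr.Ok.ov (h : C.Ok) (t : C.T) : ∃ l ∈ Z.S, Ov l (C.P t) :=
  let ⟨l, h1, h2, _⟩ := h.bad t
  ⟨l, h1, h2⟩

theorem Fr.Ok.lc (h : C.Ok) (t : C.T) : IsLocallyConstant (C.r.comp (C.j t)) :=
  (Sy.lc_r h.opn).comp_continuous (continuous_inclusion (C.le t))

theorem Fr.Ok.p_mem (h : C.Ok) : (p : O) ∈ maximalIdeal O := Sy.p_mem h.sec p

theorem Fr.Ok.cd (h : C.Ok) : Cd (cy p O) := Sy.cd_co h.p_mem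

end ok

end Vale.Agent.P022K.RT
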