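import Vale.Agent.P022K.RT.Gda
import Vale.Agent.P022K.RT.Sys1
import Vale.Agent.P022K.GW.Pl

/-!
# P022K, block RT: places of a site (orbits, counts, complex conjugations)
-/

set_option linter.all false

noncomputable section

namespace Vale.Agent.P022K.RT.Cnt

open IsLocalRing NumberField
open Vale.Agent.P022
open Vale.Agent.P022D.L2b (M2)
open Vale.Agent.P022D.W (dec)
open Vale.Agent.P022E.GW (Ov)
open Vale.Agent.P022.H443 (inP)
open Vale.Agent.P022K.GW (Id Stb Fo pm In)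
open Vale.Agent.P022K.Top (Si cy Bad)
open scoped Pointwise

theorem same_below {K : Type} [Field K] [NumberField K] (j : K →+* Qb) {P P' : Id}
    (h : P.IsPrime) (h' : P'.IsPrime) : below j P = below j P' ↔ ∃ g : GK j, g.1 • P = P' :=
  ⟨fun e => (H916.exists_smul j h h' e).imp fun _ k => k.symm,
    fun ⟨g, e⟩ => e ▸ (GW.Pl.below_smul j g.2 P).symm⟩

theorem dec_smul {P : Id} {g x : GQ} : x ∈ dec (g • P) ↔ g⁻¹ * x * g ∈ dec P := by
  rw [GW.Pl.dec_iff, GW.Pl.dec_iff, mul_smul, mul_smul, inv_smul_eq_iff]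

theorem bad_smul {H : Subgroup GQ} {S : Finset ℕ} {P : Id} (h : Bad H S P) {g : GQ} (hg : g ∈ H) :
    Bad H S (g • P) := by
  obtain ⟨l, h1, h2, h3⟩ := h
  refine ⟨l, h1, GW.ov_smul h2 g, fun x hx => ?_⟩
  simpa [mul_assoc] using mul_mem (mul_mem hg (h3 (dec_smul.1 hx))) (inv_mem hg)

theorem bad_stb (H : Subgroup GQ) (S : Finset ℕ) : Stb H.subtype {P | Bad H S P} :=
  fun g _ h => bad_smul h g.2

/-- places of `K` over one prime: at most the degree -/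
theorem card_le {K J : Type} [Field K] [NumberField K] [Fintype J] (j : K →+* Qb) {l : ℕ}
    (Q : J → Id) (h : ∀ k, Ov l (Q k)) (inj : ∀ k k', below j (Q k) = below j (Q k') → k = k') :
    Fintype.card J ≤ (GK j).index := by
  rcases isEmpty_or_nonempty J with _ | ⟨⟨k0⟩⟩
  · simp
  choose g hg using fun k => GW.Pl.ov_trans (h k0) (h k)
  have := GW.Pl.cpt
  haveI : Finite (GQ ⧸ GK j) := (GK j).quotient_finite_of_isOpen (H916.isOpen_GK j)
  rw [← Nat.card_eq_fintype_card]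
  refine Nat.card_le_card_of_injective (fun k => (((g k)⁻¹ : GQ) : GQ ⧸ GK j)) fun k k' e =>
    inj k k' ?_
  have m : (g k)⁻¹⁻¹ * (g k')⁻¹ ∈ GK j := QuotientGroup.eq.1 e
  rw [← GW.Pl.below_smul j m (Q k'), ← hg k', inv_inv, mul_smul, inv_smul_smul, hg]

theorem cy_conj (p : ℕ) [hp : Fact p.Prime] (O : Type) [CommRing O] [Algebra ℤ_[p] O] {F : Type}
    [Field F] [CharP F p] [Algebra O F] {c : GQ} (h : P022.IsConj c) :
    algebraMap O F (cy p O c) = -1 := by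
  obtain ⟨φ, hφ⟩ := h
  have e := Sy.co_pow (p := p) (O := O) (F := F) c (k := p - 1) fun x hx => φ.injective (by
    have h1 : φ x ^ p = 1 := by rw [← map_pow, hx, map_one]
    have h2 : ‖φ x‖ = 1 := Complex.norm_eq_one_of_pow_eq_one h1 hp.out.ne_zero
    have h0 : φ x ≠ 0 := fun k => by simp [k] at h2
    rw [hφ, map_pow, ← Complex.inv_eq_conj h2]
    refine (eq_inv_of_mul_eq_one_left ?_).symm
    rw [← pow_succ, Nat.sub_add_cancel hp.out.one_le, h1])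
  rw [Nat.cast_sub hp.out.one_le, CharP.cast_eq_zero, Nat.cast_one, zero_sub] at e
  exact e

variable {p : ℕ} [Fact p.Prime] {O : Type} [CommRing O] [IsLocalRing O] [Algebra ℤ_[p] O]
  {Z : Si p O} {F : Type} [Field F] [Algebra O F] [CharP F p] {C : Fr Z F}

theorem emb (Z : Si p O) : Topology.IsOpenEmbedding Z.H.subtype :=
  (H916.isOpen_GK Z.j).isOpenEmbedding_subtypeVal

theorem card_J (hZ : Z.Ok) (h : C.Ok) : Fintype.card Z.J ≤ Z.H.index :=
  card_le Z.j (fun k => C.P (C.u k)) (fun k => (h.u k).1) fun k k' e => h.u_inj hZ (h.inj _ _ e)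

theorem prime (h : C.Ok) (t : C.T) : (C.P t).IsPrime := (h.ov t).choose_spec.2.2.1

/-- the bad places are representatives of the orbits on the bad primes -/
theorem rp (h : C.Ok) : Rp (pm Z.H.subtype (bad_stb Z.H Z.S)) (fun t => ⟨C.P t, h.bad t⟩)
    fun t => Set.range (C.j t) where
  all y := by
    obtain ⟨t, e⟩ := h.all y.1 y.2
    obtain ⟨g, k⟩ := (same_below Z.j (prime h t) y.2.choose_spec.2.1.2.1).1 e.symm
    exact ⟨t, g, Subtype.ext k⟩
  inj t t' g e := h.inj _ _ ((same_below Z.j (prime h t) (prime h t')).2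
    ⟨g, congrArg Subtype.val e⟩)
  stb t g := ⟨fun e => ⟨⟨g.1, (GW.Pl.dec_iff _ _).2 (congrArg Subtype.val e)⟩, rfl⟩,
    fun ⟨x, e⟩ => Subtype.ext ((GW.Pl.dec_iff _ _).1 (e ▸ x.2))⟩

theorem fo (h : C.Ok) : Fo (pm Z.H.subtype (bad_stb Z.H Z.S)) := GW.Pl.fo_of _ (rp h).all

theorem ne_T (hZ : Z.Ok) (h : C.Ok) : Nonempty C.T := by
  obtain ⟨P, hP⟩ := GW.Pl.ex_ov (Fact.out : p.Prime)
  exact ⟨(h.all P (Sy.bad_p hZ hP)).choose⟩

theorem odd (hZ : Z.Ok) (h : C.Ok) (c : GQ) (hc : P022.IsConj c) :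
    ∃ g, Z.H.subtype g = c ∧ (C.rb g).1.det = -1 :=
  ⟨⟨c, hZ.real c hc⟩, rfl, (h.det _).trans (cy_conj p O hc)⟩

theorem unr_in (h : C.Ok) {A : Set Id} (hA : ∀ P, Bad Z.H Z.S P → P ∈ A) :
    ∀ g ∈ In Z.H.subtype A, C.rb g = 1 :=
  fun g ⟨l, P, h1, h2, h3⟩ => h.unr l P h1 (fun k => h2 (hA P k)) g h3

theorem unr_inq (h : C.Ok) (Q : Set Z.I) : ∀ g ∈ Inq Z Q, C.rb g = 1 :=
  fun g ⟨l, P, h1, h2, _, h3⟩ => h.unr l P h1 h2 g h3

theorem inq_mono (Q : Set Z.I) : Inq Z Q ⊆ Inq Z ∅ :=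
  fun _ ⟨l, P, h1, h2, _, h3⟩ => ⟨l, P, h1, h2, fun _ k => k.elim, h3⟩

end Vale.Agent.P022K.RT.Cnt
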