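import Vale.Agent.P022K.RT.St

/-!
# P022K, block RT: the tangent space and the framed cocycles (row `TANB`)
-/

set_option linter.all false

noncomputable section

namespace Vale.Agent.P022K.RT

open Vale.Agent.P022D.L2b (M2)
open Vale.Agent.P022K.GW (Zc ad0 sl)

namespace Tb

/-- framings at the representatives extend to all places -/
theorem core {G k V X T : Type} [Group G] [TopologicalSpace G] [IsTopologicalGroup G] [Field k]
    [AddCommGroup V] [Module k V] [Nonempty T] (σ : Representation k G V) {π : G →* Equiv.Perm X}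
    {x : T → X} {D : T → Set G} {I : Set G} (h : Rp π x D) (hI : ∀ g ∈ I, σ g = 1)
    (Z : Submodule k ((G → V) × (T → V)))
    (hZ : ∀ z ∈ Z, (∀ g j, z.1 (g * j) = z.1 g + σ g (z.1 j)) ∧
      (∃ U : Subgroup G, IsOpen (U : Set G) ∧ ∀ u ∈ U, z.1 u = 0 ∧ σ u = 1) ∧
      (∀ g ∈ I, z.1 g = 0) ∧ ∀ t, ∀ g ∈ D t, z.1 g = z.2 t - σ g (z.2 t)) :
    Module.rank k Z ≤ Module.rank k (Zc π I σ) := by
  choose t s e using h.all
  let F : ((G → V) × (T → V)) →ₗ[k] X → V :=
    { toFun := fun z y => z.1 (s y) + σ (s y) (z.2 (t y))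
      map_add' := fun a b => funext fun y => by
        simp only [Prod.fst_add, Prod.snd_add, Pi.add_apply, map_add]; abel
      map_smul' := fun r a => funext fun y => by
        simp only [Prod.smul_fst, Prod.smul_snd, Pi.smul_apply, map_smul, smul_add,
          RingHom.id_apply] }
  have key : ∀ z ∈ Z, ∀ g l, F z (π g (x l)) = z.1 g + σ g (z.2 l) := fun z hz g l => by
    have : ∀ l' g', π g' (x l') = π g (x l) →
        z.1 g' + σ g' (z.2 l') = z.1 g + σ g (z.2 l) := fun l' g' k => by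
      have k' : π (g⁻¹ * g') (x l') = x l := by
        rw [map_mul, Equiv.Perm.mul_apply, k, ← Equiv.Perm.mul_apply, ← map_mul, inv_mul_cancel,
          map_one, Equiv.Perm.one_apply]
      obtain rfl := h.inj _ _ _ k'
      have := (hZ z hz).1 g (g⁻¹ * g')
      rw [(hZ z hz).2.2.2 _ _ ((h.stb _ _).1 k'), mul_inv_cancel_left, map_sub,
        ← Module.End.mul_apply, ← map_mul, mul_inv_cancel_left] at this
      rw [this]
      abel
    exact this _ _ (e _)
  have one : ∀ z ∈ Z, z.1 1 = 0 := fun z hz => by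
    have := (hZ z hz).1 1 1
    rw [one_mul, map_one, Module.End.one_apply] at this
    exact left_eq_add.1 this
  refine (F.restrict (p := Z) (q := Zc π I σ) fun z hz => ?_).rank_le_of_injective
    ((injective_iff_map_eq_zero _).2 fun z e0 => Subtype.ext ?_)
  · obtain ⟨h1, ⟨U, hU, h2⟩, h3, -⟩ := hZ z hz
    let W : Subgroup G :=
      { carrier := {u | z.1 u = 0 ∧ σ u = 1}
        mul_mem' := fun {a b} ha hb => ⟨by rw [h1, ha.1, hb.1, map_zero, add_zero], by
          rw [map_mul, ha.2, hb.2, one_mul]⟩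
        one_mem' := ⟨one z hz, map_one σ⟩
        inv_mem' := fun {a} ha => by
          have a1 := h1 a a⁻¹
          have a2 := map_mul σ a a⁻¹
          rw [mul_inv_cancel, one z hz, ha.1, ha.2, zero_add] at a1
          rw [mul_inv_cancel, map_one, ha.2, one_mul] at a2
          exact ⟨a1.symm, a2.symm⟩ }
    refine ⟨z.1, ⟨W, ⟨⟨fun u hu g => ⟨?_, ?_⟩⟩, Subgroup.isOpen_mono (H₁ := U) h2 hU,
      fun i hi => ⟨h3 i hi, hI i hi⟩⟩, fun w hw g => by rw [h1, hw.1, map_zero, add_zero]⟩,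
      fun g y => ?_⟩
    · rw [h1, h1, hu.1, map_zero, add_zero, map_mul, hu.2, mul_one, ← h1, mul_inv_cancel, one z hz]
    · rw [map_mul, map_mul, hu.2, mul_one, ← map_mul, mul_inv_cancel, map_one]
    · rw [← e y, ← Equiv.Perm.mul_apply, ← map_mul, key z hz, key z hz, h1, map_add, map_mul,
        Module.End.mul_apply, add_assoc]
  · have e1 : ∀ g l, z.1.1 g + σ g (z.1.2 l) = 0 := fun g l =>
      (key _ z.2 g l).symm.trans (congrFun (congrArg Subtype.val e0) _)
    have e2 : ∀ l, z.1.2 l = 0 := fun l => by simpa [one _ z.2] using e1 1 l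
    exact Prod.ext (funext fun g => by simpa [e2] using e1 g (Classical.arbitrary T)) (funext e2)

end Tb

theorem tanb : TANB := by
  intro G k X T _ _ _ _ _ _ ρ π x D I₀ I n h le hI
  have tr : ∀ g, (Units.coeHom _).comp ρ g = 1 → ρ g = 1 := fun g e => Units.ext e
  have tr' : ∀ g, (Units.coeHom (M2 k)).comp ρ g = 1 → ρ g⁻¹ = 1 := fun g e => by
    rw [map_inv, tr g e, inv_one]
  refine ⟨fun hf hn E Z hZ => ?_, fun hf hn Z hZ => ?_⟩
  · have a1 : ∀ g, ρ g = 1 → ad ρ g = 1 := fun g e => LinearMap.ext fun m => by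
      show (ρ g).1 * m * (ρ g⁻¹).1 = m
      rw [map_inv, e]; simp
    refine (Tb.core (ad ρ) h (fun g hg => a1 g (hI g hg)) Z fun z hz => ?_).trans ?_
    · obtain ⟨h1, ⟨U, o, -, h2⟩, h3, h4, -⟩ := hZ z hz
      exact ⟨h1, ⟨U, o, fun u hu => ⟨(h2 u hu).1, a1 u (tr u (h2 u hu).2)⟩⟩,
        fun g hg => h3 g (le hg), h4⟩
    · rw [← Module.finrank_eq_rank]
      exact_mod_cast hn
  have a1 : ∀ g, ρ g = 1 → ad0 ρ g = 1 := fun g e => LinearMap.ext fun m => Subtype.ext (by
    show (ρ g).1 * m.1 * (ρ g⁻¹).1 = m.1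
    rw [map_inv, e]; simp)
  let ι : ((G → sl k) × (T → sl k)) →ₗ[k] (G → M2 k) × (T → M2 k) :=
    ((sl k).subtype.compLeft G).prodMap ((sl k).subtype.compLeft T)
  have ιi : Function.Injective ι := fun a b e => Prod.ext
    (funext fun g => Subtype.ext (congrFun (congrArg Prod.fst e) g))
    (funext fun t => Subtype.ext (congrFun (congrArg Prod.snd e) t))
  let f : ((G → M2 k) × (T → M2 k)) →ₗ[k] T → k :=
    ((Matrix.traceLinearMap (Fin 2) k k).compLeft T).comp (LinearMap.snd k _ _)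
  have e1 := LinearMap.rank_range_add_rank_ker (f.domRestrict Z)
  have e2 : Module.rank k (LinearMap.ker (f.domRestrict Z)) ≤ Module.rank k (Z.comap ι) := by
    let m : LinearMap.ker (f.domRestrict Z) →ₗ[k] Z.comap ι :=
      { toFun := fun z => ⟨(fun g => ⟨z.1.1.1 g, (hZ _ z.1.2).tr g trivial⟩,
          fun t => ⟨z.1.1.2 t, congrFun z.2 t⟩), z.1.2⟩
        map_add' := fun _ _ => rfl
        map_smul' := fun _ _ => rfl }
    exact m.rank_le_of_injective fun a b e =>
      Subtype.ext (Subtype.ext (congrArg (fun z : Z.comap ι => ι z.1) e))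
  have e3 := Tb.core (ad0 ρ) h (fun g hg => a1 g (hI g hg)) (Z.comap ι) fun z hz => by
    obtain ⟨h1, ⟨U, o, -, h2⟩, h3, h4, -⟩ := hZ _ hz
    exact ⟨fun g j => Subtype.ext (h1 g j), ⟨U, o, fun u hu => ⟨Subtype.ext (h2 u hu).1,
      a1 u (tr u (h2 u hu).2)⟩⟩, fun g hg => Subtype.ext (h3 g (le hg)),
      fun t g hg => Subtype.ext (h4 t g hg)⟩
  rw [← e1, add_comm, Nat.cast_add]
  refine add_le_add (e2.trans (e3.trans ?_)) ((Submodule.rank_le _).trans (rank_fun' ..).le)
  rw [← Module.finrank_eq_rank]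
  exact_mod_cast hn

end Vale.Agent.P022K.RT
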