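import Vale.Agent.P022K.RT.TwlE

/-!
# P022K, block RT, row TWL: Taylor-Wiles levels on a site
-/

set_option linter.all false

noncomputable section

namespace Vale.Agent.P022K.RT.Tl

open IsLocalRing Module Vale.Agent.P022 Vale.Agent.P022.C CH Sh Top Top.Si
open Vale.Agent.P022K.WB (Kn)

theorem nor_of {G G' : Type} [Group G] [Group G'] {H : Subgroup G} (f : G' →* G) (S : Subgroup G')
    (h : ∀ g ∈ S, H ≤ cj (f g) H) {g : G'} (hg : g ∈ S) : f g ∈ Subgroup.normalizer (H : Set G) :=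
  Subgroup.mem_normalizer_iff''.2 fun y => ⟨fun hy => mem_cj.1 (h g hg hy), fun hy => by
    have := mem_cj.1 (h _ (inv_mem hg) hy)
    rwa [map_inv, show (f g)⁻¹⁻¹ * ((f g)⁻¹ * y * f g) * (f g)⁻¹ = y by group] at this⟩

theorem le_cj {G : Type} [Group G] {A H : Subgroup G} (le : A ≤ H) {x : G}
    (h : ∀ y ∈ A, Commute x y) : A ≤ cj x H := fun y hy =>
  mem_cj.2 (by rw [mul_assoc, ← (h y hy).eq, inv_mul_cancel_left]; exact le hy)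

theorem Nl.com {R M : Type} [CommRing R] [AddCommGroup M] [Module R M] {θ φ : End R M}
    (S : Submodule R M) (h1 : ∀ v ∈ S, θ v ∈ S) (h2 : ∀ v ∈ S, φ (θ v) = θ (φ v)) {v : M}
    (hv : v ∈ S) (h : v ∈ Nl θ) : φ v ∈ Nl θ := h.imp fun n hn => by
  suffices ∀ n : ℕ, ∀ v ∈ S, (θ ^ n) (φ v) = φ ((θ ^ n) v) by rw [this n v hv, hn, map_zero]
  intro n
  induction n with
  | zero => exact fun _ _ => rfl
  | succ n ih =>
    intro v hv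
    rw [pow_succ, Module.End.mul_apply, Module.End.mul_apply, ← ih _ (h1 v hv), h2 v hv]

theorem com_sub' {R M : Type} [CommRing R] [AddCommGroup M] [Module R M] {θ φ : End R M}
    (h : Commute θ φ) (c : R) : Commute (θ - c • 1) φ :=
  h.sub_left ((Commute.one_left _).smul_left c)

variable {p : ℕ} [Fact p.Prime] {O : Type} [CommRing O] [Algebra ℤ_[p] O] {Z : Si p O}

theorem cm_tg (h : Z.Ok) (i : Z.I) (s : Z.H) : Cm (Z.w i) Z.a (Z.tg s) := fun x =>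
  LinearMap.ext fun v => (h.ok1.a_tg _ s v).symm

theorem a_mm (h : Z.Ok) {t : Z.H → O} (x : Z.G) {v : Z.M} (hv : v ∈ Mm Z t) : Z.a x v ∈ Mm Z t :=
  (Submodule.mem_iInf _).2 fun s => Nl.map (com_sub' (LinearMap.ext fun v =>
    (h.ok1.a_tg x s v).symm) _) ((Submodule.mem_iInf _).1 hv s)

theorem aw_iota {Q : Set Z.I} {i : Z.I} (hi : i ∈ Q) (g : GL (Fin 2) ℚ_[Z.l i]) {v : Z.M}
    (hv : v ∈ Fv Z.a (Z.aw Q)) : Z.a ((Z.w i).ι g) v ∈ Fv Z.a (Z.aw Q) := fv_nor (fun u hu => by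
  rwa [mul_assoc, ← ((Z.w i).com g u ((mem_aw.1 hu).2.2 i hi)).eq, inv_mul_cancel_left]) hv

theorem idx_G (p : ℕ) [Fact p.Prime] (q : ℕ) (J : Type) [Fintype J] [DecidableEq J] (j : ℕ) :
    (NG p q J j).Normal ∧ ∃ m, (NG p q J j).index = p ^ m :=
  have h := unf_G (p := p) (q := q) (Fintype.equivFin (J × Fin 3)).symm
  ⟨h.nor j, _, (Iw.un_of_unf h).idx Fact.out j⟩

theorem idx_GP (p : ℕ) [Fact p.Prime] (q : ℕ) (J : Type) [Fintype J] [DecidableEq J] (r j : ℕ) :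
    (NP (NG p q J) p r j).Normal ∧ ∃ m, (NP (NG p q J) p r j).index = p ^ m :=
  have h := unf_GP (p := p) (q := q) (Fintype.equivFin (J × Fin 3)).symm r
  ⟨h.nor j, _, (Iw.un_of_unf h).idx Fact.out j⟩

namespace TW

variable [IsLocalRing O] {t : Z.H → O} {r n : ℕ} (D : TW Z t r n)

theorem ne {s s' : Fin r} (e : s ≠ s') : (Z.w (D.Q s)).Ne (Z.w (D.Q s')) :=
  D.ok.ww _ _ fun e' => e (D.inj e')

theorem xq_w (s : Fin r) (y : ∀ s, GL (Fin 2) ℚ_[Z.l (D.Q s)]) :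
    (Z.w (D.Q s)).π (D.xq y) = y s :=
  pi_ev (N := fun s => GL (Fin 2) ℚ_[Z.l (D.Q s)]) (φ := fun s => (Z.w (D.Q s)).ι) (k := s)
    (Z.w (D.Q s)).π (Z.w (D.Q s)).πι (fun i e => (D.ne e).1) y

theorem xq_mem {X : Subgroup Z.G} {y : ∀ s, GL (Fin 2) ℚ_[Z.l (D.Q s)]}
    (e : ∀ s, (Z.w (D.Q s)).ι (y s) ∈ X) : D.xq y ∈ X := pi_mem e

theorem xq_x (k : Z.J) (y : ∀ s, GL (Fin 2) ℚ_[Z.l (D.Q s)]) : (Z.x k).π (D.xq y) = 1 :=
  D.xq_mem (X := (Z.x k).π.ker) fun s => (D.ok.xw k _).1 _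

theorem kap_apply (q : ℕ) (g : (Z.J → Kn p (q + 2)) × Zr r) :
    D.kap q g = xk D.ok q g.1 * D.xq (D.dz g.2) := rfl

theorem kap_inl (q : ℕ) (k : Z.J → Kn p (q + 2)) : D.kap q (k, 1) = xk D.ok q k := by
  rw [kap_apply, map_one, map_one, mul_one]

theorem kap_zg (q : ℕ) (s : Fin r) : D.kap q (1, zg s) = D.d s := by
  have : D.dz (zg s) = Pi.mulSingle s (dO _ (D.c s)) := funext fun s' => by
    show dO _ (D.c s') ^ (Pi.single s 1 : Fin r → ℤ) s' = _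
    by_cases e : s' = s
    · subst e
      rw [Pi.single_eq_same, Pi.mulSingle_eq_same, zpow_one]
    · rw [Pi.single_eq_of_ne e, Pi.mulSingle_eq_of_ne e, zpow_zero]
  rw [kap_apply, map_one, one_mul, this]
  exact MonoidHom.noncommPiCoprod_mulSingle (N := fun s => GL (Fin 2) ℚ_[Z.l (D.Q s)]) _ s _

theorem kap_mem {q : ℕ} {X : Subgroup Z.G} {g : (Z.J → Kn p (q + 2)) × Zr r}
    (h1 : xk D.ok q g.1 ∈ X) (h2 : ∀ s, D.d s ∈ X) : D.kap q g ∈ X := by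
  rw [kap_apply]
  refine mul_mem h1 (D.xq_mem fun s => ?_)
  show (Z.w (D.Q s)).ι (dO _ (D.c s) ^ g.2.toAdd s) ∈ X
  rw [map_zpow]
  exact zpow_mem (h2 s) _

theorem mem_Y {v : Z.M} : v ∈ D.Y ↔ (v ∈ Fv Z.a (Z.aw (Set.range D.Q)) ∧ v ∈ Mm Z t) ∧ ∀ s,
    v ∈ (Z.w (D.Q s)).Fl Z.a (Iwn ℤ_[Z.l (D.Q s)] _ (p ^ n)) ∧
      v ∈ Nl (Uw (Z.w (D.Q s)) Z.a - D.α s • 1) :=
  and_congr_right fun _ => Submodule.mem_iInf _

theorem mem_Yd {v : Z.M} : v ∈ D.Yd ↔ v ∈ D.Y ∧ ∀ s, Z.a (D.d s) v = v :=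
  and_congr_right fun _ => (Submodule.mem_iInf _).trans (forall_congr' fun _ => sub_eq_zero)

/-- the level away from `p` -/
def H : Subgroup Z.G := Z.aw (Set.range D.Q) ⊔ Z.T.Z ⊔
  ⨆ s, (Iwn ℤ_[Z.l (D.Q s)] _ (p ^ n)).map (Z.w (D.Q s)).ι

theorem aw_le : Z.aw (Set.range D.Q) ≤ D.H := le_sup_left.trans le_sup_left

theorem z_le : Z.T.Z ≤ D.H := le_sup_right.trans le_sup_left

theorem iw_le (s : Fin r) : (Iwn ℤ_[Z.l (D.Q s)] _ (p ^ n)).map (Z.w (D.Q s)).ι ≤ D.H :=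
  (le_iSup (fun s => (Iwn ℤ_[Z.l (D.Q s)] _ (p ^ n)).map (Z.w (D.Q s)).ι) s).trans le_sup_right

theorem H_le {X : Subgroup Z.G} (h1 : Z.aw (Set.range D.Q) ≤ X) (h2 : Z.T.Z ≤ X)
    (h3 : ∀ s, ∀ y ∈ Iwn ℤ_[Z.l (D.Q s)] _ (p ^ n), (Z.w (D.Q s)).ι y ∈ X) : D.H ≤ X :=
  sup_le (sup_le h1 h2) (iSup_le fun s => Subgroup.map_le_iff_le_comap.2 (h3 s))

theorem fv_H {v : Z.M} : v ∈ Fv Z.a D.H ↔ v ∈ Fv Z.a (Z.aw (Set.range D.Q)) ∧
    ∀ s, v ∈ (Z.w (D.Q s)).Fl Z.a (Iwn ℤ_[Z.l (D.Q s)] _ (p ^ n)) :=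
  ⟨fun h => ⟨Fv_anti D.aw_le h, fun s => Fv_anti (D.iw_le s) h⟩,
    fun h => D.H_le (X := stb Z.a v) h.1 (fv_z D.ok v) fun s => mem_Fl.1 (h.2 s)⟩

theorem nor_x (k : Z.J) (g : GL (Fin 2) ℚ_[p]) :
    (Z.x k).ι g ∈ Subgroup.normalizer (D.H : Set Z.G) :=
  nor_of _ ⊤ (fun g _ => D.H_le (le_cj D.aw_le fun y hy => (Z.x k).com g y ((mem_aw.1 hy).2.1 k))
    (le_cj D.z_le fun y hy => Subgroup.mem_center_iff.1 (D.ok.ok.zc hy) _)
    fun s y hy => le_cj (D.iw_le s) (by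
      rintro _ ⟨y, -, rfl⟩
      exact com_ne (D.ok.xw k _) g y) ⟨y, hy, rfl⟩) trivial

theorem nor_w (s : Fin r) {g : GL (Fin 2) ℚ_[Z.l (D.Q s)]} (hg : g ∈ Iw0 ℤ_[Z.l (D.Q s)] _) :
    (Z.w (D.Q s)).ι g ∈ Subgroup.normalizer (D.H : Set Z.G) :=
  nor_of _ _ (fun g hg => D.H_le (le_cj D.aw_le fun y hy => (Z.w _).com g y
      ((mem_aw.1 hy).2.2 _ ⟨s, rfl⟩))
    (le_cj D.z_le fun y hy => Subgroup.mem_center_iff.1 (D.ok.ok.zc hy) _)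
    fun s' y hy => by
      by_cases e : s = s'
      · subst e
        rw [mem_cj, ← map_inv, ← map_mul, ← map_mul]
        exact D.iw_le s ⟨_, Iwn_nor hg hy, rfl⟩
      · exact le_cj (D.iw_le s') (by
          rintro _ ⟨y, -, rfl⟩
          exact com_ne (D.ne e) g y) ⟨y, hy, rfl⟩) hg

theorem hn (q : ℕ) (g : (Z.J → Kn p (q + 2)) × Zr r) :
    ∀ y ∈ D.H, (D.kap q g)⁻¹ * y * D.kap q g ∈ D.H := fun y =>
  (Subgroup.mem_normalizer_iff''.1 (D.kap_mem (xp_mem D.ok fun k => D.nor_x k _)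
    fun s => D.nor_w s (dO_Iw0 _)) y).1

theorem hk (q : ℕ) {j : ℕ} (hj : j ≤ n) (g : (Z.J → Kn p (q + 2)) × Zr r) (hg : D.kap q g ∈ D.H) :
    g ∈ NP (NG p q Z.J) p r j := by
  refine ⟨ng_of j fun k => ?_, fun s => ?_⟩
  · have := D.H_le (X := (Zl ℚ_[p]).comap (Z.x k).π) (fun y hy => by
      rw [Subgroup.mem_comap, (mem_aw.1 hy).2.1 k]; exact one_mem _) (Z.x k).cen'
      (fun s y _ => by rw [Subgroup.mem_comap, (D.ok.xw k _).1]; exact one_mem _) hg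
    rwa [Subgroup.mem_comap, kap_apply, map_mul, D.xq_x, mul_one, xk, MonoidHom.comp_apply,
      xp_x] at this
  · have := D.H_le (X := (Iwn ℤ_[Z.l (D.Q s)] _ (p ^ n) ⊔ Zl _).comap (Z.w (D.Q s)).π)
      (fun y hy => by rw [Subgroup.mem_comap, (mem_aw.1 hy).2.2 _ ⟨s, rfl⟩]; exact one_mem _)
      (fun y hy => Subgroup.mem_sup_right ((Z.w _).cen' y hy)) (fun s' y hy => by
        rw [Subgroup.mem_comap]
        by_cases e : s = s'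
        · subst e
          rw [(Z.w _).πι]
          exact Subgroup.mem_sup_left hy
        · rw [(D.ne e).1]
          exact one_mem _) hg
    rw [Subgroup.mem_comap, kap_apply, map_mul, D.xq_w, xk, MonoidHom.comp_apply, xp_w,
      one_mul] at this
    have _ := (Z.w (D.Q s)).fin
    have := dvd_of_mem (Z.w (D.Q s)).inj (D.gen s) (by rw [qq_zp]; exact D.dvd s) this
    exact (pow_dvd_pow _ hj).trans (by exact_mod_cast this)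

theorem kap_U (q : ℕ) (g : (Z.J → Kn p (q + 2)) × Zr r) : D.kap q g ∈ Z.U :=
  D.kap_mem (xk_U D.ok q _) fun s => (D.ok.atw _).1 _ (Up_le _ (dO_Iw0 _))

theorem lev (q j : ℕ) {N : Subgroup ((Z.J → Kn p (q + 2)) × Zr r)}
    (hN : NP (NG p q Z.J) p r j ≤ N) : D.H ⊔ N.map (D.kap q) ∈ Z.T.Nl := by
  refine lev_of D.ok (Set.finite_range D.Q) (sup_le (D.H_le (fun y hy => (mem_aw.1 hy).1)
    (Tl.z_le D.ok) fun s y hy => (D.ok.atw _).1 _ (Up_le _ hy)) ?_) (D.aw_le.trans le_sup_left)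
    (D.z_le.trans le_sup_left) (fun k => ⟨j + (q + 2), fun y hy => ?_⟩) ?_
  · rintro _ ⟨g, -, rfl⟩
    exact D.kap_U q g
  · obtain ⟨x, h1, h2⟩ := xk_open D.ok q j k hy
    exact Subgroup.mem_sup_right ⟨(x, 1), hN ⟨h1, one_mem _⟩, by rw [kap_inl, h2]⟩
  · rintro _ ⟨s, rfl⟩
    exact ⟨1, fun y hy => Subgroup.mem_sup_left (D.iw_le s ⟨y, Iw1_le_n _ (Km_le_Iw1 hy), rfl⟩)⟩

theorem cm_U {s s' : Fin r} (e : s ≠ s') : Cm (Z.w (D.Q s)) Z.a (Uw (Z.w (D.Q s')) Z.a) :=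
  fun g => (Cm.U (cm_ker ((D.ne e).2 g))).symm

theorem cm_E {s s' : Fin r} (e : s ≠ s') : Cm (Z.w (D.Q s)) Z.a (Ew (Z.w (D.Q s')) Z.a) :=
  fun g => (Cm.E (cm_ker ((D.ne e).2 g))).symm

theorem U_mem (s : Fin r) {v : Z.M} (hv : v ∈ Fv Z.a D.H) :
    Uw (Z.w (D.Q s)) Z.a v ∈ Fv Z.a D.H := by
  obtain ⟨h1, h2⟩ := D.fv_H.1 hv
  refine D.fv_H.2 ⟨?_, fun s' => ?_⟩
  · rw [Uw, LinearMap.sum_apply]
    exact sum_mem fun i _ => aw_iota (Set.mem_range_self s) _ h1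
  · by_cases e : s' = s
    · subst e
      exact Uw_mem (Iw1_le_n _) (Iwn_le _) (h2 s')
    · exact mem_Fl.2 fun g hg => by
        rw [← Module.End.mul_apply, ← (D.cm_U e g).eq, Module.End.mul_apply, mem_Fl.1 (h2 s') g hg]

/-- elements which normalise the level and commute with the operators `U` -/
def Nm : Subgroup Z.G where
  carrier := {x | x ∈ Subgroup.normalizer (D.H : Set Z.G) ∧ ∀ s, ∀ v ∈ Fv Z.a D.H,
    Uw (Z.w (D.Q s)) Z.a (Z.a x v) = Z.a x (Uw (Z.w (D.Q s)) Z.a v)}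
  mul_mem' {x y} hx hy := ⟨mul_mem hx.1 hy.1, fun s v hv => by
    rw [act_mul, act_mul, hx.2 s _ (fv_nor (fun u => (Subgroup.mem_normalizer_iff''.1 hy.1 u).1) hv),
      hy.2 s v hv]⟩
  one_mem' := ⟨one_mem _, fun s v _ => by simp⟩
  inv_mem' {x} hx := ⟨inv_mem hx.1, fun s v hv => by
    have := hx.2 s _ (fv_nor (fun u => (Subgroup.mem_normalizer_iff''.1 (inv_mem hx.1) u).1) hv)
    rw [← act_mul, mul_inv_cancel, map_one, Module.End.one_apply] at this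
    rw [this, ← act_mul, inv_mul_cancel, map_one, Module.End.one_apply]⟩

theorem nm_w (s : Fin r) {g : GL (Fin 2) ℚ_[Z.l (D.Q s)]} (hg : g ∈ Iw0 ℤ_[Z.l (D.Q s)] _) :
    (Z.w (D.Q s)).ι g ∈ D.Nm := ⟨D.nor_w s hg, fun s' v hv => by
  by_cases e : s = s'
  · subst e
    exact (Uw_com (mem_Fl.2 fun u hu => mem_Fl.1 ((D.fv_H.1 hv).2 s) u (Iw1_le_n _ hu)) hg).symm
  · exact LinearMap.congr_fun (D.cm_U e g).eq v⟩

theorem nm_kap (q : ℕ) (g : (Z.J → Kn p (q + 2)) × Zr r) : D.kap q g ∈ D.Nm :=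
  D.kap_mem (xp_mem D.ok fun k => ⟨D.nor_x k _, fun s v _ =>
    LinearMap.congr_fun (Cm.U (cm_ker ((D.ok.xw k _).2 _))).symm.eq v⟩)
    fun s => D.nm_w s (dO_Iw0 _)

/-- the operators which cut out the module -/
def th : Z.H ⊕ Fin r → End O Z.M :=
  Sum.elim (fun s => Z.tg s - t s • 1) fun s => Uw (Z.w (D.Q s)) Z.a - D.α s • 1

theorem mem_Y' (v : Z.M) : v ∈ D.Y ↔ v ∈ Fv Z.a D.H ∧ ∀ i, v ∈ Nl (D.th i) := by
  rw [mem_Y, fv_H, Sum.forall, Mm, Submodule.mem_iInf, forall_and]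
  tauto

theorem nm_Y {x : Z.G} (hx : x ∈ D.Nm) {v : Z.M} (hv : v ∈ D.Y) : Z.a x v ∈ D.Y := by
  have h1 := ((D.mem_Y' v).1 hv).1
  have h2 := fv_nor (fun u => (Subgroup.mem_normalizer_iff''.1 hx.1 u).1) h1
  refine D.mem_Y.2 ⟨⟨(D.fv_H.1 h2).1, a_mm D.ok x (D.mem_Y.1 hv).1.2⟩, fun s =>
    ⟨(D.fv_H.1 h2).2 s, Nl.com (Fv Z.a D.H) (fun v hv => sub_mem (D.U_mem s hv)
      (Submodule.smul_mem _ _ hv)) (fun v hv => ?_) h1 ((D.mem_Y.1 hv).2 s).2⟩⟩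
  simp only [LinearMap.sub_apply, LinearMap.smul_apply, Module.End.one_apply, map_sub, map_smul,
    hx.2 s v hv]

theorem dt (q : ℕ) {j : ℕ} (hj : j ≤ n) {R Y : Type} [CommRing R] [AddCommGroup Y] [Module O Y]
    [Module R Y] {ρ : (Z.J → Kn p (q + 2)) × Zr r →* End R Y} {φ : Y →ₗ[O] Z.M}
    (e : Emb Z.a D.Y (D.kap q) ρ φ) : DT p ρ (NP (NG p q Z.J) p r j) := by
  obtain ⟨i1, i2⟩ := idx_GP p q Z.J r j
  refine dt_emb D.ok.cc _ (D.hn q) _ i2 (Fact.out : p.Prime).ne_zero (D.hk q hj) (D.lev q j le_top)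
    (D.lev q j le_rfl) D.th ?_ ?_ ?_ D.mem_Y' e
  · rintro (s | s) v hv
    exacts [sub_mem (D.ok.ok1.tg_mem hv s) (Submodule.smul_mem _ _ hv),
      sub_mem (D.U_mem s hv) (Submodule.smul_mem _ _ hv)]
  · have k1 : ∀ s s' v, Z.tg s (Uw (Z.w (D.Q s')) Z.a v) = Uw (Z.w (D.Q s')) Z.a (Z.tg s v) :=
      fun s s' => LinearMap.congr_fun (cm_tg D.ok _ s).U.eq
    have k2 : ∀ s s' v, Uw (Z.w (D.Q s)) Z.a (Uw (Z.w (D.Q s')) Z.a v) =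
        Uw (Z.w (D.Q s')) Z.a (Uw (Z.w (D.Q s)) Z.a v) := fun s s' v => by
      by_cases e : s' = s
      · rw [e]
      · exact LinearMap.congr_fun (D.cm_U e).U.eq v
    rintro (s | s) (s' | s') v hv <;> simp only [th, Sum.elim_inl, Sum.elim_inr,
      LinearMap.sub_apply, LinearMap.smul_apply, Module.End.one_apply, map_sub, map_smul, smul_sub]
    · rw [D.ok.ok1.tg_tg (Set.finite_range D.Q) (D.fv_H.1 hv).1, smul_comm (t s) (t s') v]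
      abel
    · rw [k1, smul_comm (t s)]
      abel
    · rw [k1, smul_comm (t s')]
      abel
    · rw [k2, smul_comm (D.α s) (D.α s') v]
      abel
  · rintro (s | s) g v hv <;> simp only [th, Sum.elim_inl, Sum.elim_inr,
      LinearMap.sub_apply, LinearMap.smul_apply, Module.End.one_apply, map_sub, map_smul]
    · rw [D.ok.ok1.a_tg]
    · rw [(D.nm_kap q g).2 s v hv]

theorem nat_Y {θ : End O Z.M} (hθ : Nt (Set.range D.Q) θ) {v : Z.M} (hv : v ∈ D.Y) :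
    θ v ∈ D.Y := by
  obtain ⟨⟨h1, h2⟩, h3⟩ := D.mem_Y.1 hv
  refine D.mem_Y.2 ⟨⟨hθ.fv v h1, hθ.mm D.ok h1 h2⟩, fun s => ⟨mem_Fl.2 fun g hg => ?_,
    Nl.map (com_sub' (hθ.cm _ ⟨s, rfl⟩).U.symm _) (h3 s).2⟩⟩
  rw [← Module.End.mul_apply, ← (hθ.cm _ ⟨s, rfl⟩ g).eq, Module.End.mul_apply,
    mem_Fl.1 (h3 s).1 g hg]

theorem com_E {θ : End O Z.M} (hθ : ∀ s, Cm (Z.w (D.Q s)) Z.a θ) : Commute θ D.E :=
  Commute.list_prod_right _ _ fun x hx => by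
    obtain ⟨s, -, rfl⟩ := List.mem_map.1 hx
    exact (hθ s).E

theorem tau (s : Fin r) {v : Z.M} (hv : v ∈ D.Y) :
    Z.tg (D.τ s) v = Z.a (D.d s) v + Z.a (D.d s)⁻¹ v := by
  have e := D.twm s _ (D.ok.ok1.g_mem (Fv_anti (Subgroup.map_mono (Iw1_le_n _))
    ((D.mem_Y.1 hv).2 s).1) (D.τ s)⁻¹)
  have k : Z.g (D.τ s) (Z.g (D.τ s)⁻¹ v) = v := by
    rw [← Module.End.mul_apply, ← map_mul, mul_inv_cancel, map_one, Module.End.one_apply]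
  rw [k, dO_inv, map_inv] at e
  rw [tg_apply, cy_inert (D.ov s) (D.ok.ok1.l_ne _) (D.ine s), one_smul, ← sub_eq_zero, ← e, d]
  abel

/-- the intermediate levels -/
def W (L : List (Fin r)) : Set Z.M :=
  {v | (v ∈ Fv Z.a (Z.aw (Set.range D.Q)) ∧ v ∈ Mm Z t) ∧
    (∀ s ∈ L, v ∈ (Z.w (D.Q s)).Fl Z.a (KK ℤ_[Z.l (D.Q s)] _)) ∧
    ∀ s ∉ L, v ∈ (Z.w (D.Q s)).Fl Z.a (Iw0 ℤ_[Z.l (D.Q s)] _) ∧
      v ∈ Nl (Uw (Z.w (D.Q s)) Z.a - D.α s • 1)}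

theorem W_nil : D.W [] = D.Yd := Set.ext fun v => by
  refine ⟨fun h => D.mem_Yd.2 ⟨D.mem_Y.2 ⟨h.1, fun s => ⟨Fv_anti (Subgroup.map_mono (Iwn_le _))
    (h.2.2 s (by simp)).1, (h.2.2 s (by simp)).2⟩⟩, fun s =>
      mem_Fl.1 (h.2.2 s (by simp)).1 _ (dO_Iw0 _)⟩, fun h => ?_⟩
  obtain ⟨h1, h2⟩ := D.mem_Yd.1 h
  obtain ⟨h3, h4⟩ := D.mem_Y.1 h1
  exact ⟨h3, by simp, fun s _ => ⟨mem_Fl.2 (Iw0_le (X := (stb Z.a v).comap (Z.w (D.Q s)).ι) (D.gen s)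
    (fun g hg => mem_Fl.1 (h4 s).1 g (Iw1_le_n _ hg)) (h2 s)), (h4 s).2⟩⟩

theorem W_all : D.W (List.finRange r) = Y0 Z t := Set.ext fun v => by
  refine ⟨fun h => ⟨fun u hu => peelS D.ok (Set.finite_range D.Q) (X := stb Z.a v) h.1.1
    (mem_aw.1 hu).1 (fun k => by rw [(mem_aw.1 hu).2.1 k, map_one]; exact one_mem _) ?_, h.1.2⟩,
    fun h => ⟨⟨Fv_anti (aw_anti (Set.empty_subset _)) h.1, h.2⟩,
      fun s _ => D.ok.ok1.aw_fl (Set.notMem_empty _) h.1, fun s hs => (hs (List.mem_finRange s)).elim⟩⟩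
  rintro _ ⟨s, rfl⟩
  exact (sup_le (mem_Fl.1 (h.2.1 s (List.mem_finRange s))) (fun z hz => fv_z D.ok v _
    ((Z.w _).cen z hz)) : _ ≤ (stb Z.a v).comap (Z.w (D.Q s)).ι)
    ((D.ok.atw _).2 u (mem_aw.1 hu).1)

end TW

variable [IsDomain O] [IsDiscreteValuationRing O] (hp : (p : O) ∈ maximalIdeal O)
  (p0 : (p : O) ≠ 0)

namespace TW

variable {t : Z.H → O} {r n : ℕ} (D : TW Z t r n)

include hp

theorem l_mem (s : Fin r) : ((Z.l (D.Q s) : ℕ) : O) - 1 ∈ maximalIdeal O := by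
  obtain ⟨c, hc⟩ := (dvd_pow_self p D.pos.ne').trans (D.dvd s)
  have := congrArg (Nat.cast : ℕ → O) hc
  rw [Nat.cast_sub (Z.l (D.Q s)).2.one_le, Nat.cast_one, Nat.cast_mul] at this
  exact this ▸ Ideal.mul_mem_right _ _ hp

theorem ex_beta (s : Fin r) : ∃ β, D.α s * β = (Z.l (D.Q s) : ℕ) ∧ IsUnit (D.α s - β) ∧
    t (D.φ s) - (D.α s + β) ∈ maximalIdeal O := by
  have h1 := D.l_mem hp s
  obtain ⟨u, hu⟩ : ∃ u, D.α s * u = 1 := IsUnit.exists_right_inv (by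
    by_contra hc
    have := sub_mem (D.tr s) (Ideal.mul_mem_left _ (D.α s - t (D.φ s)) ((mem_maximalIdeal _).2 hc))
    refine (mem_maximalIdeal (1 : O)).1 ?_ isUnit_one
    convert this using 1
    ring)
  refine ⟨u * (Z.l (D.Q s) : ℕ), by rw [← mul_assoc, hu, one_mul], ?_, ?_⟩
  · by_contra hc
    have := add_mem (Ideal.mul_mem_left _ (D.α s) ((mem_maximalIdeal _).2 hc)) h1
    refine (mem_maximalIdeal _).1 ?_ (D.un s)
    convert this using 1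
    linear_combination ((Z.l (D.Q s) : ℕ) : O) * hu
  · have := neg_mem (Ideal.mul_mem_left _ u (add_mem (D.tr s) h1))
    convert this using 1
    linear_combination (D.α s - t (D.φ s)) * hu

include p0

theorem step {s : Fin r} {L : List (Fin r)} (hs : s ∉ L) :
    Set.BijOn (Ew (Z.w (D.Q s)) Z.a) (D.W L) (D.W (s :: L)) := by
  obtain ⟨β, b1, b2, b3⟩ := D.ex_beta hp s
  have tor := tor_max D.ok.cc p0
  let X : Submodule O Z.M := Fv Z.a (Z.aw (Set.range D.Q)) ⊓ Mm Z t ⊓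
    ((⨅ s' ∈ L, (Z.w (D.Q s')).Fl Z.a (KK ℤ_[Z.l (D.Q s')] _)) ⊓ ⨅ s' ∉ s :: L,
      (Z.w (D.Q s')).Fl Z.a (Iw0 ℤ_[Z.l (D.Q s')] _) ⊓ Nl (Uw (Z.w (D.Q s')) Z.a - D.α s' • 1))
  have hX : ∀ v, v ∈ X ↔ (v ∈ Fv Z.a (Z.aw (Set.range D.Q)) ∧ v ∈ Mm Z t) ∧
      (∀ s' ∈ L, v ∈ (Z.w (D.Q s')).Fl Z.a (KK ℤ_[Z.l (D.Q s')] _)) ∧ ∀ s' ∉ s :: L,
      v ∈ (Z.w (D.Q s')).Fl Z.a (Iw0 ℤ_[Z.l (D.Q s')] _) ∧
        v ∈ Nl (Uw (Z.w (D.Q s')) Z.a - D.α s' • 1) := fun v => by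
    simp only [X, Submodule.mem_inf, Submodule.mem_iInf]
  have fl : ∀ s', s' ≠ s → ∀ V g, ∀ v ∈ (Z.w (D.Q s')).Fl Z.a V,
      Z.a ((Z.w (D.Q s)).ι g) v ∈ (Z.w (D.Q s')).Fl Z.a V := fun s' e V g v hv =>
    mem_Fl.2 fun y hy => by rw [← act_mul, (com_ne (D.ne e) y g).eq, act_mul, mem_Fl.1 hv y hy]
  have key := tw_bij (w := Z.w (D.Q s)) (a := Z.a) (fun g hg => D.ok.cc.z _ ((Z.w _).cen g hg)) X
    (fun g v hv => by
      obtain ⟨⟨a1, a2⟩, a3, a4⟩ := (hX v).1 hv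
      refine (hX _).2 ⟨⟨aw_iota (Set.mem_range_self s) g a1, a_mm D.ok _ a2⟩, fun s' h =>
        fl s' (fun e => hs (e ▸ h)) _ g v (a3 s' h), fun s' h => ?_⟩
      have e : s' ≠ s := fun e => h (e ▸ List.mem_cons_self)
      exact ⟨fl s' e _ g v (a4 s' h).1, Nl.map (com_sub' (D.cm_U e.symm g) _) (a4 s' h).2⟩)
    tor (α := D.α s) (β := β) (by rw [qq_zp]; exact D.l_mem hp s) (by rw [qq_zp]; exact b1) b2
    fun v hv hk => by
      obtain ⟨j, hj⟩ := tor v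
      refine Nl.congr (a := t (D.φ s)) ⟨j, hj _ (Ideal.pow_mem_pow b3 j)⟩
        (((Submodule.mem_iInf _).1 ((hX v).1 hv).1.2 (D.φ s)).imp fun m hm => ?_)
      rwa [← Nl.of_eq (θ := Z.tg (D.φ s) - t (D.φ s) • 1) _ (fun x hx => sub_mem
        (D.ok.ok1.tg_mem hx _) (Submodule.smul_mem _ _ hx)) (fun x hx => by
          rw [LinearMap.sub_apply, LinearMap.sub_apply, D.ok.ok1.tg_frob (D.ov s) (D.fr s) hx]) hk]
  convert key using 1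
  · refine Set.ext fun v => ⟨fun h => ⟨⟨(hX v).2 ⟨h.1, h.2.1, fun s' e => h.2.2 s' fun c =>
      e (List.mem_cons_of_mem _ c)⟩, (h.2.2 s hs).1⟩, (h.2.2 s hs).2⟩, fun h => ?_⟩
    obtain ⟨a1, a2, a3⟩ := (hX v).1 h.1.1
    refine ⟨a1, a2, fun s' e => ?_⟩
    by_cases c : s' = s
    · subst c
      exact ⟨h.1.2, h.2⟩
    · exact a3 s' fun m => (List.mem_cons.1 m).elim c e
  · refine Set.ext fun v => ⟨fun h => ⟨(hX v).2 ⟨h.1, fun s' e => h.2.1 s'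
      (List.mem_cons_of_mem _ e), h.2.2⟩, h.2.1 s List.mem_cons_self⟩, fun h => ?_⟩
    obtain ⟨a1, a2, a3⟩ := (hX v).1 h.1
    refine ⟨a1, fun s' e => ?_, a3⟩
    rcases List.mem_cons.1 e with rfl | e
    exacts [h.2, a2 s' e]

theorem bij : Set.BijOn D.E D.Yd (Y0 Z t) := by
  rw [← D.W_nil, ← D.W_all]
  suffices ∀ L : List (Fin r), L.Nodup → Set.BijOn
    ((L.map fun s => Ew (Z.w (D.Q s)) Z.a).prod : End O Z.M) (D.W []) (D.W L) from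
    this _ (List.nodup_finRange r)
  intro L
  induction L with
  | nil => exact fun _ => Set.bijOn_id _
  | cons s L ih =>
    intro h
    rw [List.map_cons, List.prod_cons]
    exact (D.step hp p0 (List.nodup_cons.1 h).1).comp (ih (List.nodup_cons.1 h).2)

theorem bs {q b : ℕ} {f : Fin b → Z.M}
    (hf : Bs O {v | v ∈ Y0 Z t ∧ ∀ k, Z.a (xk D.ok q k) v = v} f) :
    ∃ f' : Fin b → Z.M, Bs O {v | v ∈ D.Y ∧ ∀ g, Z.a (D.kap q g) v = v} f' := by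
  have c : ∀ k v, Z.a (xk D.ok q k) (D.E v) = D.E (Z.a (xk D.ok q k) v) := fun k =>
    LinearMap.congr_fun (D.com_E fun s => cm_ker (xp_w D.ok _ _)).eq
  have m : ∀ v, (v ∈ D.Y ∧ ∀ g, Z.a (D.kap q g) v = v) ↔
      v ∈ D.Yd ∧ ∀ k, Z.a (xk D.ok q k) v = v := fun v =>
    ⟨fun h => ⟨D.mem_Yd.2 ⟨h.1, fun s => D.kap_zg q s ▸ h.2 _⟩, fun k => D.kap_inl q k ▸ h.2 _⟩,
      fun h => ⟨(D.mem_Yd.1 h.1).1, fun g => D.kap_mem (X := stb Z.a v) (h.2 _) (D.mem_Yd.1 h.1).2⟩⟩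
  have hb := D.bij hp p0
  obtain ⟨f', h'⟩ := hf.comap (S := D.Y ⊓ Fv Z.a (D.kap q).range) D.E ⟨fun v hv => by
      obtain ⟨a1, a2⟩ := (m v).1 ⟨hv.1, fun g => hv.2 _ ⟨g, rfl⟩⟩
      exact ⟨hb.1 a1, fun k => by rw [c, a2]⟩,
    hb.2.1.mono fun v hv => ((m v).1 ⟨hv.1, fun g => hv.2 _ ⟨g, rfl⟩⟩).1, fun v hv => by
      obtain ⟨y, a1, rfl⟩ := hb.2.2 hv.1
      obtain ⟨a2, a3⟩ := (m y).2 ⟨a1, fun k => hb.2.1 (D.mem_Yd.2 ⟨D.kap_inl q k ▸ D.nm_Y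
        (D.nm_kap q _) (D.mem_Yd.1 a1).1, fun s => by
          rw [← act_mul, (show Commute (D.d s) (xk D.ok q k) from xp_com D.ok
            (fun k => (D.ok.xw k _).1 _) _).eq, act_mul, (D.mem_Yd.1 a1).2]⟩) a1
        (by rw [← c, hv.2])⟩
      exact ⟨y, ⟨a2, by rintro _ ⟨g, rfl⟩; exact a3 g⟩, rfl⟩⟩
  refine ⟨f', ?_⟩
  convert h' using 1
  exact Set.ext fun v => and_congr_right fun _ =>
    ⟨by rintro h _ ⟨g, rfl⟩; exact h g, fun h g => h _ ⟨g, rfl⟩⟩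

theorem out {q b : ℕ} {f : Fin b → Z.M}
    (hf : Bs O {v | v ∈ Y0 Z t ∧ ∀ k, Z.a (xk D.ok q k) v = v} f) : D.Out q b := by
  refine ⟨fun g v => D.nm_Y (D.nm_kap q g), fun θ hθ => ⟨fun v => D.nat_Y hθ,
    D.com_E fun s => hθ.cm _ ⟨s, rfl⟩⟩, fun R Y _ _ _ _ _ _ ρ φ e => ⟨fun j hj => ?_, fun y => ?_⟩,
    D.bij hp p0, fun s v => D.tau s, fun Y _ _ γ φ e => gq_of D.ok (Set.finite_range D.Q)
      (fun v hv => (D.mem_Y.1 hv).1.1) (fun v hv => (D.mem_Y.1 hv).1.2) e⟩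
  · obtain ⟨f', h'⟩ := D.bs hp p0 hf
    obtain ⟨i1, i2⟩ := idx_GP p q Z.J r j
    exact fre_emb e (D.dt q hj e) i2 hp h'
  · obtain ⟨j, hj⟩ := xk_sm D.ok q (φ y)
    obtain ⟨j', hj'⟩ := tor_max D.ok.cc p0 (φ y)
    refine ⟨max n (max j j'), fun g hg => e.inj ?_, fun o ho => e.inj ?_⟩
    · rw [e.eqv, kap_apply, act_mul, show Z.a (D.xq (D.dz g.2)) (φ y) = φ y from
        D.xq_mem (X := stb Z.a (φ y)) fun s => mem_Fl.1 ((D.mem_Y.1 ((e.rng _).1 ⟨y, rfl⟩)).2 s).1 _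
          (dO_Iwn _ (by exact_mod_cast (pow_dvd_pow _ (le_max_left _ _)).trans (hg.2 s)))]
      exact hj _ ((unf_G (Fintype.equivFin (Z.J × Fin 3)).symm).anti
        ((le_max_left _ _).trans (le_max_right _ _)) hg.1)
    · rw [map_smul, map_zero]
      exact hj' o (Ideal.pow_le_pow_right ((le_max_right _ _).trans (le_max_right _ _)) ho)

end TW

theorem lev0 (h : Z.Ok) (q j : ℕ) {N : Subgroup (Z.J → Kn p (q + 2))} (hN : NG p q Z.J j ≤ N) :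
    Z.aw ∅ ⊔ Z.T.Z ⊔ N.map (xk h q) ∈ Z.T.Nl := by
  refine lev_of h Set.finite_empty (sup_le (sup_le (fun y hy => (mem_aw.1 hy).1) (z_le h)) ?_)
    (le_sup_left.trans le_sup_left) (le_sup_right.trans le_sup_left)
    (fun k => ⟨j + (q + 2), fun y hy => ?_⟩) fun _ e => e.elim
  · rintro _ ⟨g, -, rfl⟩
    exact xk_U h q g
  · obtain ⟨x, h1, h2⟩ := xk_open h q j k hy
    exact Subgroup.mem_sup_right ⟨x, hN h1, h2⟩

theorem ex_bs (h : Z.Ok) (t : Z.H → O) (q : ℕ) (hp : (p : O) ∈ maximalIdeal O) :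
    ∃ (b : ℕ) (f : Fin b → Z.M), Bs O {v | v ∈ Y0 Z t ∧ ∀ k, Z.a (xk h q k) v = v} f := by
  obtain ⟨b, f, hf⟩ := ex_Bs (Y0 Z t ⊓ Fv Z.a (xk h q).range) ((h.cc.adm _
    (lev0 h q 0 le_top).1).subset fun v hv => ⟨fv_sup.2 ⟨fv_sup.2 ⟨hv.1.1.1, fv_z h v⟩, by
      rintro _ ⟨g, -, rfl⟩; exact hv.1.2 _ ⟨g, rfl⟩⟩, by
      rw [← Nat.cast_smul_eq_nsmul O]; exact hv.2 _ hp⟩)
  refine ⟨b, f, ?_⟩
  convert hf using 1
  exact Set.ext fun v => and_congr_right fun _ =>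
    ⟨by rintro h _ ⟨g, rfl⟩; exact h g, fun h g => h _ ⟨g, rfl⟩⟩

include hp p0 in
theorem out0 (h : Z.Ok) {t : Z.H → O} {q b : ℕ} {f : Fin b → Z.M}
    (hf : Bs O {v | v ∈ Y0 Z t ∧ ∀ k, Z.a (xk h q k) v = v} f) : Out0 h t q b := by
  refine ⟨fun θ hθ v hv => ⟨hθ.fv v hv.1, hθ.mm h hv.1 hv.2⟩, fun R Y _ _ _ _ _ _ ρ φ e =>
    ⟨fun y => ?_, fun j => ?_⟩, fun Y _ _ γ φ e => gq_of h Set.finite_empty inf_le_left
      inf_le_right e⟩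
  · obtain ⟨j, hj⟩ := xk_sm h q (φ y)
    obtain ⟨j', hj'⟩ := tor_max h.cc p0 (φ y)
    refine ⟨max j j', fun g hg => e.inj ?_, fun o ho => e.inj ?_⟩
    · rw [e.eqv]
      exact hj _ ((unf_G (Fintype.equivFin (Z.J × Fin 3)).symm).anti (le_max_left _ _) hg)
    · rw [map_smul, map_zero]
      exact hj' o (Ideal.pow_le_pow_right (le_max_right _ _) ho)
  · obtain ⟨i1, i2⟩ := idx_G p q Z.J j
    have fv : ∀ v, v ∈ Fv Z.a (Z.aw ∅ ⊔ Z.T.Z) ↔ v ∈ Z.Mp := fun v =>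
      fv_sup.trans (and_iff_left (fv_z h v))
    refine fre_emb e (dt_emb h.cc _ (H := Z.aw ∅ ⊔ Z.T.Z) (fun k y hy => mem_cj.1 (le_cj le_rfl
      (fun y hy => (sup_le (fun y hy => Subgroup.mem_centralizer_singleton_iff.2
        (xp_com h (mem_aw.1 hy).2.1 _).eq) (fun y hy => Subgroup.center_le_centralizer _
          (h.ok.zc hy)) : _ ≤ Subgroup.centralizer {xk h q k}) hy _ rfl) hy)) _ i2
      (Fact.out : p.Prime).ne_zero (fun x hx => ng_of j fun k => ?_) (lev0 h q j le_top)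
      (lev0 h q j le_rfl) (fun s => Z.tg s - t s • 1) (fun s v hv => sub_mem (h.ok1.tg_mem hv s)
        (Submodule.smul_mem _ _ hv)) (fun s s' v hv => ?_) (fun s k v _ => ?_)
      (fun v => and_congr (fv v).symm (Submodule.mem_iInf _)) e) i2 hp hf
    · have := (sup_le (fun y hy => by
        rw [Subgroup.mem_comap, (mem_aw.1 hy).2.1 k]; exact one_mem _) (Z.x k).cen' :
          _ ≤ (Zl ℚ_[p]).comap (Z.x k).π) hx
      rwa [Subgroup.mem_comap, xk, MonoidHom.comp_apply, xp_x] at this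
    · simp only [LinearMap.sub_apply, LinearMap.smul_apply, Module.End.one_apply, map_sub, map_smul,
        smul_sub]
      rw [h.ok1.tg_tg Set.finite_empty ((fv v).1 hv), smul_comm (t s) (t s') v]
      abel
    · simp only [LinearMap.sub_apply, LinearMap.smul_apply, Module.End.one_apply, map_sub, map_smul,
        h.ok1.a_tg]

theorem ex_gen (h : Z.Ok) (i : Z.I) {P : Id} (hP : P022E.GW.Ov (Z.l i) P)
    (e : below Z.j P = (Z.v i).asIdeal) : ∃ (τ : Z.H) (c : ℤ_[Z.l i]ˣ), τ.1 ∈ H443.inP P ∧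
      (Z.w i).TwM Z.a (Z.g τ) c ∧ ∀ x : ResidueField ℤ_[Z.l i], x ≠ 0 →
        ∃ e : ℕ, residue _ (c : ℤ_[Z.l i]) ^ e = x := by
  obtain ⟨c, h1, h2⟩ := h.tw i P hP e
  have := (Z.w i).fin
  obtain ⟨u, hu⟩ := IsCyclic.exists_monoid_generator (α := (ResidueField ℤ_[Z.l i])ˣ)
  obtain ⟨d, hd⟩ := residue_surjective (u : ResidueField ℤ_[Z.l i])
  obtain ⟨d, rfl⟩ : IsUnit d := by
    by_contra hc
    exact u.ne_zero (hd ▸ (residue_eq_zero_iff _).2 ((mem_maximalIdeal _).2 hc))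
  obtain ⟨τ, a1, a2⟩ := h2 d
  refine ⟨τ, c τ, a1, h1 τ a1, fun x hx => (hu (Units.mk0 x hx)).imp fun n hn => ?_⟩
  rw [show residue _ (c τ : ℤ_[Z.l i]) = residue _ (d : ℤ_[Z.l i]) from Ideal.Quotient.eq.2
    ((mem_maximalIdeal _).2 (PadicInt.mem_nonunits.2 a2)), hd]
  exact congrArg Units.val hn

/-- **row TWL** -/
theorem twl : TWL := fun p _ O _ _ _ _ Z h t q hp p0 => by
  refine ⟨fun Q => nts h, ?_, fun r n Q α P φ h1 h2 h3 h4 h5 h6 h7 => ?_⟩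
  · obtain ⟨b, f, hf⟩ := ex_bs h t q hp
    exact ⟨b, out0 hp p0 h hf, fun r n D => D.out hp p0 hf⟩
  · choose τ c a1 a2 a3 using fun s => ex_gen h (Q s) (h4 s) (h5 s).2.1
    exact ⟨⟨h, Q, α, P, φ, τ, c, h1, h2, h3, h4, h5, h6, h7, a1, a2, a3⟩, rfl, rfl, rfl, rfl⟩

end Vale.Agent.P022K.RT.Tl
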