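import Vale.Agent.P022K.RT.Gda
import Vale.Agent.P022K.RT.Twl
import Vale.Agent.P022K.GW.Pl

/-!
# P022K, block RT, row TWP: from auxiliary primes to Taylor-Wiles data on a site
-/

set_option linter.all false

noncomputable section

namespace Vale.Agent.P022K.RT

open IsLocalRing
open Vale.Agent.P022 Vale.Agent.P022.C
open Vale.Agent.P022E.GW (Ov Fb)
open Vale.Agent.P022D.W (dec)
open Vale.Agent.P022.H443 (inP)
open Vale.Agent.P022K.Top (Si cy Bad)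
open Vale.Agent.P022K.GW (Id)
open scoped Pointwise

section

variable {p : ℕ} [Fact p.Prime] {O : Type} [CommRing O] [IsLocalRing O] [Algebra ℤ_[p] O]
  {Z : Si p O}

theorem Inq.cy1 (h : Z.Ok) {Q : Set Z.I} {s : Z.H} (hs : s ∈ Inq Z Q) : cy p O s.1 = 1 := by
  obtain ⟨l, P, o, nb, -, hs⟩ := hs
  refine Top.cy_inert o (fun e => nb ?_) hs
  subst e
  exact ⟨l, h.mem, o, h.spl l (Finset.mem_singleton_self _) P o⟩

theorem Inq.anti {Q Q' : Set Z.I} (h : Q ⊆ Q') : Inq Z Q' ⊆ Inq Z Q :=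
  fun _ ⟨l, P, a, b, c, d⟩ => ⟨l, P, a, b, fun i hi => c i (h hi), d⟩

theorem Tl.TW.tin {t : Z.H → O} {r n : ℕ} (D : Tl.TW Z t r n) (s : Fin r) : D.τ s ∈ Inq Z ∅ := by
  refine ⟨_, _, D.ov s, ?_, fun _ h => h.elim, D.ine s⟩
  rintro ⟨l, hl, o, -⟩
  exact (D.ok.vl (D.Q s)).1 (GW.Pl.ov_uniq o (D.ov s) ▸ hl)

theorem Tl.TW.in_sub {t : Z.H → O} {r n : ℕ} (D : Tl.TW Z t r n) {A : Set Id}
    (hA : ∀ P, Bad Z.H Z.S P → P ∈ A) :
    GW.In Z.H.subtype (A ∪ GW.orb Z.H.subtype D.P) ⊆ Inq Z (Set.range D.Q) := by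
  rintro g ⟨l, P, o, nm, hg⟩
  refine ⟨l, P, o, fun b => nm (.inl (hA P b)), ?_, hg⟩
  rintro _ ⟨s, rfl⟩ e
  obtain ⟨u, hu⟩ := H916.exists_smul Z.j (D.ov s).2.1 o.2.1 ((D.fr s).2.1.trans e.symm)
  exact nm (.inr ⟨s, u, hu.symm⟩)

end

variable {p : ℕ} [Fact p.Prime] {O : Type} [CommRing O] [IsDomain O] [IsDiscreteValuationRing O]
  [Algebra ℤ_[p] O] {Z : Si p O}

/-- **row TWP** -/
theorem twp {F : Type} [Field F] [CharP F p] [Algebra O F] {C : Fr Z F} (h : Z.Ok) (hC : C.Ok)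
    {r n : ℕ} (hn : 0 < n) {S : Finset ℕ} (hS : Z.S ⊆ S) {l : Fin r → ℕ} {P : Fin r → Id}
    {φ : Fin r → Z.H} (hl : Function.Injective l)
    (hT : ∀ s, GW.Tw Z.H.subtype C.rb (p ^ n) S (l s) (P s) (φ s)) :
    ∃ D : Tl.TW Z C.t r n, D.P = P ∧ D.φ = φ ∧ ∀ s, (Z.l (D.Q s) : ℕ) = l s := by
  have nS : ∀ s, l s ∉ Z.S := fun s e => (hT s).out (hS e)
  choose Q hQ using fun s => h.vall (l s) (nS s) (P s) (hT s).ov
    ((hT s).deg.trans_eq (Subgroup.range_subtype _))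
  have e : ∀ s, (Z.l (Q s) : ℕ) = l s := fun s =>
    GW.Pl.ov_uniq ((h.vl (Q s)).2 _ (hT s).ov.2.1 (hQ s)).1 (hT s).ov
  have ker : ∀ o : O, o ∈ maximalIdeal O ↔ algebraMap O F o = 0 := fun o => by
    rw [← eq_maximalIdeal (RingHom.ker_isMaximal_of_surjective (algebraMap O F)
      fun x => ⟨C.s x, hC.sec x⟩), RingHom.mem_ker]
  have det : ∀ s, (C.r (φ s)).det = 1 := fun s => by
    obtain ⟨c, hc⟩ := (dvd_pow_self p hn.ne').trans (hT s).cg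
    rw [hC.det, Top.cy_frob (φ := (φ s).1) (hT s).ov (fun e => nS s (e ▸ h.mem)) (hT s).fb,
      map_natCast, (Nat.sub_eq_iff_eq_add (hT s).ov.1.pos).1 hc, Nat.cast_add, Nat.cast_mul,
      CharP.cast_eq_zero, zero_mul, zero_add, Nat.cast_one]
  choose a ha using fun s => hC.spl (φ s)
  choose τ c a1 a2 a3 using fun s => Tl.ex_gen h (Q s) ((e s).symm ▸ (hT s).ov) (hQ s)
  refine ⟨⟨h, Q, fun s => C.s (a s), P, φ, τ, c, fun s s' k => hl (by rw [← e, ← e, k]), hn,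
    fun s => (e s).symm ▸ (hT s).cg, fun s => (e s).symm ▸ (hT s).ov,
    fun s => CH.Frb.fri (n := 1) (hT s).ov (hQ s)
      ⟨(φ s).2, (pow_one (l s)).symm ▸ (hT s).fb, fun _ _ _ _ => one_dvd _⟩,
    fun s => ?_, fun s => ?_, a1, a2, a3⟩, rfl, rfl, e⟩
  · by_contra k
    have k1 := (ker _).1 ((mem_maximalIdeal _).2 k)
    have k2 := ha s
    rw [map_sub, map_pow, hC.sec, map_one] at k1
    rw [det] at k2
    refine (hT s).rg ?_
    change (C.r (φ s)).trace ^ 2 = 4 * (C.r (φ s)).det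
    rw [det]
    linear_combination ((C.r (φ s)).trace * a s + 2 - (C.r (φ s)).trace ^ 2) * k1 -
      ((C.r (φ s)).trace * a s + 2) * k2
  · rw [ker, map_add, map_sub, map_mul, map_pow, Fr.t, hC.sec, hC.sec, map_one, ← det s]
    exact ha s

end Vale.Agent.P022K.RT
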