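import Vale.Agent.P022K.RT.Pre
import Vale.Agent.P022K.RT.Twp
import Vale.Agent.P022K.RT.Cnt
import Vale.Agent.P022K.RT.Tanb

/-!
# P022K, block RT: row PREO
-/

set_option linter.all false

noncomputable section

namespace Vale.Agent.P022K.RT

open Vale.Agent.P022
open Vale.Agent.P022K.GW (Id pm In orb up)
open Vale.Agent.P022K.Top (Si cy Bad)

theorem preo_of (two : GW.TWO) (odd : GW.ODD) : PREO := by
  intro p hp O F _ _ _ _ _ _ _ _ _ _ Z C hZ hC e
  obtain ⟨ω, h1, h2⟩ := hC.odd e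
  obtain ⟨t0⟩ := Cnt.ne_T hZ hC
  have h3 : (2 : F) ≠ 0 := fun h => e ((Nat.prime_dvd_prime_iff_eq hp.out Nat.prime_two).1
    ((CharP.cast_eq_zero_iff F p 2).1 (by exact_mod_cast h)))
  have hd := odd Z.H F Z.H.subtype C.rb h3 (Cnt.emb Z) (Cnt.odd hZ hC)
  rw [Subgroup.range_subtype] at hd
  obtain ⟨r₀, h4⟩ := two Z.H F Z.H.subtype p ω C.rb _ (Cnt.bad_stb Z.H Z.S) e (Cnt.emb Z) h1 hC.opn
    h2 ⟨_, hC.bad t0⟩ (Cnt.fo hC) (fun P ⟨l, _, k, _⟩ => ⟨l, k⟩) (Cnt.unr_in hC fun _ k => k)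
  choose l P φ k1 k2 k3 k4 using fun n => h4 (r₀ + Z.H.index + 1) (by omega) (n + 1) Z.S
  choose D d1 d2 d3 using fun n => twp hZ hC n.succ_pos (subset_refl _) (k1 n) (k2 n)
  have rp := Cnt.rp hC
  refine ⟨⟨Empty, Empty.elim, fun b => b.elim, Empty.elim, r₀ + Fintype.card (C.T ⊕ Empty),
    r₀ + Z.H.index + 1, 0, Set.univ, D, fun _ => 1⟩, fun b => b.elim, fun b => b.elim,
    fun b => b.elim, ?_, fun _ => Set.subset_univ _, fun n => ?_, fun n => (D n).tin,
    fun _ => by simp, fun _ _ _ => rfl, fun _ _ _ => rfl, fun _ k => k.elim0, fun _ k => k.elim0⟩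
  · have := Cnt.card_J hZ hC
    simp only [Fintype.card_sum, Fintype.card_empty, Finset.univ_eq_empty, Finset.sum_empty]
    omega
  · haveI : Nonempty (C.T ⊕ Empty) := ⟨.inl t0⟩
    have k := (tanb Z.H F _ (C.T ⊕ Empty) C.rb (pm Z.H.subtype (Cnt.bad_stb Z.H Z.S))
      (Sum.elim (fun t => ⟨C.P t, hC.bad t⟩) Empty.elim)
      (Sum.elim (fun t => Set.range (C.j t)) fun b => Set.range (b.elim : Lch O Z.H).j)
      (In Z.H.subtype ({P | Bad Z.H Z.S P} ∪ orb Z.H.subtype (P n)))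
      (Inq Z (Set.range (D n).Q)) (r₀ + 4)
      ⟨fun y => (rp.all y).elim fun t k => ⟨.inl t, k⟩, fun t t' => ?_, fun t => ?_⟩
      (d1 n ▸ (D n).in_sub fun _ k => k) (Cnt.unr_in hC fun _ k => Or.inl k)).2 (k3 n)
      (by have := k4 n; omega)
    · exact Nf.tan_mono k (add_right_comm r₀ 4 _).le
    · obtain t | t := t
      · obtain t' | t' := t'
        · exact fun g k => congrArg Sum.inl (rp.inj t t' g k)
        · exact t'.elim
      · exact t.elim
    · obtain t | t := t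
      · exact rp.stb t
      · exact t.elim

end Vale.Agent.P022K.RT
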