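import Vale.Agent.P022K.RT.Pre3
import Vale.Agent.P022K.RT.PreO
import Vale.Agent.P022K.RT.Lvo
import Vale.Agent.P022K.GW.All

/-!
# P022K, block RT: existence of the patched module
-/

namespace Vale.Agent.P022K.RT

theorem gda : GDA := gda_of (preo_of GW.two' GW.odd) pre2

/-- **row PKG** -/
theorem pkg : PKG fun _ _ _ _ _ Z => Z.Twi := pkg_of gda lvl

end Vale.Agent.P022K.RT
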