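import Vale.Agent.P022K.RT.QnSt
import Vale.Agent.P022K.G2.App
import Vale.Agent.P022K.GW.Kill

/-!
# P022K, block RT: the places and the count for lifts over `ℚ`
-/

set_option linter.all false

noncomputable section

namespace Vale.Agent.P022K.RT

open Module NumberField
open Vale.Agent.P022 Vale.Agent.P022.C
open Vale.Agent.P022.H443 (inP)
open Vale.Agent.P022D.W (dec)
open Vale.Agent.P022E.GW (Ov)
open Vale.Agent.P022K.GW (Id Cy up Adq Zc Z2 B2 H2 ad0 sl)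
open Vale.Agent.P022K.G2 (Plc Ab St fp ip)
open scoped Pointwise

namespace Qn

section

variable {G k V V' X : Type} [Group G] [TopologicalSpace G] [IsTopologicalGroup G] [Field k]
  [AddCommGroup V] [Module k V] [AddCommGroup V'] [Module k V'] {π : G →* Equiv.Perm X} {I : Set G}
  {σ : Representation k G V} {σ' : Representation k G V'}

section

variable {e : V →ₗ[k] V'} (h : ∀ g v, e (σ g v) = σ' g (e v))

include h

theorem zc_map {a : X → V} (ha : a ∈ Zc π I σ) : (fun x => e (a x)) ∈ Zc π I σ' := by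
  obtain ⟨c, ⟨W, w1, w2⟩, k⟩ := ha
  exact ⟨fun g => e (c g), ⟨W, w1, fun w hw g => congrArg e (w2 w hw g)⟩,
    fun g x => by simp only [k, map_add, h]⟩

theorem z2_map {a : G → X → V} (ha : a ∈ Z2 π I σ) : (fun g x => e (a g x)) ∈ Z2 π I σ' := by
  obtain ⟨⟨U, u1, u2⟩, c, ⟨W, w1, w2⟩, k⟩ := ha
  exact ⟨⟨U, u1, fun w hw g x => (u2 w hw g x).imp (congrArg e) (congrArg e)⟩,
    fun g g' => e (c g g'), ⟨W, w1, fun w hw g g' => (w2 w hw g g').imp (congrArg e) (congrArg e)⟩,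
    fun g g' x => by simp only [k, map_add, h]⟩

theorem b2_map {a : G → X → V} (ha : a ∈ B2 π I σ) : (fun g x => e (a g x)) ∈ B2 π I σ' := by
  obtain ⟨b, c, ⟨W, w1, w2⟩, ⟨U, u1, u2⟩, k⟩ := ha
  exact ⟨fun g => e (b g), fun x => e (c x), ⟨W, w1, fun w hw g => congrArg e (w2 w hw g)⟩,
    ⟨U, u1, fun w hw x => congrArg e (u2 w hw x)⟩, fun g x => by simp only [k, map_add, map_sub, h]⟩

end

variable (π I) {e : V ≃ₗ[k] V'} (h : ∀ g v, e (σ g v) = σ' g (e v))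

include h

theorem sy (g : G) (v : V') : e.symm (σ' g v) = σ g (e.symm v) := by
  rw [e.symm_apply_eq, h, e.apply_symm_apply]

theorem zc_eq : Nonempty (Zc π I σ ≃ₗ[k] Zc π I σ') :=
  ⟨(LinearEquiv.piCongrRight fun _ : X => e).ofSubmodules _ _ (le_antisymm
    (fun _ ⟨_, a, b⟩ => b ▸ zc_map (e := e.toLinearMap) h a) fun a ha =>
      ⟨_, zc_map (e := e.symm.toLinearMap) (sy h) ha, funext fun x => e.apply_symm_apply _⟩)⟩

theorem h2_eq : Nonempty (H2 π I σ ≃ₗ[k] H2 π I σ') := by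
  let E := LinearEquiv.piCongrRight fun _ : G => LinearEquiv.piCongrRight fun _ : X => e
  let E' : Z2 π I σ ≃ₗ[k] Z2 π I σ' := E.ofSubmodules _ _ (le_antisymm
    (fun _ ⟨_, a, b⟩ => b ▸ z2_map (e := e.toLinearMap) h a) fun a ha =>
      ⟨_, z2_map (e := e.symm.toLinearMap) (sy h) ha,
        funext fun g => funext fun x => e.apply_symm_apply _⟩)
  exact ⟨Submodule.Quotient.equiv _ _ E' (le_antisymm
    (fun _ ⟨_, a, b⟩ => b ▸ b2_map (e := e.toLinearMap) h a) fun a ha =>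
      ⟨E'.symm a, b2_map (e := e.symm.toLinearMap) (sy h) ha, E'.apply_symm_apply a⟩)⟩

end

/-- conjugate representations have isomorphic adjoint modules -/
theorem ad_eq {G k : Type} [Group G] [Field k] {ρ ρ' : G →* GL (Fin 2) k} {c : GL (Fin 2) k}
    (h : ∀ g, ρ' g = c * ρ g * c⁻¹) :
    ∃ e : sl k ≃ₗ[k] sl k, ∀ g v, e (ad0 ρ g v) = ad0 ρ' g (e v) := by
  let a := ad0 (MonoidHom.id (GL (Fin 2) k))
  have m : ∀ (r : G →* GL (Fin 2) k) g, ad0 r g = a (r g) := fun r g =>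
    LinearMap.ext fun v => Subtype.ext (by simp [a, GW.ad0_coe])
  refine ⟨LinearEquiv.ofLinear (a c) (a c⁻¹) ?_ ?_, fun g v => ?_⟩
  · rw [← End.mul_eq_comp, ← map_mul, mul_inv_cancel, map_one, End.one_eq_id]
  · rw [← End.mul_eq_comp, ← map_mul, inv_mul_cancel, map_one, End.one_eq_id]
  · show (a c * ad0 ρ g) v = (ad0 ρ' g * a c) v
    rw [m, m, ← map_mul, ← map_mul, h, inv_mul_cancel_right]

theorem ab_uq {l l' : ℕ} {y : Plc} (h : y ∈ Ab {l}) (h' : y ∈ Ab {l'}) : l = l' := by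
  rcases h with ⟨_, rfl, P, o, rfl⟩ | ⟨h0, w, rfl⟩ <;> rcases h' with ⟨_, e, P', o', k⟩ | ⟨h1, w', k⟩
  · obtain rfl : P = P' := Sum.inl.inj k
    exact (GW.Pl.ov_uniq o o').trans e
  · cases k
  · cases k
  · exact h0.symm.trans h1

/-- representatives from labels -/
theorem rp_of {X J : Type} {π : GQ →* Equiv.Perm X} {i : X → Plc} (hi : Function.Injective i)
    (e : ∀ g y, i (π g y) = g • i y) {x : J → X} {l : J → ℕ} (inj : Function.Injective l)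
    (m : ∀ t, i (x t) ∈ Ab {l t}) (all : ∀ y, ∃ t, i y ∈ Ab {l t}) {D : J → Set GQ}
    (hD : ∀ t g, g ∈ St (i (x t)) ↔ g ∈ D t) : Rp π x D := by
  refine ⟨fun y => ?_, fun t t' g k => inj (ab_uq (G2.Plc.ab_smul (m t) g) ?_), fun t g => ?_⟩
  · obtain ⟨t, k⟩ := all y
    obtain ⟨g, k'⟩ := G2.Plc.ab_trans (m t) k
    exact ⟨t, g, hi ((e _ _).trans k'.symm)⟩
  · rw [← e, k]
    exact m t'
  · rw [← hD, ← hi.eq_iff, e]
    rfl

/-- the decomposition group of an infinite place -/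
theorem ex_c : ∃ (w : InfinitePlace Qb) (c : GQ), IsConj c ∧ c * c = 1 ∧ c ≠ 1 ∧
    ∀ g : GQ, g ∈ St (ip w) ↔ g ∈ ({1, c} : Set GQ) := by
  have := H443.galQb
  let φ : Qb →+* ℂ := (IsAlgClosed.lift (R := ℚ) (M := ℂ) (S := Qb)).toRingHom
  obtain ⟨σ, e⟩ := ComplexEmbedding.exists_comp_symm_eq_of_comp_eq (k := ℚ) φ
    (ComplexEmbedding.conjugate φ) (Subsingleton.elim _ _)
  have h : ComplexEmbedding.IsConj φ σ.symm := e.symm
  refine ⟨.mk φ, σ.symm, ⟨_, h.eq⟩, AlgEquiv.ext (ComplexEmbedding.isConj_apply_apply h),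
    fun z => ?_, fun g => ?_⟩
  · obtain ⟨y, hy⟩ := IsAlgClosed.exists_pow_nat_eq (-1 : Qb) two_pos
    have k := h.eq y
    rw [z, AlgEquiv.one_apply, eq_comm, RCLike.star_def, Complex.conj_eq_iff_real] at k
    obtain ⟨r, k⟩ := k
    have := congrArg φ hy
    rw [map_pow, map_neg, map_one, k] at this
    have : r ^ 2 = -1 := by exact_mod_cast this
    nlinarith [sq_nonneg r]
  · rw [G2.st_ip, InfinitePlace.mem_stabilizer_mk_iff, ← h.ext_iff, eq_comm (b := g)]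
    rfl

/-- the other primes -/
abbrev Bt (S T : Finset ℕ) : Type := ((T \ S).erase 0 : Finset ℕ)

variable {S T : Finset ℕ} {P : S → Id}

theorem bt (b : Bt S T) : b.1 ≠ 0 ∧ b.1 ∈ T ∧ b.1 ∉ S :=
  (Finset.mem_erase.1 b.2).imp_right Finset.mem_sdiff.1

theorem ex_q (pr : ∀ l ∈ T, l = 0 ∨ l.Prime) : ∃ Q : Bt S T → Id, ∀ b : Bt S T, Ov b (Q b) :=
  Classical.skolem.1 fun b : Bt S T => GW.Pl.ex_ov ((pr _ (bt b).2.1).resolve_left (bt b).1)

theorem inn (le : S ⊆ T) (g : GQ) : g ∈ GW.In (MonoidHom.id GQ) (GW.ov T) ↔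
    ∃ l' Q', l' ∉ S ∧ (∀ b : Bt S T, b.1 ≠ l') ∧ Ov l' Q' ∧ g ∈ inP Q' := by
  refine ⟨fun ⟨l, Q, o, n, k⟩ => ⟨l, Q, fun a => n ⟨l, le a, o⟩,
    fun b a => n ⟨l, a ▸ (bt b).2.1, o⟩, o, k⟩, fun ⟨l, Q, a, b, o, k⟩ => ⟨l, Q, o, ?_, k⟩⟩
  rintro ⟨l', c, o'⟩
  obtain rfl := GW.Pl.ov_uniq o o'
  exact b ⟨l, by simp [a, c, o.1.ne_zero]⟩ rfl

theorem rp (ov : ∀ l : S, Ov l (P l)) {Q : Bt S T → Id} (hQ : ∀ b : Bt S T, Ov b (Q b))
    {X γ : Type} [Subsingleton γ] {π : GQ →* Equiv.Perm X} {i : X → Plc}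
    (hi : Function.Injective i) (e : ∀ g y, i (π g y) = g • i y) {x : S ⊕ Bt S T ⊕ γ → X}
    {w : InfinitePlace Qb} {D : γ → Set GQ} (h1 : ∀ l, i (x (.inl l)) = fp (P l))
    (h2 : ∀ b, i (x (.inr (.inl b))) = fp (Q b)) (h3 : ∀ j, i (x (.inr (.inr j))) = ip w)
    (h4 : ∀ j g, g ∈ St (ip w) ↔ g ∈ D j) (h5 : ∀ y, ∃ l ∈ T, i y ∈ Ab {l} ∧ (l = 0 → Nonempty γ)) :
    Rp π x (Sum.elim (fun l => (dec (P l) : Set GQ))
      (Sum.elim (fun b => (dec (Q b) : Set GQ)) D)) := by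
  refine rp_of hi e (l := Sum.elim Subtype.val (Sum.elim Subtype.val fun _ => 0)) ?_ ?_
    (fun y => ?_) ?_
  · rintro (a | a | a) (b | b | b) k
    · exact congrArg _ (Subtype.ext k)
    · exact ((bt b).2.2 ((show a.1 = b.1 from k) ▸ a.2)).elim
    · exact ((ov a).1.ne_zero k).elim
    · exact ((bt a).2.2 ((show b.1 = a.1 from k.symm) ▸ b.2)).elim
    · exact congrArg (fun z => Sum.inr (Sum.inl z)) (Subtype.ext k)
    · exact ((bt a).1 k).elim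
    · exact ((ov b).1.ne_zero k.symm).elim
    · exact ((bt b).1 k.symm).elim
    · rw [Subsingleton.elim a b]
  · rintro (a | a | a)
    · exact .inl ⟨_, rfl, _, ov a, h1 a⟩
    · exact .inl ⟨_, rfl, _, hQ a, h2 a⟩
    · exact .inr ⟨rfl, w, h3 a⟩
  · obtain ⟨l, a, b, c⟩ := h5 y
    by_cases k : l ∈ S
    · exact ⟨.inl ⟨l, k⟩, b⟩
    by_cases z : l = 0
    · exact ⟨.inr (.inr (c z).some), z ▸ b⟩
    · exact ⟨.inr (.inl ⟨l, by simp [a, k, z]⟩), b⟩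
  · rintro (a | a | a) g
    · rw [h1, G2.st_fp]; rfl
    · rw [h2, G2.st_fp]; rfl
    · rw [h3]; exact h4 a g

end Qn

open Qn in
theorem qn_of (obo : GW.OBO) (odd : GW.ODD) (obo2 : G2.OBO2) : QN := by
  intro p _ F _ _ _ S P ρ ρ' k hp ov cj opn cd ad ns
  have emb : Topology.IsOpenEmbedding (MonoidHom.id GQ) := Topology.IsOpenEmbedding.id
  have := GW.Pl.cpt
  obtain ⟨w, c, c1, c2, c3, c4⟩ := ex_c
  by_cases h2 : p = 2
  · subst h2
    obtain ⟨n1, n2⟩ := ns rfl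
    obtain ⟨T₀, t1, t2⟩ := obo2 GQ F (MonoidHom.id GQ) ρ' ⟨emb, by simpa [cj] using opn,
      fun g => by rw [cj, Units.val_mul, Units.val_mul, Matrix.det_units_conj, n2], fun z => n1 (by
        have e : ρ = (MulAut.conj k⁻¹).toMonoidHom.comp ρ' :=
          MonoidHom.ext fun g => by simp [cj, mul_assoc]
        rw [e, MonoidHom.range_comp]
        haveI : Group.IsSolvable ρ'.range := z
        exact solvable_of_surjective (MonoidHom.subgroupMap_surjective _ _))⟩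
    have pr : ∀ l ∈ T₀ ∪ S, l = 0 ∨ l.Prime := fun l a =>
      (Finset.mem_union.1 a).elim (t1 l) fun a => .inr (ov ⟨l, a⟩).1
    obtain ⟨u1, -, -, u2, u3, u4⟩ := t2 _ Finset.subset_union_left pr
    obtain ⟨Q, hQ⟩ := ex_q (S := S) pr
    exact ⟨Bt S (T₀ ∪ S), Unit, _, inferInstance, inferInstance, Subtype.val, Q, fun _ => c,
      G2.pP (MonoidHom.id GQ) (T₀ ∪ S), Sum.elim
        (fun l => ⟨fp (P l), .inl ⟨l, Finset.mem_union_right _ l.2, _, ov l, rfl⟩⟩) (Sum.elim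
        (fun b => ⟨fp (Q b), .inl ⟨b, (bt b).2.1, _, hQ b, rfl⟩⟩) fun _ => ⟨ip w, .inr ⟨u1, w, rfl⟩⟩),
      _, fun b => ⟨(bt b).2.2, hQ b⟩, fun _ => ⟨rfl, c1, c2, c3⟩,
      rp ov hQ Subtype.val_injective (fun _ _ => rfl) (fun _ => rfl) (fun _ => rfl) (fun _ => rfl)
        (fun _ => c4) fun y => (G2.Plc.ab_one y.2).imp fun _ a => ⟨a.1, a.2, fun _ => ⟨()⟩⟩,
      inn Finset.subset_union_right, u2, u3, u4⟩
  · obtain ⟨ω, o1, o2⟩ := ad h2
    obtain ⟨T₀, t1, t2⟩ := obo GQ F (MonoidHom.id GQ) p ω ρ h2 emb o1 opn o2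
    have pr : ∀ l ∈ T₀ ∪ S, l.Prime := fun l a =>
      (Finset.mem_union.1 a).elim (t1 l) fun a => (ov ⟨l, a⟩).1
    obtain ⟨u2, u3, u4⟩ := t2 _ Finset.subset_union_left pr
    obtain ⟨Q, hQ⟩ := ex_q (S := S) fun l a => .inr (pr l a)
    rw [odd GQ F _ ρ (fun z => h2 ((Nat.prime_dvd_prime_iff_eq Fact.out Nat.prime_two).1
      ((CharP.cast_eq_zero_iff F p 2).1 z))) emb fun c a => ⟨c, rfl, cd c a⟩, GW.rk_sl,
      MonoidHom.range_eq_top.2 Function.surjective_id, Subgroup.index_top] at u4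
    obtain ⟨e, he⟩ := ad_eq cj
    obtain ⟨e1⟩ := zc_eq (GW.pT (MonoidHom.id GQ) (T₀ ∪ S)) (GW.In (MonoidHom.id GQ) (GW.ov (T₀ ∪ S))) he
    obtain ⟨e2⟩ := h2_eq (GW.pT (MonoidHom.id GQ) (T₀ ∪ S)) (GW.In (MonoidHom.id GQ) (GW.ov (T₀ ∪ S))) he
    refine ⟨Bt S (T₀ ∪ S), Empty, _, inferInstance, inferInstance, Subtype.val, Q, Empty.elim,
      GW.pT (MonoidHom.id GQ) (T₀ ∪ S), Sum.elim
        (fun l => ⟨P l, l, Finset.mem_union_right _ l.2, ov l⟩) (Sum.elim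
        (fun b => ⟨Q b, b, (bt b).2.1, hQ b⟩) Empty.elim),
      _, fun b => ⟨(bt b).2.2, hQ b⟩, fun i => i.elim,
      rp (w := w) ov hQ (i := fun y : GW.ov (T₀ ∪ S) => fp y.1) (fun _ _ z => Subtype.ext (Sum.inl.inj z))
        (fun _ _ => rfl) (fun _ => rfl) (fun _ => rfl) (fun i => i.elim) (fun i => i.elim)
        fun ⟨y, l, a, b⟩ => ⟨l, a, .inl ⟨l, rfl, y, b, rfl⟩, fun z => (b.1.ne_zero z).elim⟩,
      inn Finset.subset_union_right, Module.Finite.equiv e1, Module.Finite.equiv e2, ?_⟩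
    rw [← e1.finrank_eq, ← e2.finrank_eq, Fintype.card_empty]
    omega

end Vale.Agent.P022K.RT
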