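import Vale.Agent.P022K.RT.Qb
import Vale.Agent.P022K.RT.QbN
import Vale.Agent.P022K.GW.All
import Vale.Agent.P022K.G2.All

/-!
# P022K, block RT: rows QN and QB
-/

namespace Vale.Agent.P022K.RT

theorem qn : QN := qn_of GW.obo' GW.odd G2.obo2C

/-- **row QB** -/
theorem qb : QB := qb_of qn

end Vale.Agent.P022K.RT
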