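import Vale.Agent.P022K.RT.Lp5Z
import Vale.Agent.P022K.L3.ArD
import Vale.Agent.P022K.L3.Out

/-! P022K, block RT: row LP3. -/

set_option linter.all false

noncomputable section

namespace Vale.Agent.P022K.RT

open IsLocalRing NumberField
open Vale.Agent.P022 Vale.Agent.P022D
open Vale.Agent.P022D.L2b (M2)
open Vale.Agent.P022D.Loc2 (TnG OutG)
open Vale.Agent.P022D.W (dec)
open Vale.Agent.P022E.GW (Ov)
open Vale.Agent.P022K.GW (Id Cy up)

namespace L3g

variable {G F O : Type} [Group G] [TopologicalSpace G] [IsTopologicalGroup G] [Field F]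
  [CharP F 3]

omit [TopologicalSpace G] [IsTopologicalGroup G] in
theorem up_val (ω : G →* (ZMod 3)ˣ) (x : G) :
    (x ∈ ω.ker ∧ ((up ω x : Fˣ) : F) = 1) ∨ (x ∉ ω.ker ∧ ((up ω x : Fˣ) : F) = -1) := by
  have h : ∀ u : (ZMod 3)ˣ, u = 1 ∨ u = -1 := by decide
  have e : ((up ω x : Fˣ) : F) = ZMod.castHom (dvd_refl 3) F (ω x : ZMod 3) := rfl
  rw [e, MonoidHom.mem_ker]
  rcases h (ω x) with k | k <;> rw [k]
  · exact Or.inl ⟨rfl, map_one _⟩
  · exact Or.inr ⟨by decide, by rw [Units.val_neg, Units.val_one, map_neg, map_one]⟩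

theorem two_ne : (2 : F) ≠ 0 := fun h => by
  have := CharP.cast_eq_zero F 3
  exact one_ne_zero (α := F) (by push_cast at this; linear_combination this - h)

open Classical in
/-- the sign of a character of order two -/
def sg (e : G → F) (h1 : e 1 = 1) (hm : ∀ x y, e (x * y) = e x * e y)
    (h2 : ∀ x, e x = 1 ∨ e x = -1) : G →* ℤˣ where
  toFun x := if e x = 1 then 1 else -1
  map_one' := if_pos h1
  map_mul' x y := by
    have n : (-1 : F) ≠ 1 := fun h => two_ne (F := F) (by linear_combination -h)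
    rw [hm]
    rcases h2 x with a | a <;> rcases h2 y with b | b <;> simp [a, b, n]

/-- the triangular representations whose characters have the ratio `ω` -/
theorem obs [Finite F] [CommRing O] [IsLocalRing O] [Algebra O F] [IsNoetherianRing O]
    [IsAdicComplete (maximalIdeal O) O] {ω : G →* (ZMod 3)ˣ} (hP : L3.Pres ω.ker)
    (r : G →* M2 F) (s : F → O) (d : G → O) (hr : IsLocallyConstant r)
    (hω : ∀ x, (r x).det = (up ω x : Fˣ)) (hs : ∀ x, algebraMap O F (s x) = x)
    (hd : ∀ x, algebraMap O F (d x) = (r x).det) (A B : M2 F) (hAB : A * B = 1)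
    (ht : ∀ x, (B * r x * A) 1 0 = 0)
    (ha : ∀ x, (B * r x * A) 0 0 = (up ω x : Fˣ) * (B * r x * A) 1 1) : OutG r s d 6 := by
  classical
  have hBA : B * A = 1 := mul_eq_one_comm.1 hAB
  have hm : ∀ x y, B * r (x * y) * A = B * r x * A * (B * r y * A) := fun x y => by
    rw [map_mul, mul_assoc (B * r x), ← mul_assoc A, ← mul_assoc A, hAB, one_mul]
    simp only [mul_assoc]
  have hdt : ∀ x, (B * r x * A).det = (up ω x : Fˣ) := fun x => by
    rw [Matrix.det_mul, Matrix.det_mul, mul_right_comm, ← Matrix.det_mul, hBA, Matrix.det_one,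
      one_mul, hω]
  let e : G → F := fun x => (B * r x * A) 1 1
  have h2 : ∀ x, e x = 1 ∨ e x = -1 := fun x => by
    have := hdt x
    rw [Matrix.det_fin_two, ht, ha, mul_zero, sub_zero, mul_assoc] at this
    exact mul_self_eq_one_iff.1 (mul_left_cancel₀ (Units.ne_zero _) (this.trans (mul_one _).symm))
  have h1 : e 1 = 1 := by
    show (B * r 1 * A) 1 1 = 1
    rw [map_one, mul_one, hBA, Matrix.one_apply_eq]
  have h3 : ∀ x y, e (x * y) = e x * e y := fun x y => by
    show (B * r (x * y) * A) 1 1 = _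
    rw [hm, Matrix.mul_apply, Fin.sum_univ_two, ht, zero_mul, zero_add]
  have h4 : ∀ x, sg e h1 h3 h2 x = if e x = 1 then 1 else -1 := fun _ => rfl
  refine L3.Al.out3 hP (b := sg e h1 h3 h2)
    (hr.comp fun m => if (B * m * A) 1 1 = 1 then (1 : ℤˣ) else -1) r s d hr hs hd A B hAB
    (fun x hx => ?_) fun x hx => ?_
  · have u := ((up_val (F := F) ω x).resolve_right fun k => k.1 hx).2
    have a := ha x
    rw [u, one_mul] at a
    refine ⟨(sg e h1 h3 h2 x • (B * r x * A)) 0 1, ?_⟩
    have k : sg e h1 h3 h2 x • e x = 1 := by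
      rw [h4]
      split_ifs with c
      · rw [c, one_smul]
      · rw [(h2 x).resolve_left c, Units.neg_smul, one_smul, neg_neg]
    ext i j
    fin_cases i <;> fin_cases j
    · exact (congrArg (sg e h1 h3 h2 x • ·) a).trans k
    · rfl
    · exact (congrArg (sg e h1 h3 h2 x • ·) (ht x)).trans (smul_zero _)
    · exact k
  · have u := ((up_val (F := F) ω x).resolve_left fun k => hx k.1).2
    refine ⟨(hω x).trans u, fun c => ?_⟩
    have a := ha x
    rw [u, c] at a
    have b : 2 * e x = 0 := by linear_combination a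
    rcases h2 x with k | k <;> rw [k] at b
    · exact two_ne (F := F) (by linear_combination b)
    · exact two_ne (F := F) (by linear_combination -b)

end L3g

/-- the dichotomy at three -/
def DI3 : Prop := ∀ (F : Type) [Field F] [Finite F] [CharP F 3] (P : Id)
  (ω : dec P →* (ZMod 3)ˣ) (r : dec P →* M2 F), Ov 3 P → Cy (dec P).subtype 3 ω →
  IsLocallyConstant r → (∀ x, (r x).det = (up ω x : Fˣ)) →
    (∃ (g : Fin 6 → dec P) (a b : Fin 6 → Fin 2), TnG r g a b) ∨
    ∃ A B : M2 F, A * B = 1 ∧ (∀ x, (B * r x * A) 1 0 = 0) ∧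
      ((∀ x, (B * r x * A) 0 0 = (up ω x : Fˣ) * (B * r x * A) 1 1) ∨
        ∀ x, (B * r x * A) 1 1 = (up ω x : Fˣ) * (B * r x * A) 0 0)

theorem lp3_of (h : DI3) : LP3 := by
  intro F O _ _ _ _ _ _ hO _ P ω r s d hP hω hr _ hdet hs hd _
  have := hO.cpl
  obtain ⟨g, a, b, hT⟩ | ⟨A, B, h1, h2, h3⟩ := h F P ω r hP hω hr hdet
  · exact P022E.G5.outN hr hs hd hT
  · refine L3g.obs (L3.pres_dec hP hω) r s d hr hdet hs hd A B h1 h2 (h3.elim id fun k x => ?_)
    rw [k x]
    rcases L3g.up_val (F := F) ω x with u | u <;> rw [u.2] <;> ring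

/-- row LP3 -/
theorem lp3 : LP3 := lp3_of fun _ _ _ _ _ ω r hP hω hr hd =>
  L5.dich L5.z1p' 3 (by norm_num) hP ω hω r hr hd

/-- the block at every odd prime -/
theorem lpo (p : ℕ) [hp : Fact p.Prime] (h : p ≠ 2) : LPo p := by
  by_cases h3 : p = 3
  · subst h3
    exact lp3
  · exact lp5 p (hp.out.five_le_of_ne_two_of_ne_three h h3)

end Vale.Agent.P022K.RT
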