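import Vale.Agent.P022D.CA.Jac

/-! P022K, block RT: the component through a point with a small tangent space. -/

set_option linter.all false

noncomputable section

namespace Vale.Agent.P022K.RT.Cm

open IsLocalRing Module
open Vale.Agent.P022D

/-- a maximal minor -/
theorem minor {K ι α : Type} [Field K] [Fintype ι] (w : α → ι → K) :
    ∃ (c : ℕ) (a : Fin c → α) (s : Fin c → ι), (Matrix.of fun i j => w (a i) (s j)).det ≠ 0 ∧
      ∃ Z : Submodule K (ι → K), (∀ v, v ∈ Z ↔ ∀ u, ∑ t, v t * w u t = 0) ∧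
        Fintype.card ι = finrank K Z + c := by
  classical
  obtain ⟨κ, a, -, h1, h2⟩ := exists_linearIndependent' K w
  haveI : Finite κ := h2.finite
  letI := Fintype.ofFinite κ
  let M : Matrix κ ι K := Matrix.of fun i t => w (a i) t
  have hr : M.rank = Fintype.card κ := LinearIndependent.rank_matrix h2
  obtain ⟨κ', s, -, h3, h4⟩ := exists_linearIndependent' K M.col
  haveI : Finite κ' := h4.finite
  letI := Fintype.ofFinite κ'
  have hc : Fintype.card κ' = Fintype.card κ := by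
    rw [← finrank_span_eq_card h4, h3, ← Matrix.rank_eq_finrank_span_cols, hr]
  let e := (Fintype.equivFin κ).symm
  let e' := (Fintype.equivFinOfCardEq hc).symm
  refine ⟨Fintype.card κ, a ∘ e, s ∘ e', ?_, LinearMap.ker M.mulVecLin, fun v => ?_, ?_⟩
  · have h5 : LinearIndependent K
        (Matrix.of fun i j => w ((a ∘ e) i) ((s ∘ e') j) : Matrix _ _ K).col := by
      have h6 := (h4.comp e' e'.injective).map' (LinearEquiv.funCongrLeft K K e).toLinearMap
        (LinearEquiv.ker _)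
      exact h6
    exact ((Matrix.isUnit_iff_isUnit_det _).1
      (Matrix.linearIndependent_cols_iff_isUnit.1 h5)).ne_zero
  · rw [LinearMap.mem_ker]
    constructor
    · intro hv u
      have h5 : w u ∈ Submodule.span K (Set.range (w ∘ a)) := h1 ▸ Submodule.subset_span ⟨u, rfl⟩
      refine Submodule.span_induction (p := fun y _ => ∑ t, v t * y t = 0) ?_ (by simp)
        (fun y z _ _ hy hz => ?_) (fun c y _ hy => ?_) h5
      · rintro _ ⟨i, rfl⟩
        have := congrFun hv i
        simpa [M, Matrix.mulVec, dotProduct, mul_comm] using this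
      · simp only [Pi.add_apply, mul_add, Finset.sum_add_distrib, hy, hz, add_zero]
      · simp only [Pi.smul_apply, smul_eq_mul, mul_left_comm _ c, ← Finset.mul_sum, hy, mul_zero]
    · intro hv
      funext i
      simpa [M, Matrix.mulVec, dotProduct, mul_comm] using hv (a i)
  · have h5 := LinearMap.finrank_range_add_finrank_ker M.mulVecLin
    rw [finrank_fintype_fun_eq_card] at h5
    rw [← h5, ← hr, add_comm]
    rfl

/-- a point with a non zero Jacobian minor lies on one component -/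
theorem of_minor {A : Type} [CommRing A] [IsRegularLocalRing A] {R : Type} [CommRing R]
    [Algebra R A] {c n : ℕ} (hn : ringKrullDim A = n) (D : Fin c → Derivation R A A)
    (f : Fin c → A) (𝔭 : Ideal A) [hp : 𝔭.IsPrime] (hf : ∀ i, f i ∈ 𝔭)
    (hD : (Matrix.of fun i j => D j (f i)).det ∉ 𝔭) :
    ∃ J : Ideal A, J.IsPrime ∧ Ideal.span (Set.range f) ≤ J ∧ J ≤ 𝔭 ∧
      (∃ h, h ∉ 𝔭 ∧ ∀ u ∈ J, h * u ∈ Ideal.span (Set.range f)) ∧
      ∃ e : ℕ, ringKrullDim (A ⧸ J) = e ∧ e + c ≤ n := by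
  classical
  have key : ∀ η : Ideal A, η.IsPrime → η ≤ 𝔭 → ∀ l : Fin c → A,
      (∀ j, ∑ i, l i * D j (f i) ∈ η) → ∀ i, l i ∈ η := by
    intro η hη hle l hl i
    set M : Matrix (Fin c) (Fin c) A := Matrix.of fun i j => D j (f i) with hM
    have e : Matrix.vecMul (Matrix.vecMul l M) M.adjugate i = M.det * l i := by
      rw [Matrix.vecMul_vecMul, Matrix.mul_adjugate, Matrix.vecMul_smul, Matrix.vecMul_one]
      rfl
    have h1 : M.det * l i ∈ η := by
      rw [← e, Matrix.vecMul, dotProduct]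
      exact Ideal.sum_mem _ fun j _ => Ideal.mul_mem_right _ _ (hl j)
    exact (hη.mem_or_mem h1).resolve_left fun k => hD (hle k)
  obtain ⟨-, Q, q1, q2, q3, g, g1, g2⟩ := Jac.jac D f 𝔭 hf (key 𝔭 hp le_rfl)
  obtain ⟨h1, -⟩ := Jac.jac D f Q (fun i => q2 (Ideal.subset_span ⟨i, rfl⟩)) (key Q q1 q3)
  obtain ⟨h, e, e1, e2, e3⟩ := Jac.dim_add_height hn Q
  rw [e1] at h1
  have h3 : c ≤ h := by exact_mod_cast h1
  exact ⟨Q, q1, q2, q3, ⟨g, g1, g2⟩, e, e2, by omega⟩

/-- **the component through a point `x` whose tangent space has dimension at most `k`** -/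
theorem comp {A : Type} [CommRing A] [IsRegularLocalRing A] {R : Type} [CommRing R]
    [Algebra R A] {ι : Type} [Fintype ι] {n k : ℕ} (hn : ringKrullDim A = n)
    (D : ι → Derivation R A A) (I : Ideal A) {K : Type} [Field K] (x : A →+* K)
    (hI : ∀ u ∈ I, x u = 0)
    (hT : ∀ Z : Submodule K (ι → K), (∀ v ∈ Z, ∀ u ∈ I, ∑ t, v t * x (D t u) = 0) →
      finrank K Z ≤ k) :
    ∃ J : Ideal A, J.IsPrime ∧ (∀ u ∈ J, x u = 0) ∧ (∃ h, x h ≠ 0 ∧ ∀ u ∈ J, h * u ∈ I) ∧
      ∃ e : ℕ, ringKrullDim (A ⧸ J) = e ∧ e + Fintype.card ι ≤ n + k := by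
  classical
  obtain ⟨c, a, s, h1, Z, h2, h3⟩ := minor fun (u : I) t => x (D t u)
  have h4 := hT Z fun v hv u hu => (h2 v).1 hv ⟨u, hu⟩
  haveI := RingHom.ker_isPrime x
  obtain ⟨J, j1, j2, j3, ⟨h, j4, j5⟩, e, j6, j7⟩ := of_minor hn (fun j => D (s j))
    (fun i => (a i : A)) (RingHom.ker x) (fun i => hI _ (a i).2) (by
      rw [RingHom.mem_ker, RingHom.map_det]
      exact h1)
  have hs : Ideal.span (Set.range fun i => (a i : A)) ≤ I :=
    Ideal.span_le.2 (by rintro _ ⟨i, rfl⟩; exact (a i).2)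
  exact ⟨J, j1, fun u hu => j3 hu, ⟨h, j4, fun u hu => hs (j5 u hu)⟩, e, j6, by omega⟩

end Vale.Agent.P022K.RT.Cm
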