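import Vale.Agent.P022K.RT.LuC
import Vale.Agent.P022K.RT.CmpA
import Vale.Agent.P022D.Rl.Ch0

/-! P022K, block RT: choice of coordinates, tangent vectors at a point are continuous cocycles. -/

set_option linter.all false

noncomputable section

namespace Vale.Agent.P022K.RT.Lu

open IsLocalRing MvPowerSeries Module
open Vale.Agent.P022D.L2b (M2 Z1 Lift pd decomp mem_max_iff)
open Vale.Agent.P022D.Loc2 (TnG coG)

theorem sel {F V α : Type} [Field F] [AddCommGroup V] [Module F V] [Nonempty α]
    (ev : α → V →ₗ[F] F) (hev : ∀ c, (∀ a, ev a c = 0) → c = 0) (k : ℕ) :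
    ∀ W : Submodule F V, Module.rank F W ≤ k →
      ∃ a : Fin k → α, ∀ c ∈ W, (∀ i, ev (a i) c = 0) → c = 0 := by
  induction k with
  | zero =>
    intro W hW
    have h : W = ⊥ := Submodule.rank_eq_zero.1 (by simpa using hW)
    exact ⟨Fin.elim0, fun c hc _ => by simpa [h] using hc⟩
  | succ k ih =>
    intro W hW
    by_cases h : W = ⊥
    · exact ⟨fun _ => Classical.arbitrary α, fun c hc _ => by simpa [h] using hc⟩
    obtain ⟨c0, h1, h2⟩ := (Submodule.ne_bot_iff W).1 h
    obtain ⟨a0, h3⟩ : ∃ a, ev a c0 ≠ 0 := by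
      by_contra h3
      push Not at h3
      exact h2 (hev c0 h3)
    haveI : Module.Finite F W := Module.rank_lt_aleph0_iff.1
      (hW.trans_lt (Cardinal.natCast_lt_aleph0))
    have h4 : W ⊓ LinearMap.ker (ev a0) < W :=
      lt_of_le_of_ne inf_le_left fun e => h3 (e.ge h1).2
    have h5 := Submodule.finrank_lt_finrank_of_lt h4
    haveI : Module.Finite F (W ⊓ LinearMap.ker (ev a0) : Submodule F V) :=
      Submodule.finiteDimensional_of_le inf_le_left
    have h6 : finrank F W ≤ k + 1 := finrank_le_of_rank_le hW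
    obtain ⟨a, ha⟩ := ih (W ⊓ LinearMap.ker (ev a0)) (by
      rw [← finrank_eq_rank]
      exact_mod_cast (by omega : finrank F (W ⊓ LinearMap.ker (ev a0) : Submodule F V) ≤ k))
    exact ⟨Fin.cons a0 a, fun c hc h7 => ha c ⟨hc, h7 0⟩ fun i => h7 i.succ⟩

variable {G F O τ : Type} [Group G] [TopologicalSpace G] [Field F]

/-- the space of first order deformations -/
def ZZ (r : G →* M2 F) : Submodule F (G → M2 F) where
  carrier := {c | Z1 r c}
  zero_mem' := ⟨IsLocallyConstant.const _, fun x y => by simp, fun x => by simp [pd]⟩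
  add_mem' := fun {a b} ha hb => ⟨ha.lc.comp₂ hb.lc fun X Y => X + Y, fun x y => by
    simp only [Pi.add_apply, ha.mul, hb.mul, add_mul, mul_add]; abel, fun x => by
    have h1 := ha.det x
    have h2 := hb.det x
    simp only [pd, Pi.add_apply, Matrix.add_apply] at h1 h2 ⊢
    linear_combination h1 + h2⟩
  smul_mem' := fun t a ha => ⟨ha.lc.comp fun X => t • X, fun x y => by
    simp only [Pi.smul_apply, ha.mul, smul_add, Matrix.smul_mul, Matrix.mul_smul], fun x => by
    have h1 := ha.det x
    simp only [pd, Pi.smul_apply, Matrix.smul_apply, smul_eq_mul] at h1 ⊢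
    linear_combination t * h1⟩

/-- `k` matrix entries are coordinates if the tangent space has dimension at most `k` -/
theorem exists_tn (r : G →* M2 F) (k : ℕ)
    (h : ∀ Z : Submodule F (G → M2 F), (∀ c ∈ Z, Z1 r c) → Module.rank F Z ≤ k) :
    ∃ (g : Fin k → G) (p q : Fin k → Fin 2), TnG r g p q := by
  obtain ⟨a, ha⟩ := sel (F := F) (V := G → M2 F) (α := G × Fin 2 × Fin 2)
    (fun a => { toFun := fun c => c a.1 a.2.1 a.2.2
                map_add' := fun _ _ => rfl
                map_smul' := fun _ _ => rfl })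
    (fun c hc => funext fun x => Matrix.ext fun i j => hc (x, i, j)) k (ZZ r) (h _ fun c hc => hc)
  exact ⟨fun t => (a t).1, fun t => (a t).2.1, fun t => (a t).2.2, fun c hc h0 x =>
    congrFun (ha c hc h0) x⟩

theorem rank_of_tn [Fintype τ] {r : G →* M2 F} {g : τ → G} {p q : τ → Fin 2} (h : TnG r g p q)
    (Z : Submodule F (G → M2 F)) (hZ : ∀ c ∈ Z, Z1 r c) :
    Module.rank F Z ≤ Fintype.card τ := by
  let e : Z →ₗ[F] τ → F :=
    { toFun := fun c t => c.1 (g t) (p t) (q t)
      map_add' := fun _ _ => rfl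
      map_smul' := fun _ _ => rfl }
  have he : Function.Injective e := (injective_iff_map_eq_zero e).2 fun c hc =>
    Subtype.ext (funext (h c.1 (hZ _ c.2) fun t => congrFun hc t))
  have := e.rank_le_of_injective he
  rwa [rank_fun'] at this

variable [CommRing O] [Fintype τ] {B : Type} [CommRing B]

/-- the derivative at the point `φ` in the direction `v` -/
def dr (φ : MvPowerSeries τ O →+* B) (v : τ → B) (u : MvPowerSeries τ O) : B :=
  ∑ t, v t * φ (pderiv O t u)

variable (φ : MvPowerSeries τ O →+* B) (v : τ → B)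

theorem dr_add (a b : MvPowerSeries τ O) : dr φ v (a + b) = dr φ v a + dr φ v b := by
  simp only [dr, map_add, mul_add, Finset.sum_add_distrib]

theorem dr_sub (a b : MvPowerSeries τ O) : dr φ v (a - b) = dr φ v a - dr φ v b := by
  simp only [dr, map_sub, mul_sub, Finset.sum_sub_distrib]

theorem dr_mul (a b : MvPowerSeries τ O) : dr φ v (a * b) = dr φ v a * φ b + φ a * dr φ v b := by
  simp only [dr, Derivation.leibniz, smul_eq_mul, map_add, map_mul, mul_add,
    Finset.sum_add_distrib, Finset.sum_mul, Finset.mul_sum]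
  rw [add_comm]
  congr 1 <;> exact Finset.sum_congr rfl fun t _ => by ring

theorem dr_C (o : O) : dr φ v (C o) = 0 := by
  have : ∀ t, pderiv O t (C o : MvPowerSeries τ O) = 0 := fun t =>
    (pderiv O t).map_algebraMap o
  simp only [dr, this, map_zero, mul_zero, Finset.sum_const_zero]

theorem dr_zero : dr φ v 0 = 0 := by simpa using dr_C φ v 0

theorem dr_one : dr φ v 1 = 0 := by simpa using dr_C φ v 1

theorem dr_X (t : τ) : dr φ v (X t) = v t := by
  classical
  rw [dr, Finset.sum_eq_single t]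
  · simp
  · intro b _ hb
    simp [pderiv_X, hb]
  · simp

theorem dr_pow {m : Ideal (MvPowerSeries τ O)} {n : Ideal B} (h : ∀ u ∈ m, φ u ∈ n) (k : ℕ) :
    ∀ u ∈ m ^ (k + 1), dr φ v u ∈ n ^ k := by
  have h0 : ∀ k, ∀ u ∈ m ^ k, φ u ∈ n ^ k := fun k u hu =>
    Ideal.le_comap_pow φ k (Ideal.pow_right_mono (show m ≤ n.comap φ from h) k hu)
  induction k with
  | zero => intro u _; simp
  | succ k ih =>
    intro u hu
    rw [pow_succ] at hu
    refine Submodule.mul_induction_on hu (fun a ha b hb => ?_) fun a b ha hb => ?_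
    · rw [dr_mul]
      refine Ideal.add_mem _ ?_ (Ideal.mul_mem_right _ _ (h0 _ a ha))
      rw [pow_succ]
      exact Ideal.mul_mem_mul (ih a ha) (h b hb)
    · rw [dr_add]
      exact Ideal.add_mem _ ha hb

/-- adically continuous first order deformations of `ρ` with the same determinant -/
structure Zc (n : Ideal B) (ρ : G →* M2 B) (c : G → M2 B) : Prop where
  lc : ∀ k, IsLocallyConstant fun x => (c x).map (Ideal.Quotient.mk (n ^ k))
  mul : ∀ x y, c (x * y) = c x * ρ y + ρ x * c y
  det : ∀ x, pd (ρ x) (c x) = 0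

variable [IsLocalRing O] [Algebra O F] {r : G →* M2 F} {s : F → O} {d : G → O} {g : τ → G}
  {p q : τ → Fin 2} {f : G → M2 (MvPowerSeries τ O)} {I : Ideal (MvPowerSeries τ O)} {φ v}

/-- a tangent vector gives a cocycle -/
theorem Un.zc (h : Un r s d g p q f I) (hφ : ∀ u ∈ I, φ u = 0) {n : Ideal B}
    (hn : ∀ u ∈ maximalIdeal (MvPowerSeries τ O), φ u ∈ n) (hv : ∀ u ∈ I, dr φ v u = 0) :
    Zc n (h.rep φ hφ) (fun x => (f x).map (dr φ v)) ∧
      ∀ t, dr φ v (f (g t) (p t) (q t)) = v t := by
  refine ⟨⟨fun k => ?_, fun x y => Matrix.ext fun i j => ?_, fun x => ?_⟩, fun t => ?_⟩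
  · have h1 := h.opn (k + 1)
    rw [IsLocallyConstant.iff_eventually_eq] at h1 ⊢
    refine fun x => (h1 x).mono fun y hy => Matrix.ext fun i j => Ideal.Quotient.eq.2 ?_
    obtain ⟨a, ha, b, hb, e⟩ := Submodule.mem_sup.1
      (Ideal.Quotient.eq.1 (congrFun (congrFun hy i) j))
    show dr φ v (f y i j) - dr φ v (f x i j) ∈ n ^ k
    rw [← dr_sub, ← e, dr_add, hv a ha, zero_add]
    exact dr_pow φ v hn k b hb
  · have h1 := hv _ (h.mul x y i j)
    rw [dr_sub, sub_eq_zero] at h1
    simp only [Matrix.map_apply, h1, Matrix.mul_apply, Fin.sum_univ_two, dr_add, dr_mul,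
      Matrix.add_apply, Un.rep_apply]
    ring
  · have h1 := hv _ (h.det x)
    rw [dr_sub, dr_C, sub_zero, Matrix.det_fin_two, dr_sub, dr_mul, dr_mul] at h1
    simp only [pd, Matrix.map_apply, Un.rep_apply]
    linear_combination h1
  · have h1 := hv _ (h.crd t)
    rwa [dr_sub, dr_add, dr_C, dr_X, zero_add, sub_eq_zero] at h1

end Vale.Agent.P022K.RT.Lu

namespace Vale.Agent.P022K.RT.Lu

open IsLocalRing MvPowerSeries Module
open Vale.Agent.P022D.L2b (M2 Z1 Lift pd decomp mem_max_iff)

variable {G F O τ : Type} [Group G] [TopologicalSpace G] [Field F] [CommRing O] [IsDomain O]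
  [IsDiscreteValuationRing O] [Fintype τ] [Algebra O F] {r : G →* M2 F} {s : F → O} {d : G → O}
  {g : τ → G} {p q : τ → Fin 2} {f : G → M2 (MvPowerSeries τ O)}
  {I : Ideal (MvPowerSeries τ O)} {B : Type} [CommRing B] [IsDomain B]

/-- **the component through a smooth point** -/
theorem Un.cmp (h : Un r s d g p q f I) (φ : MvPowerSeries τ O →+* B) (hφ : ∀ u ∈ I, φ u = 0)
    {n : Ideal B} (hn : ∀ u ∈ maximalIdeal (MvPowerSeries τ O), φ u ∈ n) {k : ℕ}
    (hZ : ∀ c : Fin (k + 1) → G → M2 B, (∀ i, Zc n (h.rep φ hφ) (c i)) →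
      ¬ LinearIndependent B c) :
    ∃ J : Ideal (MvPowerSeries τ O), J.IsPrime ∧ (∀ u ∈ J, φ u = 0) ∧
      (∃ a, φ a ≠ 0 ∧ ∀ u ∈ J, a * u ∈ I) ∧
      ringKrullDim (MvPowerSeries τ O ⧸ J) ≤ (k + 1 : ℕ) := by
  classical
  obtain ⟨ϖ, hϖ⟩ := IsDiscreteValuationRing.exists_irreducible O
  obtain ⟨hreg, hdim⟩ := P022D.Rl.Ch0.reg (σ := τ) hϖ.maximalIdeal_eq
  let K := FractionRing B
  have inj : Function.Injective (algebraMap B K) := IsFractionRing.injective B K
  have z : ∀ b, algebraMap B K b = 0 ↔ b = 0 := fun b => map_eq_zero_iff _ inj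
  obtain ⟨J, j1, j2, ⟨a, j3, j4⟩, e, j5, j6⟩ := Cm.comp (k := k) hdim (fun t => pderiv O t) I
    ((algebraMap B K).comp φ) (fun u hu => (z _).2 (hφ u hu)) (fun Z hZ' => by
      by_contra hlt
      obtain ⟨w, hw⟩ := exists_linearIndependent_of_le_finrank (R := K) (M := Z)
        (show k + 1 ≤ finrank K Z by omega)
      have hw' := hw.map' Z.subtype Z.ker_subtype
      obtain ⟨b, hb⟩ := IsLocalization.exist_integer_multiples_of_finite (nonZeroDivisors B)
        fun a : Fin (k + 1) × τ => (w a.1 : τ → K) a.2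
      choose v hv using hb
      have hb0 : algebraMap B K b ≠ 0 := fun e => nonZeroDivisors.ne_zero b.2 ((z _).1 e)
      have hv' : ∀ i t, algebraMap B K (v (i, t)) = algebraMap B K b * (w i : τ → K) t :=
        fun i t => (hv (i, t)).trans (Algebra.smul_def _ _)
      have h1 : ∀ i, ∀ u ∈ I, dr φ (fun t => v (i, t)) u = 0 := fun i u hu => by
        rw [← z, dr, map_sum]
        simp only [map_mul, hv', mul_assoc]
        rw [← Finset.mul_sum]
        exact mul_eq_zero_of_right _ (hZ' _ (w i).2 u hu)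
      refine hZ (fun i x => (f x).map (dr φ fun t => v (i, t)))
        (fun i => (h.zc hφ hn (h1 i)).1) (Fintype.linearIndependent_iff.2 fun l hl i => ?_)
      rw [← z]
      refine (mul_eq_zero.1 (Fintype.linearIndependent_iff.1 hw'
        (fun i => algebraMap B K (l i) * algebraMap B K b) (funext fun t => ?_) i)).resolve_right hb0
      have h2 := congrFun (congrFun (congrFun hl (g t)) (p t)) (q t)
      simp only [Finset.sum_apply, Pi.smul_apply, Matrix.sum_apply, Matrix.smul_apply,
        Matrix.map_apply, fun i => (h.zc hφ hn (h1 i)).2 t, smul_eq_mul, Pi.zero_apply,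
        Matrix.zero_apply] at h2
      have h3 := congrArg (algebraMap B K) h2
      simp only [map_sum, map_mul, hv', map_zero] at h3
      simpa only [Finset.sum_apply, Pi.smul_apply, smul_eq_mul, Function.comp_apply,
        Submodule.subtype_apply, mul_assoc, Pi.zero_apply] using h3)
  refine ⟨J, j1, fun u hu => (z _).1 (j2 u hu), ⟨a, fun e => j3 ((z _).2 e), j4⟩, ?_⟩
  rw [j5]
  exact_mod_cast (by omega : e ≤ k + 1)

end Vale.Agent.P022K.RT.Lu
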