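import Vale.Agent.P022K.RT.St
import Vale.Agent.P022K.RT.CmpB
import Vale.Agent.P022K.PL.Limop

/-! P022K, block RT: rows LU, LUC, CMP. -/

set_option linter.all false

noncomputable section

namespace Vale.Agent.P022K.RT

open IsLocalRing MvPowerSeries Module
open Vale.Agent.P022D.L2b (M2 Z1 Lift pd decomp mem_max_iff ker_eq)
open Vale.Agent.P022D.Loc2 (TnG coG OutG)
open Vale.Agent.P022D.Core (PS)
open Vale.Agent.P022D.PA (Base)
open Vale.Agent.P022K.PL (Cf)
open Vale.Agent.P022D

theorem lc_of_open {G M : Type} [Group G] [TopologicalSpace G] [IsTopologicalGroup G] [Monoid M]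
    (ρ : G →* M) (h : IsOpen {g | ρ g = 1}) : IsLocallyConstant ρ := by
  rw [IsLocallyConstant.iff_eventually_eq]
  intro x
  have h1 : IsOpen ((fun y => x⁻¹ * y) ⁻¹' {g | ρ g = 1}) :=
    h.preimage (continuous_const.mul continuous_id)
  filter_upwards [h1.mem_nhds (x := x) (by
    rw [Set.mem_preimage, inv_mul_cancel]; exact map_one ρ)] with y hy
  rw [← mul_inv_cancel_left x y, map_mul, show ρ (x⁻¹ * y) = 1 from hy, mul_one]

theorem cg_iff {A : Type} [CommRing A] {I : Ideal A} {a b : M2 A} :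
    Cg I a b ↔ a.map (Ideal.Quotient.mk I) = b.map (Ideal.Quotient.mk I) :=
  ⟨fun h => Matrix.ext fun i j => Ideal.Quotient.eq.2 (h i j),
    fun h i j => Ideal.Quotient.eq.1 (congrFun (congrFun h i) j)⟩

theorem cg_one {A : Type} [CommRing A] {I : Ideal A} {a : M2 A} :
    Cg I a 1 ↔ a.map (Ideal.Quotient.mk I) = 1 := by
  rw [cg_iff, Matrix.map_one _ (map_zero _) (map_one _)]

/-- the image of a representation -/
def pm {G A B : Type} [Group G] [CommRing A] [CommRing B] (u : A →+* B) (ρ : G →* M2 A) :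
    G →* M2 B := (u.mapMatrix : M2 A →+* M2 B).toMonoidHom.comp ρ

theorem pm_apply {G A B : Type} [Group G] [CommRing A] [CommRing B] (u : A →+* B) (ρ : G →* M2 A)
    (g : G) : pm u ρ g = (ρ g).map u := rfl

theorem lc_of_cg {G A : Type} [Group G] [TopologicalSpace G] [IsTopologicalGroup G] [CommRing A]
    (ρ : G →* M2 A) (I : Ideal A) (h : IsOpen {x | Cg I (ρ x) 1}) :
    IsLocallyConstant fun x => (ρ x).map (Ideal.Quotient.mk I) :=
  lc_of_open (pm (Ideal.Quotient.mk I) ρ) (by simp only [cg_one] at h; exact h)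

section

variable {G F O τ : Type} [Group G] [TopologicalSpace G] [Field F] [CommRing O] [IsLocalRing O]
  [Fintype τ] [Algebra O F] {r : G →* M2 F} {s : F → O} {d : G → O} {g : τ → G}
  {p q : τ → Fin 2} {f : G → M2 (PS O τ)} {I : Ideal (PS O τ)}

theorem uni_of_un (hs : ∀ x, algebraMap O F (s x) = x) (h : Lu.Un r s d g p q f I) :
    Uni r s d g p q I f where
  le := h.max
  one := h.one
  mul := h.mul
  det := h.det
  red x i j := by
    have := h.red x i j
    rwa [mem_max_iff, ← ker_eq hs, RingHom.mem_ker, map_sub, constantCoeff_C, map_sub, hs,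
      sub_eq_zero] at this
  crd t := by rw [sub_sub]; exact h.crd t
  opn n := by simpa only [cg_one] using (h.opn n).isOpen_fiber 1
  uni A _ _ _ ρ hρ φ hφ := ⟨(h.univ A ρ hρ φ hφ).1, fun x =>
    Matrix.ext ((h.univ A ρ hρ φ hφ).2 x)⟩

theorem Uni.un [IsTopologicalGroup G] (hs : ∀ x, algebraMap O F (s x) = x)
    (h : Uni r s d g p q I f) : Lu.Un r s d g p q f I where
  max := h.le
  one := h.one
  mul := h.mul
  det := h.det
  crd t := by rw [← sub_sub]; exact h.crd t
  red x i j := by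
    rw [mem_max_iff, ← ker_eq hs, RingHom.mem_ker, map_sub, constantCoeff_C, map_sub, hs, h.red,
      sub_self]
  opn n := by
    let ρ : G →* M2 (PS O τ ⧸ (I ⊔ maximalIdeal (PS O τ) ^ n)) :=
      { toFun := fun x => (f x).map (Ideal.Quotient.mk _)
        map_one' := cg_one.1 fun i j => Ideal.mem_sup_left (h.one i j)
        map_mul' := fun x y => by
          rw [← Matrix.map_mul]
          exact cg_iff.1 fun i j => Ideal.mem_sup_left (h.mul x y i j) }
    have h1 := h.opn n
    simp only [cg_one] at h1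
    exact lc_of_open ρ h1
  univ A _ _ _ ρ hρ φ hφ := ⟨(h.uni A ρ hρ φ hφ).1, fun x i j =>
    congrFun (congrFun ((h.uni A ρ hρ φ hφ).2 x) i) j⟩

end

theorem lu : LU := by
  intro G F O τ _ _ _ _ _ _ _ _ hO _ _ r s d g p q hr hs hd hT
  have := hO.cpl
  refine ⟨?_, ⟨τ, Fin 0, inferInstance, inferInstance, g, p, q, Fin.elim0, by simp,
    fun i => i.elim0, fun B _ _ _ _ _ φ _ _ _ _ K _ _ _ => Or.inl fun l _ i => i.elim0, hT,
    fun A _ _ _ ρ hρ => ⟨Lu.gen hr hs hd hT hρ, fun _ _ i => i.elim0⟩⟩, fun I f h u hu => ?_⟩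
  · obtain ⟨f, I, h⟩ := Lu.exists_un hr hs hd hT
    exact ⟨I, f, uni_of_un hs h⟩
  · refine PL.mod_clo (A := PS O τ) I fun k => ?_
    have := Lu.fin_sup hs I k
    have h0 : ∀ u ∈ I, (Ideal.Quotient.mkₐ O (I ⊔ maximalIdeal (PS O τ) ^ k)).toRingHom u = 0 :=
      fun u hu => Ideal.Quotient.eq_zero_iff_mem.2 (Ideal.mem_sup_left hu)
    obtain ⟨h1, h2⟩ := (h.un hs).rep_lift _ h0
      (fun a ha => Lu.nil_mk le_sup_right (Lu.C_max ha))
      fun t => Lu.nil_mk le_sup_right (Lu.X_max t)
    obtain ⟨a, ha, b, hb, e⟩ := Submodule.mem_sup.1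
      (Ideal.Quotient.eq_zero_iff_mem.1 (hu _ _ h1 _ h2))
    refine ⟨a, ha, ?_⟩
    rw [smul_eq_mul, Ideal.mul_top, ← e, add_sub_cancel_left]
    exact hb

theorem fin_pow (A : Type) [CommRing A] [hA : Base A] (k : ℕ) :
    Finite (A ⧸ maximalIdeal A ^ k) := by
  have : Finite (A ⧸ maximalIdeal A) := hA.fin
  exact Ideal.finite_quotient_pow (IsNoetherian.noetherian _) k

theorem map_max {O τ A : Type} [CommRing O] [IsLocalRing O] [Fintype τ] [CommRing A]
    (φ : PS O τ →+* A) {n : Ideal A} (h1 : ∀ a ∈ maximalIdeal O, φ (C a) ∈ n)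
    (h2 : ∀ t, φ (X t) ∈ n) : ∀ u ∈ maximalIdeal (PS O τ), φ u ∈ n := fun u hu => by
  obtain ⟨c, e⟩ := decomp u
  rw [mem_max_iff] at hu
  rw [e, map_add, map_sum]
  refine n.add_mem (h1 _ hu) (n.sum_mem fun t _ => ?_)
  rw [map_mul]
  exact n.mul_mem_right _ (h2 t)

theorem luc : LUC := by
  intro G F O τ _ _ _ _ _ _ _ _ hO _ _ r s d g p q I f hs h A _ hA _
  have := hA.cpl
  have h' := h.un hs
  refine ⟨fun ρ hρ => ?_, fun φ h1 h2 h3 => ?_, fun φ φ' h1 h2 => ?_⟩
  · obtain ⟨φ, a1, -, a2, a3⟩ := h'.cpl (maximalIdeal A) (fin_pow A) hρ.loc ρ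
      (fun k => lc_of_cg ρ _ (hρ.lc k)) hρ.red hρ.det
    exact ⟨φ, a1, a2, fun x => Matrix.ext (a3 x)⟩
  · have hC : ∀ o, φ.toRingHom (C o) = algebraMap O A o := fun o => φ.commutes o
    have hm := map_max φ.toRingHom (fun a ha => hC a ▸ h1 a ha) h2
    refine ⟨h'.rep φ.toRingHom h3, fun x => rfl, ⟨fun n => ?_, h1, fun x i j => ?_, fun x => ?_⟩,
      fun t => ?_⟩
    · have h4 := h'.rep_lc ((Ideal.Quotient.mk (maximalIdeal A ^ n)).comp φ.toRingHom)
        (fun u hu => (congrArg (Ideal.Quotient.mk _) (h3 u hu)).trans (map_zero _)) (k := n) fun u hu =>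
          Ideal.Quotient.eq_zero_iff_mem.2 (Ideal.le_comap_pow φ.toRingHom n
            (Ideal.pow_right_mono (show _ ≤ (maximalIdeal A).comap φ.toRingHom from hm) n hu))
      simp only [cg_one]
      exact h4.isOpen_fiber 1
    · rw [← hC, h'.rep_apply, Matrix.map_apply, ← map_sub]
      exact hm _ (h'.red x i j)
    · rw [h'.rep_det, hC]
    · have := h'.rep_crd φ.toRingHom h3 t
      rw [hC] at this
      exact this.symm
  · exact AlgHom.coe_ringHom_injective (NR.ev_ext (maximalIdeal A)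
      (fun o => (φ.commutes o).trans (φ'.commutes o).symm) h2 h1)

/-- parts of a regular system of parameters -/
theorem indep_sub {S ι : Type} [CommRing S] [IsRegularLocalRing S] [Fintype ι] (y : ι → S)
    (hy : ∀ i, y i ∈ maximalIdeal S)
    (hi : ∀ a : ι → S, ∑ i, a i * y i ∈ maximalIdeal S ^ 2 → ∀ i, a i ∈ maximalIdeal S)
    (U : Set ι) : (Ideal.span (y '' U)).IsPrime ∧ ∀ i ∉ U, y i ∉ Ideal.span (y '' U) := by
  classical
  constructor
  · let e := (Fintype.equivFin U).symm
    have h1 : y '' U = Set.range fun i => y (e i) := by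
      rw [Set.image_eq_range]
      exact (e.surjective.range_comp fun i : U => y i).symm
    rw [h1]
    refine (Jac.prime_of_indep _ S _ (fun i => hy _) fun a ha i => ?_).1
    have h2 := hi (fun j => if h : j ∈ U then a (e.symm ⟨j, h⟩) else 0) (by
      convert ha using 1
      rw [← Equiv.sum_comp e.symm, ← Fintype.sum_subtype_add_sum_subtype (· ∈ U)]
      rw [Finset.sum_eq_zero (s := Finset.univ (α := {j // ¬ j ∈ U})) fun j _ => by
        rw [dif_neg j.2, zero_mul], add_zero]
      exact Finset.sum_congr rfl fun j _ => by simp) (e i)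
    simpa using h2
  · intro i hiU hm
    have h1 : ∀ z ∈ Ideal.span (y '' U), ∃ a : ι → S, a i = 0 ∧ z = ∑ j, a j * y j := by
      intro z hz
      refine Submodule.span_induction ?_ ⟨0, rfl, by simp⟩ ?_ ?_ hz
      · rintro _ ⟨j, hj, rfl⟩
        refine ⟨Pi.single j 1, Pi.single_eq_of_ne (fun e : i = j => hiU (e ▸ hj)) _, ?_⟩
        simp [Pi.single_apply]
      · rintro _ _ _ _ ⟨a, a0, rfl⟩ ⟨b, b0, rfl⟩
        exact ⟨a + b, by simp [a0, b0], by simp [add_mul, Finset.sum_add_distrib]⟩
      · rintro c _ _ ⟨a, a0, rfl⟩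
        exact ⟨c • a, by simp [a0], by simp [Finset.mul_sum, mul_assoc]⟩
    obtain ⟨a, a0, e⟩ := h1 _ hm
    have h2 := hi (Pi.single i 1 - a) (by
      simp only [Pi.sub_apply, sub_mul, Finset.sum_sub_distrib, ← e]
      simp [Pi.single_apply]) i
    simp [a0] at h2

theorem coeff_one_mul {σ K : Type} [CommRing K] (a b : MvPowerSeries σ K) (j : σ) :
    coeff (Finsupp.single j 1) (a * b) = constantCoeff a * coeff (Finsupp.single j 1) b +
      coeff (Finsupp.single j 1) a * constantCoeff b := by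
  have h : ∀ u : MvPowerSeries σ K, coeff (Finsupp.single j 1) u =
      constantCoeff (pderiv K j u) := fun u => by
    rw [← coeff_zero_eq_constantCoeff_apply, coeff_pderiv]
    simp
  simp only [h, Derivation.leibniz, smul_eq_mul, map_add, map_mul]
  ring

/-- a family with an invertible Jacobian minor has the expected dimension at least -/
theorem dim_ge {O τ : Type} [CommRing O] [IsDomain O] [IsDiscreteValuationRing O] [Fintype τ]
    {m k : ℕ} (ψ : PS O τ →ₐ[O] PS O (Fin m)) (t : Fin k → τ) (e : Fin k → Fin m)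
    (hD : (Matrix.of fun i j => coeff (Finsupp.single (e j) 1) (ψ (X (t i)))).det ≠ 0) :
    ((k + 1 : ℕ) : WithBot ℕ∞) ≤ ringKrullDim (PS O τ ⧸ RingHom.ker ψ) := by
  classical
  let K := FractionRing O
  have inj : Function.Injective (algebraMap O K) := IsFractionRing.injective O K
  have hS := Vale.Agent.P177.mvPowerSeries_isRegularLocalRing (Fin m) K
  let θ : PS O τ →+* MvPowerSeries (Fin m) K := (map (algebraMap O K)).comp ψ.toRingHom
  let z : Fin k → PS O τ := fun i => X (t i) - C (constantCoeff (ψ (X (t i))))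
  have hC : ∀ o, ψ (C o) = C o := fun o => ψ.commutes o
  have hm : ∀ u : MvPowerSeries (Fin m) K, u ∈ maximalIdeal _ ↔ constantCoeff u = 0 := fun u => by
    rw [mem_max_iff, maximalIdeal_eq_bot, Ideal.mem_bot]
  have z0 : ∀ i, constantCoeff (θ (z i)) = 0 := fun i => by
    simp [θ, z, hC]
  have z1 : ∀ i j, coeff (Finsupp.single j 1) (θ (z i)) =
      algebraMap O K (coeff (Finsupp.single j 1) (ψ (X (t i)))) := fun i j => by
    simp [θ, z, hC, coeff_C]
  have hsub := indep_sub (fun i => θ (z i)) (fun i => (hm _).2 (z0 i)) fun a ha => by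
    have h1 : ∀ u ∈ maximalIdeal (MvPowerSeries (Fin m) K) ^ 2, ∀ j,
        coeff (Finsupp.single j 1) u = 0 := fun u hu j => by
      rw [pow_two] at hu
      refine Submodule.mul_induction_on hu (fun a ha b hb => ?_) fun a b ha hb => ?_
      · rw [coeff_one_mul, (hm a).1 ha, (hm b).1 hb, zero_mul, mul_zero, add_zero]
      · rw [map_add, ha, hb, add_zero]
    have h2 : Matrix.vecMul (fun i => constantCoeff (a i)) ((algebraMap O K).mapMatrix
        (Matrix.of fun i j => coeff (Finsupp.single (e j) 1) (ψ (X (t i))))) = 0 := by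
      funext j
      have h3 := h1 _ ha (e j)
      simp only [map_sum, coeff_one_mul, z0, z1, mul_zero, add_zero] at h3
      exact h3
    have h4 := Matrix.eq_zero_of_vecMul_eq_zero (by
      rw [← RingHom.map_det]
      exact (map_ne_zero_iff _ inj).2 hD) h2
    exact fun i => (hm _).2 (congrFun h4 i)
  have key : ∀ T : Finset (Fin k), ((T.card + 1 : ℕ) : WithBot ℕ∞) ≤ ringKrullDim
      (PS O τ ⧸ (Ideal.span ((fun i => θ (z i)) '' ((T : Set (Fin k))ᶜ))).comap θ) := by
    intro T
    induction T using Finset.induction_on with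
    | empty =>
      obtain ⟨ϖ, hϖ⟩ := IsDiscreteValuationRing.exists_irreducible O
      haveI := (hsub ((∅ : Finset (Fin k)) : Set (Fin k))ᶜ).1
      haveI : Nontrivial (PS O τ ⧸ maximalIdeal (PS O τ)) :=
        Ideal.Quotient.nontrivial_iff.2 (maximalIdeal.isMaximal _).ne_top
      refine CA.dimGE_succ (k := 0) (P := maximalIdeal (PS O τ)) (Ideal.comap_isPrime _ _)
        (lt_of_le_of_ne (le_maximalIdeal (Ideal.comap_isPrime _ _).ne_top) fun e => ?_)
        (by exact_mod_cast ringKrullDim_nonneg_of_nontrivial)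
      have h1 : (C ϖ : PS O τ) ∈ maximalIdeal (PS O τ) := Lu.C_max hϖ.not_isUnit
      rw [← e, Ideal.mem_comap] at h1
      have h2 := (hm _).1 (le_maximalIdeal (Ideal.IsPrime.ne_top ‹_›) h1)
      simp [θ, hC] at h2
      exact hϖ.ne_zero h2
    | insert a T ha ih =>
      rw [Finset.card_insert_of_notMem ha]
      haveI := (hsub ((insert a T : Finset (Fin k)) : Set (Fin k))ᶜ).1
      refine CA.dimGE_succ (Ideal.comap_isPrime _ _) (lt_of_le_of_ne (Ideal.comap_mono
        (Ideal.span_mono (Set.image_mono (by simp)))) fun e => ?_) ih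
      refine (hsub ((insert a T : Finset (Fin k)) : Set (Fin k))ᶜ).2 a (by simp) ?_
      rw [← Ideal.mem_comap, e, Ideal.mem_comap]
      exact Ideal.subset_span ⟨a, by simpa using ha, rfl⟩
  have h5 := key Finset.univ
  rw [Finset.card_univ, Fintype.card_fin] at h5
  refine CA.dimGE_mono (fun u hu => ?_) h5
  rw [Ideal.mem_comap]
  have : θ u = 0 := by
    have h6 : ψ u = 0 := hu
    simp [θ, h6]
  rw [this]
  exact Ideal.zero_mem _

/-- the component through a smooth `O`-point -/
theorem Sm.comp {O τ : Type} [CommRing O] [IsDomain O] [IsDiscreteValuationRing O] [Fintype τ]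
    {I : Ideal (PS O τ)} {x : PS O τ →ₐ[O] O} {k : ℕ} (h : Sm I x k) (hI : ∀ u ∈ I, x u = 0) :
    ∃ J : Ideal (PS O τ), J.IsPrime ∧ (∀ u ∈ J, x u = 0) ∧
      (∃ a, x a ≠ 0 ∧ ∀ u ∈ J, a * u ∈ I) ∧ ringKrullDim (PS O τ ⧸ J) ≤ (k + 1 : ℕ) := by
  classical
  obtain ⟨ϖ, hϖ⟩ := IsDiscreteValuationRing.exists_irreducible O
  obtain ⟨hreg, hdim⟩ := P022D.Rl.Ch0.reg (σ := τ) hϖ.maximalIdeal_eq
  let K := FractionRing O
  have inj : Function.Injective (algebraMap O K) := IsFractionRing.injective O K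
  have z : ∀ b, algebraMap O K b = 0 ↔ b = 0 := fun b => map_eq_zero_iff _ inj
  obtain ⟨J, j1, j2, ⟨a, j3, j4⟩, e, j5, j6⟩ := Cm.comp (k := k) hdim (fun t => pderiv O t) I
    ((algebraMap O K).comp x.toRingHom) (fun u hu => (z _).2 (hI u hu)) (fun Z hZ' => by
      by_contra hlt
      obtain ⟨w, hw⟩ := exists_linearIndependent_of_le_finrank (R := K) (M := Z)
        (show k + 1 ≤ finrank K Z by omega)
      have hw' := hw.map' Z.subtype Z.ker_subtype
      obtain ⟨b, hb⟩ := IsLocalization.exist_integer_multiples_of_finite (nonZeroDivisors O)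
        fun a : Fin (k + 1) × τ => (w a.1 : τ → K) a.2
      choose v hv using hb
      have hb0 : algebraMap O K b ≠ 0 := fun e => nonZeroDivisors.ne_zero b.2 ((z _).1 e)
      have hv' : ∀ i t, algebraMap O K (v (i, t)) = algebraMap O K b * (w i : τ → K) t :=
        fun i t => (hv (i, t)).trans (Algebra.smul_def _ _)
      have h1 : LinearIndependent O fun i t => v (i, t) :=
        Fintype.linearIndependent_iff.2 fun l hl i => by
          rw [← z]
          refine (mul_eq_zero.1 (Fintype.linearIndependent_iff.1 hw'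
            (fun i => algebraMap O K (l i) * algebraMap O K b)
            (funext fun t => ?_) i)).resolve_right hb0
          have h3 := congrArg (algebraMap O K) (congrFun hl t)
          simp only [Finset.sum_apply, Pi.smul_apply, smul_eq_mul, Pi.zero_apply, map_sum,
            map_mul, hv', map_zero] at h3
          simpa only [Finset.sum_apply, Pi.smul_apply, smul_eq_mul, Function.comp_apply,
            Submodule.subtype_apply, mul_assoc, Pi.zero_apply] using h3
      have h2 := h (Submodule.span O (Set.range fun i t => v (i, t))) fun y hy u hu => by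
        refine Submodule.span_induction (p := fun y _ => ∑ t, y t * x (pderiv O t u) = 0) ?_
          (by simp) (fun y y' _ _ a1 a2 => ?_) (fun c y _ a1 => ?_) hy
        · rintro _ ⟨i, rfl⟩
          rw [← z, map_sum]
          simp only [map_mul, hv', mul_assoc]
          rw [← Finset.mul_sum]
          exact mul_eq_zero_of_right _ (hZ' _ (w i).2 u hu)
        · simp only [Pi.add_apply, add_mul, Finset.sum_add_distrib, a1, a2, add_zero]
        · simp only [Pi.smul_apply, smul_eq_mul, mul_assoc, ← Finset.mul_sum, a1, mul_zero]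
      rw [finrank_span_eq_card h1, Fintype.card_fin] at h2
      omega)
  refine ⟨J, j1, fun u hu => (z _).1 (j2 u hu), ⟨a, fun e => j3 ((z _).2 e), j4⟩, ?_⟩
  rw [j5]
  exact_mod_cast (by omega : e ≤ k + 1)

theorem cmp : CMP := by
  intro O τ _ _ _ _ _ m k I ψ x hx hI hS ⟨t, e, hD⟩
  obtain ⟨J, j1, j2, ⟨a, j3, j4⟩, j5⟩ := hS.comp fun u hu => by rw [hx, hI u hu, map_zero]
  have h1 := dim_ge ψ t e hD
  have h2 : J ≤ RingHom.ker ψ := fun u hu => by
    have h3 := hI _ (j4 u hu)
    rw [map_mul] at h3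
    exact (mul_eq_zero.1 h3).resolve_left fun e => j3 (by rw [hx, e, map_zero])
  have h3 : J = RingHom.ker ψ := by
    by_contra hne
    have h4 := (CA.dimGE_succ j1 (lt_of_le_of_ne h2 hne) h1).trans j5
    exact absurd (by exact_mod_cast h4 : k + 1 + 1 ≤ k + 1) (by omega)
  exact ⟨⟨⟨m, ψ, rfl⟩, le_antisymm (h3 ▸ j5) h1⟩, a, j3, fun u hu => j4 u (h3 ▸ hu)⟩

end Vale.Agent.P022K.RT
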