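import Vale.Agent.P022K.RT.Z1w
import Vale.Agent.P022K.RT.St

/-!
# P022K, block RT: the bound `z¹ ≤ 3` at `l ≠ p`
-/

set_option linter.all false

noncomputable section

namespace Vale.Agent.P022K.RT.Zl

open Vale.Agent.P022D.L2b (M2 Z1 pd)
open Vale.Agent.P022D.Loc2 (TnG)

section grp

variable {Γ F : Type*} [Group Γ] [Field F]

/-- a finite group whose elements have invertible order has invertible order -/
theorem card_ne [Finite Γ] (h : ∀ g : Γ, ∃ n : ℕ, (n : F) ≠ 0 ∧ g ^ n = 1) :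
    (Nat.card Γ : F) ≠ 0 := by
  intro h0
  obtain ⟨p, hp⟩ := CharP.exists F
  have hd : p ∣ Nat.card Γ := (CharP.cast_eq_zero_iff F p _).1 h0
  rcases CharP.char_is_prime_or_zero F p with hpp | rfl
  · haveI := Fact.mk hpp
    obtain ⟨g, hg⟩ := exists_prime_orderOf_dvd_card' p hd
    obtain ⟨n, hn, e⟩ := h g
    exact hn ((CharP.cast_eq_zero_iff F p _).2 (hg ▸ orderOf_dvd_of_pow_eq_one e))
  · exact Nat.card_pos.ne' (Nat.eq_zero_of_zero_dvd hd)

end grp

section ring

variable {G A : Type} [Group G] [CommRing A]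

theorem r_inv (r : G →* M2 A) (x : G) : r x * r x⁻¹ = 1 := by
  rw [← map_mul, mul_inv_cancel, map_one]

theorem inv_r (r : G →* M2 A) (x : G) : r x⁻¹ * r x = 1 := by
  rw [← map_mul, inv_mul_cancel, map_one]

/-- the adjoint action -/
def ad (r : G →* M2 A) : G →* Module.End A (M2 A) where
  toFun g := LinearMap.mulLeftRight A (r g, r g⁻¹)
  map_one' := by ext X : 1; simp
  map_mul' x y := by ext X : 1; simp [mul_assoc]

theorem ad_apply (r : G →* M2 A) (g : G) (X : M2 A) : ad r g X = r g * X * r g⁻¹ := rfl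

theorem ad_trace (r : G →* M2 A) (g : G) (X : M2 A) : (ad r g X).trace = X.trace := by
  rw [ad_apply, Matrix.trace_mul_comm, ← mul_assoc, inv_r, one_mul]

theorem ad_fix (r : G →* M2 A) (g : G) (X Y : M2 A) : ad r g X = Y ↔ r g * X = Y * r g := by
  rw [ad_apply]
  constructor
  · rintro rfl
    rw [mul_assoc, inv_r, mul_one]
  · intro h
    rw [h, mul_assoc, r_inv, mul_one]

theorem coc_of {r : G →* M2 A} {c : G → M2 A} (h : ∀ x y, c (x * y) = c x * r y + r x * c y) :
    Coc (ad r) fun x => c x * r x⁻¹ := by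
  intro x y
  simp only [h, ad_apply, mul_inv_rev, map_mul, add_mul]
  congr 1
  · rw [mul_assoc, ← mul_assoc (r y), r_inv, one_mul]
  · simp only [mul_assoc]

theorem pd_eq (X Y : M2 A) : pd X Y = (Y * X.adjugate).trace := by
  simp [pd, Matrix.trace_fin_two, Matrix.adjugate_fin_two, Matrix.mul_apply, Fin.sum_univ_two]
  ring

theorem adj_eq (r : G →* M2 A) (x : G) : (r x).adjugate = (r x).det • r x⁻¹ := by
  rw [← mul_one (r x).adjugate, ← r_inv r x, ← mul_assoc, Matrix.adjugate_mul, smul_mul_assoc,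
    one_mul]

theorem det_unit (r : G →* M2 A) (x : G) : IsUnit (r x).det :=
  IsUnit.of_mul_eq_one (r x⁻¹).det (by rw [← Matrix.det_mul, r_inv, Matrix.det_one])

theorem trace_of {r : G →* M2 A} {x : G} {Y : M2 A} (h : pd (r x) Y = 0) :
    (Y * r x⁻¹).trace = 0 := by
  rw [pd_eq, adj_eq, mul_smul_comm, Matrix.trace_smul, smul_eq_mul] at h
  exact (det_unit r x).mul_right_eq_zero.1 h

theorem Cts.comap {V V' : Type} [AddCommGroup V] [Module A V] [AddCommGroup V'] [Module A V']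
    [TopologicalSpace G] {ρ : G →* Module.End A V} {ρ' : G →* Module.End A V'} (f : V' →ₗ[A] V)
    (hf : Function.Injective f) (h : ∀ g v, f (ρ' g v) = ρ g (f v)) {l : ℕ} {b : G → V'}
    (hb : Cts ρ l fun g => f (b g)) : Cts ρ' l b := by
  intro v hv
  obtain ⟨W, h1, h2, h3, h4⟩ := hb (f v) fun e => hv (hf (by rw [e, map_zero]))
  refine ⟨W.comap f.toAddMonoidHom, h1, fun g w hw => ?_, fun w hw => h3 _ ?_, h4⟩
  · show f (ρ' g w) ∈ W
    rw [h]; exact h2 g _ hw
  · rw [← map_nsmul]; exact hw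

end ring

variable {G F : Type} [Group G] [Field F]

/-- trace zero matrices -/
abbrev sl (F : Type) [Field F] : Submodule F (M2 F) := LinearMap.ker (Matrix.traceLinearMap _ F F)

theorem finrank_sl : Module.finrank F (sl F) = 3 := by
  have h1 := LinearMap.finrank_range_add_finrank_ker (Matrix.traceLinearMap (Fin 2) F F)
  have h2 : LinearMap.range (Matrix.traceLinearMap (Fin 2) F F) = ⊤ :=
    LinearMap.range_eq_top.2 fun a => ⟨!![a, 0; 0, 0], by simp [Matrix.trace_fin_two]⟩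
  rw [h2, finrank_top, Module.finrank_self, Module.finrank_matrix] at h1
  simp only [Fintype.card_fin, Module.finrank_self] at h1
  show Module.finrank F (LinearMap.ker (Matrix.traceLinearMap (Fin 2) F F)) = 3
  omega

/-- the adjoint action on the trace zero matrices -/
def a0 (r : G →* M2 F) : G →* Module.End F (sl F) where
  toFun g := (ad r g).restrict fun v hv => (ad_trace r g v).trans hv
  map_one' := LinearMap.ext fun v => Subtype.ext (by simp)
  map_mul' x y := LinearMap.ext fun v => Subtype.ext (act_mul (ρ := ad r) x y v.1)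

theorem a0_val (r : G →* M2 F) (g : G) (X : sl F) : (a0 r g X).1 = ad r g X := rfl

theorem fin_a0 (r : G →* M2 F) {I : Subgroup G} (h : (r '' I).Finite) :
    Finite (I.map (a0 r).toHomUnits) := by
  have := h.to_subtype
  have hex : ∀ γ : I.map (a0 r).toHomUnits, ∃ s ∈ I, (a0 r).toHomUnits s = γ := fun γ => γ.2
  choose σ hσ hσ' using hex
  refine Finite.of_injective (β := (r '' I) × (r '' I))
    (fun γ => (⟨r (σ γ), _, hσ γ, rfl⟩, ⟨r (σ γ)⁻¹, _, I.inv_mem (hσ γ), rfl⟩)) fun γ δ e => ?_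
  have e1 : r (σ γ) = r (σ δ) := congrArg (fun z => z.1.1) e
  have e2 : r (σ γ)⁻¹ = r (σ δ)⁻¹ := congrArg (fun z => z.2.1) e
  refine Subtype.ext ?_
  rw [← hσ', ← hσ']
  refine Units.ext (LinearMap.ext fun X => Subtype.ext ?_)
  show ad r (σ γ) X = ad r (σ δ) X
  rw [ad_apply, ad_apply, e1, e2]

theorem card_a0 (r : G →* M2 F) {I : Subgroup G} [Finite (I.map (a0 r).toHomUnits)]
    (h : ∀ s ∈ I, ∃ n : ℕ, (n : F) ≠ 0 ∧ r s ^ n = 1) :
    IsUnit (Nat.card (I.map (a0 r).toHomUnits) : F) := by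
  refine IsUnit.mk0 _ (card_ne ?_)
  rintro ⟨_, s, hs, rfl⟩
  obtain ⟨n, hn, e⟩ := h s hs
  refine ⟨n, hn, Subtype.ext (Units.ext ?_)⟩
  show a0 r s ^ n = 1
  rw [← map_pow]
  refine LinearMap.ext fun X => Subtype.ext ((ad_fix r _ X X).2 ?_)
  rw [map_pow, e, one_mul, mul_one]

theorem tr_nd (h2 : (2 : F) ≠ 0) {M : M2 F} (hM : M.trace = 0)
    (h : ∀ X : sl F, (M * X.1).trace = 0) : M = 0 := by
  have e1 := h ⟨!![1, 0; 0, -1], by simp [Matrix.trace_fin_two]⟩
  have e2 := h ⟨!![0, 1; 0, 0], by simp [Matrix.trace_fin_two]⟩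
  have e3 := h ⟨!![0, 0; 1, 0], by simp [Matrix.trace_fin_two]⟩
  simp [Matrix.trace_fin_two, Matrix.mul_apply, Fin.sum_univ_two] at e1 e2 e3 hM
  have e4 : M 0 0 = 0 := (mul_eq_zero.1 (by linear_combination e1 + hM : 2 * M 0 0 = 0)).resolve_left h2
  refine Matrix.ext fun i j => ?_
  fin_cases i <;> fin_cases j <;> simp [e2, e3, e4]
  linear_combination hM - e4

theorem tr_rep (h2 : (2 : F) ≠ 0) (μ : sl F →ₗ[F] F) :
    ∃ N : sl F, ∀ X : sl F, μ X = (N.1 * X.1).trace := by
  let h : sl F := ⟨!![1, 0; 0, -1], by simp [Matrix.trace_fin_two]⟩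
  let e : sl F := ⟨!![0, 1; 0, 0], by simp [Matrix.trace_fin_two]⟩
  let f : sl F := ⟨!![0, 0; 1, 0], by simp [Matrix.trace_fin_two]⟩
  refine ⟨⟨!![μ h / 2, μ f; μ e, -(μ h / 2)], by simp [Matrix.trace_fin_two]⟩, fun X => ?_⟩
  have ht : X.1 0 0 + X.1 1 1 = 0 := by
    have := X.2
    rwa [LinearMap.mem_ker, Matrix.traceLinearMap_apply, Matrix.trace_fin_two] at this
  have hX : X = X.1 0 0 • h + X.1 0 1 • e + X.1 1 0 • f := Subtype.ext (Matrix.ext fun i j => by
    fin_cases i <;> fin_cases j <;> simp [h, e, f]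
    linear_combination ht)
  conv_lhs => rw [hX]
  simp only [map_add, map_smul, smul_eq_mul, Matrix.trace_fin_two, Matrix.mul_apply,
    Fin.sum_univ_two]
  simp
  field_simp
  linear_combination μ h * ht

theorem tr_ad (r : G →* M2 F) (g : G) (N X : M2 F) :
    (N * ad r g X).trace = (ad r g⁻¹ N * X).trace := by
  rw [ad_apply, ad_apply, inv_inv, ← mul_assoc, Matrix.trace_mul_comm]
  simp only [mul_assoc]

variable [TopologicalSpace G] {l : ℕ} {I W : Subgroup G} {τ φ : G}

theorem h2_of (T : Wd l I W τ φ) {r : G →* M2 F} (h2 : (2 : F) ≠ 0)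
    (hc : ∀ N : M2 F, Cts (ad r) l fun g => N - ad r g N)
    (h : ∀ N : M2 F, N.trace = 0 → (∀ s ∈ I, r s * N = N * r s) →
      (l : F) • (r φ * N) = N * r φ → N = 0) : H2 (a0 r) l W τ φ := by
  intro μ h3 h4 h5
  obtain ⟨N, hN⟩ := tr_rep h2 μ
  have key : ∀ (g : G) (a : F), (∀ v, μ (a0 r g v) = a * μ v) → ad r g⁻¹ N = a • N.1 := by
    intro g a hg
    refine sub_eq_zero.1 (tr_nd h2 ?_ fun X => ?_)
    · have : N.1.trace = 0 := N.2
      rw [Matrix.trace_sub, ad_trace, Matrix.trace_smul, this, smul_zero, sub_self]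
    · have := hg X
      rw [hN, hN, a0_val, tr_ad] at this
      rw [sub_mul, Matrix.trace_sub, this, smul_mul_assoc, Matrix.trace_smul, smul_eq_mul, sub_self]
  have fix : ∀ g, (∀ v, μ (a0 r g v) = μ v) → N.1 - ad r g N = 0 := fun g hg => by
    have e := key g 1 fun v => by rw [one_mul, hg]
    rw [one_smul] at e
    have e' := congrArg (ad r g) e
    rw [← act_mul, mul_inv_cancel, map_one] at e'
    exact sub_eq_zero.2 e'
  have hcoc : Coc (ad r) fun g => N.1 - ad r g N := by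
    intro x y
    simp only [act_mul, map_sub]
    abel
  have hI := zero_I T hcoc (hc N) (fun w hw => fix w (h3 w hw)) (fix τ h4)
  have h0 : N.1 = 0 := h N N.2 (fun s hs => (ad_fix r s _ _).1 (sub_eq_zero.1 (hI s hs)).symm) (by
    have e := (ad_fix r _ _ _).1 (key φ l h5)
    have e' := congrArg (fun Y => r φ * Y * r φ) e
    simp only [← mul_assoc, r_inv, one_mul] at e'
    rw [mul_assoc _ (r φ⁻¹), inv_r, mul_one, mul_smul_comm] at e'
    exact e'.symm)
  exact LinearMap.ext fun X => by rw [hN, h0, zero_mul, Matrix.trace_zero]; rfl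

/-- **the rank bound for first order deformations**, for any notion of continuity implying
`Cts` -/
theorem rank_mat (T : Wd l I W τ φ) {r : G →* M2 F} (hf : (r '' W).Finite)
    (ho : ∀ w ∈ W, ∃ n : ℕ, (n : F) ≠ 0 ∧ r w ^ n = 1) {Z : Type} [AddCommGroup Z] [Module F Z]
    (γ : Z →ₗ[F] (G → M2 F)) (hγ : Function.Injective γ)
    (hZ : ∀ z, (∀ x, pd (r x) (γ z x) = 0) ∧ (∀ x y, γ z (x * y) = γ z x * r y + r x * γ z y) ∧
      Cts (ad r) l fun x => γ z x * r x⁻¹) :
    Module.rank F Z ≤ (6 : ℕ) ∧ (H2 (a0 r) l W τ φ → Module.rank F Z ≤ (3 : ℕ)) := by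
  have := fin_a0 r hf
  let β : Z →ₗ[F] (G → sl F) := LinearMap.pi fun x =>
    ((LinearMap.mulRight F (r x⁻¹)).comp ((LinearMap.proj x).comp γ)).codRestrict (sl F)
      fun z => trace_of ((hZ z).1 x)
  have hβ : Function.Injective β := by
    intro z z' e
    refine hγ (funext fun x => ?_)
    have e1 : γ z x * r x⁻¹ = γ z' x * r x⁻¹ := congrArg Subtype.val (congrFun e x)
    rw [← mul_one (γ z x), ← mul_one (γ z' x), ← inv_r r x, ← mul_assoc, e1, mul_assoc]
  have h := rank_le T (a0 r) (card_a0 r ho) β hβ fun z =>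
    ⟨fun x y => Subtype.ext (coc_of (hZ z).2.1 x y),
      Cts.comap (sl F).subtype (sl F).injective_subtype (fun _ _ => rfl) (hZ z).2.2⟩
  rwa [finrank_sl] at h

/-- locally constant deformations are continuous -/
theorem cts_lc {r : G →* M2 F} (hl : (l : F) ≠ 0) {c : G → M2 F} (h : IsLocallyConstant c) :
    Cts (ad r) l fun x => c x * r x⁻¹ := by
  intro v hv
  refine ⟨⊥, by simpa using hv, fun g w hw => by simp [AddSubgroup.mem_bot.1 hw],
    fun w hw => ?_, ?_⟩
  · rw [AddSubgroup.mem_bot] at hw ⊢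
    rw [← Nat.cast_smul_eq_nsmul F] at hw
    exact (smul_eq_zero.1 hw).resolve_left hl
  · convert h {0} using 1
    ext g
    simp only [AddSubgroup.mem_bot, Set.mem_setOf_eq, Set.mem_preimage, Set.mem_singleton_iff]
    exact ⟨fun e => by rw [← mul_one (c g), ← inv_r r g, ← mul_assoc, e, zero_mul],
      fun e => by rw [e, zero_mul]⟩

/-- the space of first order deformations -/
def ZS (r : G →* M2 F) : Submodule F (G → M2 F) where
  carrier := {c | Z1 r c}
  add_mem' {a b} ha hb := ⟨ha.lc.comp₂ hb.lc (· + ·), fun x y => by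
    simp only [Pi.add_apply, ha.mul, hb.mul, add_mul, mul_add]; abel, fun x => by
    have h1 := ha.det x
    have h2 := hb.det x
    simp only [pd, Pi.add_apply, Matrix.add_apply] at h1 h2 ⊢
    linear_combination h1 + h2⟩
  zero_mem' := ⟨IsLocallyConstant.const 0, fun x y => by simp, fun x => by simp [pd]⟩
  smul_mem' t a ha := ⟨ha.lc.comp (t • ·), fun x y => by
    simp only [Pi.smul_apply, ha.mul, smul_add, smul_mul_assoc, mul_smul_comm], fun x => by
    have h1 := ha.det x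
    simp only [pd, Pi.smul_apply, Matrix.smul_apply, smul_eq_mul] at h1 ⊢
    linear_combination t * h1⟩

/-- entries determining the elements of a space of matrix valued functions -/
theorem pick_ent (k : ℕ) (Z : Submodule F (G → M2 F)) (hZ : Module.rank F Z ≤ k) :
    ∃ (g : Fin k → G) (p q : Fin k → Fin 2), ∀ c ∈ Z, (∀ t, c (g t) (p t) (q t) = 0) → c = 0 := by
  let φ : G × Fin 2 × Fin 2 → (G → M2 F) →ₗ[F] F := fun i =>
    { toFun := fun c => c i.1 i.2.1 i.2.2
      map_add' := fun _ _ => rfl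
      map_smul' := fun _ _ => rfl }
  obtain ⟨t, ht⟩ := pick φ k Z hZ fun c _ h => funext fun x => Matrix.ext fun i j => h (x, i, j)
  exact ⟨fun j => (t j).1, fun j => (t j).2.1, fun j => (t j).2.2, ht⟩

/-- a bound for the dimension gives coordinates -/
theorem tn_of_rank {r : G →* M2 F} (k : ℕ) (h : Module.rank F (ZS r) ≤ k) :
    ∃ (g : Fin k → G) (p q : Fin k → Fin 2), TnG r g p q := by
  obtain ⟨g, p, q, H⟩ := pick_ent k (ZS r) h
  exact ⟨g, p, q, fun c hc h0 x => congrFun (H c hc h0) x⟩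

theorem cts_cob {r : G →* M2 F} (hl : (l : F) ≠ 0) (hr : IsLocallyConstant r) (N : M2 F) :
    Cts (ad r) l fun g => N - ad r g N := by
  have := cts_lc (r := r) hl (hr.comp fun Y => N * Y - Y * N)
  convert this using 2 with g
  simp only [Function.comp, sub_mul, mul_assoc, r_inv, mul_one, ad_apply]

theorem rank_zs [Finite F] (T : Wd l I W τ φ) {r : G →* M2 F} (hl : (l : F) ≠ 0)
    (hr : IsLocallyConstant r) :
    Module.rank F (ZS r) ≤ (6 : ℕ) ∧ (H2 (a0 r) l W τ φ → Module.rank F (ZS r) ≤ (3 : ℕ)) := by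
  refine rank_mat T (Set.toFinite _) (fun w hw => ?_) (ZS r).subtype (ZS r).injective_subtype
    fun c => ⟨c.2.det, c.2.mul, cts_lc hl c.2.lc⟩
  obtain ⟨n, hn⟩ := T.wild r.toHomUnits.ker (by
    convert hr {1} using 1
    ext g
    simp [Units.ext_iff]) w hw
  refine ⟨l ^ n, by exact_mod_cast pow_ne_zero n hl, ?_⟩
  rw [← map_pow]
  exact congrArg Units.val hn

end Vale.Agent.P022K.RT.Zl

namespace Vale.Agent.P022K.RT

open Zl

/-- row Z1L -/
theorem z1l : Z1L := by
  intro F _ _ l P r h hl hr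
  obtain ⟨τ, T⟩ := wd h
  refine ⟨?_, fun h2 ⟨φ, hφ, hN⟩ => ?_⟩
  · obtain ⟨φ, hφ⟩ := ex_phi h
    exact ⟨6, tn_of_rank 6 (rank_zs (T φ hφ) hl hr).1⟩
  · exact tn_of_rank 3 ((rank_zs (T φ hφ) hl hr).2 (h2_of (T φ hφ) h2 (cts_cob hl hr)
      fun N h1 h3 h4 => hN N h1 (fun i hi => h3 i hi) h4))

end Vale.Agent.P022K.RT
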