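import Vale.Agent.P022K.RT.Sys1
import Vale.Agent.P022K.RT.Lu
import Vale.Agent.P022K.RT.Z1b
import Vale.Agent.P022K.RT.Lp3
import Vale.Agent.P022K.RT.Tr

/-!
# P022K, block RT: row SYS
-/

namespace Vale.Agent.P022K.RT

theorem sys : SYS := sys_of lu z1l lpo lp2

end Vale.Agent.P022K.RT
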