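import Vale.Agent.P022K.RT.Geo
import Vale.Agent.P022D.CA.Dep
import Vale.Agent.P022D.PA.Etl
import Vale.Agent.P022K.Fin.Res

/-!
# P022K, block RT: chains of primes avoiding an element, saturated sums, dimensions of sums
-/

set_option linter.all false

noncomputable section

namespace Vale.Agent.P022K.RT.Geo

open IsLocalRing MvPowerSeries
open Vale.Agent.P022D.PA (Base Cv)
open Vale.Agent.P022D.CA.Cpl (JI)
open Vale.Agent.P022D.Core (PS)
open Vale.Agent.P022D.CA (emb dimGE_mono dimGE_prime dimGE_succ dimGE_sup dimGE_ofList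
  dim_le_of_not)

section chain
variable {R : Type} [CommRing R] [IsLocalRing R] [IsNoetherianRing R]

theorem not_one_le {P : Ideal R} (h : maximalIdeal R ≤ P) :
    ¬ ((1 : ℕ) : WithBot ℕ∞) ≤ ringKrullDim (R ⧸ P) := fun h1 => by
  have h2 := dimGE_mono h h1
  letI := Ideal.Quotient.field (maximalIdeal R)
  rw [ringKrullDim_eq_zero_of_field] at h2
  exact absurd h2 (by norm_num)

/-- one step in a chain of primes which avoid `a` -/
theorem step {P : Ideal R} (hP : P.IsPrime) {a : R} (ha : a ∈ maximalIdeal R) (hn : a ∉ P) {k : ℕ}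
    (hk : ((k + 2 : ℕ) : WithBot ℕ∞) ≤ ringKrullDim (R ⧸ P)) :
    ∃ P' : Ideal R, P'.IsPrime ∧ P < P' ∧ a ∉ P' ∧
      ((k + 1 : ℕ) : WithBot ℕ∞) ≤ ringKrullDim (R ⧸ P') := by
  have h1 : ¬ ((maximalIdeal R : Set R) ⊆
      ⋃ M ∈ (P ⊔ Ideal.span {a}).minimalPrimes, (id M : Ideal R)) := fun h => by
    obtain ⟨M, hM, h2⟩ := (Ideal.subset_union_prime_finite
      (Ideal.finite_minimalPrimes_of_isNoetherianRing R _) (f := id) ⊥ ⊥
      (fun M hM _ _ => hM.isPrime)).1 h
    obtain ⟨Q, q1, q2, q3⟩ := dimGE_prime (dimGE_sup ha hk)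
    refine not_one_le (h2.trans (hM.2 ⟨q1, q2⟩ ((le_maximalIdeal q1.ne_top).trans h2))) ?_
    exact le_trans (by exact_mod_cast Nat.le_add_left 1 k) q3
  obtain ⟨y, hy, hy'⟩ := Set.not_subset.1 h1
  have hy2 : ∀ M ∈ (P ⊔ Ideal.span {a}).minimalPrimes, y ∉ M := fun M hM h =>
    hy' (Set.mem_biUnion hM h)
  obtain ⟨Q, q1, q2, q3⟩ := dimGE_prime (dimGE_sup hy hk)
  obtain ⟨P', p1, p2⟩ := Ideal.exists_minimalPrimes_le q2
  have yP : y ∈ P' := p1.le (Ideal.mem_sup_right (Ideal.mem_span_singleton_self y))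
  have pP : P ≤ P' := le_sup_left.trans p1.le
  have _ := p1.isPrime
  have an : a ∉ P' := fun h => by
    obtain ⟨M, m1, m2⟩ := Ideal.exists_minimalPrimes_le (I := P ⊔ Ideal.span {a}) (J := P')
      (sup_le pP ((Ideal.span_singleton_le_iff_mem _).2 h))
    have _ := m1.isPrime
    have pM : P ≤ M := le_sup_left.trans m1.le
    have aM : a ∈ M := m1.le (Ideal.mem_sup_right (Ideal.mem_span_singleton_self a))
    have i1 := Ideal.isPrime_map_quotientMk_of_isPrime pM
    have i2 := Ideal.isPrime_map_quotientMk_of_isPrime pP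
    have l1 : (⊥ : Ideal (R ⧸ P)) < M.map (Ideal.Quotient.mk P) :=
      bot_lt_iff_ne_bot.2 fun e => hn (Ideal.Quotient.eq_zero_iff_mem.1
        (Ideal.mem_bot.1 (e ▸ Ideal.mem_map_of_mem _ aM)))
    have l2 : M.map (Ideal.Quotient.mk P) < P'.map (Ideal.Quotient.mk P) :=
      lt_of_le_of_ne (Ideal.map_mono m2) fun e => hy2 M m1 (by
        have := e ▸ Ideal.mem_map_of_mem (Ideal.Quotient.mk P) yP
        rwa [Ideal.mem_quotient_iff_mem pM] at this)
    have h3 := Ideal.map_height_le_one_of_mem_minimalPrimes p1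
    have h4 := Ideal.height_add_one_le_of_lt_of_isPrime l1
    have h5 := Ideal.height_add_one_le_of_lt_of_isPrime l2
    have h6 : (1 : ℕ∞) + 1 ≤ 1 := le_trans (add_le_add_left (le_add_self.trans h4) 1) (h5.trans h3)
    exact absurd h6 (by norm_num)
  refine ⟨P', p1.isPrime, lt_of_le_of_ne pP fun e => ?_, an, dimGE_mono p2 q3⟩
  obtain ⟨M, m1, -⟩ := Ideal.exists_minimalPrimes_le (I := P ⊔ Ideal.span {a})
    (J := maximalIdeal R) (sup_le (le_maximalIdeal hP.ne_top)
      ((Ideal.span_singleton_le_iff_mem _).2 ha))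
  exact hy2 M m1 ((le_sup_left.trans m1.le : P ≤ M) (e ▸ yP))

/-- a prime of dimension at most one which avoids `a` -/
theorem exists_pt {P : Ideal R} (hP : P.IsPrime) {a : R} (ha : a ∈ maximalIdeal R) (hn : a ∉ P) :
    ∃ P' : Ideal R, P'.IsPrime ∧ P ≤ P' ∧ a ∉ P' ∧
      ∀ Q : Ideal R, Q.IsPrime → P' < Q → maximalIdeal R ≤ Q := by
  obtain ⟨P', ⟨p1, p2, p3⟩, hm⟩ := set_has_maximal_iff_noetherian.2
    (inferInstance : IsNoetherianRing R) {Q : Ideal R | Q.IsPrime ∧ P ≤ Q ∧ a ∉ Q}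
    ⟨P, hP, le_rfl, hn⟩
  refine ⟨P', p1, p2, p3, fun Q q1 q2 => by_contra fun h => ?_⟩
  have _ : Nontrivial (R ⧸ maximalIdeal R) :=
    Ideal.Quotient.nontrivial_iff.2 (maximalIdeal.isMaximal R).ne_top
  have h1 := dimGE_succ p1 q2 (dimGE_succ (k := 0) q1
    (lt_of_le_of_ne (le_maximalIdeal q1.ne_top) fun e => h e.ge)
    (by exact_mod_cast ringKrullDim_nonneg_of_nontrivial))
  obtain ⟨P₂, a1, a2, a3, -⟩ := step (k := 0) p1 ha p3 h1
  exact hm P₂ ⟨a1, p2.trans a2.le, a3⟩ a2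

/-- an upper bound by parameters -/
theorem dim_le_card {I : Ideal R} (s : Finset R) (hs : ∀ x ∈ s, x ∈ maximalIdeal R) {n : ℕ}
    (hn : s.card ≤ n)
    (h : ∀ P : Ideal R, P.IsPrime → I ≤ P → (∀ x ∈ s, x ∈ P) → maximalIdeal R ≤ P) :
    ringKrullDim (R ⧸ I) ≤ n := by
  refine dim_le_of_not fun h1 => ?_
  obtain ⟨P, p1, p2, p3⟩ := dimGE_prime (dimGE_ofList s.toList (I := I) (k := 1)
    (fun f hf => hs f (Finset.mem_toList.1 hf))
    (le_trans (by rw [Finset.length_toList]; exact_mod_cast (by omega)) h1))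
  exact not_one_le (h P p1 (le_sup_left.trans p2) fun x hx =>
    p2 (Ideal.mem_sup_right (Ideal.subset_span (Finset.mem_toList.2 hx)))) p3

theorem max_le {σ : Type} [Fintype σ] {P : Ideal (MvPowerSeries σ R)}
    (h1 : ∀ a ∈ maximalIdeal R, C a ∈ P) (h2 : ∀ s, X s ∈ P) :
    maximalIdeal (MvPowerSeries σ R) ≤ P := fun f hf => by
  obtain ⟨g, hg, -⟩ := P022D.CA.Cpl.exists_decompV (f - C (constantCoeff f)) (by simp)
  rw [← sub_add_cancel f (C (constantCoeff f)), hg]
  exact P.add_mem (P.sum_mem fun s _ => P.mul_mem_right _ (h2 s))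
    (h1 _ ((P022D.CA.Cpl.mem_max_iff f).1 hf))

end chain

theorem dim_comap {P Q : Type} [CommRing P] [CommRing Q] (E : P ≃+* Q) (I : Ideal Q) :
    ringKrullDim (P ⧸ I.comap E) = ringKrullDim (Q ⧸ I) :=
  ringKrullDim_eq_of_ringEquiv (Ideal.quotientEquiv _ _ E
    (Ideal.map_comap_of_surjective (E : P →+* Q) E.surjective I).symm)

theorem coeff_mem {σ A : Type} [CommRing A] {𝔞 : Ideal A} {F : MvPowerSeries σ A}
    (h : F ∈ 𝔞.map (C : A →+* MvPowerSeries σ A)) (m : σ →₀ ℕ) : coeff m F ∈ 𝔞 := by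
  have h1 : 𝔞.map (C : A →+* MvPowerSeries σ A) ≤ RingHom.ker (map (Ideal.Quotient.mk 𝔞)) :=
    Ideal.map_le_iff_le_comap.2 fun a ha => by
      rw [Ideal.mem_comap, RingHom.mem_ker, map_C, Ideal.Quotient.eq_zero_iff_mem.2 ha, map_zero]
  have h2 := congrArg (coeff m) (RingHom.mem_ker.1 (h1 h))
  rwa [coeff_map, map_zero, Ideal.Quotient.eq_zero_iff_mem] at h2

section it
variable {O τ ζ : Type} [CommRing O] [IsDomain O] [IsDiscreteValuationRing O]

/-- a lower bound for the dimension, iterated form -/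
theorem low_it [PL.Cf O] {A : Type} [CommRing A] [Algebra O A] [Base A] [Fintype τ] [Finite ζ]
    (hl : ∀ o ∈ maximalIdeal O, algebraMap O A o ∈ maximalIdeal A)
    (θ : A →ₐ[O] MvPowerSeries ζ O) {k : ℕ}
    (hk : ((k + 1 : ℕ) : WithBot ℕ∞) ≤ ringKrullDim (A ⧸ RingHom.ker θ)) (k₀ : ℕ) :
    ∀ J : Ideal (PS O τ), Gd J → ((k₀ + 1 : ℕ) : WithBot ℕ∞) ≤ ringKrullDim (PS O τ ⧸ J) →
      ((k₀ + k + 1 : ℕ) : WithBot ℕ∞) ≤ ringKrullDim (MvPowerSeries τ A ⧸ RingHom.ker (Th J θ)) := by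
  classical
  obtain ⟨ϖ, hϖ⟩ := IsDiscreteValuationRing.exists_irreducible O
  have hm : (C ϖ : PS O τ) ∈ maximalIdeal _ := by
    rw [P022D.CA.Cpl.mem_max_iff, constantCoeff_C]; exact hϖ.not_isUnit
  have pr : ∀ J : Ideal (PS O τ), J.IsPrime → (RingHom.ker (Th J θ)).IsPrime := fun J _ => by
    have _ : IsDomain (MvPowerSeries ζ (MvPowerSeries τ O ⧸ J)) := NoZeroDivisors.to_isDomain _
    exact RingHom.ker_isPrime _
  have mono : ∀ J J' : Ideal (PS O τ), J ≤ J' → RingHom.ker (Th J θ) ≤ RingHom.ker (Th J' θ) :=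
    fun J J' h x hx => (Th_zero J' θ x).2 fun n => h ((Th_zero J θ x).1 hx n)
  have cm : ∀ (J : Ideal (PS O τ)) p, map (algebraMap O A) p ∈ RingHom.ker (Th J θ) ↔ p ∈ J :=
    fun J p => ⟨fun h => by
      have := (Th_zero J θ _).1 h 0
      rwa [lam_map, show cf θ 0 1 = 1 by simp [cf], map_one, mul_one] at this,
      fun h => le_ker J θ (Ideal.mem_sup_left (Ideal.mem_map_of_mem _ h))⟩
  induction k₀ with
  | succ k₀ ih =>
    intro J hJ h
    obtain ⟨P, p1, p2, p3, p4⟩ := step hJ.1 hm (hJ.2 ϖ hϖ.ne_zero) h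
    obtain ⟨y, y1, y2⟩ := SetLike.exists_of_lt p2
    have := dimGE_succ (pr J hJ.1) (lt_of_le_of_ne (mono J P p2.le) fun e =>
      y2 ((cm J y).1 (e ▸ (cm P y).2 y1))) (ih P (gd_of p1 hϖ p3) p4)
    rwa [show k₀ + k + 1 + 1 = k₀ + 1 + k + 1 by ring] at this
  | zero =>
    intro J hJ _
    obtain ⟨P, p1, p2, p3, p4⟩ := exists_pt hJ.1 hm (hJ.2 ϖ hϖ.ne_zero)
    refine dimGE_mono (mono J P p2) ?_
    rw [zero_add]
    set I := RingHom.ker (Th P θ) with hI
    have iP := pr P p1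
    have e1 : I.comap (algebraMap A (MvPowerSeries τ A)) = RingHom.ker θ := by
      refine le_antisymm (fun a ha => ?_) fun a ha =>
        le_ker P θ (Ideal.mem_sup_right (Ideal.mem_map_of_mem _ ha))
      rw [RingHom.mem_ker]
      ext n
      have h1 := (Th_zero P θ _).1 ha n
      have h2 : lam (cf θ n) (algebraMap A (MvPowerSeries τ A) a) = C (coeff n (θ a)) := by
        ext m
        rw [coeff_lam]
        change cf θ n (coeff m (C a)) = _
        rw [coeff_C, coeff_C]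
        split_ifs
        · rfl
        · exact map_zero _
      rw [h2] at h1
      exact by_contra fun c => (gd_of p1 hϖ p3).2 _ c h1
    have _ : Nontrivial (MvPowerSeries τ A ⧸ I) := Ideal.Quotient.nontrivial_iff.2 iP.ne_top
    have _ : IsLocalRing (MvPowerSeries τ A ⧸ I) :=
      IsLocalRing.of_surjective' (Ideal.Quotient.mk I) Ideal.Quotient.mk_surjective
    have lm : ∀ x ∈ maximalIdeal (MvPowerSeries τ A),
        Ideal.Quotient.mk I x ∈ maximalIdeal (MvPowerSeries τ A ⧸ I) := fun x hx h =>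
      hx (((IsLocalHom.of_surjective (Ideal.Quotient.mk I)
        Ideal.Quotient.mk_surjective).map_nonunit x) h)
    have _ := (inferInstance : Base A).cpl
    have _ : Module.Finite A
        ((MvPowerSeries τ A ⧸ I) ⧸ maximalIdeal (MvPowerSeries τ A ⧸ I)) := by
      refine Module.Finite.of_surjective (Algebra.linearMap A _) fun z => ?_
      obtain ⟨z, rfl⟩ := Ideal.Quotient.mk_surjective z
      obtain ⟨z, rfl⟩ := Ideal.Quotient.mk_surjective z
      refine ⟨constantCoeff z, Ideal.Quotient.eq.2 ?_⟩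
      refine lm (C (constantCoeff z) - z) ?_
      rw [P022D.CA.Cpl.mem_max_iff]
      simp
    have _ : Module.Finite A (MvPowerSeries τ A ⧸ I) := by
      refine FinR.fin_of_prime (Ideal.map_le_iff_le_comap.2 fun a ha => lm (C a) ?_)
        fun p hp h z hz => ?_
      · rwa [P022D.CA.Cpl.mem_max_iff, constantCoeff_C]
      obtain ⟨z, rfl⟩ := Ideal.Quotient.mk_surjective z
      let p' := p.comap (Ideal.Quotient.mk I)
      have c1 : ∀ a ∈ maximalIdeal A, C a ∈ p' := fun a ha => h (Ideal.mem_map_of_mem _ ha)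
      have c2 : maximalIdeal (PS O τ) ≤ p'.comap (map (algebraMap O A)) := by
        refine p4 _ inferInstance (lt_of_le_of_ne (fun y hy => ?_) fun e => p3 (e ▸ ?_))
        · change Ideal.Quotient.mk I _ ∈ p
          rw [Ideal.Quotient.eq_zero_iff_mem.2 ((cm P y).2 hy)]
          exact p.zero_mem
        · rw [Ideal.mem_comap, map_C]
          exact c1 _ (hl ϖ hϖ.not_isUnit)
      refine max_le (P := p') c1 (fun s => ?_) fun hu => hz (hu.map _)
      have := c2 (show (X s : PS O τ) ∈ maximalIdeal _ by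
        rw [P022D.CA.Cpl.mem_max_iff, constantCoeff_X]; exact zero_mem _)
      rwa [Ideal.mem_comap, map_X] at this
    have _ : IsScalarTower A (A ⧸ I.comap (algebraMap A (MvPowerSeries τ A)))
        (MvPowerSeries τ A ⧸ I) := IsScalarTower.of_algebraMap_eq fun _ => rfl
    have _ : Algebra.IsIntegral (A ⧸ I.comap (algebraMap A (MvPowerSeries τ A)))
        (MvPowerSeries τ A ⧸ I) := Algebra.IsIntegral.tower_top A
    rw [P022D.PA.EtlP.dim_eq (A := A ⧸ I.comap (algebraMap A (MvPowerSeries τ A)))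
      Ideal.quotientMap_injective, e1]
    exact hk

/-- coordinates modulo the uniformiser -/
theorem coordsK [Fintype ζ] {ϖ : O} (hϖ : Irreducible ϖ) (K : Ideal (PS O ζ)) (N : ℕ) :
    ∃ (r : ℕ) (L : Fin r → PS O ζ →ₗ[O] O) (u : Fin r → PS O ζ), (∀ i, u i ∈ K) ∧
      (∀ i, ∃ (S : Finset (ζ →₀ ℕ)) (μ : (ζ →₀ ℕ) → O), ∀ y, L i y = ∑ s ∈ S, μ s * coeff s y) ∧
      ∀ y ∈ K, y - ∑ i, L i y • u i ∈ Ideal.span {C ϖ} ⊔ maximalIdeal (PS O ζ) ^ N := by
  classical
  let S := (Finsupp.finite_of_degree_lt (σ := ζ) N).toFinset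
  let T : K.restrictScalars O →ₗ[O] (S → O) :=
    LinearMap.pi fun s : S => (coeff s.1).comp (K.restrictScalars O).subtype
  obtain ⟨r, snf⟩ := (LinearMap.range T).smithNormalForm (Pi.basisFun O S)
  choose u hu using fun i => (snf.bN i).2
  let co : PS O ζ →ₗ[O] (S → O) := LinearMap.pi fun s : S => coeff s.1
  let L : Fin r → PS O ζ →ₗ[O] O := fun i =>
    Ring.inverse (snf.a i) • (snf.bM.coord (snf.f i)).comp co
  refine ⟨r, L, fun i => u i, fun i => (u i).2, fun i => ⟨S, fun s =>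
    if h : s ∈ S then Ring.inverse (snf.a i) * snf.bM.coord (snf.f i) (Pi.single ⟨s, h⟩ 1) else 0,
    fun y => ?_⟩, fun y hy => ?_⟩
  · have h1 : co y = ∑ s, co y s • Pi.single s (1 : O) := by
      ext t
      simp [Finset.sum_apply, Pi.single_apply]
    change Ring.inverse (snf.a i) * snf.bM.coord (snf.f i) (co y) = _
    rw [h1, map_sum, Finset.mul_sum, ← Finset.sum_coe_sort S]
    refine Finset.sum_congr rfl fun s _ => ?_
    beta_reduce
    rw [dif_pos s.2, map_smul, smul_eq_mul]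
    change _ * (coeff s.1 y * _) = _
    ring
  · have h0 : ∀ s : S, ϖ ∣ coeff s.1 (y - ∑ i, L i y • (u i).1) := fun s => by
      have h := congrFun (congrArg Subtype.val (snf.bN.sum_repr (T.rangeRestrict ⟨y, hy⟩))) s
      rw [Submodule.coe_sum, Finset.sum_apply] at h
      change _ = coeff s.1 y at h
      rw [map_sub, map_sum, ← h, ← Finset.sum_sub_distrib]
      refine Finset.dvd_sum fun i _ => ?_
      have h2 : coeff s.1 (u i).1 = (snf.bN i).1 s := congrFun (hu i) s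
      have h3 : snf.bM.coord (snf.f i) (co y) =
          snf.a i * snf.bN.repr (T.rangeRestrict ⟨y, hy⟩) i :=
        LinearMap.congr_fun (snf.coord_apply_embedding_eq_smul_coord (i := i))
          (T.rangeRestrict ⟨y, hy⟩)
      have h4 : L i y = Ring.inverse (snf.a i) * snf.bM.coord (snf.f i) (co y) := rfl
      rw [map_smul, h2, h4, h3, Submodule.coe_smul, Pi.smul_apply, smul_eq_mul, smul_eq_mul]
      by_cases hu : IsUnit (snf.a i)
      · rw [← mul_assoc (Ring.inverse _), Ring.inverse_mul_cancel _ hu, one_mul, sub_self]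
        exact dvd_zero _
      · have h5 : ϖ ∣ snf.a i := by
          rw [← Ideal.mem_span_singleton, ← hϖ.maximalIdeal_eq]; exact hu
        rw [snf.snf i, Pi.smul_apply, smul_eq_mul, ← sub_mul]
        exact (h5.mul_right _).mul_left _
    choose c hc using h0
    set f := y - ∑ i, L i y • (u i).1
    let g : PS O ζ := fun s => if h : s ∈ S then c ⟨s, h⟩ else 0
    rw [← add_sub_cancel (C ϖ * g) f]
    refine Ideal.add_mem _ (Ideal.mem_sup_left (Ideal.mul_mem_right _ _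
      (Ideal.mem_span_singleton_self _))) (Ideal.mem_sup_right
        (P022D.CA.Cpl.JI_le_pow N fun m => ?_))
    by_cases hm : m ∈ S
    · have : coeff m g = c ⟨m, hm⟩ := dif_pos hm
      rw [map_sub, coeff_C_mul, this, hc ⟨m, hm⟩, sub_self]
      exact zero_mem _
    · have : ¬ m.degree < N := fun h => hm ((Set.Finite.mem_toFinset _).2 h)
      rw [show N - m.degree = 0 by omega, pow_zero, Ideal.one_eq_top]
      exact Submodule.mem_top

theorem sat_of {P : Type} [CommRing P] (ι : O →+* P) {ϖ : O} (hϖ : Irreducible ϖ) {I : Ideal P}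
    (h : ∀ x, ι ϖ * x ∈ I → x ∈ I) (o : O) (ho : o ≠ 0) (x : P) (hx : ι o * x ∈ I) : x ∈ I := by
  obtain ⟨n, u, rfl⟩ := IsDiscreteValuationRing.eq_unit_mul_pow_irreducible ho hϖ
  rw [map_mul, mul_assoc, Ideal.unit_mul_mem_iff_mem _ (u.isUnit.map ι)] at hx
  induction n with
  | zero => simpa using hx
  | succ n ih =>
    refine ih (mul_ne_zero u.ne_zero (pow_ne_zero _ hϖ.ne_zero)) (h _ ?_)
    rwa [pow_succ', map_mul, mul_assoc] at hx

/-- the sum of two saturated ideals is saturated, iterated form -/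
theorem sat_it [PL.Cf O] [Fintype ζ] [Finite τ] {J : Ideal (PS O τ)} {K : Ideal (PS O ζ)}
    (hJ : ∀ o : O, o ≠ 0 → ∀ u, C o * u ∈ J → u ∈ J)
    (hK : ∀ o : O, o ≠ 0 → ∀ u, C o * u ∈ K → u ∈ K) (o : O) (ho : o ≠ 0)
    (x : MvPowerSeries τ (PS O ζ))
    (hx : C (C o) * x ∈ J.map (map (algebraMap O (PS O ζ))) ⊔ K.map (C : PS O ζ →+* _)) :
    x ∈ J.map (map (algebraMap O (PS O ζ))) ⊔ K.map (C : PS O ζ →+* _) := by
  classical
  obtain ⟨ϖ, hϖ⟩ := IsDiscreteValuationRing.exists_irreducible O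
  refine sat_of ((C : PS O ζ →+* _).comp C) hϖ ?_ o ho x hx
  clear hx x
  intro x hx
  have _ := PL.base_ps O ζ
  set JQ := J.map (map (algebraMap O (PS O ζ)) : PS O τ →+* MvPowerSeries τ (PS O ζ)) with hJQ
  set KQ := K.map (C : PS O ζ →+* MvPowerSeries τ (PS O ζ)) with hKQ
  set w : MvPowerSeries τ (PS O ζ) := C (C ϖ) with hw
  have mJ : ∀ z, z ∈ JQ ↔ ∀ n, lam (coeff n) z ∈ J := fun z => by
    have h := ker_Th J hJ (AlgHom.id O (PS O ζ))
    rw [show RingHom.ker (AlgHom.id O (PS O ζ)) = ⊥ by ext; simp [RingHom.mem_ker], Ideal.map_bot,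
      sup_bot_eq] at h
    rw [hJQ, ← h, RingHom.mem_ker, Th_zero]
    rfl
  have lw : ∀ (l : PS O ζ →ₗ[O] O) z, lam l (w * z) = C ϖ * lam l z := fun l z => by
    ext m
    rw [coeff_lam, coeff_C_mul, coeff_C_mul, coeff_lam, ← smul_eq_mul ϖ, ← map_smul,
      smul_eq_C_mul]
  obtain ⟨a, ha, b, hb, e⟩ := Submodule.mem_sup.1 hx
  change a + b = w * x at e
  have h1 : b ∈ JQ * KQ ⊔ Ideal.span {w} := by
    refine P022D.PA.mem_of_sup _ _ fun N => ?_
    obtain ⟨r, L, u, u1, u2, u3⟩ := coordsK hϖ K N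
    have h2 : b - ∑ i, map (algebraMap O (PS O ζ)) (lam (L i) b) * C (u i) ∈
        (Ideal.span {C ϖ} ⊔ maximalIdeal (PS O ζ) ^ N).map
          (C : PS O ζ →+* MvPowerSeries τ (PS O ζ)) := by
      refine mem_map_C _ fun m => ?_
      have e : coeff m (b - ∑ i, map (algebraMap O (PS O ζ)) (lam (L i) b) * C (u i)) =
          coeff m b - ∑ i, L i (coeff m b) • u i := by
        rw [map_sub, map_sum]
        refine congrArg _ (Finset.sum_congr rfl fun i _ => ?_)
        rw [coeff_mul_C, coeff_map, coeff_lam, Algebra.smul_def]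
      rw [e]
      exact u3 _ (coeff_mem hb m)
    have h3 : (Ideal.span {C ϖ} ⊔ maximalIdeal (PS O ζ) ^ N).map
        (C : PS O ζ →+* MvPowerSeries τ (PS O ζ)) ≤
        (JQ * KQ ⊔ Ideal.span {w}) ⊔ maximalIdeal _ ^ N := by
      rw [Ideal.map_sup, Ideal.map_span, Set.image_singleton]
      exact sup_le_sup le_sup_right
        (Ideal.map_le_iff_le_comap.2 fun a ha => P022D.CA.Cpl.C_mem_pow ha)
    rw [← sub_add_cancel b (∑ i, map (algebraMap O (PS O ζ)) (lam (L i) b) * C (u i))]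
    refine Ideal.add_mem _ (h3 h2) (Ideal.mem_sup_left (Ideal.sum_mem _ fun i _ => ?_))
    have h4 : lam (L i) a ∈ J := by
      obtain ⟨S, μ, h⟩ := u2 i
      have : lam (L i) a = ∑ s ∈ S, C (μ s) * lam (coeff s) a := by
        ext m
        rw [coeff_lam, h, map_sum]
        refine Finset.sum_congr rfl fun s _ => ?_
        rw [coeff_C_mul]
        rfl
      rw [this]
      exact J.sum_mem fun s _ => J.mul_mem_left _ ((mJ a).1 ha s)
    have h5 : lam (L i) b = C ϖ * lam (L i) x - lam (L i) a := by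
      rw [← lw, ← e]
      ext m
      rw [map_sub, coeff_lam, coeff_lam, coeff_lam, map_add, map_add, add_sub_cancel_left]
    rw [h5, map_sub, map_mul, map_C, sub_mul, mul_assoc]
    exact Ideal.sub_mem _ (Ideal.mem_sup_right (Ideal.mul_mem_right _ _
      (Ideal.mem_span_singleton_self _))) (Ideal.mem_sup_left
        (Ideal.mul_mem_mul (Ideal.mem_map_of_mem _ h4) (Ideal.mem_map_of_mem _ (u1 i))))
  obtain ⟨c, hc, d, hd, e'⟩ := Submodule.mem_sup.1 h1
  obtain ⟨d, rfl⟩ := Ideal.mem_span_singleton'.1 hd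
  have h6 : d ∈ KQ := by
    have h7 : w * d ∈ KQ := by
      rw [show w * d = b - c by rw [← e']; ring]
      exact KQ.sub_mem hb (Ideal.mul_le_inf hc).2
    refine mem_map_C _ fun m => hK ϖ hϖ.ne_zero _ ?_
    have h8 := coeff_mem h7 m
    rwa [hw, coeff_C_mul] at h8
  have h8 : x - d ∈ JQ := by
    have h9 : w * (x - d) ∈ JQ := by
      rw [show w * (x - d) = a + c by rw [mul_sub, ← e, ← e']; ring]
      exact JQ.add_mem ha (Ideal.mul_le_inf hc).1
    refine (mJ _).2 fun n => hJ ϖ hϖ.ne_zero _ ?_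
    rw [← lw]
    exact (mJ _).1 h9 n
  rw [← sub_add_cancel x d]
  exact Submodule.add_mem_sup h8 h6

end it

end Vale.Agent.P022K.RT.Geo
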