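import Vale.Agent.P022K.RT.GirD
import Vale.Agent.P022K.RT.GeoA
import Vale.Agent.P022K.RT.Lu
import Vale.Agent.P022K.PL.Limop
import Vale.Agent.P022D.PA.Etl
import Vale.Agent.P179M21.Ex

/-!
# P022K, block RT: row GSH
-/

set_option linter.all false

noncomputable section

namespace Vale.Agent.P022K.RT

open IsLocalRing Matrix
open Vale.Agent.P022D.L2b (M2)
open Vale.Agent.P022D.Core (PS)
open Vale.Agent.P022D.PA (Base)
open Vale.Agent.P022K.PL (Cf)

namespace Gi

theorem loc_int {A B : Type} [CommRing A] [IsLocalRing A] [CommRing B] [IsLocalRing B] [Algebra A B]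
    [Algebra.IsIntegral A B] : ∀ a ∈ maximalIdeal A, algebraMap A B a ∈ maximalIdeal B :=
  (eq_maximalIdeal (Ideal.isMaximal_comap_of_isIntegral_of_isMaximal (R := A) (maximalIdeal B))).ge

/-- a domain which is finite over a base ring is a base ring -/
theorem base_fin (A B : Type) [CommRing A] [hA : Base A] [CommRing B] [IsDomain B] [Algebra A B]
    [Module.Finite A B] : Base B := by
  have := hA.cpl
  have := hA.fin
  have : IsNoetherianRing B := .of_finite A B
  haveI := P179M21.prec_fin (maximalIdeal A) B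
  haveI : IsAdicComplete (maximalIdeal A) B := {}
  let J := (maximalIdeal A).map (algebraMap A B)
  have cJ : IsAdicComplete J B := (IsAdicComplete.map_algebraMap_iff _ _).2 inferInstance
  haveI : IsArtinianRing (B ⧸ J) := by
    letI := Ideal.Quotient.field (maximalIdeal A)
    exact IsArtinianRing.of_finite (A ⧸ maximalIdeal A) _
  haveI := P179M21.local_of J
  have le : J ≤ maximalIdeal B := Ideal.map_le_iff_le_comap.2 loc_int
  obtain ⟨n, hn⟩ : ∃ n, maximalIdeal B ^ n ≤ J := by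
    refine Ideal.exists_pow_le_of_le_radical_of_fg ?_ (IsNoetherian.noetherian _)
    rw [Ideal.radical_eq_sInf]
    refine le_sInf fun Q ⟨h1, h2⟩ => (eq_maximalIdeal ?_).ge
    refine Ideal.isMaximal_of_isIntegral_of_isMaximal_comap (R := A) Q ?_
    rw [← (maximalIdeal.isMaximal A).eq_of_le (Ideal.IsPrime.ne_top inferInstance)
      (Ideal.map_le_iff_le_comap.1 h1)]
    infer_instance
  have : IsPrecomplete (maximalIdeal B) B := ⟨fun f hf => by
    obtain ⟨L, hL⟩ := cJ.toIsPrecomplete.prec (f := fun m => f ((n + 1) * m)) fun {a b} hab =>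
      (hf (Nat.mul_le_mul_left (n + 1) hab)).mono (Submodule.smul_mono_left (by
        rw [pow_mul]
        exact Ideal.pow_right_mono ((Ideal.pow_le_pow_right n.le_succ).trans hn) a))
    exact ⟨L, fun m => (hf (Nat.le_mul_of_pos_left m n.succ_pos)).trans
      ((hL m).mono (Submodule.smul_mono_left (Ideal.pow_right_mono le m)))⟩⟩
  have : IsLocalHom (algebraMap A B) := ⟨fun a ha => not_not.1 fun k => loc_int a k ha⟩
  exact { cpl := {}, fin := Module.finite_of_finite (ResidueField A) }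

theorem d4_kr {A : Type} [CommRing A] (a a' b b' : Fin 2 → A) :
    d4 ![vecMulVec a b, vecMulVec a b', vecMulVec a' b, vecMulVec a' b'] =
      (a 0 * a' 1 - a 1 * a' 0) ^ 2 * (b 0 * b' 1 - b 1 * b' 0) ^ 2 := by
  simp [d4, det_succ_row_zero, Fin.sum_univ_succ, vecMulVec_apply, Fin.succAbove]
  ring

theorem d4_lin {A G : Type} [CommRing A] (ρ : G → M2 A)
    (h : ∀ x : Fin 4 → G, d4 (fun i => ρ (x i)) = 0) (x y : Fin 4 → G) (c c' : A) :
    d4 (fun i => c • ρ (x i) + c' • ρ (y i)) = 0 := by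
  let e : M2 A → Fin 4 → A := fun m => ![m 0 0, m 0 1, m 1 0, m 1 1]
  have he : ∀ i, e (c • ρ (x i) + c' • ρ (y i)) = c • e (ρ (x i)) + c' • e (ρ (y i)) := fun i => by
    ext j; fin_cases j <;> rfl
  show (detRowAlternating : (Fin 4 → A) [⋀^Fin 4]→ₗ[A] A).toMultilinearMap
    (fun i => e (c • ρ (x i) + c' • ρ (y i))) = 0
  rw [funext he]
  refine (MultilinearMap.map_add_univ _ (fun i => c • e (ρ (x i))) fun i => c' • e (ρ (y i))).trans
    (Finset.sum_eq_zero fun s _ => ?_)
  rw [show s.piecewise (fun i => c • e (ρ (x i))) (fun i => c' • e (ρ (y i))) =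
    fun i => (if i ∈ s then c else c') • e (ρ (if i ∈ s then x i else y i)) from
      funext fun i => by by_cases k : i ∈ s <;> simp [k], MultilinearMap.map_smul_univ]
  exact smul_eq_zero_of_right _ (h _)

theorem d4_map {A B : Type} [CommRing A] [CommRing B] (φ : A →+* B) (m : Fin 4 → M2 A) :
    d4 (fun i => (m i).map φ) = φ (d4 m) := by
  rw [d4, d4, RingHom.map_det]
  congr 1
  ext i j
  fin_cases j <;> rfl

/-- the line of `v` is stable -/
def St {A : Type} [CommRing A] (v : Fin 2 → A) (m : M2 A) : Prop :=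
  v 0 * (m *ᵥ v) 1 = v 1 * (m *ᵥ v) 0

/-- **Burnside's theorem** -/
theorem burn {A G : Type} [CommRing A] [IsDomain A] [Group G] (ρ : G →* M2 A)
    (h : ∀ x : Fin 4 → G, d4 (fun i => ρ (x i)) = 0) (x : G) (l : A)
    (hl : (ρ x - l • (1 : M2 A)).det = 0) (i j : Fin 2) :
    (∀ y, St (fun k => (ρ x - l • (1 : M2 A)) k j) (ρ y)) ∨
      ∀ y, St ![(ρ x - l • (1 : M2 A)) i 1, -(ρ x - l • (1 : M2 A)) i 0] (ρ y) := by
  obtain ⟨M, hM⟩ : ∃ M, M = ρ x - l • (1 : M2 A) := ⟨_, rfl⟩
  rw [← hM] at hl ⊢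
  have e : vecMulVec (fun k => M k j) (M i) = M i j • M := by
    rw [det_fin_two] at hl
    ext a b
    fin_cases i <;> fin_cases j <;> fin_cases a <;> fin_cases b <;> simp [vecMulVec_apply] <;>
      first | ring1 | linear_combination hl | linear_combination -hl
  by_contra k
  push Not at k
  obtain ⟨⟨y, hy⟩, z, hz⟩ := k
  have h1 := d4_lin ρ h ![x, x * z, y * x, y * x * z] ![1, z, y, y * z] (M i j) (-(M i j * l))
  have h2 := d4_kr (fun k => M k j) (ρ y *ᵥ fun k => M k j) (M i) (M i ᵥ* ρ z)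
  rw [← vecMulVec_mul, ← mul_vecMulVec, ← mul_vecMulVec, ← vecMulVec_mul, e] at h2
  have h3 := h1.symm.trans ((congrArg d4 (funext fun t => ?_)).trans h2)
  · rcases mul_eq_zero.1 h3.symm with h4 | h4 <;> have h5 := pow_eq_zero_iff two_ne_zero |>.1 h4
    · exact hy (sub_eq_zero.1 h5)
    · refine hz ?_
      simp [St, mulVec, vecMul, dotProduct, Fin.sum_univ_two] at h5 ⊢
      linear_combination -h5
  · generalize M i j = c
    subst hM
    fin_cases t <;> simp [mul_sub, sub_mul, smul_sub, smul_smul, sub_eq_add_neg, mul_add, add_mul,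
      mul_assoc]

/-- frames -/
def fP {A : Type} [CommRing A] (b : Bool) (u : A) : M2 A :=
  if b then !![1, 0; u, 1] else !![u, 1; 1, 0]

/-- inverse frames -/
def fQ {A : Type} [CommRing A] (b : Bool) (u : A) : M2 A :=
  if b then !![1, 0; -u, 1] else !![0, 1; 1, -u]

theorem fPQ {A : Type} [CommRing A] (b : Bool) (u : A) : fP b u * fQ b u = 1 := by
  cases b <;> simp [fP, fQ, Matrix.one_fin_two]

theorem fP_map {A B : Type} [CommRing A] [CommRing B] (φ : A →+* B) (b : Bool) (u : A) :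
    (fP b u).map φ = fP b (φ u) := by
  ext i j
  cases b <;> fin_cases i <;> fin_cases j <;> simp [fP]

theorem fQ_map {A B : Type} [CommRing A] [CommRing B] (φ : A →+* B) (b : Bool) (u : A) :
    (fQ b u).map φ = fQ b (φ u) := by
  ext i j
  cases b <;> fin_cases i <;> fin_cases j <;> simp [fQ]

theorem frame {A : Type} [CommRing A] {v : Fin 2 → A} {i : Fin 2} (h : IsUnit (v i)) :
    ∃ (b : Bool) (u : A) (j : Fin 2), v i * u = v j ∧
      ∀ m, St v m → (fQ b u * m * fP b u) 1 0 = 0 := by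
  obtain ⟨w, hw⟩ := h.exists_right_inv
  fin_cases i
  · refine ⟨true, w * v 1, 1, by rw [← mul_assoc, hw, one_mul], fun m hm => ?_⟩
    simp [St, fP, fQ, mulVec, vecMul, dotProduct, Matrix.mul_apply, Fin.sum_univ_two] at hm hw ⊢
    linear_combination w ^ 2 * hm - (m 1 0 * (v 0 * w + 1) + w * v 1 * (m 1 1 - m 0 0)) * hw
  · refine ⟨false, w * v 0, 0, by rw [← mul_assoc, hw, one_mul], fun m hm => ?_⟩
    simp [St, fP, fQ, mulVec, vecMul, dotProduct, Matrix.mul_apply, Fin.sum_univ_two] at hm hw ⊢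
    linear_combination -w ^ 2 * hm - (m 0 1 * (v 1 * w + 1) + w * v 0 * (m 0 0 - m 1 1)) * hw

/-- conjugation -/
def cj {G A : Type} [Group G] [CommRing A] (ρ : G →* M2 A) {P Q : M2 A} (h : P * Q = 1) :
    G →* M2 A where
  toFun x := Q * ρ x * P
  map_one' := by rw [map_one, mul_one, mul_eq_one_comm.1 h]
  map_mul' x y := by
    rw [map_mul, show Q * ρ x * P * (Q * ρ y * P) = Q * ρ x * (P * Q) * ρ y * P by noncomm_ring, h]
    noncomm_ring

theorem ac_map {G A B : Type} [Group G] [TopologicalSpace G] [IsTopologicalGroup G] [CommRing A]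
    [CommRing B] {I : Ideal A} {J : Ideal B} (φ : A →+* B) (hφ : ∀ a ∈ I, φ a ∈ J) {ρ : G →* M2 A}
    (P Q : M2 A) (h : IsOpen {x | Cg I (ρ x) 1}) :
    IsOpen {x | Cg J ((Q * ρ x * P).map φ) 1} := by
  have := ((lc_of_cg ρ I h).comp fun m => (Q.map φ).map (Ideal.Quotient.mk J) *
    m.map (Ideal.quotientMap J φ hφ) * (P.map φ).map (Ideal.Quotient.mk J)).isOpen_fiber 1
  simp only [cg_one, Matrix.map_mul]
  exact this

variable {O F : Type} [CommRing O] [IsLocalRing O] [Field F] [Algebra O F] {s : F → O}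

theorem lf (hs : ∀ x, algebraMap O F (s x) = x) {B : Type} [CommRing B] (φ : O →+* B)
    (h : ∀ o ∈ maximalIdeal O, φ o = 0) : ∃ κ : F →+* B, ∀ o, κ (algebraMap O F o) = φ o :=
  have su : Function.Surjective (algebraMap O F) := fun x => ⟨s x, hs x⟩
  ⟨(algebraMap O F).liftOfSurjective su ⟨φ, fun o ho => h o (eq_maximalIdeal
    (RingHom.ker_isMaximal_of_surjective _ su) ▸ ho)⟩, fun o =>
      RingHom.liftOfRightInverse_comp_apply _ _ _ _ o⟩

theorem ex_root {R : Type} [CommRing R] [IsDomain R] {f : Polynomial R} (h : f.Monic)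
    (h0 : f.degree ≠ 0) : ∃ (A : Type) (_ : CommRing A) (_ : IsDomain A) (_ : Algebra R A),
      Module.Finite R A ∧ Function.Injective (algebraMap R A) ∧
      ∃ l : A, Polynomial.aeval l f = 0 := by
  let Ω := AlgebraicClosure (FractionRing R)
  have inj : Function.Injective (algebraMap R Ω) :=
    (algebraMap (FractionRing R) Ω).injective.comp (IsFractionRing.injective R (FractionRing R))
  have := (faithfulSMul_iff_algebraMap_injective R Ω).2 inj
  obtain ⟨l, hl⟩ := IsAlgClosed.exists_aeval_eq_zero Ω f h0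
  exact ⟨Algebra.adjoin R {l}, _, inferInstance, _,
    Algebra.finite_adjoin_simple_of_isIntegral ⟨_, h, hl⟩,
    fun a b h => inj (congrArg Subtype.val h), ⟨l, Algebra.self_mem_adjoin_singleton R l⟩,
    Subtype.ext ((Polynomial.aeval_algHom_apply (Subalgebra.val _) _ _).symm.trans hl)⟩

theorem core {G O F A : Type} [Group G] [TopologicalSpace G] [IsTopologicalGroup G] [CommRing O]
    [IsDomain O] [IsDiscreteValuationRing O] [Field F] [Algebra O F] [CommRing A] [IsDomain A]
    [Base A] [Algebra O A] {r : G →* M2 F} {s : F → O} {d : G → O} {ρ : G →* M2 A}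
    (hs : ∀ x, algebraMap O F (s x) = x) (sp : Spl r) {x0 : G} (hx0 : ∀ c : F, r x0 ≠ c • (1 : M2 F))
    (ct : ∀ (r' : G →* M2 F) (A B : M2 F), A * B = 1 → (∀ x, r' x = B * r x * A) →
      (∀ x, r' x 1 0 = 0) → CT r') (hρ : LiftC r s d ρ) {l : A}
    (hl : (ρ x0 - l • (1 : M2 A)).det = 0) (h : ∀ x : Fin 4 → G, d4 (fun i => ρ (x i)) = 0)
    (gen : ∀ Q : Ideal A, Q.IsPrime → (∀ o ∈ maximalIdeal O, algebraMap O A o ∈ Q) →
      (∀ x i j, ρ x i j - algebraMap O A (s (r x i j)) ∈ Q) → maximalIdeal A ≤ Q) :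
    ringKrullDim A ≤ (6 : ℕ) := by
  obtain ⟨ι, hι⟩ := lf hs ((residue A).comp (algebraMap O A)) fun o ho =>
    (residue_eq_zero_iff _).2 (hρ.loc o ho)
  have hι : ∀ o, ι (algebraMap O F o) = residue A (algebraMap O A o) := hι
  have mem : ∀ {a : A} {c : F}, residue A a = ι c → a - algebraMap O A (s c) ∈ maximalIdeal A :=
    fun {a c} e => (residue_eq_zero_iff _).1 (by rw [map_sub, ← hι, hs, e, sub_self])
  have en : ∀ x i j, residue A (ρ x i j) = ι (r x i j) := fun x i j => by
    have := (residue_eq_zero_iff _).2 (hρ.red x i j)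
    rwa [map_sub, ← hι, hs, sub_eq_zero] at this
  have em : ∀ x, (ρ x).map (residue A) = (r x).map ι := fun x => Matrix.ext (en x)
  have dt : ∀ x, algebraMap O F (d x) = (r x).det := fun x => ι.injective (by
    rw [hι, ← hρ.det, RingHom.map_det, RingHom.map_det, RingHom.mapMatrix_apply, em]; rfl)
  obtain ⟨a, ha⟩ : ∃ a, residue A l = ι a := by
    obtain ⟨a, ha⟩ := sp x0
    have h1 := congrArg (residue A) hl
    have h2 := congrArg ι ha
    simp [det_fin_two, trace_fin_two, en] at h1 h2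
    have : (residue A l - ι a) * (residue A l - ι ((r x0).trace - a)) = 0 := by
      simp only [trace_fin_two, map_sub, map_add]
      linear_combination h1 - h2
    exact (mul_eq_zero.1 this).elim (fun k => ⟨_, sub_eq_zero.1 k⟩) fun k => ⟨_, sub_eq_zero.1 k⟩
  have eM : ∀ i j, residue A ((ρ x0 - l • (1 : M2 A)) i j) = ι ((r x0 - a • (1 : M2 F)) i j) :=
    fun i j => by fin_cases i <;> fin_cases j <;> simp [en, ha]
  obtain ⟨i, j, hij⟩ : ∃ i j, (r x0 - a • (1 : M2 F)) i j ≠ 0 := by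
    by_contra k
    push Not at k
    exact hx0 a (sub_eq_zero.1 (Matrix.ext k))
  obtain ⟨v, c, i, h1, h2, h3⟩ : ∃ (v : Fin 2 → A) (c : Fin 2 → F) (i : Fin 2),
      (∀ k, residue A (v k) = ι (c k)) ∧ c i ≠ 0 ∧ ∀ y, St v (ρ y) := by
    rcases burn ρ h x0 l hl i j with k | k
    · exact ⟨_, fun k => (r x0 - a • (1 : M2 F)) k j, i, fun k => eM k j, hij, k⟩
    · refine ⟨_, ![(r x0 - a • (1 : M2 F)) i 1, -(r x0 - a • (1 : M2 F)) i 0], j.rev,
        Fin.forall_fin_two.2 ⟨eM i 1, ?_⟩, ?_, k⟩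
      · exact (map_neg _ _).trans ((congrArg Neg.neg (eM i 0)).trans (map_neg _ _).symm)
      · fin_cases j
        · exact neg_ne_zero.2 hij
        · exact hij
  obtain ⟨b, u, j, h4, h5⟩ := frame (v := v) (i := i) ((residue_ne_zero_iff_isUnit _).1 (by
    rw [h1]; exact (_root_.map_ne_zero ι).2 h2))
  obtain ⟨c, hc⟩ : ∃ c, residue A u = ι c := ⟨c j / c i, by
    rw [map_div₀, eq_div_iff ((_root_.map_ne_zero ι).2 h2), ← h1, ← h1, ← h4, map_mul, mul_comm]⟩
  let ρ' := cj ρ (fPQ b u)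
  let r' := cj r (fPQ b c)
  have em' : ∀ x, (ρ' x).map (residue A) = (r' x).map ι := fun x => by
    show (fQ b u * ρ x * fP b u).map _ = (fQ b c * r x * fP b c).map _
    simp only [Matrix.map_mul, fP_map, fQ_map, hc, em]
  have en' : ∀ x i j, residue A (ρ' x i j) = ι (r' x i j) := fun x i j =>
    congrFun (congrFun (em' x) i) j
  have up : ∀ x, ρ' x 1 0 = 0 := fun x => h5 _ (h3 x)
  obtain ⟨t, t0, ht⟩ := ct r' _ _ (fPQ b c) (fun _ => rfl) fun x =>
    ι.injective (by rw [← en', up, map_zero, map_zero])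
  choose t' ht' using fun i => MvPolynomial.map_surjective (algebraMap O F)
    (fun x => ⟨s x, hs x⟩) (t i)
  obtain ⟨ϖ, hϖ⟩ := IsDiscreteValuationRing.exists_irreducible O
  let T : Fin 4 → A := fun i => MvPolynomial.aeval (fun z => ρ' z.1 z.2.1 z.2.2) (t' i)
  have ev : ∀ {B : Type} [CommRing B] (π : A →+* B) (κ : F →+* B),
      (∀ o, κ (algebraMap O F o) = π (algebraMap O A o)) → ∀ i, π (T i) =
      MvPolynomial.eval₂ κ (fun z => π (ρ' z.1 z.2.1 z.2.2)) (t i) := fun π κ e i => by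
    rw [← ht', MvPolynomial.eval₂_map, show κ.comp (algebraMap O F) = π.comp (algebraMap O A) from
      RingHom.ext e]
    exact MvPolynomial.eval₂_comp_left π _ _ _
  classical
  rw [← ringKrullDim_eq_of_ringEquiv (RingEquiv.quotientBot A)]
  refine Geo.dim_le_card (insert (algebraMap O A ϖ) (insert (u - algebraMap O A (s c))
    (Finset.univ.image T))) (fun x hx => ?_) ?_ fun Q hQ _ hT => ?_
  · simp only [Finset.mem_insert, Finset.mem_image] at hx
    rcases hx with rfl | rfl | ⟨i, -, rfl⟩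
    · exact hρ.loc _ hϖ.not_isUnit
    · exact mem hc
    · rw [← residue_eq_zero_iff, ev _ ι hι, ← map_zero ι, ← t0 i]
      simp only [en']
      exact (MvPolynomial.eval₂_comp_left ι (RingHom.id F) _ _).symm
  · refine (Finset.card_insert_le _ _).trans (Nat.succ_le_succ ((Finset.card_insert_le _ _).trans
      (Nat.succ_le_succ (Finset.card_image_le.trans (by simp)))))
  have mO : ∀ o ∈ maximalIdeal O, algebraMap O A o ∈ Q := fun o ho => by
    rw [hϖ.maximalIdeal_eq, Ideal.mem_span_singleton'] at ho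
    obtain ⟨o, rfl⟩ := ho
    rw [map_mul]
    exact Q.mul_mem_left _ (hT _ (by simp))
  let π := Ideal.Quotient.mk Q
  obtain ⟨κ, hκ⟩ := lf hs (π.comp (algebraMap O A)) fun o ho =>
    Ideal.Quotient.eq_zero_iff_mem.2 (mO o ho)
  have hκ : ∀ o, κ (algebraMap O F o) = π (algebraMap O A o) := hκ
  have := base_fin A (A ⧸ Q)
  letI := κ.toAlgebra
  have lo : ∀ a ∈ maximalIdeal A, π a ∈ maximalIdeal (A ⧸ Q) := loc_int
  have e := ht (A ⧸ Q) (pm π ρ') ⟨fun n => ac_map π (fun a ha => Ideal.le_comap_pow π n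
      (Ideal.pow_right_mono (show _ ≤ (maximalIdeal _).comap π from lo) n ha)) _ _ (hρ.lc n),
    fun x => (congrArg π (up x)).trans (map_zero π), fun x i j => by
      have := lo _ (mem (en' x i j))
      rwa [map_sub, ← hκ, hs] at this, fun x => by
      have e1 : (ρ' x).det = (ρ x).det := by
        show (fQ b u * ρ x * fP b u).det = _
        rw [det_mul, det_mul, mul_right_comm, ← det_mul, mul_eq_one_comm.1 (fPQ b u), det_one,
          one_mul]
      rw [show (r' x).det = (r x).det from det_cj (fPQ b c) _, ← dt]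
      exact (π.map_det _).symm.trans (by rw [e1, hρ.det]; exact (hκ _).symm)⟩ fun i =>
    (ev π κ hκ i).symm.trans (Ideal.Quotient.eq_zero_iff_mem.2 (hT _ (by simp)))
  have eu : π u = κ c := by
    have := Ideal.Quotient.eq.2 (hT (u - algebraMap O A (s c)) (by simp))
    rwa [← hκ, hs] at this
  refine gen Q hQ mO fun x i j => Ideal.Quotient.eq.1 ?_
  have e2 : (fQ b u * ρ x * fP b u).map π = (fQ b c * r x * fP b c).map κ := e x
  simp only [Matrix.map_mul, fP_map, fQ_map, eu] at e2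
  have e3 := congrArg (fP b (κ c) * · * fQ b (κ c)) e2
  simp only [← mul_assoc, fPQ, one_mul] at e3
  simp only [mul_assoc, fPQ, mul_one] at e3
  rw [← hκ, hs]
  exact congrFun (congrFun e3 i) j

end Gi

open Gi in
/-- **row GSH** -/
theorem gsh : GSH := by
  intro G F O _ _ _ _ _ _ _ _ _ _ r s d hs sp ⟨x0, hx0⟩ ct τ _ g p q I f J hU hJ hI dim
  by_contra k
  push Not at k
  have := PL.base_ps O τ
  let R := PS O τ ⧸ J
  have : IsDomain R := Ideal.Quotient.isDomain J
  let ρ0 := (hU.un hs).rep (Ideal.Quotient.mk J) fun u hu =>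
    Ideal.Quotient.eq_zero_iff_mem.2 (hI hu)
  obtain ⟨A, _, _, _, fin, inj, l, hl⟩ := ex_root (charpoly_monic (ρ0 x0)) (by
    rw [charpoly_degree_eq_dim]; simp)
  rw [← P022D.PA.EtlP.dim_eq inj] at dim
  have := base_fin (PS O τ) R
  have := base_fin R A
  let φ : PS O τ →+* A := (algebraMap R A).comp (Ideal.Quotient.mk J)
  letI : Algebra O A := (φ.comp MvPowerSeries.C).toAlgebra
  have lo : ∀ u ∈ maximalIdeal (PS O τ), φ u ∈ maximalIdeal A := fun u hu =>
    loc_int (A := R) _ (loc_int (A := PS O τ) u hu)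
  obtain ⟨ρ, e, hρ, hc⟩ := (luc G F O τ r s d g p q I f hs hU A).2.1 ⟨φ, fun _ => rfl⟩
    (fun a ha => lo _ ((P022D.CA.Cpl.mem_max_iff _).2 (by simpa using ha)))
    (fun t => lo _ ((P022D.CA.Cpl.mem_max_iff _).2 (by simp))) fun u hu =>
      (congrArg (algebraMap R A) (Ideal.Quotient.eq_zero_iff_mem.2 (hI hu))).trans (map_zero _)
  have e : ∀ x, ρ x = (f x).map φ := e
  refine absurd (dim.trans (core hs sp hx0 ct hρ (l := l) ?_ (fun x => ?_) fun Q hQ h1 h2 => ?_))
    (by norm_num)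
  · have e0 : ∀ i j, ρ x0 i j = algebraMap R A (ρ0 x0 i j) := fun i j => by rw [e]; rfl
    rw [charpoly_fin_two] at hl
    simp [det_fin_two, trace_fin_two, e0] at hl ⊢
    linear_combination hl
  · simp only [e]
    rw [d4_map]
    exact (congrArg (algebraMap R A) (Ideal.Quotient.eq_zero_iff_mem.2 (k x))).trans (map_zero _)
  · have h3 := map_max φ h1 fun t => (show _ = φ (MvPowerSeries.X t) from hc t) ▸ h2 _ _ _
    refine (eq_maximalIdeal (Ideal.isMaximal_of_isIntegral_of_isMaximal_comap (R := R) Q ?_)).ge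
    rw [← (maximalIdeal.isMaximal R).eq_of_le (J := Q.comap (algebraMap R A))
      (Ideal.IsPrime.ne_top inferInstance) fun u hu => ?_]
    · infer_instance
    · obtain ⟨u, rfl⟩ := Ideal.Quotient.mk_surjective u
      exact h3 u fun k => hu (k.map _)

end Vale.Agent.P022K.RT
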