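import Vale.Agent.P022K.RT.GirO
import Vale.Agent.P022K.RT.GirS

/-! P022K, block RT: row GIR at odd primes, without hypotheses. -/

set_option linter.all false

namespace Vale.Agent.P022K.RT

/-- row GIR -/
theorem gir : GIR := gir_of gsh cto

end Vale.Agent.P022K.RT
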