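import Vale.Agent.P022K.RT.GirO

/-! P022K, block RT: row CT2 for two different characters. -/

set_option linter.all false

noncomputable section

namespace Vale.Agent.P022K.RT

open Matrix Module
open Vale.Agent.P022
open Vale.Agent.P022D Vale.Agent.P022D.L2c
open Vale.Agent.P022D.L2b (Z1 pd)
open Vale.Agent.P022D.W (dec)
open Vale.Agent.P022E.GW (Ov)
open Vale.Agent.P022E.G5.Ns (eg all0)
open Vale.Agent.P022K.GW (Id)

namespace L5

theorem rk_co {F X : Type} [Field F] {n : ℕ} (S : Submodule F (X → F)) (g : Fin n → X)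
    (h : ∀ b ∈ S, (∀ j, b (g j) = 0) → b = 0) : Module.rank F S ≤ n := by
  have := ((LinearMap.funLeft F F g).comp S.subtype).rank_le_of_injective
    ((injective_iff_map_eq_zero _).2 fun b hb => Subtype.ext (h _ b.2 (congrFun hb)))
  simpa using this

variable {F : Type} [Field F] [Finite F] [CharP F 2]

theorem zc2 (θ : G2 →* F) (hθ : IsLocallyConstant θ) (h1 : ∃ x, θ x ≠ 1) :
    Module.rank F (ZC θ) ≤ (2 : ℕ) := by
  obtain ⟨y, y1⟩ := h1
  let r0 : G2 →* L2b.M2 F :=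
    { toFun := fun x => !![θ x, 0; 0, 1]
      map_one' := by rw [map_one, Matrix.one_fin_two]
      map_mul' := fun x y => by
        rw [map_mul, Matrix.mul_fin_two]
        simp }
  have h0 : Dih0 r0 ⊤ := ⟨fun g _ => ⟨rfl, rfl⟩, fun g hg => absurd trivial hg,
    (hθ.comp fun a : F => (!![a, 0; 0, 1] : L2b.M2 F)).isOpen_fiber 1, y, trivial, y1⟩
  obtain ⟨V, t, h⟩ := dih F G2 r0 ⊤ h0
  have k := kum (locu (locu1 herb6) locu2 (locu3 herb6))
  have e1 := k.2 F ⊤ V t _ h.nrm h.opV le_top h.tU h.gen h.odd h.ne h.pow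
  rw [Subgroup.index_top] at e1
  obtain ⟨v, hv⟩ := pickS 1 one_ne_zero _ e1
  refine rk_co _ ![t, v 0] fun c hc h0 => funext fun x => ?_
  have m : ∀ x y, c (x * y) = c x * (1 : G2 →* F) y + θ x * c y := fun x y => by
    rw [hc.2, MonoidHom.one_apply, mul_one]
  exact all0 m (fun u => h.gen u trivial) (fun w hw => congrFun (hv _
    (eg hc.1 m (fun _ _ => rfl) (fun v hv => ((h.sc v).1 hv).2) rfl)
    fun j => by fin_cases j; exact h0 1) ⟨w, hw⟩) (h0 0) x

theorem zc3 : Module.rank F (ZC (1 : G2 →* F)) ≤ (3 : ℕ) := by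
  obtain ⟨g, hg⟩ := pickH F G2 (kum (locu (locu1 herb6) locu2 (locu3 herb6))).1.1
  exact rk_co _ g fun b hb => hg b ⟨hb.1, fun x y => by rw [hb.2, MonoidHom.one_apply, one_mul]⟩

theorem ex_sq : ∃ a ∈ Hm F G2, L2c.cup a a ∉ Cob F G2 := by
  obtain ⟨η, h1, h2, h3, -⟩ := eta
  obtain ⟨b, k1, k2⟩ := ((nir G2 (kum (locu (locu1 herb6) locu2 (locu3 herb6))).1).1 η h1 h2).1
  refine ⟨fun x => L2c.up F (b x), ⟨k1.1.comp _, fun x y => by simp only [k1.2, map_add]⟩, fun h => k2 ?_⟩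
  have e := sym0 F G2 (L2c.cup b b) (by simp only [L2c.cup, map_mul]; exact h)
  convert (Cob (ZMod 2) G2).sub_mem (h3 b k1) e using 1
  funext x y
  simp only [L2c.cup, Pi.sub_apply, Pi.add_apply]
  ring

theorem ct_two {r : G2 →* L2b.M2 F} (hr : IsLocallyConstant r) (ht : ∀ x, r x 1 0 = 0)
    (h : ∃ x, r x 0 0 ≠ r x 1 1) : CT r := by
  obtain ⟨a, ⟨a1, a2⟩, a3⟩ := ex_sq (F := F)
  refine ct_of hr ht (Or.inr ⟨?_, fun x => a x • r x, ⟨L2b.Z1.scal hr a1 a2, funext fun x =>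
    div_eq_zero_iff.2 (Or.inl (by simp [ht]))⟩, fun ⟨z, z1, z2, z3, _⟩ =>
      a3 ⟨en r 0 0 0 z, en_lc hr z1 _ _ _, fun x y => ?_⟩⟩)
  · rw [rk2 ht, show ((5 : ℕ) : Cardinal) = (3 : ℕ) + (2 : ℕ) by norm_num]
    exact add_le_add ((Submodule.rank_mono (le_a ht hr)).trans zc3)
      ((Submodule.rank_mono (le_b ht hr)).trans (zc2 _ (th'_lc ht hr)
        (h.imp fun x hx e => hx ((div_eq_one_iff_eq (n11 ht x)).1 e))))
  · have := n00 ht x
    have := n00 ht y
    show z (x * y) 0 0 / _ = z x 0 0 / _ + z y 0 0 / _ + a x * a y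
    simp only [z3, e00 ht, Matrix.add_apply, Matrix.mul_apply, Fin.sum_univ_two, ht, z2,
      Matrix.smul_apply, smul_eq_mul]
    field_simp
    ring

end L5

open L5 in
/-- row CT2, two different characters -/
theorem ct2a {F : Type} [Field F] [Finite F] [CharP F 2] {P : Id} {r : dec P →* L2b.M2 F}
    (h : Ov 2 P) (hr : IsLocallyConstant r) (ht : ∀ x, r x 1 0 = 0)
    (hn : ∃ x, r x 0 0 ≠ r x 1 1) : CT r := by
  have : Fact (Nat.Prime 2) := ⟨Nat.prime_two⟩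
  obtain ⟨j, hc, hj, -⟩ := Tr.exists_j 2 h
  obtain ⟨x, hx⟩ := hn
  obtain ⟨y, rfl⟩ := hj x
  exact ct_surj j hc hj (ct_two (hr.comp_continuous hc) (fun x => ht _) ⟨y, hx⟩)

end Vale.Agent.P022K.RT
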