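import Vale.Agent.P022K.RT.GirS
import Vale.Agent.P022K.RT.Gir2a

/-!
# P022K, block RT: row CT2 and the generic irreducibility at two
-/

set_option linter.all false

noncomputable section

namespace Vale.Agent.P022K.RT

open IsLocalRing Matrix
open Vale.Agent.P022D.L2b (M2)
open Vale.Agent.P022D.L2 (Wd ev fx mA mC Rel Holds Two)
open Vale.Agent.P022D.PA (Base)

namespace G2

section words

variable {C : Type} [CommRing C] {X : Fin 3 → M2 C}

theorem ev_cons {M : Type} [Monoid M] (X : Fin 3 → M) (i : Fin 3) (w : Wd) :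
    ev X (i :: w) = X i * ev X w := by simp [ev]

theorem ev_up (h : ∀ i, X i 1 0 = 0) (d : ∀ i, X i 0 0 * X i 1 1 = 1) (w : Wd) :
    ev X w 1 0 = 0 ∧ ev X w 0 0 * ev X w 1 1 = 1 ∧
    ev X w 0 0 = X 0 0 0 ^ w.count 0 * X 1 0 0 ^ w.count 1 * X 2 0 0 ^ w.count 2 ∧
    ev X w 0 1 * ev X w 0 0 = ∑ j, fx (fun i => X i 0 0 ^ 2) j w * (X j 0 1 * X j 0 0) := by
  induction w with
  | nil => simp [ev, fx]
  | cons i w ih =>
    obtain ⟨h1, h2, h3, h4⟩ := ih
    simp only [ev_cons, Matrix.mul_apply, Fin.sum_univ_two, h, h1, zero_mul, mul_zero, add_zero,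
      zero_add, true_and]
    refine ⟨by linear_combination X i 0 0 * X i 1 1 * h2 + d i, ?_, ?_⟩
    · rw [h3]
      fin_cases i <;> simp [List.count_cons] <;> ring
    · simp only [fx, add_mul, Finset.sum_add_distrib, mul_assoc, ← Finset.mul_sum, ← h4, ite_mul,
        one_mul, zero_mul, Finset.sum_ite_eq, Finset.mem_univ, if_true]
      linear_combination X i 0 1 * X i 0 0 * h2

theorem cnt (j : Fin 3) (w : Wd) :
    ((w.count j : ℕ) : ZMod 4) = (mA j w).val + 2 * (mC j j w).val := by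
  induction w with
  | nil => simp [mA, mC, fx]
  | cons i w ih =>
    have e : mA j (i :: w) = (if i = j then 1 else 0) + mA j w := by simp [mA, fx]
    rw [e, mC, List.count_cons]
    by_cases k : i = j
    · simp only [k, beq_self_eq_true, if_true, Nat.cast_add, ih]
      generalize mA j w = a
      generalize mC j j w = c
      revert a c
      decide
    · simp [k, ih]

theorem fx_eq (ι : ZMod 2 →+* C) {δ : C} (hδ : δ * δ = 0) (j : Fin 3) (w : Wd) :
    fx ![1, 1 + δ, 1] j w = ι (mA j w) + δ * ι (mC 1 j w) := by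
  induction w with
  | nil => simp [mA, mC, fx]
  | cons i w ih =>
    have e : mA j (i :: w) = (if i = j then 1 else 0) + mA j w := by simp [mA, fx]
    rw [e, mC, fx, ih, map_add, map_add, apply_ite ι, apply_ite ι, map_one, map_zero]
    fin_cases i <;> simp
    · ring
    · linear_combination ι (mC 1 j w) * hδ
    · ring

end words

variable {G B : Type} [Group G] [TopologicalSpace G] [IsTopologicalGroup G] [CommRing B] [Base B]
  [CharP B 2]

/-- upper triangular, residually unipotent -/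
structure Un (ρ : G →* M2 B) : Prop where
  lc : ∀ n : ℕ, IsOpen {x | Cg (maximalIdeal B ^ n) (ρ x) 1}
  up : ∀ x, ρ x 1 0 = 0
  a : ∀ x, ρ x 0 0 - 1 ∈ maximalIdeal B
  det : ∀ x, ρ x 0 0 * ρ x 1 1 = 1

variable {ρ ρ' : G →* M2 B} {g : Fin 3 → G} {U : Ultrafilter Wd}

theorem two0 : (2 : B) = 0 := by exact_mod_cast CharP.cast_eq_zero B 2

theorem Un.two (h : Un ρ) {K : Ideal B} {n : ℕ} (hK : maximalIdeal B ^ n ≤ K) :
    IsOpen {x | pm (Ideal.Quotient.mk K) ρ x = 1} ∧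
      ∀ x, pm (Ideal.Quotient.mk K) ρ x ^ 2 ^ (n + 1) = 1 := by
  refine ⟨?_, fun x => ?_⟩
  · have := Gi.ac_map (RingHom.id B) hK 1 1 (h.lc n)
    simp only [one_mul, mul_one, cg_one] at this
    exact this
  · have h1 : ρ x 1 1 - 1 ∈ maximalIdeal B := by
      rw [show ρ x 1 1 - 1 = -(ρ x 1 1 * (ρ x 0 0 - 1)) by linear_combination h.det x]
      exact neg_mem (Ideal.mul_mem_left _ _ (h.a x))
    have := P022D.L2.Ev.pw _ (by rw [two0]; exact zero_mem _) (ρ x) (h.a x)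
      ((h.up x).symm ▸ zero_mem _) h1 n
    rw [← map_pow, pm_apply, map_pow, ← cg_one]
    exact fun i j => hK (Ideal.pow_le_pow_right n.le_succ (this i j))

theorem Un.ext (hH : Holds g U) (h : Un ρ) (h' : Un ρ') (e : ∀ j, ρ (g j) = ρ' (g j)) (x : G) :
    ρ x = ρ' x := by
  ext i j
  refine sub_eq_zero.1 (P022D.PA.mem_of_sup ⊥ _ fun n => ?_)
  rw [bot_sup_eq]
  obtain ⟨a1, a2⟩ := h.two (le_refl (maximalIdeal B ^ n))
  obtain ⟨b1, b2⟩ := h'.two (le_refl (maximalIdeal B ^ n))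
  obtain ⟨w, hw⟩ := (hH _ ((pm (Ideal.Quotient.mk (maximalIdeal B ^ n)) ρ).prod
    (pm (Ideal.Quotient.mk (maximalIdeal B ^ n)) ρ'))
    ⟨by simp only [MonoidHom.prod_apply, Prod.mk_eq_one]; exact a1.inter b1,
      fun x => ⟨n + 1, Prod.ext (a2 x) (b2 x)⟩⟩).2 x
  refine cg_iff.2 ((congrArg Prod.fst hw).trans (Eq.trans ?_ (congrArg Prod.snd hw).symm)) i j
  clear hw
  induction w with
  | nil => rfl
  | cons k w ih =>
    rw [ev_cons, Prod.fst_mul, Prod.snd_mul, ih]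
    simp only [MonoidHom.prod_apply, pm_apply, e]

theorem Un.rel (hU : Rel U) (hH : Holds g U) (h : Un ρ) (h2 : ρ (g 2) 0 0 = 1) :
    (ρ (g 0) 0 0 - 1) ^ 2 ∈ Ideal.span {(ρ (g 1) 0 0 - 1) ^ 4} ∧
      (ρ (g 1) 0 0 - 1) ^ 2 * ρ (g 2) 0 1 ∈ Ideal.span {(ρ (g 1) 0 0 - 1) ^ 4} := by
  obtain ⟨x, hx⟩ : ∃ x, ρ (g 1) 0 0 = 1 + x := ⟨ρ (g 1) 0 0 - 1, by ring⟩
  rw [hx, add_sub_cancel_left]
  have key : ∀ n, (ρ (g 0) 0 0 - 1) ^ 2 ∈ Ideal.span {x ^ 4} ⊔ maximalIdeal B ^ n ∧
      x ^ 2 * ρ (g 2) 0 1 ∈ Ideal.span {x ^ 4} ⊔ maximalIdeal B ^ n := fun n => by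
    obtain ⟨a1, a2⟩ := h.two (K := Ideal.span {x ^ 4} ⊔ maximalIdeal B ^ n) le_sup_right
    set π := Ideal.Quotient.mk (Ideal.span {x ^ 4} ⊔ maximalIdeal B ^ n)
    obtain ⟨w, e, m1, m2⟩ := ((hH _ _ ⟨a1, fun x => ⟨_, a2 x⟩⟩).1.and hU.mag).exists
    obtain ⟨-, -, h3, h4⟩ := ev_up (X := fun i => pm π ρ (g i))
      (fun i => (congrArg π (h.up _)).trans (map_zero π))
      (fun i => (map_mul π _ _).symm.trans ((congrArg π (h.det _)).trans (map_one π))) w
    have x4 : π x ^ 4 = 0 := by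
      rw [← map_pow]
      exact Ideal.Quotient.eq_zero_iff_mem.2 (Ideal.mem_sup_left (Ideal.mem_span_singleton_self _))
    have t2 : (2 : B ⧸ _) = 0 := (map_ofNat π 2).symm.trans ((congrArg π two0).trans (map_zero π))
    have c0 := cnt 0 w
    have c1 := cnt 1 w
    rw [m1, m2] at c0 c1
    obtain ⟨k, hk⟩ : ∃ k, w.count 0 = 2 * (2 * k + 1) := ⟨w.count 0 / 4, by
      have := (ZMod.natCast_eq_natCast_iff' _ 2 4).1 c0
      omega⟩
    obtain ⟨l, hl⟩ := (ZMod.natCast_eq_zero_iff _ 4).1 c1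
    rw [e] at h3 h4
    simp only [pm_apply, Matrix.map_apply, h2, hx, map_one, map_add] at h3 h4
    rw [hk, hl, pow_mul, pow_mul, show (1 + π x) ^ 4 = 1 by
      linear_combination x4 + (2 * π x + 3 * π x ^ 2 + 2 * π x ^ 3) * t2] at h3
    have u : IsUnit (∑ i ∈ Finset.range (2 * k + 1), (ρ (g 0) 0 0 ^ 2) ^ i) := by
      rw [← residue_ne_zero_iff_isUnit]
      have := (residue_eq_zero_iff _).2 (h.a (g 0))
      rw [map_sub, map_one, sub_eq_zero] at this
      have t3 : (2 : ResidueField B) = 0 := by rw [← map_ofNat (residue B), two0, map_zero]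
      simp [this, t3]
    have e0 : π (ρ (g 0) 0 0) ^ 2 = 1 := by
      have := congrArg π (geom_sum_mul (ρ (g 0) 0 0 ^ 2) (2 * k + 1))
      rw [map_mul, map_sub, map_sub, map_pow, map_pow, map_pow, map_one] at this
      refine sub_eq_zero.1 ((u.map π).mul_right_eq_zero.1 (this.trans ?_))
      simpa [sub_eq_zero] using h3.symm
    refine ⟨Ideal.Quotient.eq_zero_iff_mem.1 ?_, Ideal.Quotient.eq_zero_iff_mem.1 ?_⟩
    · rw [map_pow, map_sub, map_one]
      linear_combination e0 + (1 - π (ρ (g 0) 0 0)) * t2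
    · rw [show (fun i => π (ρ (g i) 0 0) ^ 2) = ![1, 1 + π x ^ 2, 1] from funext fun i => by
        fin_cases i
        · exact e0
        · simp [hx]; linear_combination π x * t2
        · simp [h2]] at h4
      simp only [fx_eq (π.comp (ZMod.castHom dvd_rfl B)) (δ := π x ^ 2) (by linear_combination x4),
        m1, m2, Fin.sum_univ_three] at h4
      simpa [P022D.L2.hp, h2] using h4.symm
  exact ⟨P022D.PA.mem_of_sup _ _ fun n => (key n).1, P022D.PA.mem_of_sup _ _ fun n => (key n).2⟩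

theorem Un.sq (hU : Rel U) (hH : Holds g U) [IsDomain B] (h : Un ρ) (h1 : ρ (g 1) 0 0 = 1)
    (h2 : ρ (g 2) 0 0 = 1) : ρ (g 0) 0 0 = 1 := by
  have := (h.rel hU hH h2).1
  rw [h1, sub_self, zero_pow (by norm_num), Ideal.span_singleton_zero, Ideal.mem_bot] at this
  exact sub_eq_zero.1 (pow_eq_zero_iff two_ne_zero |>.1 this)

omit [CharP B 2] in
theorem lc_map {F : Type} [Field F] [Algebra F B] {r : G →* M2 F} (hr : IsLocallyConstant r)
    (n : ℕ) : IsOpen {x | Cg (maximalIdeal B ^ n) (pm (algebraMap F B) r x) 1} :=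
  (hr.comp fun m => Cg (maximalIdeal B ^ n) (m.map (algebraMap F B)) 1).isOpen_fiber True |>
    Eq.mp (congrArg IsOpen (Set.ext fun _ => ⟨fun h => of_eq_true h, fun h => eq_true h⟩))

variable {F : Type} [Field F] [CharP F 2] {r : G →* M2 F}

open MvPolynomial in
/-- the unipotent case -/
theorem ct_uni (hU : Rel U) (hH : Holds g U) (hr : IsLocallyConstant r) (u : ∀ x, r x 1 0 = 0)
    (a : ∀ x, r x 0 0 = 1) (c : ∀ x, r x 1 1 = 1) : CT r := by
  refine ⟨![X (g 2, 0, 0) - 1, X (g 0, 0, 1) - C (r (g 0) 0 1), X (g 1, 0, 1) - C (r (g 1) 0 1),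
    X (g 1, 0, 0) - 1 - (X (g 2, 0, 1) - C (r (g 2) 0 1))], fun i => by fin_cases i <;> simp [a],
    fun B _ _ _ _ ρ hρ ht => ?_⟩
  have := charP_of_injective_algebraMap (algebraMap F B).injective 2
  have h : Un ρ := ⟨hρ.lc, hρ.up, fun x => by simpa [a] using hρ.red x 0 0, fun x => by
    simpa [det_fin_two, hρ.up, a, c, u] using hρ.det x⟩
  have h' : Un (pm (algebraMap F B) r) := ⟨lc_map hr, fun x => by simp [pm_apply, u],
    fun x => by simp [pm_apply, a], fun x => by simp [pm_apply, a, c]⟩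
  have t0 := ht 0
  have t1 := ht 1
  have t2 := ht 2
  have t3 := ht 3
  simp [sub_eq_zero] at t0 t1 t2 t3
  have x0 : ρ (g 1) 0 0 - 1 = 0 := by
    obtain ⟨y, hy⟩ := Ideal.mem_span_singleton'.1 (h.rel hU hH t0).2
    have m := h.a (g 1)
    generalize ρ (g 1) 0 0 - 1 = x at *
    by_contra k
    have e : y * x ^ 2 = algebraMap F B (r (g 2) 0 1) + x :=
      mul_left_cancel₀ (pow_ne_zero 2 k) (by linear_combination hy - x ^ 2 * t3)
    by_cases k' : r (g 2) 0 1 = 0
    · rw [k', map_zero, zero_add] at e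
      have : y * x = 1 := mul_left_cancel₀ k (by linear_combination e)
      exact m (IsUnit.of_mul_eq_one_right _ this)
    · refine (sub_mem (Ideal.mul_mem_left _ (y * x) m) m : _ ∈ maximalIdeal B) ?_
      rw [show y * x * x - x = algebraMap F B (r (g 2) 0 1) by linear_combination e]
      exact (IsUnit.mk0 _ k').map _
  have e1 := sub_eq_zero.1 x0
  have e : ∀ j, ρ (g j) 0 0 = 1 := fun j => by
    fin_cases j
    exacts [h.sq hU hH e1 t0, e1, t0]
  refine h.ext hH h' fun j => Matrix.ext (Fin.forall_fin_two.2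
    ⟨Fin.forall_fin_two.2 ⟨by simp [pm_apply, a, e], ?_⟩, Fin.forall_fin_two.2
      ⟨by simp [pm_apply, u, hρ.up], by simpa [pm_apply, c, e] using h.det (g j)⟩⟩)
  fin_cases j
  exacts [t1, t2, sub_eq_zero.1 (t3.symm.trans x0)]

end G2

open G2 in
/-- **row CT2** -/
theorem ct2 : CT2 := by
  intro F _ _ _ P r h hr dt _ u
  by_cases k : ∀ x, r x 0 0 = r x 1 1
  swap
  · exact ct2a h hr u (not_forall.1 k)
  have : Fact (Nat.Prime 2) := ⟨Nat.prime_two⟩
  obtain ⟨j, hc, hj, -⟩ := Tr.exists_j 2 h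
  obtain ⟨g, a, ha⟩ := P022D.L2.ar
  obtain ⟨U, hU, hH⟩ := P022D.L2.relS _ g a ha
  refine L5.ct_surj j hc hj ?_
  have hr' : IsLocallyConstant (r.comp j) := hr.comp_continuous hc
  have a : ∀ x, r x 0 0 = 1 := fun x => by
    have e : r x 0 0 * r x 1 1 = 1 := by simpa [det_fin_two, u] using dt x
    rw [← k] at e
    have two : (2 : F) = 0 := CharTwo.two_eq_zero
    exact sub_eq_zero.1 (pow_eq_zero_iff two_ne_zero |>.1 (show (r x 0 0 - 1) ^ 2 = 0 by
      linear_combination e + (1 - r x 0 0) * two))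
  exact ct_uni hU hH hr' (fun _ => u _) (fun _ => a _) fun x => (k _).symm.trans (a _)

/-- **row GIR at two** -/
theorem gir2 : GIR2 := gir2_of gsh ct2

end Vale.Agent.P022K.RT
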