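import Vale.Agent.P022K.RT.GeoB
import Vale.Agent.P022D.CA.Blocks

/-!
# P022K, block RT: sums of blocks which are parametrised or given by equations
-/

set_option linter.all false

noncomputable section

namespace Vale.Agent.P022K.RT

open IsLocalRing MvPowerSeries
open Vale.Agent.P022D.Core (PS)
open Vale.Agent.P022D.CA (emb eqs BlkPt dom_blocks_lift)
open Vale.Agent.P022K.PL (Cf)

/-- a block given by equations, of relative dimension `k` -/
def Eqn (F : Type) [Field F] {O τ : Type} [CommRing O] [IsLocalRing O] [Algebra O F] [Fintype τ]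
    (J : Ideal (PS O τ)) (k : ℕ) : Prop :=
  ∃ (ι : Type) (_ : Fintype ι) (f : ι → PS O τ), Fintype.card τ = Fintype.card ι + k ∧
    (∀ i, f i ∈ maximalIdeal (PS O τ)) ∧
    BlkPt (fun i => MvPowerSeries.map (algebraMap O F) (f i)) ∧ J = Ideal.span (Set.range f)

/-- a good block -/
def Gb (F : Type) [Field F] {O τ : Type} [CommRing O] [IsLocalRing O] [Algebra O F] [Fintype τ]
    (J : Ideal (PS O τ)) (k : ℕ) : Prop := Par J k ∨ Eqn F J k

variable {O F β σ : Type} [CommRing O] [IsDomain O] [IsDiscreteValuationRing O] [Field F]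
  [Algebra O F]

namespace Bk

theorem ker_res (hF : Function.Surjective (algebraMap O F)) :
    RingHom.ker (algebraMap O F) = maximalIdeal O :=
  eq_maximalIdeal (RingHom.ker_isMaximal_of_surjective _ hF)

/-- the restriction of the embedding to a subfamily -/
def subE {τ : β → Type} (e : (Σ b, τ b) ↪ σ) (q : β → Prop) : (Σ b : {b // q b}, τ b.1) ↪ σ :=
  ⟨fun u => e ⟨u.1.1, u.2⟩, by
    rintro ⟨⟨a, ha⟩, t⟩ ⟨⟨b, hb⟩, t'⟩ h
    obtain ⟨rfl, h2⟩ := Sigma.mk.inj_iff.1 (e.injective h)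
    obtain rfl := eq_of_heq h2
    rfl⟩

theorem sumI_eqs {τ ι : β → Type} (e : (Σ b, τ b) ↪ σ) (f : ∀ b, ι b → PS O (τ b)) :
    sumI e (fun b => Ideal.span (Set.range (f b))) = Ideal.span (Set.range (eqs e f)) := by
  refine le_antisymm (iSup_le fun b => ?_) (Ideal.span_le.2 ?_)
  · rw [Ideal.map_span, Ideal.span_le]
    rintro _ ⟨_, ⟨i, rfl⟩, rfl⟩
    exact Ideal.subset_span ⟨⟨b, i⟩, rfl⟩
  · rintro _ ⟨⟨b, i⟩, rfl⟩
    exact le_iSup (fun b => (Ideal.span (Set.range (f b))).map (rename (R := O) (emb e b))) b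
      (Ideal.mem_map_of_mem _ (Ideal.subset_span ⟨i, rfl⟩))

theorem eq_blocks0 [Fintype β] [Fintype σ] (hF : Function.Surjective (algebraMap O F))
    {τ ι : β → Type} [∀ b, Fintype (τ b)] [∀ b, Fintype (ι b)] (e : (Σ b, τ b) ↪ σ)
    (f : ∀ b, ι b → PS O (τ b)) (hm : ∀ b i, f b i ∈ maximalIdeal (PS O (τ b)))
    (hb : ∀ b, BlkPt (fun i => MvPowerSeries.map (algebraMap O F) (f b i))) :
    ∃ d : ℕ, d + Fintype.card (Σ b, ι b) = Fintype.card σ ∧
      (Ideal.span (Set.range (eqs e f))).IsPrime ∧ Sat (Ideal.span (Set.range (eqs e f))) ∧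
      ringKrullDim (PS O σ ⧸ Ideal.span (Set.range (eqs e f))) = (d + 1 : ℕ) := by
  obtain ⟨ϖ, hϖ⟩ := IsDiscreteValuationRing.exists_irreducible O
  have hker : RingHom.ker (algebraMap O F) = Ideal.span {ϖ} :=
    (ker_res hF).trans hϖ.maximalIdeal_eq
  have hπ : ∀ a : O, ϖ * a = 0 → a = 0 := fun a ha => (mul_eq_zero.1 ha).resolve_left hϖ.ne_zero
  have h0 : ∀ b i, algebraMap O F (constantCoeff (f b i)) = 0 := fun b i => by
    rw [← RingHom.mem_ker, ker_res hF]
    exact (P022D.CA.Cpl.mem_max_iff _).1 (hm b i)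
  have H := dom_blocks_lift (algebraMap O F) hF hker hπ e f h0 hb
  obtain ⟨d, h1, h2, h3, h4, h5, h6⟩ := H
  have h7 : Sat (Ideal.span (Set.range (eqs e f))) := fun o ho u hu =>
    Geo.sat_of (P := PS O σ) (C : O →+* PS O σ) hϖ h4 o ho u hu
  exact ⟨d, h1, h2, h7, h5⟩

theorem eq_blocks [Fintype β] (hF : Function.Surjective (algebraMap O F))
    {τ : β → Type} [∀ b, Fintype (τ b)] (J : ∀ b, Ideal (PS O (τ b))) (k : β → ℕ)
    (h : ∀ b, Eqn F (J b) (k b)) : (sumI (Function.Embedding.refl _) J).IsPrime ∧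
      Sat (sumI (Function.Embedding.refl _) J) ∧ ringKrullDim (PS O (Σ b, τ b) ⧸
        sumI (Function.Embedding.refl _) J) = (∑ b, k b + 1 : ℕ) := by
  choose ι hι f hc hm hb hJ using h
  obtain rfl : J = fun b => Ideal.span (Set.range (f b)) := funext hJ
  obtain ⟨d, h1, h2, h4, h5⟩ := eq_blocks0 hF (Function.Embedding.refl (Σ b, τ b)) f hm hb
  have hd : d = ∑ b, k b := by
    rw [Fintype.card_sigma, Fintype.card_sigma] at h1
    simp only [hc, Finset.sum_add_distrib] at h1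
    omega
  rw [sumI_eqs, ← hd]
  exact ⟨h2, h4, h5⟩

theorem sumI_split {τ : β → Type} (e : (Σ b, τ b) ↪ σ) (J : ∀ b, Ideal (PS O (τ b)))
    [Finite σ] (q : β → Prop) :
    (sumI (Function.Embedding.refl _) fun b : {b // q b} => J b.1).map (rename (R := O) (subE e q)) ⊔
      sumI (subE e fun b => ¬ q b) (fun b => J b.1) = sumI e J := by
  have c : ∀ b : {b // q b}, ((J b.1).map (rename (R := O) (emb (Function.Embedding.refl
      (Σ b : {b // q b}, τ b.1)) b))).map (rename (R := O) (subE e q)) =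
      (J b.1).map (rename (R := O) (emb e b.1)) := fun b => Geo.map_rename _ _ _ _ fun _ => rfl
  rw [sumI, Ideal.map_iSup]
  simp only [c]
  refine le_antisymm (sup_le (iSup_le fun b => le_iSup_of_le b.1 le_rfl)
    (iSup_le fun b => le_iSup_of_le b.1 le_rfl)) (iSup_le fun b => ?_)
  by_cases hq : q b
  · exact le_sup_of_le_left (le_iSup_of_le ⟨b, hq⟩ le_rfl)
  · exact le_sup_of_le_right (le_iSup_of_le ⟨b, hq⟩ le_rfl)

end Bk

open Bk in
/-- **sums of good blocks** -/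
theorem blk [Cf O] [Fintype β] [Fintype σ] (hF : Function.Surjective (algebraMap O F))
    {τ : β → Type} [∀ b, Fintype (τ b)] (e : (Σ b, τ b) ↪ σ) (J : ∀ b, Ideal (PS O (τ b)))
    (k : β → ℕ) (n : ℕ) (h : ∀ b, Gb F (J b) (k b))
    (hn : ∑ b, k b + Fintype.card σ = n + ∑ b, Fintype.card (τ b)) :
    (sumI e J).IsPrime ∧ Sat (sumI e J) ∧ ringKrullDim (PS O σ ⧸ sumI e J) = (n + 1 : ℕ) := by
  classical
  obtain ⟨q, hq⟩ : ∃ q : β → Prop, ∀ b, q b ↔ Eqn F (J b) (k b) := ⟨_, fun _ => Iff.rfl⟩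
  obtain ⟨h2, hs, h5⟩ := eq_blocks hF (fun b : {b // q b} => J b.1) (fun b => k b.1)
    fun b => (hq _).1 b.2
  rw [← sumI_split e J q]
  refine geo O {b // ¬ q b} σ _ (fun b => τ b.1) (subE e fun b => ¬ q b) (subE e q)
    (fun b => J b.1) _ (fun b => k b.1) _ n ?_ h2 hs h5
    (fun b => (h b.1).resolve_right fun e => b.2 ((hq _).2 e)) ?_
  · rintro ⟨⟨a, ha⟩, t⟩ ⟨⟨b, hb⟩, t'⟩ h
    have hab : a = b := congrArg Sigma.fst (e.injective h)
    subst hab
    exact ha hb
  · rw [Fintype.sum_subtype_add_sum_subtype q k, Fintype.card_sigma, add_assoc n,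
      Fintype.sum_subtype_add_sum_subtype q fun b => Fintype.card (τ b)]
    exact hn

end Vale.Agent.P022K.RT
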