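import Vale.Agent.P022K.RT.St

/-!
# P022K, block RT: generic irreducibility of the local lift at `p`. Rows.
-/

set_option linter.all false

noncomputable section

namespace Vale.Agent.P022K.RT

open IsLocalRing NumberField
open Vale.Agent.P022
open Vale.Agent.P022D.L2b (M2)
open Vale.Agent.P022D.Core (PS)
open Vale.Agent.P022D.PA (Base)
open Vale.Agent.P022K.PL (Cf)
open Vale.Agent.P022D.W (dec)
open Vale.Agent.P022E.GW (Ov)
open Vale.Agent.P022K.GW (Id Cy up)

/-- the determinant of four matrices -/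
def d4 {A : Type} [CommRing A] (m : Fin 4 → M2 A) : A :=
  (Matrix.of fun i => ![m i 0 0, m i 0 1, m i 1 0, m i 1 1]).det

section

variable {G F : Type} [Group G] [TopologicalSpace G] [Field F]

/-- an upper triangular deformation in characteristic `p` -/
structure Bor (r : G →* M2 F) {B : Type} [CommRing B] [IsLocalRing B] [Algebra F B]
    (ρ : G →* M2 B) : Prop where
  lc : ∀ n : ℕ, IsOpen {x | Cg (maximalIdeal B ^ n) (ρ x) 1}
  up : ∀ x, ρ x 1 0 = 0
  red : ∀ x i j, ρ x i j - algebraMap F B (r x i j) ∈ maximalIdeal B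
  det : ∀ x, (ρ x).det = algebraMap F B (r x).det

/-- four equations cut out the closed point among the upper triangular deformations -/
def CT (r : G →* M2 F) : Prop :=
  ∃ t : Fin 4 → MvPolynomial (G × Fin 2 × Fin 2) F,
    (∀ i, MvPolynomial.eval (fun z => r z.1 z.2.1 z.2.2) (t i) = 0) ∧
    ∀ (B : Type) [CommRing B] [IsDomain B] [Base B] [Algebra F B] (ρ : G →* M2 B), Bor r ρ →
      (∀ i, MvPolynomial.aeval (fun z => ρ z.1 z.2.1 z.2.2) (t i) = 0) →
      ∀ x, ρ x = (r x).map (algebraMap F B)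

/-- **the universal lift is absolutely irreducible on every component of dimension seven** -/
def GIRo {O : Type} [CommRing O] [IsLocalRing O] [Algebra O F] (r : G →* M2 F) (s : F → O)
    (d : G → O) : Prop :=
  ∀ (τ : Type) [Fintype τ] (g : τ → G) (p q : τ → Fin 2) (I : Ideal (PS O τ))
    (f : G → M2 (PS O τ)) (J : Ideal (PS O τ)), Uni r s d g p q I f → J.IsPrime → I ≤ J →
    ((6 + 1 : ℕ) : WithBot ℕ∞) ≤ ringKrullDim (PS O τ ⧸ J) →
      ∃ x : Fin 4 → G, d4 (fun i => f (x i)) ∉ J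

end

/-- row GSH: the shell -/
def GSH : Prop := ∀ (G F O : Type) [Group G] [TopologicalSpace G] [IsTopologicalGroup G]
  [Field F] [Finite F] [CommRing O] [IsDomain O] [IsDiscreteValuationRing O] [Cf O] [Algebra O F]
  (r : G →* M2 F) (s : F → O) (d : G → O), (∀ x, algebraMap O F (s x) = x) → Spl r →
  (∃ x, ∀ c : F, r x ≠ c • (1 : M2 F)) →
  (∀ (r' : G →* M2 F) (A B : M2 F), A * B = 1 → (∀ x, r' x = B * r x * A) →
    (∀ x, r' x 1 0 = 0) → CT r') → GIRo r s d

/-- row CTO: odd primes -/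
def CTO : Prop := ∀ (p : ℕ) [Fact p.Prime] (F : Type) [Field F] [Finite F] [CharP F p] (P : Id)
  (ω : dec P →* (ZMod p)ˣ) (r : dec P →* M2 F), p ≠ 2 → Ov p P → Cy (dec P).subtype p ω →
  IsLocallyConstant r → (∀ x, (r x).det = (up ω x : Fˣ)) →
    (∃ x, ∀ c : F, r x ≠ c • (1 : M2 F)) ∧ ((∀ x, r x 1 0 = 0) → CT r)

/-- row CT2: the prime two -/
def CT2 : Prop := ∀ (F : Type) [Field F] [Finite F] [CharP F 2] (P : Id) (r : dec P →* M2 F),
  Ov 2 P → IsLocallyConstant r → (∀ x, (r x).det = 1) → (∃ x, r x ≠ 1) → (∀ x, r x 1 0 = 0) → CT r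

/-- **row GIR, odd primes** -/
def GIR : Prop := ∀ (p : ℕ) [Fact p.Prime] (F O : Type) [Field F] [Finite F] [CharP F p]
  [CommRing O] [IsDomain O] [IsDiscreteValuationRing O] [Cf O] [Algebra O F] (P : Id)
  (ω : dec P →* (ZMod p)ˣ) (r : dec P →* M2 F) (s : F → O) (d : dec P → O), p ≠ 2 →
  Ov p P → Cy (dec P).subtype p ω → IsLocallyConstant r → Spl r →
  (∀ x, (r x).det = (up ω x : Fˣ)) → (∀ x, algebraMap O F (s x) = x) → GIRo r s d

/-- **row GIR, the prime two** -/
def GIR2 : Prop := ∀ (F O : Type) [Field F] [Finite F] [CharP F 2]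
  [CommRing O] [IsDomain O] [IsDiscreteValuationRing O] [Cf O] [Algebra O F] (P : Id)
  (r : dec P →* M2 F) (s : F → O) (d : dec P → O), Ov 2 P → IsLocallyConstant r → Spl r →
  (∀ x, (r x).det = 1) → (∀ x, algebraMap O F (s x) = x) → (∃ x, r x ≠ 1) → GIRo r s d

theorem det_cj {F : Type} [Field F] {A B : M2 F} (h : A * B = 1) (m : M2 F) :
    (B * m * A).det = m.det := by
  rw [Matrix.det_mul, Matrix.det_mul, mul_right_comm, ← Matrix.det_mul, mul_eq_one_comm.1 h,
    Matrix.det_one, one_mul]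

theorem lc_cj {G F : Type} [Group G] [TopologicalSpace G] [Field F] {r r' : G →* M2 F}
    {A B : M2 F} (hr : IsLocallyConstant r) (e : ∀ x, r' x = B * r x * A) :
    IsLocallyConstant r' := by
  rw [show (r' : G → M2 F) = _ from funext e]
  exact hr.comp fun X => B * X * A

theorem gir_of (hS : GSH) (hC : CTO) : GIR := fun p _ F O _ _ _ _ _ _ _ _ P ω r s d hp h hω hr
    sp dt hs =>
  hS _ F O r s d hs sp (hC p F P ω r hp h hω hr dt).1 fun r' A B e e' u =>
    (hC p F P ω r' hp h hω (lc_cj hr e') fun x => by rw [e', det_cj e, dt]).2 u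

theorem gir2_of (hS : GSH) (hC : CT2) : GIR2 := fun F O _ _ _ _ _ _ _ _ P r s d h hr sp dt hs
    ⟨x, hx⟩ =>
  hS _ F O r s d hs sp ⟨x, fun c e => hx (by
    have h1 := dt x
    rw [e, Matrix.det_smul, Matrix.det_one, mul_one, Fintype.card_fin] at h1
    have two : (2 : F) = 0 := by exact_mod_cast CharP.cast_eq_zero F 2
    have h2 : (c - 1) ^ 2 = 0 := by linear_combination h1 + (1 - c) * two
    rw [e, sub_eq_zero.1 (pow_eq_zero_iff two_ne_zero |>.1 h2), one_smul])⟩ fun r' A B e e' u =>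
    hC F P r' h (lc_cj hr e') (fun x => by rw [e', det_cj e, dt]) ⟨x, fun k => hx (by
      have := congrArg (A * · * B) (k.symm.trans (e' x))
      simp only [mul_one, e] at this
      rw [this, ← mul_assoc, ← mul_assoc, e, one_mul, mul_assoc, e, mul_one])⟩ u

end Vale.Agent.P022K.RT
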