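import Vale.Agent.P022K.RT.St2
import Vale.Agent.P022K.Iw.Lim
import Vale.Agent.P022D.Du.Bas

/-!
# P022K, block RT: row DUAL (the dual of a cofree module is free)
-/

set_option linter.all false

noncomputable section

namespace Vale.Agent.P022K.RT

open IsLocalRing MvPowerSeries Filter
open Vale.Agent.P022D.Core (PS)
open Vale.Agent.P022K.PL (Cf Fl)
open Vale.Agent.P022K.Iw (Adm Gen Ind Fr St IsP RegX)
open Vale.Agent.P022D.Du (exists_eval exists_dual dual_app)

namespace Dl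

/-- submodules of the dual of a finite module are closed -/
theorem mem_of_perp {O X : Type} [CommRing O] [AddCommGroup X] [Module O X] [Finite X]
    (W : Submodule O (CharacterModule X)) {χ : CharacterModule X}
    (h : ∀ m, (∀ χ' ∈ W, χ' m = 0) → χ m = 0) : χ ∈ W := by
  by_contra hn
  obtain ⟨Ψ, hΨ⟩ := CharacterModule.exists_character_apply_ne_zero_of_ne_zero
    (a := W.mkQ χ) fun e => hn ((Submodule.Quotient.mk_eq_zero W).1 e)
  obtain ⟨m, hm⟩ := exists_eval (CharacterModule.dual W.mkQ Ψ)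
  refine hΨ ((hm χ).trans (h m fun χ' h' => (hm χ').symm.trans ?_))
  rw [dual_app, Submodule.mkQ_apply, (Submodule.Quotient.mk_eq_zero W).2 h', map_zero]

variable {O K β : Type} [CommRing O] [IsDomain O] [IsDiscreteValuationRing O] [Group K]

variable (O) in
/-- a generator of the dual of `O / m ^ j` -/
theorem exists_psi (j : ℕ) : ∃ ψ : CharacterModule O,
    ∀ c, (∀ o, ψ (c * o) = 0) ↔ c ∈ maximalIdeal O ^ j := by
  obtain ⟨ϖ, hϖ⟩ := IsDiscreteValuationRing.exists_irreducible O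
  have hm : ∀ n (c : O), c ∈ maximalIdeal O ^ n ↔ ϖ ^ n ∣ c := fun n c => by
    rw [hϖ.maximalIdeal_eq, Ideal.span_singleton_pow, Ideal.mem_span_singleton]
  cases j with
  | zero => exact ⟨0, fun c => ⟨fun _ => by simp, fun _ _ => rfl⟩⟩
  | succ j =>
    obtain ⟨ψ, hψ⟩ := CharacterModule.exists_character_apply_ne_zero_of_ne_zero
      (a := (maximalIdeal O ^ (j + 1)).mkQ (ϖ ^ j)) fun e => by
        have := (hm _ _).1 ((Submodule.Quotient.mk_eq_zero _).1 e)
        rw [pow_dvd_pow_iff hϖ.ne_zero hϖ.not_isUnit] at this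
        omega
    refine ⟨CharacterModule.dual (maximalIdeal O ^ (j + 1)).mkQ ψ, fun c => ⟨fun h => ?_,
      fun h o => ?_⟩⟩
    · by_contra hc
      have h0 : c ≠ 0 := fun e => hc (e ▸ zero_mem _)
      obtain ⟨n, u, rfl⟩ := IsDiscreteValuationRing.eq_unit_mul_pow_irreducible h0 hϖ
      have h1 : n ≤ j := by
        by_contra h2
        exact hc ((hm _ _).2 (Dvd.dvd.mul_left (pow_dvd_pow _ (by omega)) _))
      refine hψ ?_
      have := h ((u⁻¹ : Oˣ) * ϖ ^ (j - n))
      rwa [mul_mul_mul_comm, Units.mul_inv, one_mul, ← pow_add, Nat.add_sub_cancel' h1] at this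
    · rw [dual_app, Submodule.mkQ_apply,
        (Submodule.Quotient.mk_eq_zero _).2 (Ideal.mul_mem_right _ _ h), map_zero]

variable {X : Type} [AddCommGroup X] [Module O X] {N : ℕ → Subgroup K} {t : ℕ}

/-- the dual representation -/
def dl (ρ : K →* Module.End O X) : K →* Module.End O (CharacterModule X) where
  toFun g := CharacterModule.dual (ρ g⁻¹)
  map_one' := by ext χ m; rw [dual_app, inv_one, map_one]; rfl
  map_mul' a b := by ext χ m; rw [dual_app, mul_inv_rev, map_mul]; rfl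

theorem dl_app (ρ : K →* Module.End O X) (g : K) (χ : CharacterModule X) (m : X) :
    dl ρ g χ m = χ (ρ g⁻¹ m) := rfl

variable {ρ : K →* Module.End O X}

theorem adm_dl (h : Adm N t ρ) : Adm N t (dl ρ) :=
  ⟨fun γ hγ => by ext χ m; rw [dl_app, h.triv _ (inv_mem hγ)]; rfl,
    fun c hc χ => by ext m; rw [CharacterModule.smul_apply, h.tor c hc, map_zero]; rfl⟩

theorem mem_fr [Finite X] {χ : CharacterModule X}
    (h : ∀ m, (∀ γ, ρ γ m = m) → (∀ c ∈ maximalIdeal O, c • m = 0) → χ m = 0) :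
    χ ∈ Fr (dl ρ) 1 :=
  mem_of_perp _ fun m hm => h m
    (fun γ => sub_eq_zero.1 (CharacterModule.eq_zero_of_character_apply fun χ' => by
      have := hm _ (Iw.St.sub_mem (ρ := dl ρ) (W := ⊤) γ⁻¹ (v := χ') trivial)
      rw [map_sub]
      exact (show χ' (ρ γ⁻¹⁻¹ m) - χ' m = 0 from this) ▸ by rw [inv_inv]))
    fun c hc => CharacterModule.eq_zero_of_character_apply fun χ' =>
      hm _ (Iw.St.smul_mem (ρ := dl ρ) (W := ⊤) hc (v := χ') trivial)

variable [Fintype β]

theorem free_dl [Cf O] [Finite (K ⧸ N t)] (hN : (N t).Normal) (ha : Adm N t ρ) {x : β → X}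
    (h1 : Gen ρ x) (h2 : Ind N t ρ x) :
    Finite X ∧ ∃ z : β → CharacterModule X, Gen (dl ρ) z ∧ Ind N t (dl ρ) z := by
  classical
  have := Fintype.ofFinite (K ⧸ N t)
  let s : ((K ⧸ N t) → β → O) →ₗ[O] X :=
    { toFun := fun c => ∑ q, ∑ b, c q b • ρ q.out (x b)
      map_add' := fun a b => by simp [add_smul, Finset.sum_add_distrib]
      map_smul' := fun c a => by simp [Finset.smul_sum, mul_smul] }
  have hs : ∀ c, s c = ∑ q, ∑ b, c q b • ρ q.out (x b) := fun _ => rfl
  have s1 : ∀ (γ : K) b o, s (Pi.single (γ : K ⧸ N t) (Pi.single b o)) = o • ρ γ (x b) := by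
    intro γ b o
    rw [hs, Finset.sum_eq_single (γ : K ⧸ N t) (fun q _ hq => by simp [hq]) (by simp),
      Pi.single_eq_same, Finset.sum_eq_single b (fun q _ hq => by simp [hq]) (by simp),
      Pi.single_eq_same, ha.out]
  have s2 : Function.Surjective s := by
    rw [← LinearMap.range_eq_top, eq_top_iff, ← h1, Submodule.span_le]
    rintro _ ⟨q, rfl⟩
    exact ⟨_, (s1 q.1 q.2 1).trans (one_smul _ _)⟩
  have s3 : ∀ c, s c = 0 ↔ ∀ q b, c q b ∈ maximalIdeal O ^ t := fun c => by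
    refine ⟨fun h q b => ?_, fun h => Finset.sum_eq_zero fun q _ => Finset.sum_eq_zero fun b _ =>
      ha.tor _ (h q b) _⟩
    have := h2 (Finset.univ.image Quotient.out) (fun γ => c γ) (by
      intro a h1 b h2 e
      obtain ⟨q, -, rfl⟩ := Finset.mem_image.1 h1
      obtain ⟨q', -, rfl⟩ := Finset.mem_image.1 h2
      have := QuotientGroup.eq.2 e
      rw [QuotientGroup.out_eq', QuotientGroup.out_eq'] at this
      rw [this]) (by
      rw [Finset.sum_image fun a _ b _ e => Quotient.out_injective e]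
      refine Eq.trans (Finset.sum_congr rfl fun q _ => ?_) ((hs c).symm.trans h)
      rw [QuotientGroup.out_eq']) q.out
      (Finset.mem_image_of_mem _ (Finset.mem_univ q)) b
    rwa [QuotientGroup.out_eq'] at this
  have s4 : ∀ (γ : K) c, ρ γ⁻¹ (s c) = s fun q => c (γ * q) := fun γ c => by
    rw [hs, hs, map_sum, ← Equiv.sum_comp (Equiv.mulLeft (γ : K ⧸ N t))]
    refine Finset.sum_congr rfl fun q _ => ?_
    rw [map_sum]
    refine Finset.sum_congr rfl fun b _ => ?_
    obtain ⟨δ, rfl⟩ := QuotientGroup.mk_surjective q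
    simp only [Equiv.coe_mulLeft]
    rw [map_smul, ← QuotientGroup.mk_mul, ha.out, ha.out, ← Module.End.mul_apply,
      ← map_mul, inv_mul_cancel_left]
  have hfin : Finite X := by
    have h0 : Finite (O ⧸ maximalIdeal O) := (inferInstance : Cf O).fin
    have := Ideal.finite_quotient_pow (IsNoetherian.noetherian (maximalIdeal O)) t
    refine Finite.of_surjective (fun c : (K ⧸ N t) → β → O ⧸ maximalIdeal O ^ t =>
      s fun q b => (c q b).out) fun w => ?_
    obtain ⟨c, rfl⟩ := s2 w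
    refine ⟨fun q b => Ideal.Quotient.mk _ (c q b), ?_⟩
    rw [← sub_eq_zero, ← map_sub, s3]
    exact fun q b => Ideal.Quotient.eq.1 (Ideal.Quotient.mk_out _)
  obtain ⟨ψ, hψ⟩ := exists_psi O t
  choose z hz using fun b => exists_dual s (CharacterModule.dual
    ((LinearMap.proj b : (β → O) →ₗ[O] O) ∘ₗ LinearMap.proj (1 : K ⧸ N t)) ψ) fun c hc => by
      have := (hψ _).2 ((s3 c).1 hc 1 b) 1
      rwa [mul_one] at this
  have z1 : ∀ (o : O) (γ : K) b c, (o • dl ρ γ (z b)) (s c) = ψ (c γ b * o) := fun o γ b c => by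
    rw [CharacterModule.smul_apply, dl_app, ← map_smul, s4, ← dual_app, hz, dual_app]
    simp [mul_comm]
  refine ⟨hfin, z, eq_top_iff.2 fun χ _ => mem_of_perp _ fun m hm => ?_, fun S a hS h γ hγ b => ?_⟩
  · obtain ⟨c, rfl⟩ := s2 m
    rw [(s3 c).2 fun q b => ?_, map_zero]
    obtain ⟨γ, rfl⟩ := QuotientGroup.mk_surjective q
    exact (hψ _).1 fun o => (z1 o γ b c).symm.trans
      (hm _ (Submodule.smul_mem _ _ (Submodule.subset_span ⟨(γ, b), rfl⟩)))
  · refine (hψ _).1 fun o => ?_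
    have h3 := congrArg (fun χ : CharacterModule X =>
      χ (s (Pi.single (γ : K ⧸ N t) (Pi.single b o)))) h
    simp only [P022D.Du.sum_apply, z1] at h3
    rw [Finset.sum_eq_single γ (fun δ hδ e => Finset.sum_eq_zero fun b' _ => by
      rw [Pi.single_eq_of_ne fun e' => e (hS δ hδ γ hγ (QuotientGroup.eq.1 e')), Pi.zero_apply,
        zero_mul, map_zero]) (fun e => absurd hγ e), Pi.single_eq_same,
      Finset.sum_eq_single b (fun b' _ e => by rw [Pi.single_eq_of_ne e, zero_mul, map_zero])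
        (by simp), Pi.single_eq_same, mul_comm] at h3
    exact h3

variable [DecidableEq β] {e r : ℕ} {k : Fin e ⊕ Fin r → K}
  {lam : K →* Module.End O (PS O (Fin e ⊕ Fin r))}

/-- a tower of free modules -/
theorem tower [Cf O] (hfin : ∀ t, Finite (K ⧸ N t)) (hR : RegX k N lam) {Y : ℕ → Type}
    [∀ n, AddCommGroup (Y n)] [∀ n, Module O (Y n)] (σ : ∀ n, K →* Module.End O (Y n))
    (τ : ∀ n, Y (n + 1) →ₗ[O] Y n) (lv : ℕ → ℕ) (adm : ∀ n, Adm N (lv n) (σ n))
    (free : ∀ n, ∃ z : β → Y n, Gen (σ n) z ∧ Ind N (lv n) (σ n) z)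
    (τe : ∀ n γ w, τ n (σ (n + 1) γ w) = σ n γ (τ n w)) (τs : ∀ n, Function.Surjective (τ n))
    (τk : ∀ n w, τ n w = 0 → w ∈ Fr (σ (n + 1)) 1) :
    ∃ π : ∀ n, (β → PS O (Fin e ⊕ Fin r)) →ₗ[O] Y n, (∀ n, ∃ x, IsP lam (σ n) x (π n)) ∧
      (∀ n v, π n v = 0 → v ∈ Fl O (Fin e) r (β → PS O (Fin e ⊕ Fin r)) (lv n)) ∧
      (∀ n v, τ n (π (n + 1) v) = π n v) ∧
      ∀ w : ∀ n, Y n, (∀ n, τ n (w (n + 1)) = w n) → ∃ v, ∀ n, π n v = w n := by
  choose z hz1 hz2 using free
  choose l hl using τs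
  let x : ∀ n, β → Y n := fun n =>
    Nat.rec (motive := fun n => β → Y n) (z 0) (fun n x b => l n (x b)) n
  have hx : ∀ n b, τ n (x (n + 1) b) = x n b := fun n b => hl n _
  have gY : ∀ n, Gen (σ n) (x n) := by
    intro n
    induction n with
    | zero => exact hz1 0
    | succ n ih =>
      obtain ⟨j, hj⟩ := hR.fr_bot (adm (n + 1)) (hz1 (n + 1))
      exact Iw.Gen.lift (τ n) (τe n) (τk n) (by simpa only [hx] using ih) hj
  choose π a1 a2 a3 a4 using fun n => hR.pm_free (adm n) ⟨z n, hz1 n, hz2 n⟩ (gY n)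
  have b2 : ∀ n v, τ n (π (n + 1) v) = π n v := fun n v => by
    have h1 := (a1 (n + 1)).comp (τ n) (τe n)
    simp only [hx] at h1
    exact LinearMap.congr_fun (h1.unique hR.toReg (a1 n)) v
  refine ⟨π, fun n => ⟨_, a1 n⟩, a4, b2, fun w hw => ?_⟩
  choose u _ hu using fun n => a3 n 0 (w n) trivial
  have := PL.base_ps O (Fin e ⊕ Fin r)
  obtain ⟨v, hv⟩ := PL.mod_lim (A := PS O (Fin e ⊕ Fin r)) (hyperfilter ℕ) u
  refine ⟨v, fun t => ?_⟩
  obtain ⟨j, hj⟩ := (a1 t).cts
  obtain ⟨n, h1, h2⟩ := ((hv j).and (Nat.hyperfilter_le_atTop (eventually_ge_atTop t))).exists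
  have h3 := hj _ h1
  rw [map_sub, sub_eq_zero] at h3
  rw [h3]
  exact Nat.decreasingInduction (motive := fun t _ => π t (u n) = w t)
    (fun t _ ih => by rw [← b2, ih, hw]) (hu n) h2

section

variable {R M : Type} [CommRing R] [Algebra O R] [AddCommGroup M] [Module O M] [Module R M]
  [IsScalarTower O R M] {ρ : K →* Module.End R M}

omit [IsDomain O] [IsDiscreteValuationRing O] in
theorem lv_mono [IsLocalRing O] (h : Antitone N) {i j : ℕ} (e : i ≤ j) :
    Lv O N ρ i ≤ Lv O N ρ j := fun _ hv =>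
  ⟨fun g hg => hv.1 g (h e hg), fun o ho => hv.2 o (Ideal.pow_le_pow_right e ho)⟩

omit [IsDomain O] [IsDiscreteValuationRing O] in
theorem lv_act [IsLocalRing O] {j : ℕ} (h : (N j).Normal) (g : K) :
    ∀ v ∈ Lv O N ρ j, ρ g v ∈ Lv O N ρ j := fun v hv =>
  ⟨fun γ hγ => by
    have := hv.1 _ (h.conj_mem' γ hγ g)
    rw [← Module.End.mul_apply, ← map_mul, show γ * g = g * (g⁻¹ * γ * g) by group, map_mul,
      Module.End.mul_apply, this], fun o ho => by rw [← LinearMap.map_smul_of_tower, hv.2 o ho, map_zero]⟩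

variable (O ρ) in
/-- the action on the vectors of level `j` -/
def lr {j : ℕ} (h : (N j).Normal) : K →* Module.End O (Lv O N ρ j) where
  toFun g := ((ρ g).restrict (lv_act h g)).restrictScalars O
  map_one' := by ext; simp
  map_mul' a b := by ext; simp

theorem lr_val {j : ℕ} (h : (N j).Normal) (g : K) (v : Lv O N ρ j) :
    (lr O ρ h g v).1 = ρ g v.1 := rfl

theorem adm_lr {j : ℕ} (h : (N j).Normal) : Adm N j (lr O ρ h) :=
  ⟨fun γ hγ => LinearMap.ext fun v => Subtype.ext (v.2.1 γ hγ),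
    fun c hc v => Subtype.ext (v.2.2 c hc)⟩

theorem free_lr {b j : ℕ} (h : (N j).Normal) (hf : Fre O N ρ b j) :
    ∃ x : Fin b → Lv O N ρ j, Gen (lr O ρ h) x ∧ Ind N j (lr O ρ h) x := by
  obtain ⟨x, h1, h2, h3⟩ := hf
  refine ⟨fun i => ⟨x i, h1 i⟩, eq_top_iff.2 fun v _ => ?_, fun s c hs e => h3 s c hs ?_⟩
  · let ι : Lv O N ρ j →ₗ[O] M := (Lv O N ρ j).subtype.restrictScalars O
    rw [← Submodule.apply_mem_span_image_iff_mem_span (f := ι) Subtype.val_injective,
      ← Set.range_comp]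
    exact h2 v.1 v.2
  · simpa [lr_val] using congrArg Subtype.val e

end

end Dl

open Dl in
/-- **row DUAL** -/
theorem dual : DUAL := by
  intro O R K M _ _ _ hO _ _ _ _ _ _ _ p e r b hp k N ρ h1 hU hC
  obtain ⟨lam, hR⟩ := Iw.regX hO.cpl hp.out h1 hU
  have hfin : ∀ t, Finite (K ⧸ N t) := fun t => Nat.finite_of_card_ne_zero (by
    rw [← Subgroup.index, (Iw.un_of_unf hU).idx hp.out]; exact pow_ne_zero _ hp.out.ne_zero)
  have hf := fun n => (free_lr (hU.nor n) (hC.fre n)).elim fun x hx =>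
    free_dl (hU.nor n) (adm_lr (hU.nor n)) hx.1 hx.2
  let ι : ∀ n, Lv O N ρ (n + 1) →ₗ[O] Lv O N ρ (n + 1 + 1) := fun n =>
    (Submodule.inclusion (lv_mono hU.anti (Nat.le_succ _))).restrictScalars O
  obtain ⟨π, a1, a2, a3, a4⟩ := tower (β := Fin b) hfin hR
    (fun n => dl (lr O ρ (hU.nor (n + 1)))) (fun n => CharacterModule.dual (ι n)) (· + 1)
    (fun n => adm_dl (adm_lr _)) (fun n => (hf (n + 1)).2) (fun n γ w => rfl)
    (fun n => CharacterModule.dual_surjective_of_injective _ fun a b e =>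
      Subtype.ext (congrArg Subtype.val e :))
    fun n χ h => by
      have := (hf (n + 1 + 1)).1
      refine mem_fr fun m k1 k2 => ?_
      have h3 : m.1 ∈ Lv O N ρ (n + 1) := ⟨fun g _ => congrArg Subtype.val (k1 g), fun o ho =>
        congrArg Subtype.val (k2 o (Ideal.pow_le_self (Nat.succ_ne_zero n) ho))⟩
      exact congrArg (fun χ : CharacterModule (Lv O N ρ (n + 1)) => χ ⟨m.1, h3⟩) h
  have up : ∀ v m n (h : m ∈ Lv O N ρ (n + 1)) n' (e : n ≤ n'),
      π n' v ⟨m, lv_mono hU.anti (Nat.succ_le_succ e) h⟩ = π n v ⟨m, h⟩ := by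
    intro v m n h n' e
    induction n', e using Nat.le_induction with
    | base => rfl
    | succ n' e ih => rw [← ih, ← a3 n' v]; rfl
  choose c hc using fun m => (hC.sm m).imp fun j h => lv_mono (ρ := ρ) hU.anti (Nat.le_succ j) h
  have ev : ∀ v m n (h : m ∈ Lv O N ρ (n + 1)), π (c m) v ⟨m, hc m⟩ = π n v ⟨m, h⟩ :=
    fun v m n h => (up v m _ (hc m) _ (le_max_left _ n)).symm.trans (up v m _ h _ (le_max_right _ n))
  let B : (Fin b → PS O (Fin e ⊕ Fin r)) →+ CharacterModule M :=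
    { toFun := fun v =>
        ({ toFun := fun m => π (c m) v ⟨m, hc m⟩
           map_zero' := map_zero _
           map_add' := fun m m' => by
             have h2 := lv_mono hU.anti (Nat.succ_le_succ (le_max_left (c m) (c m'))) (hc m)
             have h3 := lv_mono hU.anti (Nat.succ_le_succ (le_max_right (c m) (c m'))) (hc m')
             rw [ev v _ _ (add_mem h2 h3), ev v _ _ h2, ev v _ _ h3, ← map_add]
             rfl } : M →+ AddCircle (1 : ℚ))
      map_zero' := by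
        ext m; exact congrArg (fun χ : CharacterModule _ => χ ⟨m, hc m⟩) (π (c m)).map_zero
      map_add' := fun v v' => by
        ext m
        exact congrArg (fun χ : CharacterModule _ => χ ⟨m, hc m⟩) ((π (c m)).map_add v v') }
  have hB : ∀ v m n (h : m ∈ Lv O N ρ (n + 1)), B v m = π n v ⟨m, h⟩ := ev
  have hk : ∀ v n, (∀ m ∈ Lv O N ρ (n + 1), B v m = 0) →
      v ∈ Fl O (Fin e) r (Fin b → PS O (Fin e ⊕ Fin r)) n := fun v n h =>
    Iw.Fl_anti (Nat.le_succ n) (a2 n v (CharacterModule.ext _ fun m =>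
      (hB v m.1 n m.2).symm.trans (h _ m.2)))
  refine ⟨lam, B, hR.toReg, ⟨(injective_iff_map_eq_zero B).2 fun v hv => PL.Fl_sep fun n =>
    hk v n fun m _ => by rw [hv]; rfl, fun χ => ?_⟩, fun o v m => ?_, fun g v m => ?_,
    fun j => ?_, fun j => ⟨j + 1, fun v => hk v j⟩⟩
  · obtain ⟨v, hv⟩ := a4 (fun n => CharacterModule.dual
      ((Lv O N ρ (n + 1)).subtype.restrictScalars O) χ) fun n => rfl
    exact ⟨v, CharacterModule.ext _ fun m => by rw [hB v m _ (hc m), hv]; rfl⟩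
  · rw [hB _ m _ (hc m), Iw.pi_C, hB v _ _ ((Lv O N ρ _).smul_of_tower_mem o (hc m))]
    rfl
  · obtain ⟨x, hx⟩ := a1 (c m)
    rw [hB _ _ _ (lv_act (hU.nor _) g m (hc m)), hx.eqv, dl_app, hB v m _ (hc m)]
    congr 1
    exact Subtype.ext (by
      rw [lr_val, ← Module.End.mul_apply, ← map_mul, inv_mul_cancel, map_one]; rfl)
  · obtain ⟨x, hx⟩ := a1 j
    obtain ⟨j', hj⟩ := hx.cts
    exact ⟨j', fun v hv m hm => by
      rw [hB v m j (lv_mono hU.anti (Nat.le_succ j) hm), hj v hv]; rfl⟩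

end Vale.Agent.P022K.RT
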