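import Vale.Agent.P022K.RT.GeoA
import Vale.Agent.P022K.RT.St
import Vale.Agent.P022K.PL.Acc
import Vale.Agent.P022D.Rl.Ch0

/-!
# P022K, block RT: rows FLAT, SUMD, GEO, JAC
-/

set_option linter.all false

noncomputable section

namespace Vale.Agent.P022K.RT

open IsLocalRing MvPowerSeries
open Vale.Agent.P022D.PA (Base Cv)
open Vale.Agent.P022D.Core (PS)
open Vale.Agent.P022D.CA (emb dimGE_mono dimGE_prime dimGE_succ dimGE_sup)
open Function (Embedding)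

namespace Geo

section ind
variable {O : Type} [CommRing O] {P R : ∀ τ : Type, Ideal (PS O τ) → ℕ → Prop}
  (heq : ∀ (τ σ : Type) (u : τ ≃ σ) J k, P τ J k → P σ (J.map (rename (R := O) u)) k)
  (hs : ∀ (τ τ' : Type) [Fintype τ] [Fintype τ'] J K k k', P τ J k → R τ' K k' →
    P (τ' ⊕ τ) (J.map (rename (R := O) (Embedding.inr : τ ↪ τ' ⊕ τ)) ⊔
      K.map (rename (R := O) (Embedding.inl : τ' ↪ τ' ⊕ τ))) (k + k'))
  (hb : ∀ (τ : Type) [Fintype τ], R τ ⊥ (Nat.card τ))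

include heq hs in
theorem ind_two {τ τ' σ : Type} [Finite σ] {J : Ideal (PS O τ)} {K : Ideal (PS O τ')} {k k' : ℕ}
    (hJ : P τ J k) (hK : R τ' K k') (e : τ ↪ σ) (e' : τ' ↪ σ) (hd : ∀ a b, e a ≠ e' b)
    (hc : ∀ s, (∃ a, e a = s) ∨ ∃ b, e' b = s) :
    P σ (J.map (rename (R := O) e) ⊔ K.map (rename (R := O) e')) (k + k') ∧
      Nat.card σ = Nat.card τ' + Nat.card τ := by
  have _ := Finite.of_injective _ e.injective
  have _ := Finite.of_injective _ e'.injective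
  have _ := Fintype.ofFinite τ
  have _ := Fintype.ofFinite τ'
  let u : τ' ⊕ τ ≃ σ := Equiv.ofBijective (Sum.elim e' e)
    ⟨e'.injective.sumElim e.injective fun a b h => hd b a h.symm, fun s => by
      rcases hc s with ⟨a, h⟩ | ⟨a, h⟩
      · exact ⟨Sum.inr a, h⟩
      · exact ⟨Sum.inl a, h⟩⟩
  have h := heq _ _ u _ _ (hs τ τ' J K k k' hJ hK)
  rw [Ideal.map_sup] at h
  exact ⟨(map_rename J Embedding.inr u.toEmbedding e fun _ => rfl) ▸
    (map_rename K Embedding.inl u.toEmbedding e' fun _ => rfl) ▸ h,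
    (Nat.card_congr u).symm.trans Nat.card_sum⟩

include heq hs hb in
theorem ind_fin {β τ₀ : Type} {τ : β → Type} {J : Ideal (PS O τ₀)} {k₀ : ℕ} (hJ : P τ₀ J k₀)
    (K : ∀ b, Ideal (PS O (τ b))) (k : β → ℕ) (S : Finset β) : (∀ b ∈ S, R _ (K b) (k b)) →
    ∀ (σ : Type) [Finite σ] (e₀ : τ₀ ↪ σ) (e : ∀ b ∈ S, τ b ↪ σ),
      (∀ b hb t t', e₀ t ≠ e b hb t') → (∀ b hb b' hb' t t', e b hb t = e b' hb' t' → b = b') →
      ∃ n, k₀ + ∑ b ∈ S, k b + Nat.card σ = n + Nat.card τ₀ + ∑ b ∈ S, Nat.card (τ b) ∧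
        P σ (J.map (rename (R := O) e₀) ⊔
          ⨆ (b) (hb : b ∈ S), (K b).map (rename (R := O) (e b hb))) n := by
  classical
  induction S using Finset.induction_on with
  | empty =>
    intro _ σ _ e₀ e _ _
    have _ := Fintype.ofFinite {s // ¬ ∃ a, e₀ a = s}
    obtain ⟨h1, h2⟩ := ind_two heq hs hJ (hb {s // ¬ ∃ a, e₀ a = s}) e₀ (Embedding.subtype _)
      (fun a b h => b.2 ⟨a, h⟩) fun s => (em _).imp_right fun h => ⟨⟨s, h⟩, rfl⟩
    refine ⟨k₀ + Nat.card {s // ¬ ∃ a, e₀ a = s}, ?_, by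
      simpa only [Finset.notMem_empty, Ideal.map_bot, iSup_neg, not_false_eq_true, iSup_bot,
        IsEmpty.forall_iff, iSup_of_empty, iSup_false] using h1⟩
    simp only [Finset.sum_empty, h2]
    omega
  | insert b S hb ih =>
    intro hK σ _ e₀ e h0 h1
    have mb := Finset.mem_insert_self b S
    let σ' := {s // ¬ ∃ a, e b mb a = s}
    let i : σ' ↪ σ := Embedding.subtype _
    let g₀ : τ₀ ↪ σ' := ⟨fun t => ⟨e₀ t, fun ⟨a, h⟩ => h0 b mb t a h.symm⟩,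
      fun a a' h => e₀.injective (congrArg Subtype.val h)⟩
    let g : ∀ c ∈ S, τ c ↪ σ' := fun c hc =>
      ⟨fun t => ⟨e c (Finset.mem_insert_of_mem hc) t, fun ⟨a, h⟩ => hb (h1 _ _ _ _ _ _ h ▸ hc)⟩,
        fun a a' h => (e c _).injective (congrArg Subtype.val h)⟩
    obtain ⟨n, hn, h2⟩ := ih (fun c hc => hK c (Finset.mem_insert_of_mem hc)) σ' g₀ g
      (fun c hc t t' h => h0 c _ t t' (congrArg Subtype.val h))
      (fun c hc c' hc' t t' h => h1 c _ c' _ t t' (congrArg Subtype.val h))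
    obtain ⟨h3, h4⟩ := ind_two heq hs h2 (hK b mb) i (e b mb) (fun a t h => a.2 ⟨t, h.symm⟩)
      fun s => (em _).symm.imp_left fun h => ⟨⟨s, h⟩, rfl⟩
    refine ⟨n + k b, by rw [Finset.sum_insert hb, Finset.sum_insert hb, h4]; omega, ?_⟩
    rw [Ideal.map_sup, map_rename J g₀ i e₀ fun _ => rfl, Ideal.map_iSup] at h3
    simp only [Ideal.map_iSup] at h3
    convert h3 using 1
    rw [sup_assoc]
    congr 1
    refine le_antisymm (iSup₂_le fun c hc => ?_) (sup_le (iSup₂_le fun c hc => ?_) ?_)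
    · rcases Finset.mem_insert.1 hc with rfl | hc'
      · exact le_sup_right
      · refine le_sup_of_le_left (le_iSup₂_of_le c hc' ?_)
        rw [map_rename (K c) (g c hc') i (e c hc) fun _ => rfl]
    · rw [map_rename (K c) (g c hc) i (e c (Finset.mem_insert_of_mem hc)) fun _ => rfl]
      exact le_iSup₂_of_le c (Finset.mem_insert_of_mem hc) le_rfl
    · exact le_iSup₂_of_le b mb le_rfl

include heq hs hb in
theorem ind_all {β τ₀ σ : Type} [Fintype β] [Fintype σ] [Fintype τ₀] {τ : β → Type}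
    [∀ b, Fintype (τ b)] {J : Ideal (PS O τ₀)} {k₀ : ℕ}
    (hJ : P τ₀ J k₀) (K : ∀ b, Ideal (PS O (τ b))) (k : β → ℕ) (hK : ∀ b, R _ (K b) (k b))
    (e₀ : τ₀ ↪ σ) (e : (Σ b, τ b) ↪ σ) (hd : ∀ a b, e a ≠ e₀ b) :
    ∃ n, k₀ + ∑ b, k b + Fintype.card σ = n + Fintype.card τ₀ + ∑ b, Fintype.card (τ b) ∧
      P σ (J.map (rename (R := O) e₀) ⊔ sumI e K) n := by
  obtain ⟨n, h1, h2⟩ := ind_fin heq hs hb hJ K k Finset.univ (fun b _ => hK b) σ e₀
    (fun b _ => emb e b) (fun b _ t t' h => hd _ _ h.symm)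
    (fun b _ b' _ t t' h => congrArg Sigma.fst (e.injective h))
  refine ⟨n, by simpa only [Nat.card_eq_fintype_card] using h1, ?_⟩
  simpa only [Finset.mem_univ, iSup_pos, sumI] using h2

end ind

variable {O : Type} [CommRing O]

theorem map_equiv {τ σ : Type} (J : Ideal (PS O τ)) (u : τ ≃ σ) :
    J.map (rename (R := O) u) = J.comap (renameEquiv O u).symm.toRingEquiv :=
  Ideal.map_comap_of_equiv (renameEquiv O u).toRingEquiv

theorem dim_equiv {τ σ : Type} (J : Ideal (PS O τ)) (u : τ ≃ σ) :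
    ringKrullDim (PS O σ ⧸ J.map (rename (R := O) u)) = ringKrullDim (PS O τ ⧸ J) := by
  rw [map_equiv]
  exact dim_comap _ J

theorem sat_equiv {τ σ : Type} {J : Ideal (PS O τ)} (h : Sat J) (u : τ ≃ σ) :
    Sat (J.map (rename (R := O) u)) := by
  rw [map_equiv]
  intro o ho x hx
  rw [Ideal.mem_comap, map_mul] at hx
  exact h o ho _ (((renameEquiv O u).symm.commutes o : _ = C o) ▸ hx)

theorem sum_eq {τ τ' : Type} (J : Ideal (PS O τ)) (K : Ideal (PS O τ')) :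
    J.map (rename (R := O) (Embedding.inr : τ ↪ τ' ⊕ τ)) ⊔
      K.map (rename (R := O) (Embedding.inl : τ' ↪ τ' ⊕ τ)) =
    (J.map (map (algebraMap O (PS O τ'))) ⊔ K.map (C : PS O τ' →+* MvPowerSeries τ (PS O τ'))).comap
      (P022G.Sum.sumEquiv τ' τ O) :=
  sup_comap _ _ _ _ _ sumEquiv_inr P022G.Sum.sumEquiv_inl J K

variable [IsDomain O] [IsDiscreteValuationRing O]

theorem sat_bot {τ : Type} : Sat (⊥ : Ideal (PS O τ)) := fun o ho u h => by
  have _ : IsDomain (PS O τ) := NoZeroDivisors.to_isDomain _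
  refine (mul_eq_zero.1 h).resolve_left fun e => ho ?_
  simpa using congrArg constantCoeff e

theorem Gd.sat {τ : Type} {J : Ideal (PS O τ)} (h : Gd J) : Sat J := fun o ho _ hu =>
  (h.1.mem_or_mem hu).resolve_left (h.2 o ho)

theorem gd_of_sat {τ : Type} {J : Ideal (PS O τ)} (hp : J.IsPrime) (h : Sat J) : Gd J :=
  ⟨hp, fun o ho hc => hp.ne_top ((Ideal.eq_top_iff_one _).2 (h o ho 1 (by rwa [mul_one])))⟩

theorem dim_bot (τ : Type) [Fintype τ] :
    ringKrullDim (PS O τ ⧸ (⊥ : Ideal (PS O τ))) = (Nat.card τ + 1 : ℕ) := by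
  obtain ⟨ϖ, h⟩ := IsDiscreteValuationRing.exists_irreducible O
  rw [ringKrullDim_eq_of_ringEquiv (RingEquiv.quotientBot _), Nat.card_eq_fintype_card]
  exact (P022D.Rl.Ch0.reg h.maximalIdeal_eq).2

theorem sat_sum [PL.Cf O] {τ τ' : Type} [Fintype τ] [Fintype τ'] {J : Ideal (PS O τ)}
    {K : Ideal (PS O τ')} (hJ : Sat J) (hK : Sat K) :
    Sat (J.map (rename (R := O) (Embedding.inr : τ ↪ τ' ⊕ τ)) ⊔
      K.map (rename (R := O) (Embedding.inl : τ' ↪ τ' ⊕ τ))) := by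
  rw [sum_eq]
  intro o ho x hx
  rw [Ideal.mem_comap, map_mul, P022G.Sum.sumEquiv_C] at hx
  exact sat_it hJ hK o ho _ hx

/-- parameters of the special fibre of one block -/
theorem par_blk {τ σ : Type} [Fintype τ] [Fintype σ] {J : Ideal (PS O τ)} (hJ : Sat J) {k : ℕ}
    (hk : ringKrullDim (PS O τ ⧸ J) ≤ (k + 1 : ℕ)) {ϖ : O} (hϖ : Irreducible ϖ) (e : τ ↪ σ) :
    ∃ s : Finset (PS O σ), (∀ x ∈ s, x ∈ maximalIdeal _) ∧ s.card ≤ k ∧
      ∀ P : Ideal (PS O σ), P.IsPrime → J.map (rename (R := O) e) ≤ P → (∀ x ∈ s, x ∈ P) →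
        C ϖ ∈ P → ∀ t, X (e t) ∈ P := by
  classical
  have h1 := ringKrullDim_succ_le_of_surjective
    (Ideal.Quotient.factor (le_sup_left : J ≤ J ⊔ Ideal.span {C ϖ}))
    (Ideal.Quotient.factor_surjective _) (r := Ideal.Quotient.mk J (C ϖ))
    (mem_nonZeroDivisors_iff_left.2 fun z hz => by
      obtain ⟨z, rfl⟩ := Ideal.Quotient.mk_surjective z
      rw [← map_mul, Ideal.Quotient.eq_zero_iff_mem] at hz
      exact Ideal.Quotient.eq_zero_iff_mem.2 (hJ ϖ hϖ.ne_zero z hz))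
    (Ideal.Quotient.eq_zero_iff_mem.2 (Ideal.mem_sup_right (Ideal.mem_span_singleton_self _)))
  have h2 : ringKrullDim (PS O τ ⧸ (J ⊔ Ideal.span {C ϖ})) ≤ k :=
    P022D.CA.dim_le_of_not fun h => by
      have h3 : ((k + 1 : ℕ) : WithBot ℕ∞) + 1 ≤ (k + 1 : ℕ) :=
        (add_le_add_left h 1).trans (h1.trans hk)
      norm_cast at h3
      omega
  obtain ⟨s, s1, s2, c, hc⟩ := PL.Gr.exists_par _ h2
  refine ⟨s.image (rename e), fun x hx => ?_, Finset.card_image_le.trans s2,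
    fun P p1 p2 p3 p4 t => ?_⟩
  · obtain ⟨y, hy, rfl⟩ := Finset.mem_image.1 hx
    have h4 := (P022D.CA.Cpl.mem_max_iff y).1 (s1 hy)
    rw [P022D.CA.Cpl.mem_max_iff, ← coeff_zero_eq_constantCoeff_apply,
      ← Finsupp.embDomain_zero e, coeff_embDomain_rename]
    exact h4
  · have h5 : maximalIdeal (PS O τ) ^ c ≤ P.comap (rename (R := O) e) :=
      hc.trans (sup_le (sup_le (Ideal.map_le_iff_le_comap.1 p2)
        ((Ideal.span_singleton_le_iff_mem _).2 (by rwa [Ideal.mem_comap, rename_C])))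
        (Ideal.span_le.2 fun y hy => p3 _ (Finset.mem_image_of_mem _ hy)))
    have h6 := h5 (Ideal.pow_mem_pow (show (X t : PS O τ) ∈ maximalIdeal _ by
      rw [P022D.CA.Cpl.mem_max_iff, constantCoeff_X]; exact zero_mem _) c)
    rw [Ideal.mem_comap, map_pow, rename_X] at h6
    exact p1.mem_of_pow_mem c h6

theorem up_sum {τ τ' : Type} [Fintype τ] [Fintype τ'] {J : Ideal (PS O τ)}
    {K : Ideal (PS O τ')} (hJ : Sat J) (hK : Sat K) {k k' : ℕ}
    (hk : ringKrullDim (PS O τ ⧸ J) ≤ (k + 1 : ℕ)) (hk' : ringKrullDim (PS O τ' ⧸ K) ≤ (k' + 1 : ℕ)) :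
    ringKrullDim (PS O (τ' ⊕ τ) ⧸ (J.map (rename (R := O) (Embedding.inr : τ ↪ τ' ⊕ τ)) ⊔
      K.map (rename (R := O) (Embedding.inl : τ' ↪ τ' ⊕ τ)))) ≤ (k + k' + 1 : ℕ) := by
  classical
  obtain ⟨ϖ, hϖ⟩ := IsDiscreteValuationRing.exists_irreducible O
  obtain ⟨s, s1, s2, s3⟩ := par_blk hJ hk hϖ (Embedding.inr : τ ↪ τ' ⊕ τ)
  obtain ⟨s', s1', s2', s3'⟩ := par_blk hK hk' hϖ (Embedding.inl : τ' ↪ τ' ⊕ τ)
  refine dim_le_card (insert (C ϖ) (s ∪ s')) (fun x hx => ?_)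
    ((Finset.card_insert_le _ _).trans (Nat.succ_le_succ
      ((Finset.card_union_le _ _).trans (Nat.add_le_add s2 s2')))) fun P p1 p2 p3 => ?_
  · rcases Finset.mem_insert.1 hx with rfl | hx
    · rw [P022D.CA.Cpl.mem_max_iff, constantCoeff_C]; exact hϖ.not_isUnit
    · exact (Finset.mem_union.1 hx).elim (s1 x) (s1' x)
  · have c := p3 _ (Finset.mem_insert_self _ _)
    refine max_le (fun a ha => ?_) ?_
    · rw [hϖ.maximalIdeal_eq, Ideal.mem_span_singleton'] at ha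
      obtain ⟨b, rfl⟩ := ha
      rw [map_mul]
      exact P.mul_mem_left _ c
    · rintro (t | t)
      · exact s3' P p1 (le_sup_right.trans p2) (fun x hx =>
          p3 x (Finset.mem_insert_of_mem (Finset.mem_union_right _ hx))) c t
      · exact s3 P p1 (le_sup_left.trans p2) (fun x hx =>
          p3 x (Finset.mem_insert_of_mem (Finset.mem_union_left _ hx))) c t

theorem low_sum [PL.Cf O] {τ τ' : Type} [Fintype τ] [Fintype τ'] {J : Ideal (PS O τ)}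
    {K : Ideal (PS O τ')} (hJ : Gd J) (hK : Par K) {k k' : ℕ}
    (hk : ((k + 1 : ℕ) : WithBot ℕ∞) ≤ ringKrullDim (PS O τ ⧸ J))
    (hk' : ((k' + 1 : ℕ) : WithBot ℕ∞) ≤ ringKrullDim (PS O τ' ⧸ K)) :
    ((k + k' + 1 : ℕ) : WithBot ℕ∞) ≤ ringKrullDim (PS O (τ' ⊕ τ) ⧸
      (J.map (rename (R := O) (Embedding.inr : τ ↪ τ' ⊕ τ)) ⊔
        K.map (rename (R := O) (Embedding.inl : τ' ↪ τ' ⊕ τ)))) := by
  obtain ⟨ζ, _, θ, rfl⟩ := hK
  have _ := PL.base_ps O τ'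
  rw [sum_eq, dim_comap, ← ker_Th J hJ.sat θ]
  exact low_it (fun o ho => by
    change (C o : PS O τ') ∈ _
    rwa [P022D.CA.Cpl.mem_max_iff, constantCoeff_C]) θ hk' k J hJ hk

end Geo

open Geo

/-- **rows FLAT and SUMD together** -/
theorem flat_dim {O β σ : Type} [CommRing O] [IsDomain O] [IsDiscreteValuationRing O] [PL.Cf O]
    [Fintype β] [Fintype σ] {τ : β → Type} [∀ b, Fintype (τ b)] (e : (Σ b, τ b) ↪ σ)
    (J : ∀ b, Ideal (PS O (τ b))) (k : β → ℕ) (d : Prop) (h : ∀ b, Sat (J b))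
    (hk : d → ∀ b, ringKrullDim (PS O (τ b) ⧸ J b) ≤ (k b + 1 : ℕ)) :
    ∃ n, ∑ b, k b + Fintype.card σ = n + ∑ b, Fintype.card (τ b) ∧ Sat (sumI e J) ∧
      (d → ringKrullDim (PS O σ ⧸ sumI e J) ≤ (n + 1 : ℕ)) := by
  obtain ⟨n, h1, h2⟩ := ind_all (O := O)
    (P := fun τ J k => Sat J ∧ (d → ringKrullDim (PS O τ ⧸ J) ≤ (k + 1 : ℕ)))
    (R := fun τ J k => Sat J ∧ (d → ringKrullDim (PS O τ ⧸ J) ≤ (k + 1 : ℕ)))
    (fun τ σ u J k h => ⟨sat_equiv h.1 u, fun c => (dim_equiv J u).trans_le (h.2 c)⟩)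
    (fun τ τ' _ _ J K k k' a b => ⟨sat_sum a.1 b.1, fun c => up_sum a.1 b.1 (a.2 c) (b.2 c)⟩)
    (fun τ _ => ⟨sat_bot, fun _ => (dim_bot τ).le⟩) (τ₀ := Empty) (J := ⊥) (k₀ := 0)
    ⟨sat_bot, fun _ => (dim_bot Empty).le.trans (by simp)⟩ J k (fun b => ⟨h b, fun c => hk c b⟩)
    ⟨Empty.elim, fun a => a.elim⟩ e fun _ b => b.elim
  rw [Ideal.map_bot, bot_sup_eq] at h2
  exact ⟨n, by simpa using h1, h2⟩

theorem flat : FLAT := by
  intro O β σ _ _ _ _ _ _ τ _ e J h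
  obtain ⟨n, -, h1, -⟩ := flat_dim e J (fun _ => 0) False h False.elim
  exact h1

theorem sumd : SUMD := by
  intro O β σ _ _ _ _ _ _ τ _ e J k n h hk hn
  obtain ⟨m, h0, -, h1⟩ := flat_dim e J k True h fun _ => hk
  exact (h1 trivial).trans (by exact_mod_cast (by omega))

theorem Par.par {O τ : Type} [CommRing O] {J : Ideal (PS O τ)} {k : ℕ} (h : Par J k) :
    Geo.Par J := by
  obtain ⟨m, ψ, e⟩ := h.ker
  exact ⟨Fin m, inferInstance, ψ, e⟩

theorem geo : GEO := by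
  intro O β σ σ₀ _ _ _ _ _ _ _ τ _ e e₀ J J₀ k k₀ n hd hp hs h0 hJ hn
  obtain ⟨m, h1, h2⟩ := ind_all (O := O)
    (P := fun τ J k => Gd J ∧ ringKrullDim (PS O τ ⧸ J) = (k + 1 : ℕ))
    (R := fun τ J k => Geo.Par J ∧ ringKrullDim (PS O τ ⧸ J) = (k + 1 : ℕ))
    (fun τ σ u J k h => ⟨h.1.equiv u, (dim_equiv J u).trans h.2⟩)
    (fun τ τ' _ _ J K k k' a b => ⟨gd_sum a.1 b.1, le_antisymm
      (up_sum a.1.sat b.1.gd.sat a.2.le b.2.le) (low_sum a.1 b.1 a.2.ge b.2.ge)⟩)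
    (fun τ _ => ⟨par_bot, dim_bot τ⟩) ⟨gd_of_sat hp hs, h0⟩ J k
    (fun b => ⟨(hJ b).par, (hJ b).dim⟩) e₀ e hd
  obtain rfl : m = n := by omega
  exact ⟨h2.1.1, h2.1.sat, h2.2⟩

/-- a prime of dimension one without constants gives a finite algebra -/
theorem fin_pt {O σ : Type} [CommRing O] [IsDomain O] [IsDiscreteValuationRing O] [hO : PL.Cf O]
    [Fintype σ] {P : Ideal (PS O σ)} (hP : Gd P)
    (h : ∀ Q : Ideal (PS O σ), Q.IsPrime → P < Q → maximalIdeal _ ≤ Q) :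
    Module.Finite O (PS O σ ⧸ P) := by
  obtain ⟨ϖ, hϖ⟩ := IsDiscreteValuationRing.exists_irreducible O
  have _ : Nontrivial (PS O σ ⧸ P) := Ideal.Quotient.nontrivial_iff.2 hP.1.ne_top
  have _ : IsLocalRing (PS O σ ⧸ P) :=
    IsLocalRing.of_surjective' (Ideal.Quotient.mk P) Ideal.Quotient.mk_surjective
  have lm : ∀ x ∈ maximalIdeal (PS O σ), Ideal.Quotient.mk P x ∈ maximalIdeal (PS O σ ⧸ P) :=
    fun x hx h => hx (((IsLocalHom.of_surjective (Ideal.Quotient.mk P)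
      Ideal.Quotient.mk_surjective).map_nonunit x) h)
  have _ := hO.cpl
  have _ : Module.Finite O ((PS O σ ⧸ P) ⧸ maximalIdeal (PS O σ ⧸ P)) := by
    refine Module.Finite.of_surjective (Algebra.linearMap O _) fun z => ?_
    obtain ⟨z, rfl⟩ := Ideal.Quotient.mk_surjective z
    obtain ⟨z, rfl⟩ := Ideal.Quotient.mk_surjective z
    refine ⟨constantCoeff z, Ideal.Quotient.eq.2 ?_⟩
    refine lm (C (constantCoeff z) - z) ?_
    rw [P022D.CA.Cpl.mem_max_iff]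
    simp
  refine FinR.fin_of_prime (Ideal.map_le_iff_le_comap.2 fun a ha => lm (C a) ?_)
    fun p hp k z hz => ?_
  · rwa [P022D.CA.Cpl.mem_max_iff, constantCoeff_C]
  obtain ⟨z, rfl⟩ := Ideal.Quotient.mk_surjective z
  refine h (p.comap (Ideal.Quotient.mk P)) inferInstance (lt_of_le_of_ne (fun y hy => ?_)
    fun e => hP.2 ϖ hϖ.ne_zero (e ▸ ?_)) fun hu => hz (hu.map _)
  · rw [Ideal.mem_comap, Ideal.Quotient.eq_zero_iff_mem.2 hy]
    exact p.zero_mem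
  · exact k (Ideal.mem_map_of_mem (algebraMap O _) hϖ.not_isUnit)

theorem jac : JAC := by
  intro O σ Ω _ _ _ _ _ _ _ _ _ J u hJ h
  obtain ⟨ϖ, hϖ⟩ := IsDiscreteValuationRing.exists_irreducible O
  by_contra hu
  have h1 : C ϖ * u ∉ J.radical := fun ⟨n, hn⟩ => by
    rw [mul_pow, ← map_pow] at hn
    exact hu ⟨n, hJ _ (pow_ne_zero n hϖ.ne_zero) _ hn⟩
  rw [Ideal.radical_eq_sInf, Submodule.mem_sInf] at h1
  push Not at h1
  obtain ⟨Q, ⟨q1, q2⟩, q3⟩ := h1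
  obtain ⟨P, p1, p2, p3, p4⟩ := exists_pt q2 (a := C ϖ * u) (Ideal.mul_mem_right _ _ (by
    rw [P022D.CA.Cpl.mem_max_iff, constantCoeff_C]; exact hϖ.not_isUnit)) q3
  have g := gd_of p1 hϖ fun c => p3 (P.mul_mem_right _ c)
  have _ := fin_pt g p4
  have _ : FaithfulSMul O (PS O σ ⧸ P) := (faithfulSMul_iff_algebraMap_injective _ _).2
    ((injective_iff_map_eq_zero _).2 fun o ho => by_contra fun c =>
      g.2 o c (Ideal.Quotient.eq_zero_iff_mem.1 ho))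
  let l : (PS O σ ⧸ P) →ₐ[O] Ω := IsAlgClosed.lift
  have li : Function.Injective l := (injective_iff_map_eq_zero l).2 fun z hz => by
    have h2 : RingHom.ker l = ⊥ := Ideal.eq_bot_of_comap_eq_bot (R := O) (by
      rw [eq_bot_iff]
      intro o ho
      rw [Ideal.mem_comap, RingHom.mem_ker, l.commutes] at ho
      exact (FaithfulSMul.algebraMap_injective O Ω) (ho.trans (map_zero _).symm))
    exact Ideal.mem_bot.1 (h2 ▸ (RingHom.mem_ker.2 hz))
  have h3 := h (l.comp (Ideal.Quotient.mkₐ O P)) ⟨fun v hv => by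
    change l (Ideal.Quotient.mk P v) = 0
    rw [Ideal.Quotient.eq_zero_iff_mem.2 (p2 (q1 hv)), map_zero],
    fun v => (Algebra.IsIntegral.isIntegral (Ideal.Quotient.mk P v)).map l⟩
  exact p3 (P.mul_mem_left _ (Ideal.Quotient.eq_zero_iff_mem.1 (li (h3.trans (map_zero l).symm))))

end Vale.Agent.P022K.RT
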