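import Vale.Agent.P022K.RT.PatdB

/-!
# P022K, block RT: rows PATD, PATE and the clause FS
-/

set_option linter.all false

noncomputable section

namespace Vale.Agent.P022K.RT

open IsLocalRing MvPowerSeries
open Vale.Agent.P022D.Core (PS io y1)
open Vale.Agent.P022K.PL (Cf Fl Op Act)

/-- the clause FS -/
def PATF : Prop := ∀ (O σ β K M : Type) [CommRing O] [IsDomain O] [IsDiscreteValuationRing O]
  [Cf O] [Fintype σ] [Fintype β] [Group K] [AddCommGroup M] [Module O M] [Module (PS O σ) M]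
  [IsScalarTower O (PS O σ) M] (p e r b D : ℕ) [Fact p.Prime] (k : Fin e ⊕ Fin r → K)
  (N : ℕ → Subgroup K) (ρ : K →* Module.End (PS O σ) M) (γ : β → K) (qa qb : Fin r → PS O σ)
  (θ : Module.End (PS O σ) M) (I₀ J₀ 𝔵 : Ideal (PS O σ)) (h : PS O σ),
  (p : O) ∈ maximalIdeal O → Unf p k N → Dm O k N ρ b γ qa qb → Prj O ρ θ →
  (∀ v, v ∈ Kl M I₀) → 𝔵.IsPrime → An θ ≤ 𝔵 → h ∉ 𝔵 → (∀ u ∈ J₀, h * u ∈ I₀) → J₀.IsPrime →
  Sat J₀ → ringKrullDim (PS O σ ⧸ J₀) = (D + 1 : ℕ) → D + Fintype.card β ≤ e + r →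
    ∀ 𝔮 : Ideal (PS O σ), 𝔮.IsPrime → J₀ ≤ 𝔮 → (∀ o, C o ∈ 𝔮 → o = 0) → ∀ c ∉ J₀, ∀ o : O,
      o ≠ 0 → ∃ n : ℕ, ∃ v ∈ Kl M (𝔮 ^ n), (C o ^ n * c : PS O σ) • θ v ≠ 0

namespace Pd

variable {O σ σ' β K M V : Type} [CommRing O] [IsDomain O] [IsDiscreteValuationRing O]
  [Group K] [AddCommGroup M] [Module O M] [Module (PS O σ) M] [IsScalarTower O (PS O σ) M]
  {e r : ℕ} [AddCommGroup V] [Module (PS O (Fin e ⊕ Fin r)) V] [Module (PS O (σ' ⊕ Fin r)) M]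
  [Module (PS O (σ' ⊕ Fin r)) V] {ε : σ ⊕ β ≃ σ'} {k : Fin e ⊕ Fin r → K}
  {ρ : K →* Module.End (PS O σ) M} {qa qb : Fin r → PS O σ} {B : Fin e → V →+ V}
  {P : V →+ CharacterModule M} {a b : Fin r → PS O σ'} {θ : Module.End (PS O σ) M}
  {t : V →ₗ[PS O (σ' ⊕ Fin r)] V} {𝔭 : Ideal (PS O (σ' ⊕ Fin r))} {𝔮 : Ideal (PS O σ)}
  (h : Pk ε k ρ qa qb B P a b) (ht : ∀ v m, P (t v) m = P v (θ m))

theorem mem_an {u : PS O σ} : u ∈ An θ ↔ ∀ m, u • θ m = 0 :=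
  Submodule.mem_annihilator.trans ⟨fun h m => h _ ⟨m, rfl⟩, fun h _ ⟨m, e⟩ => e ▸ h m⟩

include h

theorem Pk.ext {v w : V} (e : ∀ m, P v m = P w m) : v = w := h.bij.1 (CharacterModule.ext _ e)

theorem Pk.c (o : O) (m : M) : (C o : PS O (σ' ⊕ Fin r)) • m = o • m := by
  rw [← ip_C ε, h.sc]
  exact algebraMap_smul (PS O σ) o m

theorem Pk.com (u : PS O σ) (i : Fin e) (v : V) : ip O r ε u • B i v = B i (ip O r ε u • v) := by
  obtain ⟨t, h1, h2⟩ := h.tr (algebraMap (PS O σ) _ u) fun g => Algebra.commutes _ _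
  have e1 : ∀ v, t v = ip O r ε u • v := fun v => h.ext fun m => by
    rw [h1, h.pr, h.sc]
    rfl
  rw [← e1, ← e1, h2]

theorem Pk.rel_mem (L : Submodule (PS O (σ' ⊕ Fin r)) V) (s : Fin r) :
    y1 O σ' s ^ 2 - io O σ' r (a s) * y1 O σ' s + io O σ' r (b s) ∈ L.annihilator :=
  Submodule.mem_annihilator.2 fun v _ => h.rel s v

theorem Pk.y_mem {L : Submodule (PS O (σ' ⊕ Fin r)) V} (hp : 𝔭.IsPrime) (ha : L.annihilator ≤ 𝔭)
    {s : Fin r} (h1 : ip O r ε (qa s) ∈ 𝔭) (h2 : ip O r ε (qb s) ∈ 𝔭) : y1 O σ' s ∈ 𝔭 := by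
  obtain ⟨h3, h4⟩ := h.ab s (𝔭.comap (io O σ' r)) h1 h2
  refine hp.mem_of_pow_mem 2 ?_
  convert 𝔭.sub_mem (𝔭.add_mem (ha (h.rel_mem L s)) (𝔭.mul_mem_right (y1 O σ' s) h3)) h4 using 1
  ring

include ht

theorem Pk.an {u : PS O σ} : u ∈ An θ ↔ ip O r ε u ∈ (LinearMap.range t).annihilator := by
  have e1 : ∀ v m, P (ip O r ε u • t v) m = P v (u • θ m) := fun v m => by
    rw [h.pr, h.sc, ht, map_smul]
  rw [mem_an, Submodule.mem_annihilator]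
  refine ⟨?_, fun h1 m => sep h.bij.2 fun v => ?_⟩
  · rintro h1 _ ⟨v, rfl⟩
    exact h.ext fun m => by rw [e1, h1, map_zero, map_zero]; rfl
  · rw [← e1, h1 _ ⟨v, rfl⟩, map_zero]
    rfl

variable [Fintype σ']

theorem Pk.unb (hθ : Prj O ρ θ) (hp : 𝔭.IsPrime) (ha : (LinearMap.range t).annihilator ≤ 𝔭)
    (hq : ∀ u ∈ 𝔮, ip O r ε u ∈ 𝔭) (hc : ∀ o, C o ∈ 𝔭 → o = 0) {S : Set (Fin r)}
    (hS : ∀ s ∈ S, qa s ∈ 𝔮 ∧ qb s ∈ 𝔮) :
    Unb O θ (Kl M 𝔮 ∩ {v | ∀ s ∈ S, ρ (k (Sum.inr s)) v = v}) := by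
  intro o ho
  by_contra! hn
  obtain ⟨-, θ', c, h1, h2, h3⟩ := hθ
  obtain ⟨t', h4, -⟩ := h.tr θ' h1
  have := h.fg
  refine mul_ne_zero ho h2 (hc _ (nak (IsNoetherian.noetherian _) hp ha ?_))
  rintro _ ⟨v, rfl⟩
  have h5 : (C o : PS O (σ' ⊕ Fin r)) • t v ∈ 𝔭 • (⊤ : Submodule (PS O (σ' ⊕ Fin r)) V) :=
    dua h.bij h.pr (IsNoetherian.noetherian _) fun m hm => by
      rw [h.pr, h.c, ht, LinearMap.map_smul_of_tower, hn m ⟨fun u hu => (h.sc u m).symm.trans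
        (hm _ (hq u hu)), fun s hs => h.y s m (hm _
          (h.y_mem hp ha (hq _ (hS s hs).1) (hq _ (hS s hs).2)))⟩, map_zero]
  have h6 : (C (o * c) : PS O (σ' ⊕ Fin r)) • t v =
      t (t' ((C o : PS O (σ' ⊕ Fin r)) • t v)) := h.ext fun m => by
    rw [h.pr, h.c, ht, ht, h4, h.pr, h.c, ht, LinearMap.map_smul_of_tower,
      LinearMap.map_smul_of_tower, h3, mul_smul]
  rw [h6]
  refine Submodule.smul_induction_on h5 (fun x hx w _ => ?_) fun x y hx hy => ?_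
  · rw [map_smul, map_smul]
    exact Submodule.smul_mem_smul hx ⟨_, rfl⟩
  · rw [map_add, map_add]
    exact add_mem hx hy

theorem Pk.kru (hp : 𝔭.IsPrime) (ha : (LinearMap.range t).annihilator ≤ 𝔭)
    (hq : ∀ u ∈ 𝔮, ip O r ε u ∈ 𝔭) {x : PS O σ}
    (hx : ∀ n : ℕ, ∀ m ∈ Kl M (𝔮 ^ n), x ^ n • θ m = 0) : ip O r ε x ∈ 𝔭 := by
  have := h.fg
  refine Pd.kru hp ha ?_
  rintro n _ ⟨v, rfl⟩
  refine dua h.bij h.pr (IsNoetherian.noetherian _) fun m hm => ?_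
  rw [h.pr, ← map_pow, h.sc, ht, map_smul, hx n m fun u hu => (h.sc u m).symm.trans (hm _ ?_),
    map_zero]
  have e1 := Ideal.mem_map_of_mem (ip O r ε) hu
  rw [Ideal.map_pow] at e1
  exact Ideal.pow_right_mono (Ideal.map_le_iff_le_comap.2 hq) n e1

variable [Cf O] [Fintype σ] [Fintype β] [Module.Finite (PS O (Fin e ⊕ Fin r)) V]
  [Module.Free (PS O (Fin e ⊕ Fin r)) V]

theorem Pk.big (hG : GEO) (hb : ∀ i v, t (B i v) = B i (t v)) {I₀ J₀ 𝔵 : Ideal (PS O σ)}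
    {g : PS O σ} {D : ℕ} (hI : ∀ v, v ∈ Kl M I₀) (hx : 𝔵.IsPrime) (ha : An θ ≤ 𝔵) (hg : g ∉ 𝔵)
    (hJ : ∀ u ∈ J₀, g * u ∈ I₀) (hp : J₀.IsPrime) (hs : Sat J₀)
    (hd : ringKrullDim (PS O σ ⧸ J₀) = (D + 1 : ℕ)) (hD : D + Fintype.card β ≤ e + r) :
    An θ ≤ J₀ ∧ ∀ 𝔮 : Ideal (PS O σ), 𝔮.IsPrime → J₀ ≤ 𝔮 →
      ∃ 𝔭 : Ideal (PS O (σ' ⊕ Fin r)), 𝔭.IsPrime ∧ (LinearMap.range t).annihilator ≤ 𝔭 ∧
        ∀ u, ip O r ε u ∈ 𝔭 ↔ u ∈ 𝔮 := by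
  obtain ⟨g1, -, g2⟩ := hG O Empty σ' σ (fun _ => Empty) ⟨fun x => x.1.elim, fun x => x.1.elim⟩
    (em ε) (fun x => x.elim) J₀ (fun _ => 0) D (D + Fintype.card β) (fun x => x.1.elim) hp hs hd
    (fun x => x.elim) (by simp [← Fintype.card_congr ε]; omega)
  rw [sumI, iSup_of_empty, sup_bot_eq] at g1 g2
  have := h.fg
  let ψ : PS O σ' →ₐ[O] PS O σ := killCompl (em ε)
  have e1 : ∀ u, ψ (ph O ε u) = u := killCompl_rename_app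
  have e2 : ∀ 𝔮, J₀ ≤ 𝔮 → J₀.map (ph O ε) ≤ 𝔮.comap ψ := fun 𝔮 hq =>
    Ideal.map_le_iff_le_comap.2 fun u hu => show ψ (ph O ε u) ∈ 𝔮 from (e1 u).symm ▸ hq hu
  obtain ⟨p1, p2⟩ := PL.pati O (Fin e) σ' r V B a b (PS O σ) (ph O ε) I₀ J₀ 𝔵 g
    (LinearMap.range t) h.op h.act h.nu h.rel h.com
    (fun u hu v => h.ext fun m => by
      refine (h.pr _ v m).trans ?_
      rw [show io O σ' r (ph O ε u) • m = 0 from (h.sc u m).trans (hI m u hu), map_zero, map_zero]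
      rfl)
    (IsNoetherian.noetherian _) (by rintro i _ ⟨v, rfl⟩; exact ⟨_, hb i v⟩) hx
    (fun u hu => ha ((h.an ht).2 (Submodule.mem_annihilator.2 hu))) hg hJ g1
    (g2.le.trans (by rw [Fintype.card_fin]; exact Nat.cast_le.2 (by omega)))
  refine ⟨fun u hu => (e1 u) ▸ e2 J₀ le_rfl (p1 _ (Submodule.mem_annihilator.1 ((h.an ht).1 hu))),
    fun 𝔮 hq hq' => ?_⟩
  obtain ⟨𝔭, q1, q2, q3⟩ := (p2 (𝔮.comap ψ) (Ideal.comap_isPrime _ _) (e2 𝔮 hq')).1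
  refine ⟨𝔭, q1, q2, fun u => ?_⟩
  show ph O ε u ∈ 𝔭.comap (io O σ' r) ↔ _
  rw [q3, Ideal.mem_comap, e1]

end Pd

open Pd

theorem patd (hD : DUAL) (hG : GEO) : PATD := by
  intro O σ β K M _ _ _ _ _ _ _ _ _ _ _ p e r b D _ k N ρ γ qa qb θ I₀ J₀ 𝔵 g h1 h2 h3 h4 h5 h6
    h7 h8 h9 h10 h11 h12 h13
  obtain ⟨lam, P, hR, hP⟩ := hD O (PS O σ) K M p e r b k N ρ h1 h2 h3.cof
  obtain ⟨_, _, B, a, b', h⟩ := pk (Equiv.refl (σ ⊕ β)) h2 h3 (cp_of hR hP)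
  obtain ⟨t, ht, hb⟩ := h.tr θ h4.1
  obtain ⟨g1, g2⟩ := h.big ht hG hb h5 h6 h7 h8 h9 h10 h11 h12 h13
  refine ⟨g1, fun 𝔮 q1 q2 q3 S hS => ?_⟩
  obtain ⟨𝔭, p1, p2, p3⟩ := g2 𝔮 q1 q2
  exact h.unb ht h4 p1 p2 (fun u => (p3 u).2)
    (fun o ho => q3 o ((p3 _).1 (by rwa [ip_C]))) hS

theorem patf (hD : DUAL) (hG : GEO) : PATF := by
  intro O σ β K M _ _ _ _ _ _ _ _ _ _ _ p e r b D _ k N ρ γ qa qb θ I₀ J₀ 𝔵 g h1 h2 h3 h4 h5 h6
    h7 h8 h9 h10 h11 h12 h13 𝔮 q1 q2 q3 c hc o ho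
  have g1 := (patd hD hG O σ β K M p e r b D k N ρ γ qa qb θ I₀ J₀ 𝔵 g h1 h2 h3 h4 h5 h6
    h7 h8 h9 h10 h11 h12 h13).1
  obtain ⟨lam, P, hR, hP⟩ := hD O (PS O σ) K M p e r b k N ρ h1 h2 h3.cof
  obtain ⟨_, _, B, a, b', h⟩ := pk (Equiv.refl (σ ⊕ β)) h2 h3 (cp_of hR hP)
  obtain ⟨t, ht, hb⟩ := h.tr (c • θ) fun g => (h4.1 g).smul_left c
  obtain ⟨𝔭, p1, p2, p3⟩ := (h.big ht hG hb h5 h10 (fun u hu => (h10.mem_or_mem (g1 (mem_an.2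
    fun m => (mul_smul u c _).trans (mem_an.1 hu m)))).resolve_right hc)
    (fun hg => h8 (h6.mem_of_pow_mem 2 (h7 (mem_an.2 fun m => h5 _ _ (pow_two g ▸ h9 g hg)))))
    h9 h10 h11 h12 h13).2 𝔮 q1 q2
  by_contra! hn
  exact ho (q3 o ((p3 _).1 (h.kru ht p1 p2 (fun u => (p3 u).2) fun n m hm =>
    (mul_smul _ c _).symm.trans (hn n m hm))))

theorem Pd.fin_of {O σ : Type} [CommRing O] [IsDomain O] [IsDiscreteValuationRing O] [hO : Cf O]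
    [Fintype σ] {𝔮 : Ideal (PS O σ)} (h : ∀ 𝔪 : Ideal (PS O σ), 𝔪.IsPrime → 𝔮 ≤ 𝔪 →
      (∀ o ∈ maximalIdeal O, C o ∈ 𝔪) → maximalIdeal (PS O σ) ≤ 𝔪) :
    Module.Finite O (PS O σ ⧸ 𝔮) := by
  have hB := PL.base_ps O σ
  have := hO.cpl
  obtain ⟨n, hn⟩ := Ideal.exists_pow_le_of_le_radical_of_fg (I := maximalIdeal (PS O σ))
    (J := 𝔮 ⊔ (maximalIdeal O).map (algebraMap O (PS O σ))) (by
      rw [Ideal.radical_eq_sInf]
      exact le_sInf fun 𝔪 hm => h 𝔪 hm.2 (le_sup_left.trans hm.1) fun o ho =>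
        hm.1 (Ideal.mem_sup_right (Ideal.mem_map_of_mem _ ho))) (IsNoetherian.noetherian _)
  have : Finite (PS O σ ⧸ maximalIdeal (PS O σ)) := hB.fin
  have := Ideal.finite_quotient_pow (IsNoetherian.noetherian (maximalIdeal (PS O σ))) n
  refine fg_of (maximalIdeal O) (fun v hv => PL.mod_sep (A := PS O σ) fun j => ?_)
    (Set.finite_range fun q : PS O σ ⧸ maximalIdeal (PS O σ) ^ n => Ideal.Quotient.mk 𝔮 q.out)
    fun v => ?_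
  · refine Submodule.smul_induction_on (hv j) (fun o ho w _ => ?_) fun x y => add_mem
    rw [← algebraMap_smul (PS O σ) o w]
    exact Submodule.smul_mem_smul (P022D.CA.Cpl.C_mem_pow ho) trivial
  · obtain ⟨u, rfl⟩ := Ideal.Quotient.mk_surjective v
    refine ⟨_, ⟨Ideal.Quotient.mk _ u, rfl⟩, ?_⟩
    obtain ⟨x, hx, y, hy, e1⟩ := Submodule.mem_sup.1
      (hn (Ideal.Quotient.eq.1 (Ideal.Quotient.mk_out (Ideal.Quotient.mk _ u)).symm))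
    rw [← map_sub, ← e1, map_add, Ideal.Quotient.eq_zero_iff_mem.2 hx, zero_add,
      Ideal.smul_top_eq_map, Submodule.restrictScalars_mem, ← Ideal.Quotient.mk_comp_algebraMap,
      ← Ideal.map_map]
    exact Ideal.mem_map_of_mem _ hy

theorem pate (hD : DUAL) : PATE := by
  intro O σ K M _ _ _ hO _ _ _ _ _ _ p r b _ k N ρ qa qb θ h1 h2 h3 h4
  obtain ⟨lam, P, hR, hP⟩ := hD O (PS O σ) K M p 0 r b k N ρ h1 h2 h3.cof
  obtain ⟨_, _, B, a, b', h⟩ := pk (Equiv.sumEmpty σ Empty) h2 h3 (cp_of hR hP)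
  obtain ⟨t, ht, hb⟩ := h.tr θ h4.1
  have e0 : ∀ u, ip O r (Equiv.sumEmpty σ Empty) u = io O σ r u := fun u =>
    congrArg (io O σ r) (rename_id_apply u)
  have := h.fg
  have := PL.base_ps O (σ ⊕ Fin r)
  letI : Algebra (PS O σ) (PS O (σ ⊕ Fin r)) := (io O σ r).toAlgebra
  haveI : Pat.Cf O := ⟨hO.cpl, hO.fin⟩
  have le : Ideal.span (Set.range fun i =>
      y1 O σ i ^ 2 - io O σ r (a i) * y1 O σ i + io O σ r (b' i)) ≤
      (LinearMap.range t).annihilator := Ideal.span_le.2 (Set.range_subset_iff.2 (h.rel_mem _))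
  haveI := (Pat.cov O σ r a b' h.nu).fin
  haveI : Module.Finite (PS O σ) (PS O (σ ⊕ Fin r) ⧸ (LinearMap.range t).annihilator) :=
    Module.Finite.of_surjective (Ideal.Quotient.factorₐ (PS O σ) le).toLinearMap
      (Ideal.Quotient.factor_surjective le)
  have e1 : (LinearMap.range t).annihilator.comap (algebraMap (PS O σ) _) = An θ :=
    Ideal.ext fun u => by rw [h.an ht, e0]; rfl
  have ov : ∀ 𝔮 : Ideal (PS O σ), 𝔮.IsPrime → An θ ≤ 𝔮 → ∃ 𝔭 : Ideal (PS O (σ ⊕ Fin r)),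
      𝔭.IsPrime ∧ (LinearMap.range t).annihilator ≤ 𝔭 ∧
        ∀ u, ip O r (Equiv.sumEmpty σ Empty) u ∈ 𝔭 ↔ u ∈ 𝔮 := fun 𝔮 _ hq => by
    obtain ⟨𝔭, p1, p2, p3⟩ := PL.Lo.ovr (A := PS O σ) _ 𝔮 (e1.le.trans hq)
    exact ⟨𝔭, p1, p2, fun u => by rw [e0, ← p3]; rfl⟩
  refine ⟨fun h0 => ⟨?_, fun o ho u hu => ?_⟩, fun 𝔮 hq => ⟨fun q1 q2 S hS => ?_,
    fun q1 q2 => fin_of fun 𝔪 m1 m2 m3 u hu => ?_, fun q1 q2 u hu => ?_⟩⟩
  · have := PL.dim O (Fin 0) r _ B (PS O (σ ⊕ Fin r)) C (y1 O σ) h.op h.act (LinearMap.range t)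
      (IsNoetherian.noetherian _) (fun h5 => h0 (LinearMap.ext fun m => sep h.bij.2 fun v => by
        rw [← ht, LinearMap.range_eq_bot.1 h5, LinearMap.zero_apply, map_zero]
        rfl)) (by rintro i _ ⟨v, rfl⟩; exact ⟨_, hb i v⟩)
    rwa [PL.Lo.dim_comap (A := PS O σ), e1, Fintype.card_fin, add_zero, add_comm] at this
  · rw [h.an ht, Submodule.mem_annihilator] at hu ⊢
    intro v hv
    have h5 := hu v hv
    rw [map_mul, ip_C, mul_smul, h.act.c] at h5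
    exact (smul_eq_zero.1 h5).resolve_left fun h6 => ho (by simpa using congrArg constantCoeff h6)
  · obtain ⟨𝔭, p1, p2, p3⟩ := ov 𝔮 hq q1
    exact h.unb ht h4 p1 p2 (fun u => (p3 u).2)
      (fun o ho => q2 o ((p3 _).1 (by rwa [ip_C]))) hS
  · obtain ⟨𝔭, p1, p2, p3⟩ := ov 𝔪 m1 (q1.trans m2)
    have c1 : ∀ x ∈ maximalIdeal (PS O σ), ∀ c, x - C c ∈ 𝔮 → x ∈ 𝔪 := fun x hx c hc => by
      have h5 := sub_mem hx (le_maximalIdeal hq.ne_top hc)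
      rw [sub_sub_cancel, P022D.CA.Cpl.mem_max_iff, constantCoeff_C] at h5
      simpa using add_mem (m2 hc) (m3 c h5)
    have c2 : ∀ s, y1 O σ s ∈ 𝔭 := fun s => by
      obtain ⟨c, c', h5, h6⟩ := q2 s
      exact h.y_mem p1 p2 ((p3 _).2 (c1 _ (h3.mem s).1 c h5)) ((p3 _).2 (c1 _ (h3.mem s).2 c' h6))
    obtain ⟨n, hn⟩ := h.act.cont
    refine (p3 u).1 (p1.mem_of_pow_mem n (nak (IsNoetherian.noetherian _) p1 p2 ?_))
    rintro _ ⟨v, rfl⟩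
    have h5 := hn _ (Ideal.pow_mem_pow ((P022D.CA.Cpl.mem_max_iff
      (ip O r (Equiv.sumEmpty σ Empty) u)).2 (by
        rw [cc_ip]; exact (P022D.CA.Cpl.mem_max_iff _).1 hu)) n) 0 v (PL.Fl_zero v)
    rw [← map_smul]
    rw [Fl, zero_add, pow_one] at h5
    refine Submodule.smul_induction_on h5 (fun x hx w _ => ?_) fun x y hx hy => ?_
    · obtain ⟨g, hg⟩ := dec x
      rw [hg, add_smul, Finset.sum_smul, map_add, map_sum, ← h.act.c, map_smul]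
      refine add_mem (Submodule.smul_mem_smul ?_ ⟨_, rfl⟩) (sum_mem ?_)
      · rw [← ip_C (Equiv.sumEmpty σ Empty)]
        exact (p3 _).2 (m3 _ ((P022D.CA.Cpl.mem_max_iff _).1 hx))
      · rintro (i | s) -
        · exact i.elim0
        · rw [mul_smul, show (X (Sum.inr s) : PS O (Fin 0 ⊕ Fin r)) = y1 O _ s from rfl, ← h.act.y,
            map_smul]
          exact Submodule.smul_mem_smul (c2 s) ⟨_, rfl⟩
    · rw [map_add]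
      exact add_mem hx hy
  · by_contra hn
    obtain ⟨o, h5, ho⟩ := Submodule.exists_mem_ne_zero_of_ne_bot
      (Ideal.comap_ne_bot_of_integral_mem (R := O) (x := Ideal.Quotient.mk 𝔮 u)
        (fun h5 => hn (Ideal.Quotient.eq_zero_iff_mem.1 h5))
        (Ideal.mem_span_singleton_self _) (Algebra.IsIntegral.isIntegral _))
    obtain ⟨w, hw⟩ := Ideal.mem_span_singleton'.1 h5
    obtain ⟨w, rfl⟩ := Ideal.Quotient.mk_surjective w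
    obtain ⟨v, hv, h6⟩ := q2 o ho
    have h7 := hv _ (Ideal.Quotient.eq.1 (show Ideal.Quotient.mk 𝔮 (w * u) =
      Ideal.Quotient.mk 𝔮 (algebraMap O _ o) from hw))
    have h8 := congrArg θ h7
    rw [map_smul, map_zero, sub_smul, mul_smul, mem_an.1 hu, smul_zero, zero_sub, neg_eq_zero,
      algebraMap_smul] at h8
    exact h6 h8

end Vale.Agent.P022K.RT
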