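import Vale.Agent.P022K.RT.St3
import Vale.Agent.P022K.RT.Patd
import Vale.Agent.P022K.RT.Dual
import Vale.Agent.P022K.RT.GeoB
import Vale.Agent.P022K.Top.Eg
import Vale.Agent.P022K.Top.Gk0

/-!
# P022K, block RT: first properties of the patched module
-/

set_option linter.all false

noncomputable section

namespace Vale.Agent.P022K.RT

open IsLocalRing MvPowerSeries Filter
open Vale.Agent.P022D.L2b (M2)
open Vale.Agent.P022D.Core (PS)
open Vale.Agent.P022K.PL (Cf)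
open Vale.Agent.P022K.WB (G2)
open Vale.Agent.P022K.Top (Si cy Bad)
open Vale.Agent.P022K.Sh (Fv)

theorem fix_all {R M : Type} [CommRing R] [AddCommGroup M] [Module R M] {r : ℕ}
    (ζ : Zr r →* Module.End R M) {v : M} (h : ∀ s, ζ (zg s) v = v) (z : Zr r) : ζ z v = v := by
  have h1 : ∀ z : Zr r, ζ z v = v → ζ z⁻¹ v = v := fun z e => by
    conv_lhs => rw [← e]
    rw [← Module.End.mul_apply, ← map_mul, inv_mul_cancel, map_one, Module.End.one_apply]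
  let S : Subgroup (Zr r) :=
    { carrier := {z | ζ z v = v}
      mul_mem' := fun {a b} ha hb => by
        show ζ (a * b) v = v
        rw [map_mul, Module.End.mul_apply, show ζ b v = v from hb, show ζ a v = v from ha]
      one_mem' := by show ζ 1 v = v; rw [map_one, Module.End.one_apply]
      inv_mem' := fun {a} ha => h1 a ha }
  have e : z = ∏ s, zg s ^ (z.toAdd s) := by
    apply Multiplicative.toAdd.injective
    funext i
    simp [zg, toAdd_prod, Finset.sum_apply, Pi.single_apply]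
  show z ∈ S
  rw [e]
  exact S.prod_mem fun s _ => S.zpow_mem (h s) _

theorem an_le {O R M : Type} [CommRing O] [CommRing R] [Algebra O R] [AddCommGroup M] [Module O M]
    [Module R M] [IsScalarTower O R M] {θ : Module.End R M} (φ : R →ₐ[O] O) {S : Set M}
    (hS : S ⊆ Kl M (RingHom.ker φ)) (h : Unb O θ S) : An θ ≤ RingHom.ker φ := fun u hu => by
  by_contra e
  obtain ⟨v, hv, h0⟩ := h (φ u) e
  have h1 : (u - algebraMap O R (φ u)) • v = 0 := hS hv _ (by simp [RingHom.mem_ker])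
  have h2 : u • θ v = 0 := Submodule.mem_annihilator.1 hu _ ⟨v, rfl⟩
  rw [sub_smul, sub_eq_zero] at h1
  rw [← map_smul, h1, map_smul, algebraMap_smul] at h2
  exact h0 h2

section

variable {O : Type} [CommRing O] [IsDomain O] [IsDiscreteValuationRing O]

theorem pow_kill {M : Type} [AddCommGroup M] [Module O M] {q a : O} (hq : q ≠ 0)
    (ha : a ∈ maximalIdeal O) {z : M} (hz : q • z = 0) : ∃ n : ℕ, a ^ n • z = 0 := by
  obtain ⟨ϖ, hϖ⟩ := IsDiscreteValuationRing.exists_irreducible O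
  obtain ⟨n, u, rfl⟩ := IsDiscreteValuationRing.eq_unit_mul_pow_irreducible hq hϖ
  rw [hϖ.maximalIdeal_eq, Ideal.mem_span_singleton] at ha
  obtain ⟨b, rfl⟩ := ha
  refine ⟨n, ?_⟩
  rw [show (ϖ * b) ^ n = b ^ n * ↑u⁻¹ * (↑u * ϖ ^ n) by
    rw [mul_pow, mul_assoc, ← mul_assoc (↑u⁻¹ : O), Units.inv_mul, one_mul, mul_comm],
    mul_smul, hz, smul_zero]

theorem ker_res {F : Type} [Field F] [Algebra O F] {s : F → O}
    (hs : ∀ x, algebraMap O F (s x) = x) {a : O} : algebraMap O F a = 0 ↔ a ∈ maximalIdeal O := by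
  rw [← eq_maximalIdeal (RingHom.ker_isMaximal_of_surjective (algebraMap O F) fun x => ⟨_, hs x⟩)]
  rfl

theorem mem_ps {σ : Type} {u : PS O σ} :
    u ∈ maximalIdeal (PS O σ) ↔ constantCoeff u ∈ maximalIdeal O := by
  simp only [mem_maximalIdeal, mem_nonunits_iff, MvPowerSeries.isUnit_iff_constantCoeff]

end

variable {p : ℕ} [Fact p.Prime] {O F : Type} [CommRing O] [IsDomain O]
  [IsDiscreteValuationRing O] [Algebra ℤ_[p] O] [Field F] {Z : Si p O} {C : Fr Z F}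

theorem tm_mem {y : Z.G} (h : Z.Tm y) : y ∈ Gr Z := Subgroup.subset_closure (.inl h)

theorem io_mem (k : Z.J) (g : G2 p) : (Z.x k).ι g ∈ Gr Z :=
  Subgroup.subset_closure (.inr (Set.mem_iUnion.2 ⟨k, g, rfl⟩))

theorem mem_Mt {t : Z.H → O} {z : Z.M} :
    z ∈ Mt Z t ↔ ∀ s, ∃ n : ℕ, ((Z.tg s - t s • 1) ^ n) z = 0 := by
  simp only [Mt, Submodule.mem_iInf, Tl.mem_Nl]

/-- eigenvectors lie in the part of the residual trace -/
theorem eg_mt [CharZero O] (hZ : Z.Ok) {t t' : Z.H → O} (h : ∀ s, t' s - t s ∈ maximalIdeal O)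
    {z : Z.M} (hz : z ∈ Z.Eg t') : z ∈ Mt Z t := mem_Mt.2 fun s => by
  obtain ⟨k, hk⟩ := hZ.cc.tor z
  obtain ⟨n, hn⟩ := pow_kill (q := (p : O) ^ k) (z := z)
    (pow_ne_zero k (Nat.cast_ne_zero.2 (Fact.out : p.Prime).ne_zero)) (h s)
    (by rw [← Nat.cast_pow, Nat.cast_smul_eq_nsmul, hk])
  have e : (Z.tg s - t s • 1) z = (t' s - t s) • z := by
    simp only [LinearMap.sub_apply, LinearMap.smul_apply, Module.End.one_apply,
      Top.Si.mem_Eg.1 hz s, sub_smul]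
  refine ⟨n, Eq.trans ?_ hn⟩
  clear hn
  induction n with
  | zero => simp
  | succ n ih => rw [pow_succ, Module.End.mul_apply, e, map_smul, ih, pow_succ', mul_smul]

namespace Pd

variable (D : Pd C)

open Classical in
/-- the operator of an element of the group ring, any level -/
def thY (Y : Mo O D.R (Gr Z) C.T D.r) (η : MonoidAlgebra O Z.G) : Module.End D.R Y.Y :=
  η.coeff.sum fun y c => if h : y ∈ Gr Z then algebraMap O D.R c • Y.a (⟨y, h⟩, 1) else 0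

theorem th_eq (η : MonoidAlgebra O Z.G) : D.th η = D.thY D.M η := rfl

variable {D}

theorem thY_eq (Y : Mo O D.R (Gr Z) C.T D.r) {η : MonoidAlgebra O Z.G}
    (h : ∀ y ∈ η.coeff.support, Z.Tm y) : D.thY Y η = ∑ y : η.coeff.support,
      algebraMap O D.R (η.coeff y) • Y.a (⟨y, tm_mem (h y y.2)⟩, 1) := by
  rw [thY, Finsupp.sum, ← Finset.sum_coe_sort]
  exact Finset.sum_congr rfl fun y _ => dif_pos _

theorem thY_apply (Y : Mo O D.R (Gr Z) C.T D.r) {η : MonoidAlgebra O Z.G}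
    (h : ∀ y ∈ η.coeff.support, Z.Tm y) (v : Y.Y) : D.thY Y η v = ∑ y : η.coeff.support,
      η.coeff y • Y.a (⟨y, tm_mem (h y y.2)⟩, 1) v := by
  simp only [thY_eq Y h, LinearMap.sum_apply, LinearMap.smul_apply, algebraMap_smul]

/-- an operator which commutes with the group commutes with the group ring -/
theorem com_thY (Y : Mo O D.R (Gr Z) C.T D.r) {η : MonoidAlgebra O Z.G}
    (h : ∀ y ∈ η.coeff.support, Z.Tm y) {θ : Module.End D.R Y.Y}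
    (hθ : ∀ y (hy : Z.Tm y), Commute (Y.a (⟨y, tm_mem hy⟩, 1)) θ) : Commute (D.thY Y η) θ := by
  rw [thY_eq Y h]
  exact Commute.sum_left _ _ _ fun y _ => (hθ _ (h y y.2)).smul_left _

theorem rho_apply (Y : Mo O D.R (Gr Z) C.T D.r) (g : Z.J → WB.Kn p (0 + 2)) (z : Zr D.r) :
    D.rho Y (g, z) = Y.a (D.ψ fun k => g k, z) := rfl

theorem rho_inr (Y : Mo O D.R (Gr Z) C.T D.r) (z : Zr D.r) : D.rho Y (1, z) = Y.a (1, z) := by
  rw [rho_apply]
  exact congrArg (fun x => Y.a (x, z)) (map_one D.ψ)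

theorem ak_apply (Y : Mo O D.R (Gr Z) C.T D.r) (k : Z.J) (g : G2 p) :
    D.ak Y k g = Y.a (D.ψ (Pi.mulSingle k g), 1) := rfl

theorem rho_single (Y : Mo O D.R (Gr Z) C.T D.r) (k : Z.J) (g : WB.Kn p (0 + 2)) :
    D.rho Y (Pi.mulSingle k g, 1) = D.ak Y k g := by
  rw [rho_apply, ak_apply]
  refine congrArg (fun x => Y.a (D.ψ x, 1)) (funext fun i => ?_)
  exact Pi.apply_mulSingle (fun _ (x : WB.Kn p (0 + 2)) => (x : G2 p)) (fun _ => rfl) k g i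

theorem com_z (Y : Mo O D.R (Gr Z) C.T D.r) (x : Gr Z × Zr D.r) (z : Zr D.r) :
    Commute (Y.a x) (Y.a (1, z)) :=
  Commute.map (show x * (1, z) = (1, z) * x from Prod.ext (by simp) (mul_comm _ _)) Y.a

variable [Algebra O F]

namespace Ok

variable (h : D.Ok)
include h

theorem kinj : Function.Injective D.κ := fun z z' e => by
  obtain ⟨x, hx⟩ := h.ult.ex (D.κ z)
  obtain ⟨n, h1, h2⟩ := ((h.lwk z x hx).and (h.lwk z' x (e ▸ hx))).exists
  exact Subtype.ext (h1.symm.trans h2)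

theorem psi_eq (k : Z.J) (g : G2 p) : D.ψ (Pi.mulSingle k g) = ⟨_, io_mem k g⟩ :=
  Subtype.ext (h.psi k g)

theorem psi_tm {y : Z.G} (hy : Z.Tm y) (g : Z.J → G2 p) : Commute (D.ψ g) ⟨y, tm_mem hy⟩ := by
  have : Subgroup.pi Set.univ (fun _ : Z.J => (⊤ : Subgroup (G2 p))) ≤
      (Subgroup.centralizer {(⟨y, tm_mem hy⟩ : Gr Z)}).comap D.ψ :=
    Subgroup.pi_le_iff.2 fun k => by
      rintro _ ⟨g, -, rfl⟩ _ rfl
      rw [MonoidHom.mulSingle_apply, h.psi_eq]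
      exact Subtype.ext ((Z.x k).com g y (hy.x k)).eq.symm
  exact (this (fun _ _ => trivial) _ rfl).symm

theorem th_psi (Y : Mo O D.R (Gr Z) C.T D.r) {η : MonoidAlgebra O Z.G}
    (hη : ∀ y ∈ η.coeff.support, Z.Tm y) (g : Z.J → G2 p) (z : Zr D.r) :
    Commute (D.thY Y η) (Y.a (D.ψ g, z)) := com_thY Y hη fun y hy =>
  Commute.map (Commute.prod (h.psi_tm hy g).symm (Commute.one_left z)) Y.a

theorem rp_zero : D.Rp 0 0 := by
  obtain ⟨x, hx⟩ := h.ult.ex 0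
  simpa using h.ult.smul 0 _ _ hx

theorem rp_sum {ι : Type} (s : Finset ι) {v : ι → D.M.Y} {x : ι → ∀ n, (D.Y n).Y}
    (hx : ∀ i, D.Rp (v i) (x i)) : D.Rp (∑ i ∈ s, v i) (∑ i ∈ s, x i) := by
  classical
  induction s using Finset.induction_on with
  | empty => simpa using h.rp_zero
  | insert a s ha ih =>
    rw [Finset.sum_insert ha, Finset.sum_insert ha]
    exact h.ult.add _ _ _ _ (hx a) ih

theorem rp_smul (c : O) {v : D.M.Y} {x : ∀ n, (D.Y n).Y} (hx : D.Rp v x) :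
    D.Rp (c • v) (c • x) := by
  simpa only [algebraMap_smul] using h.ult.smul (algebraMap O D.R c) _ _ hx

theorem rp_th {η : MonoidAlgebra O Z.G} (hη : ∀ y ∈ η.coeff.support, Z.Tm y) {v : D.M.Y}
    {x : ∀ n, (D.Y n).Y} (hx : D.Rp v x) : D.Rp (D.th η v) fun n => D.thY (D.Y n) η (x n) := by
  have := h.rp_sum (Finset.univ : Finset η.coeff.support) fun y =>
    h.rp_smul (η.coeff y) (h.ra (⟨y, tm_mem (hη y y.2)⟩, 1) v x hx)
  rw [th_eq, thY_apply _ hη]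
  convert this using 1
  funext n
  rw [thY_apply _ hη, Finset.sum_apply]
  rfl

theorem ev_th {η : MonoidAlgebra O Z.G} (hη : ∀ y ∈ η.coeff.support, Z.Tm y) (n : ℕ)
    (v : (D.Y n).Y) (ξ : D.X n) : D.ev n (D.thY (D.Y n) η v) ξ = Z.op η (D.ev n v ξ) := by
  rw [thY_apply _ hη, map_sum, Finset.sum_apply, Top.Si.op_apply,
    ← Finset.sum_coe_sort η.coeff.support]
  exact Finset.sum_congr rfl fun y _ => by rw [map_smul, Pi.smul_apply, h.eva]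

theorem k_th {η : MonoidAlgebra O Z.G} (hη : ∀ y ∈ η.coeff.support, Z.Tm y) (z : Ym Z C.t) :
    ∃ z' : Ym Z C.t, z'.1 = Z.op η z.1 ∧ D.κ z' = D.th η (D.κ z) := by
  choose w h1 h2 using fun y : η.coeff.support => h.ka ⟨y, tm_mem (hη y y.2)⟩ z
  refine ⟨∑ y : η.coeff.support, η.coeff y • w y, ?_, ?_⟩
  · rw [Top.Si.op_apply, ← Finset.sum_coe_sort η.coeff.support, Submodule.coe_sum]
    exact Finset.sum_congr rfl fun y _ => by rw [Submodule.coe_smul, h1]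
  · rw [th_eq, thY_apply _ hη, map_sum]
    exact Finset.sum_congr rfl fun y _ => by rw [map_smul, h2]

theorem k_ak (k : Z.J) (g : G2 p) (z : Ym Z C.t) :
    ∃ z' : Ym Z C.t, z'.1 = Z.ap k g z.1 ∧ D.κ z' = D.ak D.M k g (D.κ z) := by
  rw [ak_apply, h.psi_eq]
  exact h.ka ⟨_, io_mem k g⟩ z

theorem ev_aw (n : ℕ) : ∃ Q : Set Z.I, Q.Finite ∧ ∀ v ξ, D.ev n v ξ ∈ Fv Z.a (Z.aw Q) := by
  obtain ⟨Q, U', h1, -, h2, h3⟩ := h.lev n
  exact ⟨Q, h1, fun v ξ u hu => (h3 v ξ).1 u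
    ⟨h2 hu, Subgroup.mem_iInf.2 (Top.Si.mem_aw.1 hu).2.1⟩⟩

/-- the operator of a type is a projector up to a scalar and a unit -/
theorem prj {η : MonoidAlgebra O Z.G} (hη : Z.Ty η) : Prj O (D.rho D.M) (D.th η) := by
  obtain ⟨h1, η', c, h2, h3, h4⟩ := hη
  refine ⟨fun g => h.th_psi _ h1 _ _, D.th η', c, fun g => h.th_psi _ h2 _ _, h3, fun v => ?_⟩
  obtain ⟨x, hx⟩ := h.ult.ex v
  refine (h.ult.eq _ _ _ _ (h.rp_th h1 (h.rp_th h2 (h.rp_th h1 hx)))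
    (h.rp_smul c (h.rp_th h1 hx))).2 (.of_forall fun n => h.inj n (funext fun ξ => ?_))
  obtain ⟨Q, -, hQ⟩ := h.ev_aw n
  rw [Pi.smul_apply, map_smul, Pi.smul_apply, h.ev_th h1, h.ev_th h2, h.ev_th h1, h4 Q _ (hQ _ _)]

theorem k_fix (z : Ym Z C.t) (w : Zr D.r) : D.M.a (1, w) (D.κ z) = D.κ z :=
  (h.krg _).1 ⟨z, rfl⟩ w

/-- the target direction at level zero -/
theorem k_eg {𝔮 : Ideal D.R} {t : Z.H → O} (ht : ∀ s, D.tr s - MvPowerSeries.C (t s) ∈ 𝔮)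
    {z : Ym Z C.t} (hz : D.κ z ∈ Kl D.M.Y 𝔮) : z.1 ∈ Z.Eg t := Top.Si.mem_Eg.2 fun s => by
  obtain ⟨z', h1, h2⟩ := h.kt s z
  have h3 := hz _ (ht s)
  rw [sub_smul, sub_eq_zero, ← h2, show (MvPowerSeries.C (t s) : D.R) = algebraMap O D.R (t s) from
    rfl, algebraMap_smul, ← map_smul] at h3
  rw [← h1, h.kinj h3, Submodule.coe_smul]

theorem tr_mem (hs : ∀ x, algebraMap O F (C.s x) = x) (s : Z.H) :
    D.tr s - MvPowerSeries.C (C.t s) ∈ maximalIdeal D.R := by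
  rw [mem_ps, ← ker_res hs, map_sub, map_sub, h.trm, constantCoeff_C, Fr.t, hs, sub_self]

/-- the patched module in the form used by the patching theorems -/
theorem dm (hs : ∀ x, algebraMap O F (C.s x) = x) (gk : Z.Gk C.t) {e : ℕ}
    (ε : Fin e ≃ Z.J × Fin 3) : ∃ γ : Z.J → WB.Kn p (0 + 2), Dm O (kP (kG p 0 ε) D.r) D.N
      (D.rho D.M) D.b (fun k => (Pi.mulSingle k (γ k), 1)) D.qa D.qb := by
  obtain ⟨γ, h1, h2⟩ := gk
  have e1 : ∀ s, D.rho D.M (kP (kG p 0 ε) D.r (Sum.inr s)) = D.M.a (1, zg s) := fun s =>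
    rho_inr _ _
  have e0 : ∀ (γ : Z.J → WB.Kn p (0 + 2)) i j, Commute (S := D.K) (Pi.mulSingle i (γ i), 1)
      (Pi.mulSingle j (γ j), 1) := fun γ i j =>
    Prod.ext (Pi.mulSingle_apply_commute γ i j).eq rfl
  refine ⟨fun k => ⟨γ k, (Top.Gk.Km_eq 2).le (h1 k)⟩, h.cof, fun i j =>
    (e0 (fun k => ⟨γ k, (Top.Gk.Km_eq 2).le (h1 k)⟩) i j).map (D.rho D.M), h.mem,
    fun s => by rw [e1]; exact h.quad s,
    ((h2.preimage (f := fun z : Ym Z C.t => z.1) Subtype.val_injective.injOn).image D.κ).subset ?_⟩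
  rintro v ⟨v1, v2, v3⟩
  obtain ⟨z, rfl⟩ := (h.krg v).2 (fix_all (D.M.a.comp (MonoidHom.inr _ _)) fun s =>
    (LinearMap.congr_fun (e1 s) v).symm.trans (v2 s))
  refine ⟨z, ⟨⟨h.k_eg (h.tr_mem hs) v1, z.2.1⟩, fun o ho => ?_, fun k => ?_⟩, rfl⟩
  · have := v1 (algebraMap O D.R o) (mem_ps.2 (by simpa [MvPowerSeries.algebraMap_apply] using ho))
    rw [algebraMap_smul, ← map_smul, ← map_zero D.κ] at this
    exact congrArg Subtype.val (h.kinj this)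
  · obtain ⟨z', e2, e3⟩ := h.k_ak k (γ k) z
    have := v3 k
    rw [rho_single] at this
    rw [← e2, h.kinj (e3.trans this)]

/-- **source**: a pro-automorphic lift gives a point of the support -/
theorem src [CharZero O] (hZ : Z.Ok) (hs : ∀ x, algebraMap O F (C.s x) = x) {ρ : Z.H →* M2 O}
    (hρ : LiftC C.r C.s (fun s => cy p O s.1) ρ) (hu : Ub Z ρ) {η : MonoidAlgebra O Z.G}
    (hη : ∀ y ∈ η.coeff.support, Z.Tm y) (pro : Z.Pro η fun s => (ρ s).trace) :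
    ∃ φ, D.Gp φ ρ ∧ Unb O (D.th η) (Kl D.M.Y (RingHom.ker φ) ∩ {v | ∀ z, D.M.a (1, z) v = v}) ∧
      An (D.th η) ≤ RingHom.ker φ := by
  obtain ⟨φ, h1, h2⟩ := h.gps ρ hρ hu
  have h3 : Unb O (D.th η) (Kl D.M.Y (RingHom.ker φ) ∩ {v | ∀ z, D.M.a (1, z) v = v}) := by
    intro o ho
    obtain ⟨z, ⟨z1, z2⟩, z3⟩ := pro o ho
    have z4 : z ∈ Mt Z C.t := eg_mt hZ (fun s => by
      have := fun i => (ker_res hs).2 (hρ.red s i i)
      rw [← ker_res hs, Fr.t, map_sub, hs, Matrix.trace_fin_two, Matrix.trace_fin_two, map_add]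
      simp only [Algebra.algebraMap_self, RingHom.id_apply, map_sub, hs, sub_eq_zero] at this
      rw [this, this, sub_self]) z1
    obtain ⟨z', e1, e2⟩ := h.k_th hη ⟨z, z2, z4⟩
    refine ⟨D.κ ⟨z, z2, z4⟩, ⟨h2 _ z1, h.k_fix _⟩, fun e => z3 ?_⟩
    rw [← e2, ← map_smul, ← map_zero D.κ] at e
    exact e1 ▸ congrArg Subtype.val (h.kinj e)
  exact ⟨φ, h1, h3, an_le φ Set.inter_subset_left h3⟩

/-- **descent** to level zero -/
theorem down : ∃ (Λ : Type) (_ : Finite Λ) (π : Λ → Module.End D.R D.M.Y) (c : O), c ≠ 0 ∧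
    (∀ i y, Commute (π i) (D.M.a (y, 1))) ∧ ∀ (𝔮 : Ideal D.R) (t : Z.H → O), D.L0 𝔮 →
      (∀ s, D.tr s - MvPowerSeries.C (t s) ∈ 𝔮) → ∀ v ∈ Kl D.M.Y 𝔮 ∩ D.FS,
        (∀ i, ∃ z : Ym Z C.t, z.1 ∈ Z.Eg t ∧ D.κ z = π i v) ∧ ((∀ i, π i v = 0) → c • v = 0) := by
  obtain ⟨Λ, _, π, c, h1, h2, h3⟩ := h.dsc
  refine ⟨Λ, ‹_›, π, c, h1, h2, fun 𝔮 t hq ht v hv => ?_⟩
  obtain ⟨h4, h5⟩ := h3 v hv.2 fun s => hv.1 _ (hq.2 s)
  refine ⟨fun i => ?_, h5⟩
  obtain ⟨z, hz⟩ := (h.krg _).2 (h4 i)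
  exact ⟨z, h.k_eg ht fun u hu => by rw [hz, ← map_smul, hv.1 u hu, map_zero], hz⟩

/-- **target** -/
theorem tgt {𝔮 : Ideal D.R} {t : Z.H → O} (hq : D.L0 𝔮)
    (ht : ∀ s, D.tr s - MvPowerSeries.C (t s) ∈ 𝔮) {η : MonoidAlgebra O Z.G}
    (hη : ∀ y ∈ η.coeff.support, Z.Tm y) (unb : Unb O (D.th η) (Kl D.M.Y 𝔮 ∩ D.FS)) :
    Z.Pro η t := by
  obtain ⟨Λ, _, π, c, h1, h2, h3⟩ := h.down
  intro o ho
  obtain ⟨v, hv, h4⟩ := unb (c * o) (mul_ne_zero h1 ho)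
  by_contra! hn
  have hw : o • D.th η v ∈ Kl D.M.Y 𝔮 ∩ D.FS := ⟨fun u hu => by
    rw [← algebraMap_smul D.R o, smul_comm, ← map_smul, hv.1 u hu, map_zero, smul_zero],
    fun s hs => by
      have := LinearMap.congr_fun (com_thY D.M hη fun y _ => com_z D.M _ (zg s)).eq v
      rw [Module.End.mul_apply, Module.End.mul_apply, hv.2 s hs] at this
      rw [← algebraMap_smul D.R o, map_smul, th_eq, ← this]⟩
  refine h4 ((mul_smul _ _ _).trans ((h3 𝔮 t hq ht _ hw).2 fun i => ?_))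
  obtain ⟨z, z1, z2⟩ := (h3 𝔮 t hq ht v hv).1 i
  obtain ⟨z', e1, e2⟩ := h.k_th hη z
  have := LinearMap.congr_fun (com_thY D.M hη fun y _ => (h2 i _).symm).eq v
  rw [Module.End.mul_apply, Module.End.mul_apply, ← z2, ← th_eq, ← e2] at this
  rw [← algebraMap_smul D.R o, map_smul, ← this, algebraMap_smul, ← map_smul,
    show o • z' = 0 from Subtype.ext (by rw [Submodule.coe_smul, e1]; exact hn _ ⟨z1, z.2.1⟩),
    map_zero]

theorem unf {e : ℕ} (ε : Fin e ≃ Z.J × Fin 3) : Unf p (kP (kG p 0 ε) D.r) D.N := unf_GP ε D.r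

/-- **the patching theorem on the package** -/
theorem core [Cf O] [CharP F p] (hs : ∀ x, algebraMap O F (C.s x) = x) (gk : Z.Gk C.t)
    {θ : Module.End D.R D.M.Y} (hθ : Prj O (D.rho D.M) θ) {J₀ : Ideal (PS O (Σ t, C.τ t))}
    (h1 : J₀.IsPrime) (h2 : Sat J₀) (h3 : ringKrullDim (PS O (Σ t, C.τ t) ⧸ J₀) =
      (3 * Fintype.card C.T + 3 * Fintype.card Z.J + 1 : ℕ)) {𝔵 : Ideal D.R} (x1 : 𝔵.IsPrime)
    (x2 : An θ ≤ 𝔵) {g : D.R} (x3 : g ∉ 𝔵)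
    (x4 : ∀ u ∈ J₀.map (rename (R := O) D.e) ⊔ D.J1, g * u ∈ D.I0) :
    (J₀.map (rename (R := O) D.e) ⊔ D.J1).IsPrime ∧ Sat (J₀.map (rename (R := O) D.e) ⊔ D.J1) ∧
    An θ ≤ J₀.map (rename (R := O) D.e) ⊔ D.J1 ∧ ∀ 𝔮 : Ideal D.R, 𝔮.IsPrime →
      J₀.map (rename (R := O) D.e) ⊔ D.J1 ≤ 𝔮 → (∀ o, MvPowerSeries.C o ∈ 𝔮 → o = 0) →
      ∀ S : Set (Fin D.r), (∀ s ∈ S, D.qa s ∈ 𝔮 ∧ D.qb s ∈ 𝔮) →
        Unb O θ (Kl D.M.Y 𝔮 ∩ {v | ∀ s ∈ S, D.M.a (1, zg s) v = v}) := by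
  have ε := (Fintype.equivFin (Z.J × Fin 3)).symm
  obtain ⟨γ, hγ⟩ := h.dm hs gk ε
  obtain ⟨g1, g2⟩ := h.aux.geo J₀ _ h1 h2 h3
  have hn := h.num
  obtain ⟨g3, g4⟩ := patd dual geo O D.σ Z.J D.K D.M.Y p _ D.r D.b _ _ _ _ _ _ _ θ D.I0 _ 𝔵 g
    ((ker_res hs).1 (by rw [map_natCast, CharP.cast_eq_zero])) (h.unf ε) hγ hθ h.kil x1 x2 x3 x4
    g1 (h.aux.sat J₀ h2) g2 (by rw [Fintype.card_prod, Fintype.card_fin]; omega)
  refine ⟨g1, h.aux.sat J₀ h2, g3, fun 𝔮 q1 q2 q3 S hS => ?_⟩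
  have e1 : ∀ s, D.rho D.M (kP (kG p 0 ε) D.r (Sum.inr s)) = D.M.a (1, zg s) := fun s =>
    rho_inr _ _
  simpa only [e1] using g4 𝔮 q1 q2 q3 S hS

end Ok

theorem Gp.tr_mem {φ : D.R →ₐ[O] O} {ρ : Z.H →* M2 O} (h : D.Gp φ ρ) (s : Z.H) :
    D.tr s - MvPowerSeries.C (ρ s).trace ∈ RingHom.ker φ := by
  rw [RingHom.mem_ker, map_sub, h.tr, sub_eq_zero]
  exact (φ.commutes _).symm

end Pd

end Vale.Agent.P022K.RT
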