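import Vale.Agent.P022K.RT.MlsSt
import Vale.Agent.P022K.RT.Blk
import Vale.Agent.P022K.RT.Pd0
import Vale.Agent.P022K.RT.Sys1
import Vale.Agent.P022K.RT.GirD

/-!
# P022K, block RT: the component of the patched ring through a seed
-/

set_option linter.all false

noncomputable section

namespace Vale.Agent.P022K.RT

open IsLocalRing MvPowerSeries
open Vale.Agent.P022 Vale.Agent.P022.C
open Vale.Agent.P022D
open Vale.Agent.P022D.L2b (M2)
open Vale.Agent.P022D.Core (PS)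
open Vale.Agent.P022D.CA (emb)
open Vale.Agent.P022D.W (dec)
open Vale.Agent.P022E.GW (Ov)
open Vale.Agent.P022K.PL (Cf)
open Vale.Agent.P022K.Top (Si cy Bad Uu)

section alg

variable {O β σ : Type} [CommRing O] {τ : β → Type} (e : (Σ b, τ b) ↪ σ)

theorem ren_emb (b : β) (u : PS O (τ b)) :
    rename e (rename (emb (Function.Embedding.refl _) b) u) = rename (emb e b) u := by
  rw [rename_rename]
  rfl

theorem sumI_map (J : ∀ b, Ideal (PS O (τ b))) :
    (sumI (Function.Embedding.refl _) J).map (rename (R := O) e) = sumI e J := by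
  rw [sumI, Ideal.map_iSup]
  exact iSup_congr fun b => Geo.map_rename _ _ _ _ fun _ => rfl

variable {e}

theorem sumI_le {J : ∀ b, Ideal (PS O (τ b))} {𝔮 : Ideal (PS O σ)} :
    sumI e J ≤ 𝔮 ↔ ∀ b, ∀ u ∈ J b, rename (emb e b) u ∈ 𝔮 :=
  iSup_le_iff.trans (forall_congr' fun _ => Ideal.map_le_iff_le_comap)

theorem mem_sumI {J : ∀ b, Ideal (PS O (τ b))} {b : β} {u : PS O (τ b)} (h : u ∈ J b) :
    rename (emb e b) u ∈ sumI e J := sumI_le.1 le_rfl b u h

theorem sumI_mono {J J' : ∀ b, Ideal (PS O (τ b))} (h : ∀ b, J b ≤ J' b) : sumI e J ≤ sumI e J' :=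
  sumI_le.2 fun b _ hu => mem_sumI (h b hu)

theorem prod_mul_mem [Fintype β] {I J : ∀ b, Ideal (PS O (τ b))} {h : ∀ b, PS O (τ b)}
    (H : ∀ b, ∀ u ∈ J b, h b * u ∈ I b) (J1 : Ideal (PS O σ)) :
    ∀ u ∈ sumI e J ⊔ J1, (∏ b, rename (emb e b) (h b)) * u ∈ sumI e I ⊔ J1 := by
  classical
  have : sumI e J ⊔ J1 ≤ (sumI e I ⊔ J1).colon {∏ b, rename (emb e b) (h b)} := by
    refine sup_le (sumI_le.2 fun b u hu => ?_) fun u hu => ?_ <;>
      rw [Submodule.mem_colon_singleton, smul_eq_mul]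
    · rw [← Finset.mul_prod_erase _ _ (Finset.mem_univ b), ← mul_assoc, ← map_mul, mul_comm u]
      exact Ideal.mul_mem_right _ _ (Ideal.mem_sup_left (mem_sumI (H b u hu)))
    · exact Ideal.mul_mem_right _ _ (Ideal.mem_sup_right hu)
  exact fun u hu => mul_comm u _ ▸ Submodule.mem_colon_singleton.1 (this hu)

variable [IsDomain O] [IsDiscreteValuationRing O] [Cf O] [Fintype β] [∀ b, Fintype (τ b)]
  {J1 : Ideal (PS O σ)} {n : ℕ} (hA : Aux e J1 n)

include hA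

/-- sums of good blocks and the auxiliary ideal -/
theorem Aux.blk {F : Type} [Field F] [Algebra O F] (hF : Function.Surjective (algebraMap O F))
    {J : ∀ b, Ideal (PS O (τ b))} {k : β → ℕ} (h : ∀ b, Gb F (J b) (k b)) :
    (sumI e J ⊔ J1).IsPrime ∧ Sat (sumI e J ⊔ J1) ∧
      ringKrullDim (PS O σ ⧸ (sumI e J ⊔ J1)) = (∑ b, k b + n + 1 : ℕ) := by
  obtain ⟨h1, h2, h3⟩ := RT.blk hF (Function.Embedding.refl _) J k (∑ b, k b) h
    (by rw [Fintype.card_sigma])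
  rw [← sumI_map]
  exact ⟨(hA.geo _ _ h1 h2 h3).1, hA.sat _ h2, (hA.geo _ _ h1 h2 h3).2⟩

/-- the retraction to one block -/
theorem Aux.ret (x : ∀ b, PS O (τ b) →ₐ[O] O) (b₀ : β) : ∃ Φ : PS O σ →+* PS O (τ b₀),
    (∀ u, Φ (rename (emb e b₀) u) = u) ∧
    (∀ b ≠ b₀, ∀ u, Φ (rename (emb e b) u) = C (x b u)) ∧ ∀ u ∈ J1, Φ u = 0 := by
  classical
  obtain ⟨π, h1, h2⟩ := hA.pt
  have hB := PL.base_ps O (τ b₀)
  have := hB.cpl
  have m1 : ∀ i, (X i : PS O (τ b₀)) ∈ maximalIdeal _ := fun i => by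
    rw [CA.Cpl.mem_max_iff, constantCoeff_X]
    exact zero_mem _
  have m2 : ∀ b i, (C (x b (X i)) : PS O (τ b₀)) ∈ maximalIdeal _ := fun b i => by
    rw [CA.Cpl.mem_max_iff, constantCoeff_C]
    simpa using pt_cc (x b) (X i)
  obtain ⟨ev, e1, e2⟩ := NR.exists_ev (maximalIdeal (PS O (τ b₀))) (C : O →+* PS O (τ b₀))
    (fun u : Σ b, τ b => if h : u.1 = b₀ then X (h ▸ u.2) else C (x u.1 (X u.2))) fun u => by
      split_ifs
      exacts [m1 _, m2 _ _]
  let φ : ∀ b, PS O (τ b) →+* PS O (τ b₀) := fun b =>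
    ev.comp (rename (R := O) (emb (Function.Embedding.refl _) b)).toRingHom
  have c1 : ∀ b o, φ b (C o) = C o := fun b o => (congrArg ev (rename_C _ o)).trans (e1 o)
  have c2 : ∀ b i, φ b (X i) = if h : b = b₀ then X (h ▸ i) else C (x b (X i)) := fun b i =>
    (congrArg ev (rename_X _ i)).trans (e2 _)
  have c3 : ∀ b u, (ev.comp π.toRingHom) (rename (emb e b) u) = φ b u := fun b u =>
    congrArg ev (by rw [← ren_emb]; exact h1 _)
  refine ⟨ev.comp π.toRingHom, fun u => ?_, fun b hb u => ?_, fun u hu =>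
    (congrArg ev (h2 u hu)).trans (map_zero ev)⟩
  · rw [c3, NR.ev_ext (maximalIdeal _) (φ := φ b₀) (ψ := RingHom.id _) (c1 b₀)
      (fun i => by rw [c2, dif_pos rfl]; rfl) fun i => by rw [c2, dif_pos rfl]; exact m1 _]
    rfl
  · rw [c3, NR.ev_ext (maximalIdeal _) (φ := φ b) (ψ := C.comp (x b).toRingHom)
      (fun o => (c1 b o).trans (congrArg C ((x b).commutes o)).symm)
      (fun i => by rw [c2, dif_neg hb]; rfl) fun i => by rw [c2, dif_neg hb]; exact m2 _ _]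
    rfl

/-- the trace of the sum on one block -/
theorem Aux.mem_blk {J : ∀ b, Ideal (PS O (τ b))} (x : ∀ b, PS O (τ b) →ₐ[O] O) {b₀ : β}
    (hx : ∀ b ≠ b₀, ∀ u ∈ J b, x b u = 0) {c : PS O (τ b₀)}
    (hc : rename (emb e b₀) c ∈ sumI e J ⊔ J1) : c ∈ J b₀ := by
  obtain ⟨Φ, h1, h2, h3⟩ := hA.ret x b₀
  have : sumI e J ⊔ J1 ≤ (J b₀).comap Φ := sup_le (sumI_le.2 fun b u hu => by
    rw [Ideal.mem_comap]
    by_cases hb : b = b₀
    · subst hb
      rwa [h1]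
    · rw [h2 b hb, hx b hb u hu, map_zero]
      exact zero_mem _) fun u hu => by
    rw [Ideal.mem_comap, h3 u hu]
    exact zero_mem _
  exact h1 c ▸ this hc

end alg

/-- the kernel of a point is parametrised, of relative dimension zero -/
theorem par_pt {O τ : Type} [CommRing O] [IsDomain O] [IsDiscreteValuationRing O]
    (x : PS O τ →ₐ[O] O) : Par (RingHom.ker x) 0 := by
  refine ⟨⟨0, (Algebra.ofId O _).comp x, Ideal.ext fun u => ⟨fun h => ?_, fun h => ?_⟩⟩, ?_⟩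
  · simpa using congrArg constantCoeff (show (C (x u) : PS O (Fin 0)) = 0 from h)
  · show (C (x u) : PS O (Fin 0)) = 0
    rw [show x u = 0 from h, map_zero]
  · exact (ringKrullDim_eq_of_ringEquiv (RingHom.quotientKerEquivOfSurjective
      (f := x.toRingHom) fun o => ⟨_, x.commutes o⟩)).trans
      (IsDiscreteValuationRing.ringKrullDim_eq_one O)

theorem Gb.good {O F τ : Type} [CommRing O] [IsDomain O] [IsDiscreteValuationRing O] [Cf O]
    [Field F] [Algebra O F] [Fintype τ] (hF : Function.Surjective (algebraMap O F))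
    {J : Ideal (PS O τ)} {k : ℕ} (h : Gb F J k) :
    J.IsPrime ∧ Sat J ∧ ringKrullDim (PS O τ ⧸ J) = (k + 1 : ℕ) := by
  let e : (Σ _ : Unit, τ) ↪ τ := ⟨fun u => u.2, fun a b e => Sigma.ext rfl (heq_of_eq e)⟩
  have e1 : sumI e (fun _ => J) = J := le_antisymm
    (sumI_le.2 fun _ u hu => (rename_id_apply u).symm ▸ hu)
    fun u hu => rename_id_apply u ▸ mem_sumI (e := e) (J := fun _ => J) (b := ()) hu
  have := blk hF e (fun _ => J) (fun _ => k) k (fun _ => h) (by simp)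
  rwa [e1] at this

variable {p : ℕ} [Fact p.Prime] {O F : Type} [CommRing O] [IsDomain O]
  [IsDiscreteValuationRing O] [Algebra ℤ_[p] O] [Field F] {Z : Si p O} {C : Fr Z F}

namespace Fr

open Classical in
/-- the relative dimensions of the blocks -/
def kd (C : Fr Z F) (t : C.T) : ℕ := if t ∈ Set.range C.u then 6 else 3

theorem kd_u (k : Z.J) : C.kd (C.u k) = 6 := if_pos ⟨k, rfl⟩

theorem kd_ne {t : C.T} (h : t ∉ Set.range C.u) : C.kd t = 3 := if_neg h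

theorem sum_kd (h : Function.Injective C.u) :
    ∑ t, C.kd t = 3 * Fintype.card C.T + 3 * Fintype.card Z.J := by
  classical
  have e : ∀ t, C.kd t = 3 + if t ∈ Finset.univ.image C.u then 3 else 0 := fun t => by
    by_cases ht : t ∈ Set.range C.u
    · rw [kd, if_pos ht, if_pos (by simpa using ht)]
    · rw [kd_ne ht, if_neg (by simpa using ht)]
  simp only [e, Finset.sum_add_distrib, Finset.sum_ite_mem, Finset.univ_inter, Finset.sum_const,
    Finset.card_image_of_injective _ h, Finset.card_univ, smul_eq_mul, mul_comm]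

variable [Algebra O F] [CharP F p] (hC : C.Ok)
include hC

theorem Ok.sur : Function.Surjective (algebraMap O F) := fun x => ⟨_, hC.sec x⟩

/-- generic irreducibility of the charts at `p` -/
theorem Ok.gir [Finite F] [Cf O] (hG : GIR) (hG2 : GIR2)
    (hu : p = 2 → ∀ P, Ov p P → ¬ Uu P C.rb) {t : C.T} (ht : Ov p (C.P t)) :
    GIRo (C.r.comp (C.j t)) C.s fun x => cy p O x.1 := by
  by_cases h2 : p = 2
  · subst h2
    have hd : ∀ g : GQ, algebraMap O F (cy 2 O g) = 1 := Sy.co_two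
    refine hG2 F O _ _ _ _ ht (hC.lc t) (fun x => hC.spl _) (fun x => (hC.det _).trans (hd _))
      hC.sec ?_
    by_contra! hn
    have : ∀ s : Z.H, s.1 ∈ dec (C.P t) → C.rb s = 1 := fun s hs => Units.ext (hn ⟨s, hs⟩)
    exact hu rfl _ ht ⟨fun s hs => this s (W.inP_le_dec hs), fun s hs => by
      rw [CH.tr, this s hs, Units.val_one, Matrix.trace_one, Fintype.card_fin, Nat.cast_ofNat]⟩
  · obtain ⟨ω, h1, -⟩ := hC.odd h2
    have hd : ∀ g : Z.H, algebraMap O F (cy p O g.1) = (GW.up ω g : Fˣ) := Sy.co_up h1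
    exact hG p F O _ (ω.comp (C.j t)) _ _ _ h2 ht (fun g => h1 (C.j t g)) (hC.lc t)
      (fun x => hC.spl (C.j t x)) (fun x => (hC.det (C.j t x)).trans (hd _)) hC.sec

end Fr

namespace Pd

variable (D : Pd C)

/-- the ideal of a family of components -/
abbrev J0 (J : ∀ t, Ideal (PS O (C.τ t))) : Ideal D.R := sumI D.e J ⊔ D.J1

variable [Algebra O F]

/-- **the component `J` lies in the support of `θ`** -/
structure Sup (θ : Module.End D.R D.M.Y) (J : ∀ t, Ideal (PS O (C.τ t))) : Prop where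
  gb : ∀ t, Gb F (J t) (C.kd t)
  le : ∀ t, C.I t ≤ J t
  pe : ∀ k, J (C.u k) = C.I (C.u k)
  prime : (D.J0 J).IsPrime
  sat : Sat (D.J0 J)
  an : An θ ≤ D.J0 J
  unb : ∀ 𝔮 : Ideal D.R, 𝔮.IsPrime → D.J0 J ≤ 𝔮 → (∀ o, MvPowerSeries.C o ∈ 𝔮 → o = 0) →
    ∀ S : Set (Fin D.r), (∀ s ∈ S, D.qa s ∈ 𝔮 ∧ D.qb s ∈ 𝔮) →
      Unb O θ (Kl D.M.Y 𝔮 ∩ {v | ∀ s ∈ S, D.M.a (1, zg s) v = v})

variable {D} {θ : Module.End D.R D.M.Y} {J : ∀ t, Ideal (PS O (C.τ t))}

theorem Ok.le_an (h : D.Ok) : D.I0 ≤ An θ := fun _ hu => mem_an.2 fun _ => h.kil _ _ hu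

omit [Algebra O F] in
theorem io_I0 {t : C.T} {u : PS O (C.τ t)} (hu : u ∈ C.I t) : D.io t u ∈ D.I0 :=
  Ideal.mem_sup_left (mem_sumI hu)

omit [Algebra O F] in
theorem Gp.sc {φ : D.R →ₐ[O] O} {ρ : Z.H →* M2 O} (h : D.Gp φ ρ) (t : C.T) :
    Sc (φ.comp (D.io t)) (C.f t) (rsg (C.le t) ρ) := by
  obtain ⟨a, b, h1, h2, h3⟩ := h.cj
  exact ⟨a, b, h1, h2, fun y => h3 t y⟩

variable [Cf O] [CharP F p]

/-- **BIG** -/
theorem Ok.big (h : D.Ok) (hZ : Z.Ok) (hC : C.Ok) (bk : ∀ k, Bk F (C.I (C.u k)) 6)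
    (gk : Z.Gk C.t) (hθ : Prj O (D.rho D.M) θ) {φ : D.R →ₐ[O] O} (h1 : An θ ≤ RingHom.ker φ)
    {g : ∀ t, PS O (C.τ t)}
    (cm : ∀ t ∉ Set.range C.u, Cm (C.I t) (φ.comp (D.io t)) (J t) (g t)) :
    ∃ J', (∀ t ∉ Set.range C.u, J' t = J t) ∧ D.Sup θ J' := by
  have h0 : ∀ t, ∀ u ∈ C.I t, φ (D.io t u) = 0 := fun t u hu => h1 (h.le_an (io_I0 hu))
  have : ∀ t, ∃ (J' : Ideal (PS O (C.τ t))) (g' : PS O (C.τ t)), Gb F J' (C.kd t) ∧
      (∀ u ∈ J', g' * u ∈ C.I t) ∧ φ (D.io t g') ≠ 0 ∧ (∀ u ∈ J', φ (D.io t u) = 0) ∧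
      (t ∉ Set.range C.u → J' = J t) ∧ (t ∈ Set.range C.u → J' ≤ C.I t) := fun t => by
    by_cases ht : t ∈ Set.range C.u
    · obtain ⟨k, rfl⟩ := ht
      obtain ⟨ι, _, f, f1, f2, f3, f4⟩ := bk k
      have le : Ideal.span (Set.range f) ≤ C.I (C.u k) :=
        Ideal.span_le.2 (Set.range_subset_iff.2 f2)
      exact ⟨_, 1, .inr ⟨ι, ‹_›, f, by rw [Fr.kd_u, f1], f3, f4, rfl⟩,
        fun u hu => (one_mul u).symm ▸ le hu, by simp, fun u hu => h0 _ u (le hu),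
        fun e => (e ⟨k, rfl⟩).elim, fun _ => le⟩
    · have c := cm t ht
      exact ⟨J t, g t, .inl (Fr.kd_ne ht ▸ c.par), c.mul, c.ne, c.ker, fun _ => rfl,
        fun e => (ht e).elim⟩
  choose J' g' j1 j2 j3 j4 j5 j6 using this
  obtain ⟨b1, b2, b3⟩ := blk hC.sur (Function.Embedding.refl _) J' C.kd (∑ t, C.kd t) j1
    (by rw [Fintype.card_sigma])
  rw [Fr.sum_kd (hC.u_inj hZ)] at b3
  have c := h.core hC.sec gk hθ b1 b2 b3 (RingHom.ker_isPrime φ) h1 (g := ∏ t, D.io t (g' t))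
    (by rw [RingHom.mem_ker, map_prod]; exact Finset.prod_ne_zero_iff.2 fun t _ => j3 t)
    (by rw [sumI_map]; exact prod_mul_mem j2 _)
  rw [sumI_map] at c
  have le : ∀ t, C.I t ≤ J' t := fun t u hu => h.aux.mem_blk (fun t => φ.comp (D.io t))
    (fun b _ => j4 b) (c.2.2.1 (h.le_an (io_I0 hu)))
  exact ⟨J', j5, j1, le, fun k => le_antisymm (j6 _ ⟨k, rfl⟩) (le _), c.1, c.2.1, c.2.2.1,
    c.2.2.2⟩

theorem Sup.good (h : D.Sup θ J) (hC : C.Ok) (t : C.T) : (J t).IsPrime ∧ Sat (J t) ∧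
    ringKrullDim (PS O (C.τ t) ⧸ J t) = (C.kd t + 1 : ℕ) := (h.gb t).good hC.sur

/-- the family at a place over `p` is generically irreducible -/
theorem Sup.irr [Finite F] (h : D.Sup θ J) (hG : GIR) (hG2 : GIR2) (hC : C.Ok)
    (hu : p = 2 → ∀ P, Ov p P → ¬ Uu P C.rb) (k : Z.J) :
    ∃ x : Fin 4 → W.dec (C.P (C.u k)), d4 (fun i => C.f (C.u k) (x i)) ∉ J (C.u k) :=
  hC.gir hG hG2 hu (hC.u k).1 _ _ _ _ _ _ _ (hC.uni _) (h.good hC _).1 (h.le _)
    (by rw [(h.good hC _).2.2, Fr.kd_u])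

omit [Cf O] [CharP F p] in
/-- a point lies on the component if it does so away from `p` -/
theorem Sup.ker (h : D.Sup θ J) {V : Type} [CommRing V] [Algebra O V] {x : D.R →ₐ[O] V}
    (h0 : ∀ u ∈ D.I0, x u = 0) (h1 : ∀ t ∉ Set.range C.u, ∀ u ∈ J t, x (D.io t u) = 0) :
    D.J0 J ≤ RingHom.ker x :=
  sup_le (sumI_le.2 fun t u hu => by
    by_cases ht : t ∈ Set.range C.u
    · obtain ⟨k, rfl⟩ := ht
      exact h0 _ (io_I0 (h.pe k ▸ hu))
    · exact h1 t ht u hu) fun u hu => h0 u (Ideal.mem_sup_right hu)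

end Pd

end Vale.Agent.P022K.RT
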