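import Vale.Agent.P022K.RT.Pd0
import Vale.Agent.P022K.Top.Loc
import Vale.Agent.P022K.WB.Trp

/-!
# P022K, block RT: from solutions of the patterns on the patched module to algebraic vectors
-/

set_option linter.all false

noncomputable section

namespace Vale.Agent.P022K.RT.Pd

open IsLocalRing Function
open Vale.Agent.P022D.L2b (M2)
open Vale.Agent.P022K.WB (G2 SlS SlO SlO_map rel)
open Vale.Agent.P022K.Top (Si)

variable {p : ℕ} [Fact p.Prime] {O F : Type} [CommRing O] [IsDomain O]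
  [IsDiscreteValuationRing O] [Algebra ℤ_[p] O] [Field F] {Z : Si p O} {C : Fr Z F} (D : Pd C)
  {I : Type}

/-- the solutions of the patterns `rl` at all places with values in `Q` -/
abbrev Sv (rl : Z.J → Set (G2 p × I →₀ O)) (Q : Submodule D.R D.M.Y) :
    Submodule D.R ((Z.J → I) → D.M.Y) := SlS (algebraMap O D.R) (D.ak D.M) rl Q Set.univ

variable {D} {rl : Z.J → Set (G2 p × I →₀ O)} {Q Q' : Submodule D.R D.M.Y}

theorem Sv.map {y : (Z.J → I) → D.M.Y} (hy : y ∈ D.Sv rl Q) {T : Module.End D.R D.M.Y}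
    (hT : ∀ k g, Commute T (D.ak D.M k g)) (h : ∀ a, T (y a) ∈ Q') :
    (fun a => T (y a)) ∈ D.Sv rl Q' :=
  ⟨h, fun k _ a => SlO_map (hy.2 k trivial a) T fun g _ => LinearMap.congr_fun (hT k g).eq _⟩

theorem th_z {η : MonoidAlgebra O Z.G} (hη : ∀ y ∈ η.coeff.support, Z.Tm y) (z : Zr D.r) :
    Commute (D.th η) (D.M.a (1, z)) := com_thY D.M hη fun _ _ => com_z D.M _ z

variable [Algebra O F] (h : D.Ok)
include h

theorem Ok.th_ak {η : MonoidAlgebra O Z.G} (hη : ∀ y ∈ η.coeff.support, Z.Tm y) (k : Z.J)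
    (g : G2 p) : Commute (D.th η) (D.ak D.M k g) := h.th_psi _ hη _ _

theorem Ok.prj' {η : MonoidAlgebra O Z.G} (hη : Z.Ty η) :
    ∃ (η' : MonoidAlgebra O Z.G) (c : O), (∀ y ∈ η'.coeff.support, Z.Tm y) ∧ c ≠ 0 ∧
      ∀ v, D.th η (D.th η' (D.th η v)) = c • D.th η v := by
  obtain ⟨h1, η', c, h2, h3, h4⟩ := hη
  refine ⟨η', c, h2, h3, fun v => ?_⟩
  obtain ⟨x, hx⟩ := h.ult.ex v
  refine (h.ult.eq _ _ _ _ (h.rp_th h1 (h.rp_th h2 (h.rp_th h1 hx)))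
    (h.rp_smul c (h.rp_th h1 hx))).2 (.of_forall fun n => h.inj n (funext fun ξ => ?_))
  obtain ⟨Q, -, hQ⟩ := h.ev_aw n
  rw [Pi.smul_apply, map_smul, Pi.smul_apply, h.ev_th h1, h.ev_th h2, h.ev_th h1, h4 Q _ (hQ _ _)]

/-- descent to the vectors fixed by the patching variables -/
theorem Ok.sv_fix [Finite I] {𝔮 : Ideal D.R} {S : Set (Fin D.r)}
    (hq : ∀ s ∈ S, D.qa s ∈ 𝔮 ∧ D.qb s ∈ 𝔮) (hQ : ∀ z, ∀ v ∈ Q, D.M.a (1, z) v ∈ Q)
    (unb : ∀ N : ℕ, ∃ y ∈ D.Sv rl (Q ⊓ WB.R1.Kl D.M.Y 𝔮), p ^ N • y ≠ 0) (N : ℕ) :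
    ∃ y ∈ D.Sv rl (Q ⊓ WB.R1.Kl D.M.Y 𝔮), (∀ s ∈ S, ∀ a, D.M.a (1, zg s) (y a) = y a) ∧
      p ^ N • y ≠ 0 := by
  obtain ⟨y, y1, y2, y3⟩ := WB.descP (fun s => (D.M.a (1, zg s) - 1).compLeft (Z.J → I)) S
    S.toFinite (D.Sv rl (Q ⊓ WB.R1.Kl D.M.Y 𝔮)) (fun s _ x hx => Sv.map hx (T := D.M.a (1, zg s) - 1)
      (fun k g => (com_z D.M _ _).symm.sub_left (Commute.one_left _)) fun a =>
      ⟨sub_mem (hQ _ _ (hx.1 a).1) (hx.1 a).1, WB.R1.Kl_map _ (hx.1 a).2⟩)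
    (fun s _ t _ x _ => funext fun a => LinearMap.congr_fun (((com_z D.M _ (zg t)).sub_left
      (Commute.one_left _)).sub_right (Commute.one_right _)).eq (x a))
    (fun s hs x hx => funext fun a => by
      have e := LinearMap.congr_fun (h.quad s) (x a)
      have k := WB.R1.mem_Kl.1 (hx.1 a).2
      rwa [LinearMap.add_apply, LinearMap.sub_apply, LinearMap.smul_apply, LinearMap.smul_apply,
        ← map_smul, k _ (hq s hs).1, Module.End.one_apply, k _ (hq s hs).2, map_zero, sub_zero,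
        add_zero, pow_two] at e) unb N
  exact ⟨y, y1, fun s hs a => sub_eq_zero.1 (congrFun (y2 s hs) a), y3⟩

/-- level zero: solutions come from solutions -/
theorem Ok.sv_k {z : (Z.J → I) → Ym Z C.t} (hz : (fun a => D.κ (z a)) ∈ D.Sv rl Q) (k : Z.J)
    (a : Z.J → I) : (fun i => (z (update a k i)).1) ∈ SlO id (Z.ap k) (rl k) := fun r hr => by
  choose w w1 w2 using fun (q : G2 p × I) => h.k_ak k q.1 (z (update a k q.2))
  have e : D.κ (r.sum fun q c => c • w q) = D.κ 0 := by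
    rw [map_zero, map_finsuppSum, ← hz.2 k trivial a r hr]
    exact Finsupp.sum_congr fun q _ => by rw [map_smul, w2, algebraMap_smul]
  have := congrArg (Ym Z C.t).subtype (h.kinj e)
  rw [map_finsuppSum, map_zero] at this
  rw [← this]
  exact Finsupp.sum_congr fun q _ => by rw [map_smul, Submodule.subtype_apply, w1, id]

/-- **target**, with patterns -/
theorem Ok.tgs [Finite I] (hp : ¬ IsUnit (p : O)) {𝔮 : Ideal D.R} {t : Z.H → O} (hq : D.L0 𝔮)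
    (ht : ∀ s, D.tr s - MvPowerSeries.C (t s) ∈ 𝔮) {η : MonoidAlgebra O Z.G} (hη : Z.Ty η)
    (unb : ∀ N : ℕ, ∃ y ∈ D.Sv rl (LinearMap.range (D.th η) ⊓ WB.R1.Kl D.M.Y 𝔮), p ^ N • y ≠ 0)
    {o : O} (ho : o ≠ 0) : ∃ z ∈ SlS id Z.ap rl (Z.Eg t ⊓ Z.Mp) Set.univ,
      ∃ a, o • Z.op η (z a) ≠ 0 := by
  obtain ⟨η', c', e1, e2, e3⟩ := h.prj' hη
  obtain ⟨Λ, _, π, c, h1, h2, h3⟩ := h.down
  obtain ⟨N, d, hd⟩ := WB.dvd_pow_p hp (mul_ne_zero (mul_ne_zero h1 ho) e2)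
  obtain ⟨y, y1, y2, y3⟩ := h.sv_fix (S := D.S) (fun s hs => ⟨hq.1 s hs, hq.2 s⟩) (by
    rintro z _ ⟨v, rfl⟩
    exact ⟨_, LinearMap.congr_fun (th_z hη.1 z).eq v⟩) unb N
  have st : ∀ {η : MonoidAlgebra O Z.G}, (∀ y ∈ η.coeff.support, Z.Tm y) →
      ∀ v ∈ Kl D.M.Y 𝔮 ∩ D.FS, D.th η v ∈ Kl D.M.Y 𝔮 ∩ D.FS := fun hη v hv =>
    ⟨fun u hu => by rw [← map_smul, hv.1 u hu, map_zero], fun s hs =>
      (LinearMap.congr_fun (th_z hη (zg s)).eq v).symm.trans (congrArg _ (hv.2 s hs))⟩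
  have y4 : ∀ a, D.th η' (y a) ∈ Kl D.M.Y 𝔮 ∩ D.FS := fun a =>
    st e1 _ ⟨WB.R1.mem_Kl.1 (y1.1 a).2, fun s hs => y2 s hs a⟩
  choose z z1 z2 using fun i a => (h3 𝔮 t hq ht _ (y4 a)).1 i
  by_contra! hn
  refine y3 (funext fun a => ?_)
  have y5 : o • D.th η (D.th η' (y a)) ∈ Kl D.M.Y 𝔮 ∩ D.FS := by
    rw [← LinearMap.map_smul_of_tower, ← LinearMap.map_smul_of_tower]
    exact st hη.1 _ (st e1 _ ⟨fun u hu => by
      rw [smul_comm, WB.R1.mem_Kl.1 (y1.1 a).2 u hu, smul_zero], fun s hs => by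
      rw [LinearMap.map_smul_of_tower, y2 s hs]⟩)
  have y6 := (h3 𝔮 t hq ht _ y5).2 fun i => by
    obtain ⟨z', k1, k2⟩ := h.k_th hη.1 (z i a)
    have k3 := hn (fun a => (z i a).1) ⟨fun a => ⟨z1 i a, (z i a).2.1⟩, fun k _ =>
      h.sv_k (Q := ⊤) (by
        simp only [z2]
        exact Sv.map (Sv.map y1 (Q' := ⊤) (h.th_ak e1) fun _ => trivial) (T := π i)
          (fun k g => h2 i _) fun _ => trivial) k⟩ a
    have k4 := LinearMap.congr_fun (com_thY D.M hη.1 fun y _ => (h2 i _).symm).eq (D.th η' (y a))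
    rw [Module.End.mul_apply, Module.End.mul_apply, ← z2, ← th_eq, ← k2] at k4
    rw [LinearMap.map_smul_of_tower, ← k4, ← map_smul,
      show o • z' = 0 from Subtype.ext (by rw [Submodule.coe_smul, k1]; exact k3), map_zero]
  obtain ⟨v, hv⟩ := (y1.1 a).1
  rw [← hv, e3, hv, smul_smul, smul_smul] at y6
  rw [Pi.smul_apply, ← Nat.cast_smul_eq_nsmul O, Nat.cast_pow, hd, mul_comm, mul_smul, y6,
    smul_zero, Pi.zero_apply]

/-- **target**: algebraic vectors -/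
theorem Ok.tga (hp : ¬ IsUnit (p : O)) {𝔮 : Ideal D.R} {t : Z.H → O} (hq : D.L0 𝔮)
    (ht : ∀ s, D.tr s - MvPowerSeries.C (t s) ∈ 𝔮) {η : MonoidAlgebra O Z.G} (hη : Z.Ty η)
    {m n : ℕ} {c : Option (GL (Fin 2) (ZMod p) → O)} {e : Z.J → O} (he : ∀ k, e k ≠ 0)
    (hn : c ≠ none → n = 1) (unb : ∀ N : ℕ, ∃ y ∈ D.Sv (fun k => rel m n c (e k))
      (LinearMap.range (D.th η) ⊓ WB.R1.Kl D.M.Y 𝔮), p ^ N • y ≠ 0) : Z.Alg η t m c :=
  ⟨n, e, he, hn, fun _ ho => by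
    obtain ⟨z, z1, z2⟩ := h.tgs hp hq ht hη unb ho
    exact ⟨z, (Top.Si.av_iff.1 z1).1, (Top.Si.av_iff.1 z1).2, z2⟩⟩

end Vale.Agent.P022K.RT.Pd
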