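import Vale.Agent.P022K.RT.Near
import Vale.Agent.P022K.O2.Dvr0
import Vale.Agent.P022K.WB.Trq
import Vale.Agent.P022K.WB.Pat

/-!
# P022K, block RT: the transfer on a family, at the closed points of the generic fibre
-/

set_option linter.all false

noncomputable section

namespace Vale.Agent.P022K.RT

open IsLocalRing Function
open scoped nonZeroDivisors
open Vale.Agent.P022K.PL (Cf)
open Vale.Agent.P022K.WB (G2 Iso Og Y Nr Cs Lat Loc Tg SlS mv qf smf piR piE SURJ PHI)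

theorem pow_le_fin {R : Type} [CommRing R] [IsLocalRing R] [IsNoetherianRing R] (𝔞 : Ideal R)
    [Finite (R ⧸ 𝔞)] : ∃ n, maximalIdeal R ^ n ≤ 𝔞 := by
  refine Ideal.exists_pow_le_of_le_radical_of_fg ?_ (IsNoetherian.noetherian _)
  rw [Ideal.radical_eq_sInf]
  refine le_sInf fun 𝔭 h => ?_
  have := h.2
  have : Finite (R ⧸ 𝔭) := .of_surjective _ (Ideal.Quotient.factor_surjective h.1)
  exact (eq_maximalIdeal (Ideal.Quotient.maximal_of_isField _ (Finite.isField_of_domain _))).ge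

variable {p : ℕ} {O : Type} [CommRing O] [IsDomain O] [IsDiscreteValuationRing O]

section dom

variable {B : Type} [CommRing B] [Algebra O B] [Module.Finite O B]

theorem fin_p [hO : Cf O] (h0 : (p : O) ≠ 0) (N : ℕ) : Finite (B ⧸ Ideal.span {(p : B) ^ N}) := by
  obtain ⟨ϖ, hϖ⟩ := IsDiscreteValuationRing.exists_irreducible O
  obtain ⟨n, hn⟩ := IsDiscreteValuationRing.associated_pow_irreducible (pow_ne_zero N h0) hϖ
  have : Finite (O ⧸ maximalIdeal O) := hO.fin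
  have := Ideal.finite_quotient_pow (IsNoetherian.noetherian (maximalIdeal O)) n
  letI := ((Ideal.Quotient.lift (maximalIdeal O ^ n)
    (algebraMap O (B ⧸ Ideal.span {(p : B) ^ N})) fun a ha => by
      rw [hϖ.maximalIdeal_eq, Ideal.span_singleton_pow, Ideal.mem_span_singleton] at ha
      obtain ⟨d, rfl⟩ := hn.dvd.trans ha
      rw [← Ideal.Quotient.mk_algebraMap, Ideal.Quotient.eq_zero_iff_mem, map_mul, map_pow,
        map_natCast]
      exact Ideal.mul_mem_right _ _ (Ideal.mem_span_singleton_self _))).toAlgebra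
  have : IsScalarTower O (O ⧸ maximalIdeal O ^ n) (B ⧸ Ideal.span {(p : B) ^ N}) :=
    .of_algebraMap_eq fun _ => rfl
  have := Module.Finite.of_restrictScalars_finite O (O ⧸ maximalIdeal O ^ n)
    (B ⧸ Ideal.span {(p : B) ^ N})
  exact Module.finite_of_finite (O ⧸ maximalIdeal O ^ n)

variable [IsDomain B] (h1 : ¬ IsUnit (p : O))
include h1

theorem dvd_p {b : B} (hb : b ≠ 0) : ∃ c : ℕ, b ∣ (p : B) ^ c := by
  obtain ⟨o, ho, h3⟩ := Submodule.exists_mem_ne_zero_of_ne_bot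
    (Ideal.comap_ne_bot_of_integral_mem (R := O) hb (Ideal.mem_span_singleton_self b)
      (Algebra.IsIntegral.isIntegral _))
  obtain ⟨c, d, hd⟩ := WB.dvd_pow_p h1 h3
  refine ⟨c, (Ideal.mem_span_singleton.1 ho).trans ⟨algebraMap O B d, ?_⟩⟩
  rw [← map_mul, ← hd, map_pow, map_natCast]

theorem fb_of [Cf O] [CharZero O] [FaithfulSMul O B] (h0 : (p : O) ≠ 0) : WB.Fb p B := by
  let K := FractionRing O
  let L := FractionRing B
  letI : Algebra K L := FractionRing.liftAlgebra O L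
  haveI : IsScalarTower O K L := FractionRing.isScalarTower_liftAlgebra O L
  haveI : FiniteDimensional K L := .of_isLocalization O B O⁰
  haveI : CharZero K := charZero_of_injective_algebraMap (IsFractionRing.injective O K)
  obtain ⟨_, -, hf⟩ := O2.cf_clo (O := O) K L
  obtain ⟨T, hT⟩ := hf.fg_top
  obtain ⟨b, hb⟩ := IsLocalization.exist_integer_multiples B⁰ T
    fun v : integralClosure O L => (v : L)
  obtain ⟨c, d, hd⟩ := dvd_p h1 (nonZeroDivisors.coe_ne_zero b)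
  have key : ∀ v : integralClosure O L, ∃ u : B, algebraMap B L u = (p : L) ^ c * v := fun v => by
    induction (hT ▸ Submodule.mem_top : v ∈ Submodule.span O (T : Set _)) using
      Submodule.span_induction with
    | mem v hv =>
      obtain ⟨u, hu⟩ := hb v hv
      exact ⟨d * u, by
        rw [map_mul, hu, ← map_natCast (algebraMap B L), ← map_pow, hd, map_mul, Algebra.smul_def]
        ring⟩
    | zero => exact ⟨0, by simp⟩
    | add a b _ _ ha hb =>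
      exact ha.elim fun u hu => hb.elim fun w hw => ⟨u + w, by simp [hu, hw, mul_add]⟩
    | smul o a _ ha => exact ha.elim fun u hu => ⟨o • u, by
        rw [Subalgebra.coe_smul, mul_smul_comm, ← hu]
        exact map_smul (IsScalarTower.toAlgHom O B L) o u⟩
  choose l hl using key
  have inj := IsFractionRing.injective B L
  refine ⟨integralClosure O L, inferInstance, inferInstance, inferInstance,
    ((IsScalarTower.toAlgHom O B L).codRestrict _ fun b =>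
      (Algebra.IsIntegral.isIntegral b).map _).toRingHom,
    AddMonoidHom.mk' l fun a b => inj (by simp [hl, mul_add]), c, fun e => h0 ?_,
    fun b v => inj ?_, inj ?_⟩
  · refine FaithfulSMul.algebraMap_injective O L ?_
    simpa using congrArg Subtype.val e
  · exact (hl _).trans (by rw [map_mul]; exact (mul_left_comm _ _ _).trans (congrArg _ (hl v).symm))
  · exact (hl 1).trans (by simp)

theorem nr_of {A : Type} [CommRing A] [Algebra O A] (y : A →ₐ[O] B) {P : Ideal A} {c : A} {N : ℕ}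
    (hP : ∀ z ∈ P, algebraMap O B ((p : O) ^ (N + 1)) ∣ y z) (hc : y c ≠ 0) :
    Nr p P c (RingHom.ker y) N := by
  have := RingHom.ker_isPrime y
  have : Module.Finite O (A ⧸ RingHom.ker y) :=
    Module.Finite.of_injective (Ideal.kerLiftAlg y).toLinearMap (Ideal.kerLiftAlg_injective y)
  obtain ⟨a, u, hu⟩ := dvd_p h1 (b := Ideal.Quotient.mk (RingHom.ker y) c)
    fun h => hc (Ideal.Quotient.eq_zero_iff_mem.1 h)
  obtain ⟨u, rfl⟩ := Ideal.Quotient.mk_surjective u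
  refine ⟨a, ⟨u, Ideal.Quotient.eq.1 (by rw [map_mul, mul_comm, ← hu, map_pow, map_natCast])⟩, ?_⟩
  obtain ⟨k, hk⟩ := (Ideal.span {(p : O)}).exists_pow_inf_eq_pow_smul
    (LinearMap.range y.toLinearMap)
  refine ⟨k + (a + 1), fun z hz => ?_⟩
  rw [add_assoc]
  generalize a + 1 = b at hz ⊢
  have h4 : y z ∈ Ideal.span {algebraMap O B ((p : O) ^ (N + 1))} ^ (k + b) :=
    Ideal.pow_right_mono (I := P.map y) (Ideal.map_le_iff_le_comap.2 fun y hy =>
      Ideal.mem_comap.2 (Ideal.mem_span_singleton.2 (hP y hy))) _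
      (Ideal.map_pow y _ _ ▸ Ideal.mem_map_of_mem y hz)
  rw [Ideal.span_singleton_pow, ← map_pow, ← pow_mul, Ideal.mem_span_singleton'] at h4
  obtain ⟨t, ht⟩ := h4
  have h5 : y z ∈ Ideal.span {(p : O)} ^ ((N + 1) * (k + b)) • ⊤ ⊓
      LinearMap.range y.toLinearMap := by
    refine ⟨?_, z, rfl⟩
    rw [← ht, mul_comm t, ← Algebra.smul_def]
    exact Submodule.smul_mem_smul (Ideal.pow_mem_pow (Ideal.mem_span_singleton_self _) _) trivial
  rw [hk _ (by nlinarith), show (N + 1) * (k + b) - k = N * (k + b) + b by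
    rw [add_mul, one_mul]; omega, Ideal.span_singleton_pow, Submodule.ideal_span_singleton_smul,
    Submodule.mem_smul_pointwise_iff_exists] at h5
  obtain ⟨_, ⟨-, w, rfl⟩, h5⟩ := h5
  rw [← sub_add_cancel z ((p : A) ^ (N * (k + b) + b) * w)]
  refine Submodule.add_mem_sup ?_ (Ideal.mul_mem_right _ _ (Ideal.mem_span_singleton_self _))
  rw [RingHom.mem_ker, map_sub, ← h5, ← map_natCast (algebraMap O A), ← map_pow,
    ← Algebra.smul_def, map_smul]
  exact sub_self _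

end dom

variable {A : Type} [CommRing A] [Algebra O A]

variable (O) in
/-- a closed point of the generic fibre -/
structure Cq (𝔮 : Ideal A) : Prop where
  prime : 𝔮.IsPrime
  cst : ∀ o, algebraMap O A o ∈ 𝔮 → o = 0
  fin : Module.Finite O (A ⧸ 𝔮)

theorem cq_ker {V : Type} [CommRing V] [IsDomain V] [Algebra O V] [Module.Finite O V]
    [FaithfulSMul O V] (x : A →ₐ[O] V) : Cq O (RingHom.ker x) :=
  ⟨RingHom.ker_isPrime x, fun o h => FaithfulSMul.algebraMap_injective O V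
    (((x.commutes o).symm.trans h).trans (map_zero _).symm),
    Module.Finite.of_injective (Ideal.kerLiftAlg x).toLinearMap (Ideal.kerLiftAlg_injective x)⟩

theorem Cq.fs {𝔮 : Ideal A} (h : Cq O 𝔮) : FaithfulSMul O (A ⧸ 𝔮) :=
  (faithfulSMul_iff_algebraMap_injective _ _).2 ((injective_iff_map_eq_zero _).2 fun o e =>
    h.cst o (Ideal.Quotient.eq_zero_iff_mem.1 e))

variable [hO : Cf O] (h0 : (p : O) ≠ 0) (h1 : ¬ IsUnit (p : O))
include h0 h1

theorem Cq.fb [CharZero O] {𝔮 : Ideal A} (h : Cq O 𝔮) : WB.Fb p (A ⧸ 𝔮) :=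
  have := h.prime
  have := h.fin
  have := h.fs
  fb_of h1 h0

theorem Cq.nr [IsNoetherianRing A] {𝔮 J : Ideal A} (h : Cq O 𝔮) (hJ : J ≤ 𝔮) {c : A}
    (hc : ∀ u, c * u ∈ J → u ∈ J) (N : ℕ) : ∃ 𝔮', Cq O 𝔮' ∧ J ≤ 𝔮' ∧ Nr p 𝔮 c 𝔮' N := by
  have := h.prime
  have := h.fin
  have := h.fs
  have := hO.cpl
  obtain ⟨V, _, _, _, _, j, y, y1, y2, y3, y4⟩ := near_pt (Ideal.Quotient.mkₐ O 𝔮) J
    (fun u hu => Ideal.Quotient.eq_zero_iff_mem.2 (hJ hu)) c hc _ (pow_ne_zero (N + 1) h0)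
  have : FaithfulSMul O V := (faithfulSMul_iff_algebraMap_injective _ _).2 (by
    rw [← j.comp_algebraMap]
    exact y1.comp (FaithfulSMul.algebraMap_injective O _))
  refine ⟨_, cq_ker y, y2, nr_of h1 y (fun z hz => ?_) y3⟩
  have := y4 z
  rwa [show Ideal.Quotient.mkₐ O 𝔮 z = 0 from Ideal.Quotient.eq_zero_iff_mem.2 hz, map_zero,
    sub_zero, Ideal.mem_span_singleton] at this

variable [Fact p.Prime] {C : Type} [NontriviallyNormedField C] [IsUltrametricDist C]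
  [CharZero C] {ψ : ℚ_[p] → C} {Γ : Type} [Group Γ] {act : Γ →* Iso C} {χ : Γ →* ℤ_[p]ˣ}
  {ok : Og ψ act χ} {𝔍 : ℕ → Ideal A}

omit h1 in
theorem Cq.lat {𝔮 : Ideal A} (h : Cq O 𝔮) {f : Γ →* Matrix (Fin 2) (Fin 2) A} (cs : Cs p act f 𝔍)
    (hJ : ∀ 𝔞 : Ideal A, Finite (A ⧸ 𝔞) → ∃ n, 𝔍 n ≤ 𝔞) :
    Lat p act (mv (qf (Ideal.Quotient.mk 𝔮) f)) := by
  have := h.fin
  refine WB.lat_mv (fin_p h0) fun N => ?_
  have := fin_p (B := A ⧸ 𝔮) h0 N
  obtain ⟨n, hn⟩ := hJ ((Ideal.span {(p : A ⧸ 𝔮) ^ N}).comap (Ideal.Quotient.mk 𝔮))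
    (.of_injective _ Ideal.quotientMap_injective)
  refine (cs.opn n).imp fun s hs => ⟨hs.1, fun g hg i j => Ideal.mem_span_singleton.1 ?_⟩
  have := hn (hs.2 g hg i j)
  rw [Ideal.mem_comap, Matrix.sub_apply, map_sub] at this
  convert this using 1
  rw [Matrix.sub_apply, Matrix.one_apply, Matrix.one_apply, apply_ite (Ideal.Quotient.mk 𝔮),
    map_one, map_zero]
  rfl

variable [CharZero O] [IsNoetherianRing A] [CompleteSpace C] [IsAlgClosed C] {M : Type}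
  [AddCommGroup M] [Module A M] {J : Type} [DecidableEq J] [Finite J] {I K : Type} [Finite I]
  [Nonempty I] [Zero K] {σ : J → Representation A (G2 p) M} {Q : Submodule A M}
  {E : J → Matrix (Fin 2) (Fin 2) A →ₐ[A] Module.End A M} {f : J → Γ →* Matrix (Fin 2) (Fin 2) A}
  {L : J → Type} {W : ∀ k, L k → M →+ Y p C} {φ : K → A} {rel : J → Set (G2 p × I →₀ K)}

/-- **the transfer at the closed points of the generic fibre**; `P k` freezes the place `k` -/
theorem trr (rw : WB.R1.Rows p C) (hS : SURJ p C) (hF : PHI p C) (sur : Surjective χ)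
    (anti : Antitone 𝔍) (nil : ∀ v ∈ Q, ∃ N, v ∈ WB.R1.Kl M (𝔍 N))
    (hJ : ∀ 𝔞 : Ideal A, Finite (A ⧸ 𝔞) → ∃ n, 𝔍 n ≤ 𝔞)
    (tg : ∀ s : Set J, ∀ k ∉ s, Tg ok (piR (σ k) (J → I)) (SlS φ σ rel Q s) (piE (E k) (J → I))
      (f k) fun q : L k × (J → I) => (W k q.1).comp (Pi.evalAddMonoidHom _ q.2))
    (cs : ∀ k, Cs p act (f k) 𝔍) (J₀ : Ideal A) (P : J → Ideal A)
    (nz : ∀ k (s : Set J), k ∉ s → ∃ c, (∀ m, c • m ∈ Submodule.span A (Set.range (f k))) ∧
      ∀ u, c * u ∈ J₀ ⊔ ⨆ j ∈ s, P j → u ∈ J₀ ⊔ ⨆ j ∈ s, P j)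
    (loc : ∀ k 𝔮, Cq O 𝔮 → P k ≤ 𝔮 → Loc ok (mv (qf (Ideal.Quotient.mk 𝔮) (f k)))
      (smf fun c => Ideal.Quotient.mk 𝔮 (φ c)) (rel k))
    (unb : ∀ 𝔮, Cq O 𝔮 → J₀ ≤ 𝔮 → ∀ N : ℕ, ∃ v ∈ Q ⊓ WB.R1.Kl M 𝔮, p ^ N • v ≠ 0)
    {𝔮 : Ideal A} (hq : Cq O 𝔮) (le : J₀ ≤ 𝔮) (hP : ∀ k, P k ≤ 𝔮) (N : ℕ) :
    ∃ x ∈ SlS φ σ rel (Q ⊓ WB.R1.Kl M 𝔮) Set.univ, p ^ N • x ≠ 0 := by
  have := WB.trq rw hS hF sur anti nil tg (X := {𝔮 : Ideal A // Cq O 𝔮 ∧ J₀ ≤ 𝔮}) (fun ξ => ξ.1)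
    (fun ξ k => P k ≤ ξ.1) ∅ Set.univ (fun k _ => cs k) (fun ξ => ξ.2.1.fb h0 h1)
    (fun ξ k _ => ξ.2.1.lat h0 (cs k) hJ) (fun ξ k _ => loc k _ ξ.2.1) (fun ξ k _ => ?_)
    (fun ξ _ n => ?_) ⟨𝔮, hq, le⟩ (fun k _ => hP k) N
  · rwa [Set.union_empty] at this
  · obtain ⟨c, c1, c2⟩ := nz k {j | j ≠ k ∧ P j ≤ ξ.1} fun h => h.1 rfl
    refine ⟨c, c1, fun n => ?_⟩
    obtain ⟨𝔮', q1, q2, q3⟩ := ξ.2.1.nr h0 h1 (sup_le ξ.2.2 (iSup₂_le fun j hj => hj.2)) c2 n
    exact ⟨⟨𝔮', q1, le_sup_left.trans q2⟩, fun j hj h =>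
      (le_sup_of_le_right (le_iSup₂_of_le j ⟨hj, h⟩ le_rfl)).trans q2, q3⟩
  · obtain ⟨v, v1, v2⟩ := unb _ ξ.2.1 ξ.2.2 n
    exact ⟨fun _ => v, WB.SlS_empty v1, fun e => v2 (congrFun e fun _ => Classical.arbitrary I)⟩

end Vale.Agent.P022K.RT
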