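import Vale.Agent.P022K.RT.Mov
import Vale.Agent.P022K.RT.Trr
import Vale.Agent.P022K.RT.Pwd
import Vale.Agent.P022K.RT.Tga
import Vale.Agent.P022K.RT.Bigp

/-!
# P022K, block RT: the transfer on the patched module at a point with values in any finite domain
-/

set_option linter.all false

noncomputable section

namespace Vale.Agent.P022K.RT.Pd

open IsLocalRing Function MvPowerSeries
open Vale.Agent.P022D.L2b (M2)
open Vale.Agent.P022D.Core (PS)
open Vale.Agent.P022D.CA (emb)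
open Vale.Agent.P022K.PL (Cf)
open Vale.Agent.P022K.WB (G2 Iso SlS Loc Nr SURJ PHI ok0 mv smf qf)
open Vale.Agent.P022K.FI (CS)
open Vale.Agent.P022K.Top (Si)

variable {p : ℕ} [Fact p.Prime] {O F V : Type} [CommRing O] [IsDomain O]
  [IsDiscreteValuationRing O] [Algebra ℤ_[p] O] [Field F] {Z : Si p O} {C : Fr Z F} (D : Pd C)
  (J : ∀ t, Ideal (PS O (C.τ t))) [CommRing V] [Algebra O V]

variable (V) in
/-- a point of the component with values in a finite extension of `V` -/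
structure Pq : Type 1 where
  A : Type
  [cr : CommRing A]
  [dm : IsDomain A]
  [al : Algebra O A]
  [fn : Module.Finite O A]
  j : V →ₐ[O] A
  inj : Injective j
  y : D.R →ₐ[O] A
  kil : ∀ u ∈ D.J0 J, y u = 0

attribute [instance] Pq.cr Pq.dm Pq.al Pq.fn

variable {D J}

theorem I0_le (le : ∀ t, C.I t ≤ J t) : D.I0 ≤ D.J0 J := sup_le_sup_right (sumI_mono le) _

namespace Pq

variable (ξ : D.Pq V J) (le : ∀ t, C.I t ≤ J t)

instance fs [FaithfulSMul O V] : FaithfulSMul O ξ.A :=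
  (faithfulSMul_iff_algebraMap_injective O _).2 (by
    rw [← ξ.j.comp_algebraMap]
    exact ξ.inj.comp (FaithfulSMul.algebraMap_injective O V))

/-- the point on the quotient ring -/
def ya : D.A →ₐ[O] ξ.A := Ideal.Quotient.liftₐ D.I0 ξ.y fun u hu => ξ.kil u (I0_le le hu)

theorem ya_qm (u : D.R) : ξ.ya le (D.qm u) = ξ.y u := rfl

/-- the block `t` is moved -/
theorem mov [Cf O] [CharZero O] [FaithfulSMul O V] [Algebra O F] (h : D.Ok) (t : C.T)
    (pr : (J t).IsPrime) {c : PS O (C.τ t)} (hc : c ∉ J t) (hp : (p : O) ∈ maximalIdeal O) (N : ℕ) :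
    ∃ (ξ' : D.Pq V J) (j : ξ.A →ₐ[O] ξ'.A), ξ'.j = j.comp ξ.j ∧
      (∀ t' ≠ t, ∀ u, ξ'.y (D.io t' u) = j (ξ.y (D.io t' u))) ∧
      Nr p (RingHom.ker (ξ.ya le)) (D.qm (D.io t c)) (RingHom.ker (ξ'.ya le)) N := by
  obtain ⟨T, _, _, _, j, y, _, hj, h1, h2, h3, h4⟩ := Mv.mov (emb D.e t) ξ.y
    (fun u hu => ξ.kil _ (Ideal.mem_sup_left (mem_sumI hu)))
    (fun u hu => (pr.mem_or_mem hu).resolve_left hc)
    (pow_ne_zero (N + 1) (Nat.cast_ne_zero.2 (Fact.out : p.Prime).ne_zero))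
    (Ideal.pow_mem_of_mem _ hp _ N.succ_pos)
  have h5 : ∀ {σ : Type} [Fintype σ] (e : σ ↪ D.σ), (∀ a b, e a ≠ D.e ⟨t, b⟩) → ∀ u : PS O σ,
      y (rename e u) = j (ξ.y (rename e u)) := fun e he => AlgHom.congr_fun (Mv.pt_ext
    (x := y.comp (rename e)) (y := (j.comp ξ.y).comp (rename e)) fun i => by
      simp only [AlgHom.comp_apply, rename_X]
      exact h3 _ fun ⟨b, hb⟩ => he i b hb.symm)
  have h6 : ∀ t' ≠ t, ∀ u, y (D.io t' u) = j (ξ.y (D.io t' u)) := fun t' ht =>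
    h5 (emb D.e t') fun a b e => ht (congrArg Sigma.fst (D.e.injective e))
  refine ⟨⟨T, j.comp ξ.j, hj.comp ξ.inj, y, sup_le (sumI_le.2 fun t' u hu => ?_) ?_
    (a := sumI D.e J) (c := RingHom.ker y)⟩, j, rfl, h6, nr_of hp _ (fun z hz => ?_) h2⟩
  · by_cases e : t' = t
    · subst e
      exact h1 u hu
    · exact (h6 t' e u).trans (by rw [ξ.kil _ (Ideal.mem_sup_left (mem_sumI hu)), map_zero])
  · obtain ⟨σ₁, _, e₁, J₁, a, b⟩ := h.aux.sep
    rw [b]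
    exact Ideal.map_le_iff_le_comap.2 fun u hu => (h5 e₁ (fun _ _ => a _ _) u).trans (by
      rw [ξ.kil _ (Ideal.mem_sup_right (b ▸ Ideal.mem_map_of_mem _ hu)), map_zero])
  · obtain ⟨z, rfl⟩ := Ideal.Quotient.mk_surjective z
    have := h4 z
    rwa [show ξ.y z = 0 from hz, map_zero, sub_zero] at this

end Pq

variable [Algebra O F] [Cf O] [CharZero O] [CharP F p]

theorem dk_sur {k : Z.J} (L : Z.Pl k) (e : L.P = C.P (C.u k)) : Surjective (C.dk L e) := fun s =>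
  (L.hP.onto (s := s.1) (by rw [e]; exact s.2)).imp fun _ h => Subtype.ext h

/-- **TRQ: the local conditions at a point of a component in the support give unbounded
solutions** -/
theorem Ok.trq (h : D.Ok) (hZ : Z.Ok) (hC : C.Ok) (rw : WB.R1.Rows p (CS p)) (hS : SURJ p (CS p))
    (hF : PHI p (CS p)) (L : ∀ k, Z.Pl k) (e : ∀ k, (L k).P = C.P (C.u k))
    (i : ∀ k, (L k).Inj C.t) {θ : Module.End D.R D.M.Y} (c1 : ∀ k g, Commute θ (D.ak D.M k g))
    (c2 : ∀ k m, Commute (D.M.E (C.u k) m) θ) (le : ∀ t, C.I t ≤ J t)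
    (pr : ∀ k, (J (C.u k)).IsPrime) (irr : ∀ k, ∃ x : Fin 4 → P022D.W.dec (C.P (C.u k)),
      d4 (fun i => C.f (C.u k) (x i)) ∉ J (C.u k))
    (unb : ∀ 𝔮 : Ideal D.R, 𝔮.IsPrime → D.J0 J ≤ 𝔮 → (∀ o, MvPowerSeries.C o ∈ 𝔮 → o = 0) →
      Unb O θ (Kl D.M.Y 𝔮)) [IsDomain V] [Module.Finite O V] [FaithfulSMul O V]
    (x : D.R →ₐ[O] V) (hx : ∀ u ∈ D.J0 J, x u = 0) {r : Z.J → Iso (CS p) →* M2 V}
    (hr : ∀ k σ, r k σ = (D.fm (C.u k) (C.dk (L k) (e k) σ)).map x) {I : Type} [Finite I]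
    [Nonempty I] {rl : Z.J → Set (G2 p × I →₀ O)}
    (loc : ∀ k, Loc (ok0 p) (mv (r k)) (smf (algebraMap O V)) (rl k)) (N : ℕ) :
    ∃ y ∈ D.Sv rl (LinearMap.range θ ⊓ WB.R1.Kl D.M.Y (RingHom.ker x)), p ^ N • y ≠ 0 := by
  have hp := p_max hC
  have h0 : (p : O) ≠ 0 := Nat.cast_ne_zero.2 (Fact.out : p.Prime).ne_zero
  have hB := PL.base_ps O D.σ
  have kl : ∀ (ξ : D.Pq V J) (v : h.N.Y), v ∈ WB.R1.Kl h.N.Y (RingHom.ker (ξ.ya le)) ↔
      v ∈ Kl D.M.Y (RingHom.ker ξ.y) := fun ξ v => D.M.quo_kl D.I0 h.kil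
  obtain ⟨y, y1, y2⟩ := WB.trq (φ := algebraMap O D.A) (rel := rl)
    (Q := LinearMap.range (h.qo θ)) rw hS hF (WB.sur0 p) D.JN_anti (fun v _ => h.nilA v)
    (fun s k hk => (h.tp hZ hC hF L e i).tg _ _ (fun k g => by
      rintro _ ⟨v, rfl⟩
      exact ⟨_, LinearMap.congr_fun (c1 k g).eq v⟩) s (fun m => by
      rintro _ ⟨v, rfl⟩
      exact ⟨_, (LinearMap.congr_fun (h.qo_com (c2 k) m).eq v).symm⟩) hk)
    (fun ξ : D.Pq V J => RingHom.ker (ξ.ya le))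
    (fun ξ k => ∀ u, ξ.y (D.io (C.u k) u) = ξ.j (x (D.io (C.u k) u))) ∅ Set.univ
    (fun k _ => D.cs hC (L k) (e k)) (fun ξ => (cq_ker _).fb h0 hp)
    (fun ξ k _ => (cq_ker _).lat h0 (D.cs hC (L k) (e k)) fun 𝔞 _ => by
      have : Finite (D.R ⧸ 𝔞.comap D.qm) := .of_injective _ Ideal.quotientMap_injective
      exact (pow_le_fin (𝔞.comap D.qm)).imp fun n hn => Ideal.map_le_iff_le_comap.2 hn)
    (fun ξ k _ fr => by
      have := (cq_ker (ξ.ya le)).prime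
      have := (cq_ker (ξ.ya le)).fin
      let g : PS O (C.τ (C.u k)) →ₐ[O] D.A ⧸ RingHom.ker (ξ.ya le) :=
        ((Ideal.Quotient.mkₐ O _).comp (Ideal.Quotient.mkₐ O D.I0)).comp (D.io (C.u k))
      obtain ⟨μ, n, m1, m2⟩ := Mv.ex_lin (B := D.A ⧸ RingHom.ker (ξ.ya le))
        (D := PS O (C.τ (C.u k))) hp g (x.comp (D.io (C.u k))).toRingHom
        fun d (hd : Ideal.Quotient.mk (RingHom.ker (ξ.ya le)) (D.qm (D.io (C.u k) d)) = 0) =>
          ξ.inj ((fr d).symm.trans ((RingHom.mem_ker.1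
            (Ideal.Quotient.eq_zero_iff_mem.1 hd)).trans (map_zero _).symm))
      refine (loc k).chg μ (fun s a b z => ?_) (fun c z => ?_) m2
      · rw [hr]
        exact m1 _ z
      · have := m1 (algebraMap O _ c) z
        rwa [AlgHom.commutes, AlgHom.toRingHom_eq_coe, RingHom.coe_coe, AlgHom.commutes] at this)
    (fun ξ k _ => by
      obtain ⟨g, hg⟩ := irr k
      choose s hs using fun a => dk_sur (L k) (e k) (g a)
      refine ⟨D.qm (D.io (C.u k) (d4 fun i => C.f (C.u k) (g i))), fun m => ?_, fun n => ?_⟩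
      · have e1 : D.qm (D.io (C.u k) (d4 fun i => C.f (C.u k) (g i))) =
            d4 fun a => D.fk hC (L k) (e k) (s a) := by
          simp only [fk_apply, hs]
          exact (Gi.d4_map (D.qm.comp (D.io (C.u k)).toRingHom) _).symm
        rw [e1]
        refine Submodule.span_mono ?_ (WB.d4_span (fun a => D.fk hC (L k) (e k) (s a)) m)
        rintro _ ⟨a, rfl⟩
        exact ⟨s a, rfl⟩
      · obtain ⟨ξ', j, j1, j2, j3⟩ := ξ.mov le h (C.u k) (pr k) hg hp n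
        exact ⟨ξ', fun k' hk fr u => by
          rw [j2 _ fun e => hk (hC.u_inj hZ e), fr, j1, AlgHom.comp_apply], j3⟩)
    (fun ξ _ n => by
      obtain ⟨v, v1, v2⟩ := unb (RingHom.ker ξ.y) (RingHom.ker_isPrime _) ξ.kil
        (cq_ker ξ.y).cst _ (pow_ne_zero n h0)
      refine ⟨fun _ => θ v, WB.SlS_empty ⟨⟨v, rfl⟩, (kl ξ _).2 fun u hu => ?_⟩, fun e => v2 ?_⟩
      · rw [← map_smul, v1 u hu, map_zero]
      · rw [← Nat.cast_pow, Nat.cast_smul_eq_nsmul]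
        exact congrFun e fun _ => Classical.arbitrary I)
    ⟨V, AlgHom.id O V, injective_id, x, hx⟩ (fun _ _ _ => rfl) N
  exact ⟨y, ⟨fun a => ⟨(y1.1 a).1, WB.R1.mem_Kl.2 ((kl _ _).1 (y1.1 a).2)⟩,
    fun k _ a => y1.2 k (Or.inl trivial) a⟩, y2⟩

end Vale.Agent.P022K.RT.Pd
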