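import Vale.Agent.P022K.RT.Patd

/-!
# P022K, block RT: the first clause of PATE for any equivariant operator
-/

set_option linter.all false

noncomputable section

namespace Vale.Agent.P022K.RT

open IsLocalRing MvPowerSeries Pd
open Vale.Agent.P022D.Core (PS io y1)
open Vale.Agent.P022K.PL (Cf)

theorem pate1 (hD : DUAL) {O σ K M : Type} [CommRing O] [IsDomain O] [IsDiscreteValuationRing O]
    [hO : Cf O] [Fintype σ] [Group K] [AddCommGroup M] [Module O M] [Module (PS O σ) M]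
    [IsScalarTower O (PS O σ) M] {p r b : ℕ} [Fact p.Prime] {k : Fin 0 ⊕ Fin r → K}
    {N : ℕ → Subgroup K} {ρ : K →* Module.End (PS O σ) M} {qa qb : Fin r → PS O σ}
    {θ : Module.End (PS O σ) M} (h1 : (p : O) ∈ maximalIdeal O) (h2 : Unf p k N)
    (h3 : Dm O k N ρ b (Empty.elim : Empty → K) qa qb) (h4 : ∀ g, Commute θ (ρ g)) (h0 : θ ≠ 0) :
    ((r + 1 : ℕ) : WithBot ℕ∞) ≤ ringKrullDim (PS O σ ⧸ An θ) ∧ Sat (An θ) := by
  obtain ⟨lam, P, hR, hP⟩ := hD O (PS O σ) K M p 0 r b k N ρ h1 h2 h3.cof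
  obtain ⟨_, _, B, a, b', h⟩ := pk (Equiv.sumEmpty σ Empty) h2 h3 (cp_of hR hP)
  obtain ⟨t, ht, hb⟩ := h.tr θ h4
  have e0 : ∀ u, ip O r (Equiv.sumEmpty σ Empty) u = io O σ r u := fun u =>
    congrArg (io O σ r) (rename_id_apply u)
  have := h.fg
  have := PL.base_ps O (σ ⊕ Fin r)
  letI : Algebra (PS O σ) (PS O (σ ⊕ Fin r)) := (io O σ r).toAlgebra
  haveI : Pat.Cf O := ⟨hO.cpl, hO.fin⟩
  have le : Ideal.span (Set.range fun i =>
      y1 O σ i ^ 2 - io O σ r (a i) * y1 O σ i + io O σ r (b' i)) ≤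
      (LinearMap.range t).annihilator := Ideal.span_le.2 (Set.range_subset_iff.2 (h.rel_mem _))
  haveI := (Pat.cov O σ r a b' h.nu).fin
  haveI : Module.Finite (PS O σ) (PS O (σ ⊕ Fin r) ⧸ (LinearMap.range t).annihilator) :=
    Module.Finite.of_surjective (Ideal.Quotient.factorₐ (PS O σ) le).toLinearMap
      (Ideal.Quotient.factor_surjective le)
  have e1 : (LinearMap.range t).annihilator.comap (algebraMap (PS O σ) _) = An θ :=
    Ideal.ext fun u => by rw [h.an ht, e0]; rfl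
  refine ⟨?_, fun o ho u hu => ?_⟩
  · have := PL.dim O (Fin 0) r _ B (PS O (σ ⊕ Fin r)) C (y1 O σ) h.op h.act (LinearMap.range t)
      (IsNoetherian.noetherian _) (fun h5 => h0 (LinearMap.ext fun m => sep h.bij.2 fun v => by
        rw [← ht, LinearMap.range_eq_bot.1 h5, LinearMap.zero_apply, map_zero]
        rfl)) (by rintro i _ ⟨v, rfl⟩; exact ⟨_, hb i v⟩)
    rwa [PL.Lo.dim_comap (A := PS O σ), e1, Fintype.card_fin, add_zero, add_comm] at this
  · rw [h.an ht, Submodule.mem_annihilator] at hu ⊢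
    intro v hv
    have h5 := hu v hv
    rw [map_mul, ip_C, mul_smul, h.act.c] at h5
    exact (smul_eq_zero.1 h5).resolve_left fun h6 => ho (by simpa using congrArg constantCoeff h6)

end Vale.Agent.P022K.RT
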