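import Vale.Agent.P022K.RT.Minp

/-!
# P022K, block RT: transport of charts
-/

set_option linter.all false

noncomputable section

namespace Vale.Agent.P022K.RT

open IsLocalRing MvPowerSeries
open Vale.Agent.P022D.L2b (M2)
open Vale.Agent.P022D.Core (PS)
open Vale.Agent.P022D.PA (Base)
open Vale.Agent.P022K.PL (Cf)
open Vale.Agent.P022D

/-- `δ` induces an isomorphism of the universal rings -/
structure Trn {O G₁ G₂ τ₁ τ₂ : Type} [CommRing O] [IsLocalRing O] (I₁ : Ideal (PS O τ₁))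
    (f₁ : G₁ → M2 (PS O τ₁)) (I₂ : Ideal (PS O τ₂)) (f₂ : G₂ → M2 (PS O τ₂)) (i : G₁ → G₂)
    (γ γ' : M2 O) (δ : PS O τ₁ →ₐ[O] PS O τ₂) : Prop where
  inv : γ * γ' = 1
  lc : ∀ t, δ (X t) ∈ maximalIdeal (PS O τ₂)
  cm : ∀ u, δ u ∈ I₂ ↔ u ∈ I₁
  sur : ∀ v, ∃ u, δ u - v ∈ I₂
  mat : ∀ y, Cg I₂ ((f₁ y).map δ) (γ.map C * f₂ (i y) * γ'.map C)

theorem Cg.map {O A B : Type} [CommRing O] [CommRing A] [CommRing B] [Algebra O A] [Algebra O B]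
    {I : Ideal A} {a b : M2 A} (h : Cg I a b) (x : A →ₐ[O] B) (k : ∀ u ∈ I, x u = 0) :
    a.map x = b.map x :=
  Matrix.ext fun i j => sub_eq_zero.1 ((map_sub x _ _).symm.trans (k _ (h i j)))

theorem Cg.trans {A : Type} [CommRing A] {I : Ideal A} {a b c : M2 A} (h : Cg I a b)
    (k : Cg I b c) : Cg I a c := cg_iff.2 ((cg_iff.1 h).trans (cg_iff.1 k))

theorem map_inv {O A : Type} [CommRing O] [CommRing A] (u : O →+* A) {γ γ' : M2 O}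
    (h : γ * γ' = 1) : γ.map u * γ'.map u = 1 := by
  rw [← Matrix.map_mul, h, Matrix.map_one _ (map_zero _) (map_one _)]

variable {G₁ G₂ F O τ₁ τ₂ : Type} [Group G₁] [TopologicalSpace G₁] [IsTopologicalGroup G₁]
  [Group G₂] [TopologicalSpace G₂] [IsTopologicalGroup G₂]
  [Field F] [Finite F] [CommRing O] [IsDomain O] [IsDiscreteValuationRing O] [Cf O] [Algebra O F]
  [Fintype τ₁] [Fintype τ₂] {r₁ : G₁ →* M2 F} {r₂ : G₂ →* M2 F} {s : F → O} {d₁ : G₁ → O}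
  {d₂ : G₂ → O} {g₁ : τ₁ → G₁} {g₂ : τ₂ → G₂} {p₁ q₁ : τ₁ → Fin 2} {p₂ q₂ : τ₂ → Fin 2}
  {I₁ : Ideal (PS O τ₁)} {I₂ J : Ideal (PS O τ₂)} {f₁ : G₁ → M2 (PS O τ₁)}
  {f₂ : G₂ → M2 (PS O τ₂)} {γ γ' : M2 O} {δ : PS O τ₁ →ₐ[O] PS O τ₂}

theorem mat_map {A : Type} [CommRing A] [Algebra O A] {a : M2 (PS O τ₁)} {b : M2 (PS O τ₂)}
    (h : Cg I₂ (a.map δ) (γ.map C * b * γ'.map C)) (x : PS O τ₂ →ₐ[O] A)
    (k : ∀ u ∈ I₂, x u = 0) :
    a.map (x.comp δ) = γ.map (algebraMap O A) * b.map x * γ'.map (algebraMap O A) := by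
  have e : ∀ c : M2 O, (c.map C).map x = c.map (algebraMap O A) := fun c =>
    Matrix.ext fun i j => x.commutes _
  have := h.map x k
  rw [Matrix.map_mul (f := x), Matrix.map_mul (f := x), e, e] at this
  exact this

theorem Uni.half (h₁ : Uni r₁ s d₁ g₁ p₁ q₁ I₁ f₁) (h₂ : Uni r₂ s d₂ g₂ p₂ q₂ I₂ f₂)
    (hs : ∀ x, algebraMap O F (s x) = x) (i : G₁ →* G₂) (hi : Continuous i) (e : γ * γ' = 1)
    (hr : ∀ y, r₁ y = γ.map (algebraMap O F) * r₂ (i y) * γ'.map (algebraMap O F))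
    (hd : ∀ y, d₁ y = d₂ (i y)) : ∃ δ : PS O τ₁ →ₐ[O] PS O τ₂, Lc δ ∧ (∀ u ∈ I₁, δ u ∈ I₂) ∧
      ∀ y, Cg I₂ ((f₁ y).map δ) (γ.map C * f₂ (i y) * γ'.map C) := by
  have := PL.base_ps O τ₂
  have := base_quot (fun k => (maximalIdeal.isMaximal _).ne_top (top_le_iff.1 (k ▸ h₂.le)) :
    I₂ ≠ ⊤)
  let A := PS O τ₂ ⧸ I₂
  let m := Ideal.Quotient.mkₐ O I₂
  have l : Lc m := fun u hu => mk_max hu
  have z : ∀ u, m u = 0 ↔ u ∈ I₂ := fun u => Ideal.Quotient.eq_zero_iff_mem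
  obtain ⟨ρ, b1, b2, -⟩ := (luc G₂ F O τ₂ r₂ s d₂ g₂ p₂ q₂ I₂ f₂ hs h₂ A).2.1 m l.c l.x
    fun u => (z u).2
  have e1 := map_inv (algebraMap O A) e
  have e2 := mul_eq_one_comm.1 e1
  set c := γ.map (algebraMap O A) with hc
  set c' := γ'.map (algebraMap O A) with hc'
  let ρ' : G₁ →* M2 A :=
    { toFun := fun x => c * ρ (i x) * c'
      map_one' := by rw [map_one, map_one, mul_one, e1]
      map_mul' := fun x y => by
        rw [map_mul, map_mul]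
        simp only [mul_assoc]
        rw [← mul_assoc c' c, e2, one_mul] }
  have hl : LiftC r₁ s d₁ ρ' := by
    refine ⟨fun n => ?_, l.c, fun x => ?_, fun x => ?_⟩
    · suffices k : {x | Cg (maximalIdeal A ^ n) (ρ' x) 1} =
          i ⁻¹' {x | Cg (maximalIdeal A ^ n) (ρ x) 1} by
        rw [k]; exact (b2.lc n).preimage hi
      refine Set.ext fun x => ⟨fun k => ?_, fun k => ?_⟩
      · have := ((Cg.rfl (a := c')).mul k).mul (Cg.rfl (a := c))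
        show Cg _ _ _
        rwa [mul_one, e2, show c' * ρ' x * c = c' * c * ρ (i x) * (c' * c) by
          simp only [ρ', MonoidHom.coe_mk, OneHom.coe_mk, mul_assoc], e2, one_mul, mul_one] at this
      · have := ((Cg.rfl (a := c)).mul k).mul (Cg.rfl (a := c'))
        rwa [mul_one, e1] at this
    · have k : Cg (maximalIdeal A) (ρ (i x)) (((r₂ (i x)).map s).map (algebraMap O A)) :=
        b2.red (i x)
      refine (((Cg.rfl (a := c)).mul k).mul (Cg.rfl (a := c'))).trans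
        (c := ((r₁ x).map s).map (algebraMap O A)) fun a b => ?_
      rw [hc, hc', ← Matrix.map_mul, ← Matrix.map_mul, Matrix.map_apply,
        Matrix.map_apply, ← map_sub]
      refine l.c _ ?_
      rw [← L2b.ker_eq hs, RingHom.mem_ker, map_sub, Matrix.map_apply, hs, hr, sub_eq_zero,
        ← Matrix.map_apply (f := algebraMap O F), Matrix.map_mul, Matrix.map_mul,
        show ((r₂ (i x)).map s).map (algebraMap O F) = r₂ (i x) from Matrix.ext fun _ _ => hs _]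
    · show (c * ρ (i x) * c').det = _
      rw [Matrix.det_mul, Matrix.det_mul, mul_right_comm, ← Matrix.det_mul, e1, Matrix.det_one,
        one_mul, b2.det, hd]
  obtain ⟨φ, c1, c2, c3⟩ := (luc G₁ F O τ₁ r₁ s d₁ g₁ p₁ q₁ I₁ f₁ hs h₁ A).1 ρ' hl
  have c4 : ∀ t, φ (X t) ∈ maximalIdeal A := fun t => by
    rw [h₁.crd_eq c2, c3]; exact hl.red _ _ _
  have c5 : ∀ t, ∃ v ∈ maximalIdeal (PS O τ₂), m v = φ (X t) := fun t => by
    obtain ⟨v, hv⟩ := Ideal.Quotient.mk_surjective (φ (X t))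
    exact ⟨v, fun k => c4 t (hv ▸ k.map _), hv⟩
  choose v v1 v2 using c5
  obtain ⟨δ, hδ⟩ := ex_ev (A := PS O τ₂) (fun a ha => Lu.C_max ha) v v1
  have c6 : φ = m.comp δ := Lc.ext c4 fun t => by rw [AlgHom.comp_apply, hδ, v2]
  refine ⟨δ, lc_of (fun a ha => Lu.C_max ha) fun t => hδ t ▸ v1 t,
    fun u hu => (z _).1 ((DFunLike.congr_fun c6 u).symm.trans (c2 u hu)), fun y => cg_iff.2 ?_⟩
  have := c3 y
  rw [c6] at this
  rw [Matrix.map_mul, Matrix.map_mul]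
  exact this.trans (by rw [show ρ' y = c * ρ (i y) * c' from rfl, b1]; rfl)

/-- **transport of charts** -/
theorem Uni.ex_trn (h₁ : Uni r₁ s d₁ g₁ p₁ q₁ I₁ f₁) (h₂ : Uni r₂ s d₂ g₂ p₂ q₂ I₂ f₂)
    (hs : ∀ x, algebraMap O F (s x) = x) (i : G₁ →* G₂) (i' : G₂ →* G₁) (hi : Continuous i)
    (hi' : Continuous i') (e₁ : ∀ y, i' (i y) = y) (e₂ : ∀ y, i (i' y) = y) (e : γ * γ' = 1)
    (hr : ∀ y, r₁ y = γ.map (algebraMap O F) * r₂ (i y) * γ'.map (algebraMap O F))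
    (hd : ∀ y, d₁ y = d₂ (i y)) : ∃ δ, Trn I₁ f₁ I₂ f₂ i γ γ' δ := by
  have e' := mul_eq_one_comm.1 e
  have cj : ∀ {A : Type} [CommRing A] {c c' : M2 A} (a : M2 A), c * c' = 1 →
      c * (c' * a * c) * c' = a := fun {A} _ c c' a k => by
    rw [show c * (c' * a * c) * c' = c * c' * a * (c * c') by simp only [mul_assoc], k, one_mul,
      mul_one]
  obtain ⟨δ, a1, a2, a3⟩ := h₁.half h₂ hs i hi e hr hd
  obtain ⟨ε, b1, b2, b3⟩ := h₂.half h₁ hs i' hi' e'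
    (fun y => by rw [hr, e₂, cj _ (map_inv _ e')]) fun y => by rw [hd, e₂]
  have := PL.base_ps O τ₁
  have := PL.base_ps O τ₂
  have := base_quot (fun k => (maximalIdeal.isMaximal _).ne_top (top_le_iff.1 (k ▸ h₁.le)) :
    I₁ ≠ ⊤)
  have := base_quot (fun k => (maximalIdeal.isMaximal _).ne_top (top_le_iff.1 (k ▸ h₂.le)) :
    I₂ ≠ ⊤)
  have z₁ : ∀ u ∈ I₁, Ideal.Quotient.mkₐ O I₁ u = 0 := fun u => Ideal.Quotient.eq_zero_iff_mem.2
  have z₂ : ∀ u ∈ I₂, Ideal.Quotient.mkₐ O I₂ u = 0 := fun u => Ideal.Quotient.eq_zero_iff_mem.2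
  have k₁ := h₁.ext (φ := Ideal.Quotient.mkₐ O I₁)
    (φ' := ((Ideal.Quotient.mkₐ O I₁).comp ε).comp δ) (fun t => mk_max (Lu.X_max t)) z₁
    (fun u hu => z₁ _ (b2 _ (a2 u hu))) fun y => by
      rw [mat_map (a3 y) _ fun u hu => z₁ _ (b2 u hu), mat_map (b3 _) _ z₁, e₁,
        cj _ (map_inv _ e)]
  have k₂ := h₂.ext (φ := Ideal.Quotient.mkₐ O I₂)
    (φ' := ((Ideal.Quotient.mkₐ O I₂).comp δ).comp ε) (fun t => mk_max (Lu.X_max t)) z₂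
    (fun u hu => z₂ _ (a2 _ (b2 u hu))) fun y => by
      rw [mat_map (b3 y) _ fun u hu => z₂ _ (a2 u hu), mat_map (a3 _) _ z₂, e₂,
        cj _ (map_inv _ e')]
  exact ⟨δ, e, a1.x, fun u => ⟨fun hu => Ideal.Quotient.eq_zero_iff_mem.1
    ((DFunLike.congr_fun k₁ u).trans (z₁ _ (b2 _ hu))), a2 u⟩,
    fun v => ⟨ε v, Ideal.Quotient.eq.1 (DFunLike.congr_fun k₂ v).symm⟩, a3⟩

namespace Trn

variable {i : G₁ → G₂} (T : Trn I₁ f₁ I₂ f₂ i γ γ' δ) {A : Type} [CommRing A] [Algebra O A]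

include T

theorem ker {x : PS O τ₂ →ₐ[O] A} (k : ∀ u ∈ I₂, x u = 0) : ∀ u ∈ I₁, x.comp δ u = 0 :=
  fun u hu => k _ ((T.cm u).2 hu)

/-- the matrices of the transported point -/
theorem map {x : PS O τ₂ →ₐ[O] A} (k : ∀ u ∈ I₂, x u = 0) (y : G₁) : (f₁ y).map (x.comp δ) =
    γ.map (algebraMap O A) * (f₂ (i y)).map x * γ'.map (algebraMap O A) :=
  mat_map (T.mat y) x k

/-- every point is a transported point -/
theorem ex {φ : PS O τ₁ →ₐ[O] A} (k : ∀ u ∈ I₁, φ u = 0) : ∃ x : PS O τ₂ →ₐ[O] A,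
    (∀ v ∈ I₂, x v = 0) ∧ φ = x.comp δ ∧ ∀ v, ∃ u, x v = φ u :=
  Mp.fac δ I₂ T.sur φ fun u hu => k u ((T.cm u).1 hu)

theorem ex_pt {φ : PS O τ₁ →ₐ[O] A} (k : Pt I₁ φ) : ∃ x, Pt I₂ x ∧ φ = x.comp δ := by
  obtain ⟨x, a, b, c⟩ := T.ex k.ker
  exact ⟨x, ⟨a, fun v => (c v).elim fun u e => e ▸ k.int u⟩, b⟩

theorem le (h : I₂ ≤ J) : I₁ ≤ J.comap δ := fun u hu => h ((T.cm u).2 hu)

theorem dim (h : I₂ ≤ J) : ringKrullDim (PS O τ₁ ⧸ J.comap δ) = ringKrullDim (PS O τ₂ ⧸ J) :=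
  ringKrullDim_eq_of_ringEquiv (Mp.qe δ J fun v => (T.sur v).imp fun _ c => h c).toRingEquiv

theorem par {k : ℕ} (hJ : Par J k) (h : I₂ ≤ J) : Par (J.comap δ) k := by
  obtain ⟨m, ψ, e⟩ := hJ.ker
  exact ⟨⟨m, ψ.comp δ, e ▸ rfl⟩, (T.dim h).trans hJ.dim⟩

/-- transport of the local equation of a component -/
theorem ex_h {a : PS O τ₂} (k : ∀ u ∈ J, a * u ∈ I₂) :
    ∃ a', δ a' - a ∈ I₂ ∧ ∀ u ∈ J.comap δ, a' * u ∈ I₁ := by
  obtain ⟨a', h⟩ := T.sur a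
  refine ⟨a', h, fun u hu => (T.cm _).1 ?_⟩
  have := I₂.add_mem (I₂.mul_mem_right (δ u) h) (k _ hu)
  rwa [sub_mul, sub_add_cancel, ← map_mul] at this

/-- a component through a transported point -/
theorem le_comap (hJ : J.IsPrime) (h : I₂ ≤ J) {J' : Ideal (PS O τ₁)} {a : PS O τ₁}
    (k : ∀ u ∈ J', a * u ∈ I₁) (ha : δ a ∉ J) : J' ≤ J.comap δ := fun u hu =>
  (hJ.mem_or_mem (map_mul δ a u ▸ h ((T.cm _).2 (k u hu)))).resolve_left ha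

/-- **points which are conjugate to a transported point** -/
theorem pt [Base A] (h₁ : Uni r₁ s d₁ g₁ p₁ q₁ I₁ f₁) (h₂ : Uni r₂ s d₂ g₂ p₂ q₂ I₂ f₂)
    (hs : ∀ x, algebraMap O F (s x) = x) (h : I₂ ≤ J) (hJ : Inv I₂ J f₂)
    {x : PS O τ₂ →ₐ[O] A} (l : Lc x) (hx : ∀ u ∈ J, x u = 0) {φ : PS O τ₁ →ₐ[O] A}
    (hφ : ∀ u ∈ I₁, φ u = 0) {k k' : M2 A} (e : k * k' = 1)
    (hk : Cg (maximalIdeal A) k (γ.map (algebraMap O A)))
    (m : ∀ y, (f₁ y).map φ = k * (f₂ (i y)).map x * k') : ∀ u, δ u ∈ J → φ u = 0 := by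
  have e1 := map_inv (algebraMap O A) T.inv
  have e2 := mul_eq_one_comm.1 e1
  set c := γ.map (algebraMap O A)
  set c' := γ'.map (algebraMap O A)
  have a1 : c' * k * (k' * c) = 1 := by rw [mul_assoc, ← mul_assoc k, e, one_mul, e2]
  have a2 : Cg (maximalIdeal A) (k' * c) 1 := Cg.inv a1 (e2 ▸ (Cg.rfl (a := c')).mul hk)
  have a3 := mul_eq_one_comm.1 a1
  obtain ⟨x', b1, b2, b3⟩ := h₂.ex_conj hs l a3 a2 fun u hu => hx u (h hu)
  have b4 := hJ A x x' _ _ l a3 a2 b2 b3 hx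
  have : x'.comp δ = φ := h₁.ext (fun t => b1 _ (T.lc t)) (T.ker b2) hφ fun y => by
    rw [T.map b2, b3, m, show c * (c' * k * (f₂ (i y)).map x * (k' * c)) * c' =
      c * c' * k * (f₂ (i y)).map x * k' * (c * c') by simp only [mul_assoc], e1, one_mul, mul_one]
  exact fun u hu => this ▸ b4 _ hu

end Trn

section cj

variable {Γ : Type} [Group Γ] [TopologicalSpace Γ] [IsTopologicalGroup Γ] {D₁ D₂ : Subgroup Γ}

/-- conjugation between two subgroups -/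
def cjH (σ : Γ) (h : ∀ y ∈ D₁, σ⁻¹ * y * σ ∈ D₂) : D₁ →* D₂ where
  toFun y := ⟨σ⁻¹ * y * σ, h y y.2⟩
  map_one' := Subtype.ext (by simp)
  map_mul' x y := Subtype.ext (by simp [mul_assoc])

theorem cjH_cont (σ : Γ) (h : ∀ y ∈ D₁, σ⁻¹ * y * σ ∈ D₂) : Continuous (cjH σ h) :=
  Continuous.subtype_mk (by fun_prop) _

/-- **conjugate places**: the transport and the points of a global lift -/
theorem ex_trn_cj {r₁ : D₁ →* M2 F} {r₂ : D₂ →* M2 F} {d₁ : D₁ → O} {d₂ : D₂ → O} {g₁ : τ₁ → D₁}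
    {g₂ : τ₂ → D₂} {f₁ : D₁ → M2 (PS O τ₁)} {f₂ : D₂ → M2 (PS O τ₂)}
    (h₁ : Uni r₁ s d₁ g₁ p₁ q₁ I₁ f₁) (h₂ : Uni r₂ s d₂ g₂ p₂ q₂ I₂ f₂)
    (hs : ∀ x, algebraMap O F (s x) = x) (rb : Γ →* M2 F) (σ : Γ)
    (h : ∀ y ∈ D₁, σ⁻¹ * y * σ ∈ D₂) (h' : ∀ y ∈ D₂, σ * y * σ⁻¹ ∈ D₁) (e₁ : ∀ y, r₁ y = rb y)
    (e₂ : ∀ y, r₂ y = rb y) (hd : ∀ y, d₁ y = d₂ (cjH σ h y)) :
    ∃ γ' δ, Trn I₁ f₁ I₂ f₂ (cjH σ h) ((rb σ).map s) γ' δ ∧
      ∀ (A : Type) [CommRing A] [Base A] [Algebra O A] (ρ : Γ →* M2 A) (J : Ideal (PS O τ₂))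
        (x : PS O τ₂ →ₐ[O] A) (φ : PS O τ₁ →ₐ[O] A) (k k' : M2 A),
        (∀ a b, ρ σ a b - algebraMap O A (s (rb σ a b)) ∈ maximalIdeal A) → I₂ ≤ J →
        Inv I₂ J f₂ → Lc x → (∀ u ∈ J, x u = 0) → (∀ y, (f₂ y).map x = ρ y) →
        (∀ u ∈ I₁, φ u = 0) → k * k' = 1 → Cg (maximalIdeal A) k 1 →
        (∀ y, (f₁ y).map φ = k * ρ y * k') → ∀ u, δ u ∈ J → φ u = 0 := by
  have a1 : ((rb σ).map s).map (algebraMap O F) = rb σ := Matrix.ext fun _ _ => hs _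
  have a2 : rb σ * rb σ⁻¹ = 1 := by rw [← map_mul, mul_inv_cancel, map_one]
  obtain ⟨γ', e⟩ : ∃ γ', (rb σ).map s * γ' = 1 := by
    refine ⟨_, Matrix.mul_nonsing_inv _ (by_contra fun k => ?_)⟩
    have : algebraMap O F ((rb σ).map s).det = 0 := by
      rw [← RingHom.mem_ker, L2b.ker_eq hs]; exact k
    rw [RingHom.map_det, RingHom.mapMatrix_apply, a1] at this
    have b := congrArg Matrix.det a2
    rw [Matrix.det_mul, this, zero_mul, Matrix.det_one] at b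
    exact zero_ne_one b
  have a3 := map_inv (algebraMap O F) e
  rw [a1] at a3
  obtain ⟨δ, T⟩ := h₁.ex_trn h₂ hs (cjH σ h) (cjH σ⁻¹ (by simpa using h')) (cjH_cont _ _)
    (cjH_cont _ _) (fun y => Subtype.ext (by simp [cjH, mul_assoc]))
    (fun y => Subtype.ext (by simp [cjH, mul_assoc])) e (fun y => by
      rw [a1, ← left_inv_eq_right_inv (mul_eq_one_comm.1 a2) a3, e₁, e₂, ← map_mul, ← map_mul]
      simp [cjH, mul_assoc]) hd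
  refine ⟨γ', δ, T, fun A _ _ _ ρ J x φ k k' b1 b2 b3 b4 b5 b6 b7 b8 b9 b10 =>
    T.pt h₁ h₂ hs b2 b3 b4 b5 b7 (k := k * ρ σ) (k' := ρ σ⁻¹ * k') ?_ ?_ fun y => ?_⟩
  · rw [mul_assoc, ← mul_assoc (ρ σ), ← map_mul, mul_inv_cancel, map_one, one_mul, b8]
  · exact one_mul (((rb σ).map s).map (algebraMap O A)) ▸ b9.mul b1
  · rw [b10, b6, mul_assoc k (ρ σ), mul_assoc k (_ * _), ← mul_assoc (_ * _) (ρ σ⁻¹), ← map_mul,
      ← map_mul, ← mul_assoc]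
    simp [cjH, mul_assoc]

end cj

end Vale.Agent.P022K.RT
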