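import Mathlib

/-! P022K, block RT, row LP5: Kummer theory for any Galois extension. -/

set_option linter.all false

noncomputable section

namespace Vale.Agent.P022K.RT.Ku

variable {k K : Type} [Field k] [Field K] [Algebra k K] {p : ℕ} [Fact p.Prime] {ζ : K}

theorem pw_add (hζ : ζ ^ p = 1) (a b : ZMod p) : ζ ^ (a + b).val = ζ ^ a.val * ζ ^ b.val := by
  rw [ZMod.val_add, ← pow_add]
  exact (pow_eq_pow_mod _ hζ).symm

theorem pw_mul (hζ : ζ ^ p = 1) (a b : ZMod p) : ζ ^ (a * b).val = (ζ ^ a.val) ^ b.val := by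
  rw [ZMod.val_mul, ← pow_mul]
  exact (pow_eq_pow_mod _ hζ).symm

theorem pw_nat (hζ : ζ ^ p = 1) (n : ℕ) : ζ ^ (n : ZMod p).val = ζ ^ n := by
  rw [ZMod.val_natCast]
  exact (pow_eq_pow_mod _ hζ).symm

theorem pw_inj (hζ : IsPrimitiveRoot ζ p) {a b : ZMod p} (h : ζ ^ a.val = ζ ^ b.val) : a = b :=
  ZMod.val_injective p (hζ.pow_inj (ZMod.val_lt a) (ZMod.val_lt b) h)

theorem pw_ex (hζ : IsPrimitiveRoot ζ p) {x : K} (hx : x ^ p = 1) :
    ∃ a : ZMod p, x = ζ ^ a.val := by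
  obtain ⟨i, -, e⟩ := hζ.eq_pow_of_pow_eq_one hx
  exact ⟨i, by rw [pw_nat hζ.pow_eq_one, e]⟩

theorem ex_log (hζ : IsPrimitiveRoot ζ p) {β γ : K} (h0 : β ≠ 0) (h : γ ^ p = β ^ p) :
    ∃ a : ZMod p, γ = ζ ^ a.val * β := by
  obtain ⟨a, ha⟩ := pw_ex hζ (x := γ / β) (by rw [div_pow, h, div_self (pow_ne_zero _ h0)])
  exact ⟨a, by rw [← ha, div_mul_cancel₀ _ h0]⟩

section

variable {G : Type} [Group G] {Δ : Subgroup G} {φ : G → ZMod p}

theorem ch_one (ha : ∀ g ∈ Δ, ∀ h ∈ Δ, φ (g * h) = φ g + φ h) : φ 1 = 0 := by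
  have := ha 1 Δ.one_mem 1 Δ.one_mem
  rw [one_mul] at this
  exact left_eq_add.1 this

theorem ch_inv (ha : ∀ g ∈ Δ, ∀ h ∈ Δ, φ (g * h) = φ g + φ h) {g : G} (hg : g ∈ Δ) :
    φ g⁻¹ = -φ g := by
  have := ha g hg g⁻¹ (Δ.inv_mem hg)
  rw [mul_inv_cancel, ch_one ha] at this
  exact (neg_eq_of_add_eq_zero_right this.symm).symm

theorem ch_pow (ha : ∀ g ∈ Δ, ∀ h ∈ Δ, φ (g * h) = φ g + φ h) {g : G} (hg : g ∈ Δ) (n : ℕ) :
    φ (g ^ n) = n * φ g := by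
  induction n with
  | zero => simp [ch_one ha]
  | succ n ih => rw [pow_succ, ha _ (Δ.pow_mem hg n) _ hg, ih]; push_cast; ring

/-- the kernel of a character -/
def chk (ha : ∀ g ∈ Δ, ∀ h ∈ Δ, φ (g * h) = φ g + φ h) : Subgroup G where
  carrier := {g | g ∈ Δ ∧ φ g = 0}
  mul_mem' {a b} x y := ⟨Δ.mul_mem x.1 y.1, by rw [ha a x.1 b y.1, x.2, y.2, add_zero]⟩
  one_mem' := ⟨Δ.one_mem, ch_one ha⟩
  inv_mem' {a} x := ⟨Δ.inv_mem x.1, by rw [ch_inv ha x.1, x.2, neg_zero]⟩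

end

variable [IsGalois k K] {Δ : Subgroup Gal(K/k)} {φ : Gal(K/k) → ZMod p}

/-- an element outside a closed subgroup moves some fixed element -/
theorem sep (V : Subgroup Gal(K/k)) (hc : IsClosed (V : Set Gal(K/k))) {s : Gal(K/k)}
    (hs : s ∉ V) : ∃ θ : K, (∀ v ∈ V, v θ = θ) ∧ s θ ≠ θ := by
  have h : (IntermediateField.fixedField V).fixingSubgroup = V :=
    InfiniteGalois.fixingSubgroup_fixedField (k := k) (K := K) ⟨V, hc⟩
  by_contra hcon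
  push Not at hcon
  apply hs
  have : s ∈ (IntermediateField.fixedField V).fixingSubgroup := by
    rw [IntermediateField.mem_fixingSubgroup_iff]
    intro x hx
    rw [IntermediateField.mem_fixedField_iff] at hx
    exact hcon x hx
  rwa [h] at this

theorem stab_open (w : K) : IsOpen (MulAction.stabilizer Gal(K/k) w : Set Gal(K/k)) :=
  stabilizer_isOpen_of_isIntegral w

/-- **Kummer theory** for any subgroup: a character with closed kernel has a generator -/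
theorem surj (hζ : IsPrimitiveRoot ζ p) (hf : ∀ g ∈ Δ, g ζ = ζ)
    (ha : ∀ g ∈ Δ, ∀ h ∈ Δ, φ (g * h) = φ g + φ h)
    (hc : IsClosed {g : Gal(K/k) | g ∈ Δ ∧ φ g = 0}) :
    ∃ β : K, β ≠ 0 ∧ ∀ g ∈ Δ, g β = ζ ^ (φ g).val * β := by
  by_cases h : ∀ s ∈ Δ, φ s = 0
  · exact ⟨1, one_ne_zero, fun g hg => by rw [h g hg]; simp⟩
  push Not at h
  obtain ⟨s, hs, s1⟩ : ∃ s ∈ Δ, φ s = 1 := by
    obtain ⟨s, hs, e⟩ := h
    exact ⟨s ^ (φ s)⁻¹.val, Δ.pow_mem hs _, by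
      rw [ch_pow ha hs, ZMod.natCast_zmod_val, inv_mul_cancel₀ e]⟩
  let H := chk ha
  let L := IntermediateField.fixedField H
  have hK : ∀ x : L, ∀ g ∈ Δ, ∀ g' ∈ Δ, φ g = φ g' → g x = g' x := fun x g hg g' hg' e => by
    have h1 : g'⁻¹ * g ∈ H := ⟨Δ.mul_mem (Δ.inv_mem hg') hg, by
      rw [ha _ (Δ.inv_mem hg') _ hg, ch_inv ha hg', e, neg_add_cancel]⟩
    have h2 := (IntermediateField.mem_fixedField_iff _ _).1 x.2 _ h1
    have h3 := congrArg g' h2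
    rwa [← AlgEquiv.mul_apply, mul_inv_cancel_left] at h3
  have sv : ∀ a : ZMod p, φ (s ^ a.val) = a := fun a => by
    rw [ch_pow ha hs, s1, mul_one, ZMod.natCast_zmod_val]
  let t : ZMod p → (L →* K) := fun a =>
    ((s ^ a.val : Gal(K/k)) : K →* K).comp (algebraMap L K : L →* K)
  have ht : ∀ a (x : L), t a x = (s ^ a.val) x := fun _ _ => rfl
  have ti : Function.Injective t := fun a b e => by
    by_contra ne
    obtain ⟨θ, t1, t2⟩ := sep H hc (s := (s ^ b.val)⁻¹ * s ^ a.val) fun k => by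
      have := k.2
      rw [ha _ (Δ.inv_mem (Δ.pow_mem hs _)) _ (Δ.pow_mem hs _), ch_inv ha (Δ.pow_mem hs _), sv, sv,
        neg_add_eq_zero] at this
      exact ne this.symm
    have := DFunLike.congr_fun e ⟨θ, (IntermediateField.mem_fixedField_iff _ _).2 t1⟩
    rw [ht, ht] at this
    apply t2
    rw [AlgEquiv.mul_apply]
    show (s ^ b.val)⁻¹ ((s ^ a.val) θ) = θ
    rw [show (s ^ a.val) θ = (s ^ b.val) θ from this, ← AlgEquiv.mul_apply, inv_mul_cancel]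
    rfl
  have li := Fintype.linearIndependent_iff.1 ((linearIndependent_monoidHom L K).comp t ti)
    fun a => ζ ^ (-a).val
  have z0 : ζ ≠ 0 := hζ.ne_zero (Fact.out : p.Prime).ne_zero
  obtain ⟨θ, hθ⟩ : ∃ θ : L, ∑ a : ZMod p, ζ ^ (-a).val * (s ^ a.val) θ ≠ 0 := by
    by_contra c
    push Not at c
    refine pow_ne_zero _ z0 (li (funext fun θ => ?_) 0)
    rw [Finset.sum_apply]
    exact c θ
  refine ⟨_, hθ, fun g hg => ?_⟩
  rw [map_sum, Finset.mul_sum]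
  refine Fintype.sum_equiv (Equiv.addLeft (φ g)) _ _ fun a => ?_
  show _ = ζ ^ (φ g).val * (ζ ^ (-(φ g + a)).val * (s ^ (φ g + a).val) θ)
  rw [map_mul, map_pow, hf g hg, ← AlgEquiv.mul_apply, ← mul_assoc,
    ← pw_add hζ.pow_eq_one, neg_add, add_neg_cancel_left,
    hK θ _ (Δ.mul_mem hg (Δ.pow_mem hs _)) _ (Δ.pow_mem hs (φ g + a).val)
      (by rw [ha _ hg _ (Δ.pow_mem hs _), sv, sv])]

end Vale.Agent.P022K.RT.Ku
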