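import Vale.Agent.P022K.RT.L5Loc
import Vale.Agent.P022K.RT.L5Kum
import Vale.Agent.P022K.GW.Prj
import Vale.Agent.P022K.GW.Psi
import Vale.Agent.P022K.GW.Tws
import Vale.Agent.P022K.GW.Cor

/-! P022K, block RT, row LP5: the number of cocycles (row `Z1P`). -/

set_option linter.all false

noncomputable section

namespace Vale.Agent.P022K.RT.L5

open Module
open Vale.Agent.P022K.GW Vale.Agent.P022K.GW.Cal
open Vale.Agent.P022K.RT.Tr (Gp)
open Vale.Agent.P022K.RT.Ku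

namespace Zp

variable {p : ℕ} [Fact p.Prime] {U : Subgroup (Gp p)} {ζ : Om p} {ω : Gp p →* (ZMod p)ˣ}

theorem el_ne (x : Additive (Om p)ˣ) : el x ≠ 0 := Units.ne_zero _

theorem el_add (x y : Additive (Om p)ˣ) : el (x + y) = el x * el y := rfl

theorem el_nsmul (n : ℕ) (x : Additive (Om p)ˣ) : el (n • x) = el x ^ n := by
  rw [el, toMul_nsmul, Units.val_pow_eq_pow_val]; rfl

theorem mem_fix {x : Additive (Om p)ˣ} : x ∈ Fix U ↔ ∀ u ∈ U, u (el x) = el x :=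
  forall₂_congr fun _ _ => ⟨fun e => congrArg el e, fun e => el_inj e⟩

theorem st_fix [U.Normal] : St (aM p) (Fix U) := fun g x hx => mem_fix.2 fun u hu => by
  have := congrArg g (mem_fix.1 hx _ (Subgroup.Normal.conj_mem' inferInstance u hu g))
  rwa [← AlgEquiv.mul_apply, ← mul_assoc, mul_inv_cancel_left, AlgEquiv.mul_apply] at this

theorem ex_prim (p : ℕ) [Fact p.Prime] : ∃ ζ : Om p, IsPrimitiveRoot ζ p :=
  haveI : NeZero ((p : ℕ) : Om p) := ⟨Nat.cast_ne_zero.2 (Fact.out : p.Prime).ne_zero⟩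
  HasEnoughRootsOfUnity.exists_primitiveRoot (Om p) p

theorem fix_root (hω : Cyc p ω) (hU : ∀ u ∈ U, ω u = 1) {x : Om p} (hx : x ^ p = 1) :
    ∀ u ∈ U, u x = x := fun u hu => by
  rw [hω u x hx, hU u hu, Units.val_one, ZMod.val_one, pow_one]

variable (U ζ) in
/-- `f` is the Kummer character of `b` -/
def Km (b : Om p) (f : Gp p → ZMod p) : Prop :=
  ∃ β : Om p, β ≠ 0 ∧ β ^ p = b ∧ (∀ g ∈ U, g β = ζ ^ (f g).val * β) ∧ ∀ g ∉ U, f g = 0

section

variable (hζ : IsPrimitiveRoot ζ p) (hf : ∀ u ∈ U, u ζ = ζ)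
include hζ

theorem km_ex (b : Fix U) : ∃ f, Km U ζ (el b.1) f := by
  obtain ⟨β, hβ⟩ := IsAlgClosed.exists_pow_nat_eq (el b.1) (Fact.out : p.Prime).pos
  have b0 : β ≠ 0 := fun e => el_ne b.1 (by
    rw [← hβ, e, zero_pow (Fact.out : p.Prime).ne_zero])
  have : ∀ g : Gp p, ∃ a : ZMod p, (g ∈ U → g β = ζ ^ a.val * β) ∧ (g ∉ U → a = 0) := fun g => by
    by_cases hg : g ∈ U
    · obtain ⟨a, ha⟩ := ex_log hζ b0 (γ := g β) (by rw [← map_pow, hβ, mem_fix.1 b.2 g hg])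
      exact ⟨a, fun _ => ha, fun h => absurd hg h⟩
    · exact ⟨0, fun h => absurd h hg, fun _ => rfl⟩
  choose f h using this
  exact ⟨f, β, b0, hβ, fun g => (h g).1, fun g => (h g).2⟩

theorem km_mul {b b' : Om p} {f f' : Gp p → ZMod p} (h : Km U ζ b f) (h' : Km U ζ b' f') :
    Km U ζ (b * b') (f + f') := by
  obtain ⟨β, h0, h1, h2, h3⟩ := h
  obtain ⟨β', h0', h1', h2', h3'⟩ := h'
  refine ⟨β * β', mul_ne_zero h0 h0', by rw [mul_pow, h1, h1'], fun g hg => ?_, fun g hg => ?_⟩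
  · rw [map_mul, h2 g hg, h2' g hg, Pi.add_apply, pw_add hζ.pow_eq_one]
    ring
  · rw [Pi.add_apply, h3 g hg, h3' g hg, add_zero]

include hf

theorem km_uniq {b : Om p} {f f' : Gp p → ZMod p} (h : Km U ζ b f) (h' : Km U ζ b f') :
    f = f' := by
  obtain ⟨β, h0, h1, h2, h3⟩ := h
  obtain ⟨β', -, h1', h2', h3'⟩ := h'
  obtain ⟨a, rfl⟩ := ex_log hζ h0 (h1'.trans h1.symm)
  funext g
  by_cases hg : g ∈ U
  · have := h2' g hg
    rw [map_mul, map_pow, hf g hg, h2 g hg, mul_left_comm] at this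
    exact pw_inj hζ (mul_right_cancel₀ (mul_ne_zero (pow_ne_zero _
      (hζ.ne_zero (Fact.out : p.Prime).ne_zero)) h0) this)
  · rw [h3 g hg, h3' g hg]

/-- the Kummer map -/
def ka : Fix U →+ (Gp p → ZMod p) :=
  AddMonoidHom.mk' (fun b => (km_ex hζ b).choose) fun b b' =>
    km_uniq hζ hf (km_ex hζ _).choose_spec
      (km_mul hζ (km_ex hζ b).choose_spec (km_ex hζ b').choose_spec)

theorem ka_km (b : Fix U) : Km U ζ (el b.1) (ka hζ hf b) := (km_ex hζ b).choose_spec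

theorem ka_aM [U.Normal] (hω : Cyc p ω) (g : Gp p) (b : Fix U) :
    ka hζ hf ⟨aM p g b, st_fix g b b.2⟩ = fa (cj (Gp p)) ω g (ka hζ hf b) := by
  refine km_uniq hζ hf (ka_km hζ hf _) ?_
  obtain ⟨β, h0, h1, h2, h3⟩ := ka_km hζ hf b
  refine ⟨g β, (map_ne_zero g).2 h0, by rw [← map_pow, h1]; rfl, fun u hu => ?_, fun u hu => ?_⟩
  · have := congrArg g (h2 _ (Subgroup.Normal.conj_mem' inferInstance u hu g))
    rw [← AlgEquiv.mul_apply, ← mul_assoc, mul_inv_cancel_left, AlgEquiv.mul_apply, map_mul,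
      map_pow, hω g ζ hζ.pow_eq_one] at this
    rw [this, fa_ap, cj_apply, inv_inv, pw_mul hζ.pow_eq_one]
  · rw [fa_ap, cj_apply, inv_inv, h3 _ fun k => hu ?_, mul_zero]
    simpa [mul_assoc] using Subgroup.Normal.conj_mem inferInstance _ k g

theorem ka_mem (ho : IsOpen (U : Set (Gp p))) (b : Fix U) : ka hζ hf b ∈ Gl p ∅ U := by
  obtain ⟨β, h0, -, h2, h3⟩ := ka_km hζ hf b
  have ad := ad_core (I := ∅) (W := U ⊓ MulAction.stabilizer (Gp p) β) (fun _ _ h => h)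
    (ho.inter (stab_open β)) fun _ h => h.elim
  refine ⟨fun g hg g' hg' => pw_inj hζ (mul_right_cancel₀ h0 ?_), h3, _, ad, fun w hw => ?_⟩
  · rw [← h2 _ (U.mul_mem hg hg'), AlgEquiv.mul_apply, h2 g' hg', map_mul, map_pow, hf g hg,
      h2 g hg, pw_add hζ.pow_eq_one]
    ring
  · have := Subgroup.normalCore_le _ hw
    refine pw_inj hζ (mul_right_cancel₀ h0 ?_)
    rw [← h2 w this.1, ZMod.val_zero, pow_zero, one_mul]
    exact this.2

theorem ka_onto {f : Gp p → ZMod p} (h : f ∈ Gl p ∅ U) (ho : IsOpen (U : Set (Gp p))) :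
    ∃ b, ka hζ hf b = f := by
  obtain ⟨f1, f2, W, hW, f3⟩ := h
  obtain ⟨β, h0, hβ⟩ := surj hζ hf f1 ((chk f1).isClosed_of_isOpen
    (Subgroup.isOpen_mono (H₁ := U ⊓ W) (fun w hw => ⟨hw.1, f3 w hw.2⟩) (ho.inter hW.opn)))
  let b : Fix U := ⟨Additive.ofMul (Units.mk0 (β ^ p) (pow_ne_zero _ h0)), mem_fix.2 fun u hu => by
    show u (β ^ p) = β ^ p
    rw [map_pow, hβ u hu, mul_pow, ← pow_mul, mul_comm _ p, pow_mul, hζ.pow_eq_one, one_pow,
      one_mul]⟩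
  exact ⟨b, km_uniq hζ hf (ka_km hζ hf b) ⟨β, h0, rfl, hβ, f2⟩⟩

theorem ka_zero (b : Fix U) : ka hζ hf b = 0 ↔ b.1 ∈ mu p (Fix U) := by
  refine ⟨fun e => ?_, ?_⟩
  · obtain ⟨β, h0, h1, h2, -⟩ := ka_km hζ hf b
    refine ⟨Additive.ofMul (Units.mk0 β h0), mem_fix.2 fun u hu => ?_, el_inj ?_⟩
    · show u β = β
      rw [h2 u hu, e, Pi.zero_apply, ZMod.val_zero, pow_zero, one_mul]
    · exact (el_nsmul p _).trans h1
  · rintro ⟨y, hy, e⟩
    refine km_uniq hζ hf (ka_km hζ hf b) ⟨el y, el_ne y, ?_, fun g hg => ?_, fun _ _ => rfl⟩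
    · rw [← el_nsmul, ← e]; rfl
    · rw [mem_fix.1 hy g hg, Pi.zero_apply, ZMod.val_zero, pow_zero, one_mul]

omit hf in
/-- the roots of unity -/
theorem tor_ch [U.Normal] {Ψ : AF (Gp p)} (h : Ψ.Add p U) (hω : Cyc p ω) (hU : ∀ u ∈ U, ω u = 1) :
    Ψ.ch ω = Ψ.sq (aM p) (tor p (Fix U)) ⊥ := by
  have pp : p.Prime := Fact.out
  have z1 := hζ.pow_eq_one
  let z : Additive (Om p)ˣ := Additive.ofMul (Units.mk0 ζ (hζ.ne_zero pp.ne_zero))
  have ez : ∀ n : ℕ, el (n • z) = ζ ^ n := fun n => el_nsmul n z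
  let f : (Unit → ZMod p) →+ Additive (Om p)ˣ :=
    AddMonoidHom.mk' (fun x => (x ()).val • z) fun x y => el_inj (by
      rw [el_add, ez, ez, ez, Pi.add_apply, pw_add z1])
  have ef : ∀ x, el (f x) = ζ ^ (x ()).val := fun x => ez _
  have hM := md_fa (U := U) (π := (1 : Gp p →* Equiv.Perm Unit)) hU fun _ _ _ => rfl
  refine trans' h f st_bot st_bot (st_tor st_fix p) st_top (fun g x _ => el_inj ?_) (fun x _ => ?_)
    (fun y hy => ?_) (fun x _ => ⟨fun e => funext fun u => ?_, fun e => ?_⟩) (rel_fin _ _)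
    (fun x _ => p_fun x) fun u hu x _ => sub_eq_zero.2 (hM.trv u hu x)
  · rw [el_aM, ef, ef, map_pow, hω g ζ z1, fa_ap, pw_mul z1]
  · have e : p • f x = 0 := by rw [← map_nsmul, p_fun, map_zero]
    refine ⟨mem_fix.2 (fix_root hω hU ?_), e⟩
    rw [← el_nsmul, e]; rfl
  · obtain ⟨i, e⟩ := pw_ex hζ (x := el y) (by rw [← el_nsmul, (mem_tor.1 hy).2]; rfl)
    exact ⟨fun _ => i, trivial, sub_eq_zero.2 (el_inj (by rw [ef, e]))⟩
  · have := congrArg el (AddSubgroup.mem_bot.1 e)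
    rw [ef] at this
    exact pw_inj hζ (this.trans (by rw [Pi.zero_apply, ZMod.val_zero, pow_zero]; rfl))
  · rw [AddSubgroup.mem_bot.1 e, map_zero]; exact zero_mem _

end

/-- the class of the characters of an open normal subgroup -/
theorem cls (hL : LOC) (h2 : p ≠ 2) (hω : Cyc p ω) [hn : U.Normal] (ho : IsOpen (U : Set (Gp p)))
    (hU : ∀ u ∈ U, ω u = 1) : Finite (Gl p ∅ U) ∧ ∀ Ψ : AF (Gp p), Ψ.Add p U →
      Ψ.sq (fa (cj (Gp p)) (1 : Gp p →* (ZMod p)ˣ)) (Gl p ∅ U) ⊥ =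
        Ψ.ch ω⁻¹ + Ψ.fu (lm (Gp p)) U ω⁻¹ + Ψ.ch (1 : Gp p →* (ZMod p)ˣ) := by
  obtain ⟨ζ, hζ⟩ := ex_prim p
  have hf := fix_root hω hU hζ.pow_eq_one
  obtain ⟨ix, -, hc⟩ := hL p U h2 hn ho
  have sg : ∀ χ : Gp p →* (ZMod p)ˣ, St (fa (cj (Gp p)) χ) (Gl p ∅ U) := fun χ g f h => by
    obtain ⟨b, rfl⟩ := ka_onto hζ hf h ho
    exact st_fa (ξ := ω) (A := Gl p ∅ U) (fun g f h => by
      obtain ⟨b, rfl⟩ := ka_onto hζ hf h ho
      exact ka_aM hζ hf hω g b ▸ ka_mem hζ hf ho _) χ g _ h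
  refine ⟨?_, fun Ψ a => ?_⟩
  · have e : (ka hζ hf).range = Gl p ∅ U := by
      ext f
      exact ⟨by rintro ⟨b, rfl⟩; exact ka_mem hζ hf ho b, fun h => ka_onto hζ hf h ho⟩
    have k : (ka hζ hf).ker = (mu p (Fix U)).addSubgroupOf (Fix U) :=
      AddSubgroup.ext fun b => ka_zero hζ hf b
    rw [← e]
    refine Nat.finite_of_card_ne_zero ?_
    rw [← AddSubgroup.index_ker, k]
    exact ix
  have hχ : ∀ u ∈ U, ω⁻¹ u = 1 := fun u hu => by rw [MonoidHom.inv_apply, hU u hu, inv_one]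
  have a' := twA_add a hχ
  have e1 := hc _ a'
  have e2 : (twA Ψ ω⁻¹).sq (aM p) (Fix U) (mu p (Fix U)) =
      (twA Ψ ω⁻¹).sq (fa (cj (Gp p)) ω) (Gl p ∅ U) ⊥ :=
    trans a' (ka hζ hf) (st_mu st_fix p) st_bot (sg ω) st_fix
      (fun g b => sub_eq_zero.2 (ka_aM hζ hf hω g b)) (ka_mem hζ hf ho)
      (fun f h => (ka_onto hζ hf h ho).imp fun _ e => sub_eq_zero.2 e) (ka_zero hζ hf) ix
      (fun m hm => ⟨m, hm, rfl⟩) fun u hu m hm => by
        rw [hm u hu, sub_self]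
        exact zero_mem _
  have o1 : (1 : Gp p →* (ZMod p)ˣ) * ω⁻¹ = ω⁻¹ := MonoidHom.ext fun x => one_mul _
  have o2 : ω * ω⁻¹ = 1 := MonoidHom.ext fun x => mul_inv_cancel (ω x)
  rw [e2, ← tor_ch hζ a' hω hU, twA_sq, twA_ch, twA_ch, twA_fu, o1, o2] at e1
  exact e1

section

variable {G F V : Type} [Group G] [Field F] [AddCommGroup V] [Module F V]

theorem fx_lm (ν : Representation F G V) : finrank F (Fx (lm G) ν) = finrank F V := by
  refine (LinearEquiv.ofBijective ((LinearMap.proj 1).comp (Fx (lm G) ν).subtype)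
    ⟨(injective_iff_map_eq_zero _).2 fun f h => Subtype.ext (funext fun g => ?_),
      fun v => ⟨⟨fun g => ν g v, fun g y => ?_⟩, ?_⟩⟩).finrank_eq
  · have := f.2 g 1
    rw [lm_apply, mul_one, show f.1 1 = 0 from h, map_zero] at this
    exact this
  · show ν (g * y) v = _
    rw [map_mul]; rfl
  · show ν 1 v = v
    rw [map_one]; rfl

variable [TopologicalSpace G] [IsTopologicalGroup G] [CompactSpace G] {ν : Representation F G V}

theorem zr_one {c : G → V} (h : c ∈ ZR ν) : c 1 = 0 := by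
  have := h.2 1 1
  rw [one_mul, map_one] at this
  exact left_eq_add.1 this

/-- framed cocycles -/
def fr (ν : Representation F G V) : V × ZR ν →ₗ[F] Zc (lm G) ∅ ν where
  toFun x := ⟨fun g => x.2.1 g + ν g x.1, x.2.1, by
    obtain ⟨c, h⟩ := x.2
    let W : Subgroup G :=
      { carrier := c ⁻¹' {0}
        mul_mem' := fun {a b} ha hb => by
          show c (a * b) = 0
          rw [h.2, show c a = 0 from ha, show c b = 0 from hb, map_zero, add_zero]
        one_mem' := zr_one h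
        inv_mem' := fun {a} ha => by
          have := h.2 a⁻¹ a
          rw [inv_mul_cancel, zr_one h, show c a = 0 from ha, map_zero, add_zero] at this
          exact this.symm }
    refine ⟨_, ad_core (I := ∅) (W := W) (fun _ _ h => h) (h.1 {0}) fun _ h => h.elim,
      fun w hw g => ?_⟩
    show c (g * w) = c g
    rw [h.2, show c w = 0 from Subgroup.normalCore_le _ hw, map_zero, add_zero], fun g y => by
      show x.2.1 (g * y) + ν (g * y) x.1 = _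
      rw [x.2.2.2, map_mul, map_add, add_assoc]; rfl⟩
  map_add' x y := Subtype.ext (funext fun g => by
    show x.2.1 g + y.2.1 g + ν g (x.1 + y.1) = x.2.1 g + ν g x.1 + (y.2.1 g + ν g y.1)
    rw [map_add]; abel)
  map_smul' r x := Subtype.ext (funext fun g => by
    show r • x.2.1 g + ν g (r • x.1) = r • (x.2.1 g + ν g x.1)
    rw [map_smul, smul_add])

theorem fr_inj : Function.Injective (fr ν) := (injective_iff_map_eq_zero _).2 fun x h => by
  have e : ∀ g, x.2.1 g + ν g x.1 = 0 := fun g => congrFun (congrArg Subtype.val h) g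
  have e1 : x.1 = 0 := by
    have := e 1
    rwa [zr_one x.2.2, map_one, zero_add] at this
  refine Prod.ext e1 (Subtype.ext (funext fun g => ?_))
  have := e g
  rwa [e1, map_zero, add_zero] at this

end

end Zp

open Zp in
theorem z1p (hL : LOC) : Z1P := by
  intro p _ ω F V _ _ _ _ _ _ ν U h2 hω hn ho hν hU hi
  have i0 : U.index ≠ 0 := fun e => hi (by rw [e, Nat.cast_zero])
  haveI : Finite (Gp p ⧸ U) := Nat.finite_of_card_ne_zero i0
  haveI := Fintype.ofFinite (Gp p ⧸ U)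
  have hg : Hig U ν := Psi.of_hig (Hig.Hig.of_index hn (fun n h x => by rw [hν n h]; rfl) hi)
  obtain ⟨fg, hc⟩ := cls hL h2 hω ho hU
  have fo : Fo (lm (Gp p)) := ⟨{1}, fun x => ⟨1, Finset.mem_singleton_self _, x, mul_one x⟩⟩
  obtain ⟨fz, e⟩ := z1c fUN fxc (Gp p) F V (Gp p) p (lm _) ∅ U ν ⟨⟨1⟩, fun _ _ h => h, fo⟩
    ⟨hn, ho, fun _ h => h.elim⟩ hg fg
  have kr : Kr p (lm (Gp p)) ∅ U = Gl p ∅ U := AddSubgroup.ext fun f => ⟨fun h => h.1, fun h =>
    ⟨h, fun x g e => by rw [mul_eq_right.1 e, ch_one h.1]⟩⟩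
  have hχ : ∀ u ∈ U, ω⁻¹ u = 1 := fun u hu => by rw [MonoidHom.inv_apply, hU u hu, inv_one]
  obtain ⟨e1, e2⟩ := fxc (Gp p) F V (Gp p) p (lm _) U ν ω⁻¹ fo i0 hg hχ
  rw [kr, hc _ (pSI _ _ _ p U ν hg).1, e1, e2, (fxc (Gp p) F V (Gp p) p (lm _) U ν 1 fo i0 hg
    fun _ _ => rfl).1, fx_lm, fx_lm, Pj.up_inv] at e
  haveI := Module.Finite.of_injective (fr ν) fr_inj
  haveI : Module.Finite F (ZR ν) :=
    Module.Finite.of_injective (LinearMap.inr F V (ZR ν)) LinearMap.inr_injective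
  have := LinearMap.finrank_le_finrank_of_injective (f := fr ν) fr_inj
  rw [finrank_prod] at this
  exact ⟨inferInstance, by omega⟩

theorem z1p' : Z1P := z1p loc

end Vale.Agent.P022K.RT.L5
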