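import Vale.Agent.P022K.RT.Lp5F
import Vale.Agent.P022.H297.L3.Inert

/-! P022K, block RT: row LP5 and the unobstructed shapes for all odd primes. -/

set_option linter.all false

noncomputable section

namespace Vale.Agent.P022K.RT

open Matrix Module IsLocalRing
open Vale.Agent.P022
open Vale.Agent.P022D.L2b (M2 Z1 pd)
open Vale.Agent.P022D.Loc2 (TnG OutG outG_of_out)
open Vale.Agent.P022D.W (dec inP_le_dec)
open Vale.Agent.P022E.GW (Ov)
open Vale.Agent.P022E.G5 (Cj outN)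
open Vale.Agent.P022K.GW (Id Cy up tw h0 Fx)
open Vale.Agent.P022K.RT.Zl (ZS r_inv inv_r a0 sl iD card_ne tn_of_rank)
open Vale.Agent.P022K.RT.Tr (Gp)

namespace L5

section gen

variable {G F V : Type} [Group G] [Field F] [AddCommGroup V] [Module F V]

theorem h0_le [Module.Finite F V] (σ : Representation F G V) : h0 σ ≤ finrank F V :=
  (Submodule.finrank_le _).trans (by simp [Module.finrank_pi_fintype])

theorem h0_zero (σ : Representation F G V) (h : ∀ v, (∀ g, σ g v = v) → v = 0) : h0 σ = 0 := by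
  have : Fx (1 : G →* Equiv.Perm Unit) σ = ⊥ :=
    eq_bot_iff.2 fun f hf => funext fun y => h _ fun g => (hf g y).symm
  rw [h0, this, finrank_bot]

variable {p : ℕ} [hp : Fact p.Prime] [CharP F p]

theorem up_val (ω : G →* (ZMod p)ˣ) (x : G) :
    (up ω x : Fˣ) = ZMod.castHom (dvd_refl p) F (ω x) := rfl

theorem two_ne (h : p ≠ 2) : (2 : F) ≠ 0 := fun e =>
  h ((Nat.prime_dvd_prime_iff_eq hp.out Nat.prime_two).1
    ((CharP.cast_eq_zero_iff F p 2).1 (by exact_mod_cast e)))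

variable [TopologicalSpace G]

theorem ker_om {ω : G →* (ZMod p)ˣ} {r : G →* M2 F} (hr : IsLocallyConstant r)
    (hd : ∀ x, (r x).det = (up ω x : Fˣ)) : IsOpen (ω.ker : Set G) := by
  convert (hr.comp det).isOpen_fiber 1 using 1
  ext x
  simp only [SetLike.mem_coe, MonoidHom.mem_ker, Set.mem_setOf_eq, Function.comp, hd, up_val]
  rw [Units.ext_iff, ← map_one (ZMod.castHom (dvd_refl p) F),
    (ZMod.castHom (dvd_refl p) F).injective.eq_iff, Units.val_one]

/-- extension of scalars -/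
theorem Cup.up {θ : G → ZMod p} {a c : Fin 2 → G → ZMod p} (h : Cup θ a c) :
    Cup (fun x => ZMod.castHom (dvd_refl p) F (θ x)) (fun i x => ZMod.castHom (dvd_refl p) F (a i x))
      fun i x => ZMod.castHom (dvd_refl p) F (c i x) := by
  letI := ZMod.algebra F p
  have e : ∀ u : ZMod p, ZMod.castHom (dvd_refl p) F u = algebraMap (ZMod p) F u := fun _ => rfl
  have ex : ∀ α : Fin 2 → F, α ≠ 0 → ∃ φ : F →ₗ[ZMod p] ZMod p, (fun i => φ (α i)) ≠ 0 := by
    intro α hα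
    obtain ⟨i, hi⟩ := Function.ne_iff.1 hα
    obtain ⟨φ, hφ⟩ := Module.Projective.exists_dual_ne_zero (ZMod p) hi
    exact ⟨φ, Function.ne_iff.2 ⟨i, hφ⟩⟩
  have m1 : ∀ (φ : F →ₗ[ZMod p] ZMod p) (u : ZMod p) (v : F),
      φ (algebraMap (ZMod p) F u * v) = u * φ v := fun φ u v => by
    rw [← Algebra.smul_def, map_smul, smul_eq_mul]
  refine ⟨fun i => (h.la i).comp _, fun i x y => by rw [h.ma, map_add], fun i => (h.lc i).comp _,
    fun i x y => by rw [h.mc, map_add, map_mul], fun α hα => ?_, fun β hβ => ?_⟩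
  · obtain ⟨φ, hφ⟩ := ex α hα
    obtain ⟨β, hβ⟩ := h.left _ hφ
    refine ⟨fun j => algebraMap (ZMod p) F (β j), fun ⟨z, z1, z2⟩ => hβ ⟨fun x => φ (z x),
      z1.comp φ, fun x y => ?_⟩⟩
    simp only [z2, e, Fin.sum_univ_two, ← map_mul, ← map_add (algebraMap (ZMod p) F), map_add φ, m1,
      mul_comm (α _), mul_comm (φ (α _))]
  · obtain ⟨φ, hφ⟩ := ex β hβ
    obtain ⟨α, hα⟩ := h.right _ hφ
    refine ⟨fun j => algebraMap (ZMod p) F (α j), fun ⟨z, z1, z2⟩ => hα ⟨fun x => φ (z x),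
      z1.comp φ, fun x y => ?_⟩⟩
    simp only [z2, e, Fin.sum_univ_two, ← map_mul, ← map_add (algebraMap (ZMod p) F), map_add φ, m1,
      mul_comm (β _), mul_comm (φ (β _)), mul_comm (_ + _ : F) (algebraMap (ZMod p) F _)]
    ring

theorem rank_comp {G' : Type} [Group G'] [TopologicalSpace G'] (j : G' →* G) (hc : Continuous j)
    (hj : Function.Surjective j) (r : G →* M2 F) :
    Module.rank F (ZS r) ≤ Module.rank F (ZS (r.comp j)) :=
  LinearMap.rank_le_of_injective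
    ((LinearMap.funLeft F (M2 F) j).restrict (p := ZS r) (q := ZS (r.comp j)) fun c h =>
      ⟨h.lc.comp_continuous hc, fun x y => by
        show c (j (x * y)) = _
        rw [map_mul, h.mul]; rfl, fun x => h.det _⟩)
    fun a b e => Subtype.ext (funext fun x => by
      obtain ⟨y, rfl⟩ := hj x
      exact congrFun (congrArg Subtype.val e) y)

theorem rank_ad [IsTopologicalGroup G] {r : G →* M2 F} (hr : IsLocallyConstant r) :
    Module.rank F (ZS r) ≤ Module.rank F (ZR (a0 r)) := by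
  let β : ZS r →ₗ[F] ZR (a0 r) :=
    { toFun := fun c => ⟨fun x => ⟨c.1 x * r x⁻¹, Zl.trace_of (c.2.det x)⟩,
        IsLocallyConstant.desc _ Subtype.val
          (c.2.lc.comp₂ (hr.comp_continuous continuous_inv) (· * ·)) Subtype.val_injective,
        fun x y => Subtype.ext (Zl.coc_of c.2.mul x y)⟩
      map_add' := fun a b => Subtype.ext (funext fun x => Subtype.ext (add_mul _ _ _))
      map_smul' := fun a b => Subtype.ext (funext fun x => Subtype.ext (smul_mul_assoc a (b.1 x) (r x⁻¹))) }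
  refine β.rank_le_of_injective fun a b e => Subtype.ext (funext fun x => ?_)
  have : a.1 x * r x⁻¹ = b.1 x * r x⁻¹ :=
    congrArg Subtype.val (congrFun (congrArg Subtype.val e) x)
  rw [← mul_one (a.1 x), ← inv_r r x, ← mul_assoc, this, mul_assoc, inv_r, mul_one]

end gen

variable {p : ℕ} [hp : Fact p.Prime] {F : Type} [Field F] [Finite F] [CharP F p]

section loc

variable (hZ : Z1P) (h2 : p ≠ 2) {ω : Gp p →* (ZMod p)ˣ} (hω : Cyc p ω)
  (ho : IsOpen (ω.ker : Set (Gp p)))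
include hZ h2 hω ho

theorem zp {V : Type} [AddCommGroup V] [Module F V] [Module.Finite F V]
    (ν : Representation F (Gp p) V) {M : Type} [Monoid M] [Finite M] (f : Gp p →* M)
    (hf : IsLocallyConstant f) (h1 : ∀ x, ∃ n : ℕ, (n : F) ≠ 0 ∧ f x ^ n = 1)
    (hν : ∀ x, f x = 1 → ν x = 1) :
    Module.rank F (ZR ν) ≤ (2 * finrank F V + h0 (tw (up ω)⁻¹ ν) : ℕ) := by
  obtain ⟨k1, k2⟩ := hZ p ω F V ν (f.toHomUnits.prod ω).ker h2 hω inferInstance (by
      convert (hf.isOpen_fiber 1).inter ho using 1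
      ext x
      exact (MonoidHom.mem_ker.trans Prod.ext_iff).trans (and_congr_left' Units.ext_iff))
    (fun u hu => hν u (congrArg (fun z => (z.1 : M)) (MonoidHom.mem_ker.1 hu)))
    (fun u hu => congrArg Prod.snd (MonoidHom.mem_ker.1 hu)) (by
      rw [Subgroup.index_ker]
      refine card_ne ?_
      rintro ⟨_, x, rfl⟩
      obtain ⟨n, n1, n2⟩ := h1 x
      refine ⟨n * (p - 1), ?_, Subtype.ext (Prod.ext (Units.ext ?_) ?_)⟩
      · rw [Nat.cast_mul, Nat.cast_pred hp.out.pos, CharP.cast_eq_zero F p, zero_sub]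
        exact mul_ne_zero n1 (neg_ne_zero.2 one_ne_zero)
      · show f x ^ (n * (p - 1)) = 1
        rw [pow_mul, n2, one_pow]
      · show ω x ^ (n * (p - 1)) = 1
        rw [mul_comm, pow_mul, ZMod.units_pow_card_sub_one_eq_one, one_pow])
  rw [← finrank_eq_rank]
  exact_mod_cast k2

theorem ct : Ct fun x => ((up ω x : Fˣ) : F) := by
  intro θ hθ
  have := Fintype.ofFinite F
  let ν : Representation F (Gp p) F := (Algebra.lsmul F F F).toMonoidHom.comp θ
  have e : Module.rank F (ZC θ) ≤ _ := zp hZ h2 hω ho ν θ hθ (fun x => ⟨Fintype.card F - 1, by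
    rw [Nat.cast_pred Fintype.card_pos, FiniteField.cast_card_eq_zero, zero_sub]
    exact neg_ne_zero.2 one_ne_zero, FiniteField.pow_card_sub_one_eq_one _
      (left_ne_zero_of_mul_eq_one (b := θ x⁻¹) (by rw [← map_mul, mul_inv_cancel, map_one]))⟩)
    fun x hx => by
      show Algebra.lsmul F F F (θ x) = 1
      rw [hx, map_one]
  have e1 := h0_le (tw (up ω)⁻¹ ν)
  rw [finrank_self] at e e1
  refine ⟨e.trans (Nat.cast_le.2 (by omega)), fun ⟨x, hx⟩ => e.trans (Nat.cast_le.2 ?_)⟩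
  rw [h0_zero _ fun v hv => ?_]
  by_contra hn
  have e2 : (((up ω x : Fˣ)⁻¹ : Fˣ) : F) * (θ x * v) = v := hv x
  rw [Units.inv_mul_eq_iff_eq_mul] at e2
  exact hx (mul_right_cancel₀ hn e2)

theorem cnt0 {r : Gp p →* M2 F} (hr : IsLocallyConstant r)
    (h1 : ∀ x, ∃ n : ℕ, (n : F) ≠ 0 ∧ r x ^ n = 1)
    (hN : ∀ N : M2 F, N.trace = 0 → (∀ x, r x * N = ((up ω x : Fˣ) : F) • (N * r x)) → N = 0) :
    Module.rank F (ZS r) ≤ (6 : ℕ) := by
  have e := zp hZ h2 hω ho (a0 r) r hr h1 fun x hx =>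
    LinearMap.ext fun X => Subtype.ext ((Zl.ad_fix r x X X).2 (by rw [hx, one_mul, mul_one]))
  have e1 : h0 (tw (up ω)⁻¹ (a0 r)) = 0 := by
    refine h0_zero _ fun v hv => Subtype.ext (hN v v.2 fun x => ?_)
    have e2 : (((up ω x : Fˣ)⁻¹ : Fˣ) : F) • Zl.ad r x v = v := congrArg Subtype.val (hv x)
    rw [← smul_mul_assoc, ← Zl.ad_fix]
    have e3 := congrArg (((up ω x : Fˣ) : F) • ·) e2
    simpa only [smul_smul, Units.mul_inv, one_smul] using e3
  rw [Zl.finrank_sl, e1] at e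
  exact (rank_ad hr).trans e

end loc

variable {P : Id} (h : Ov p P) {ω : dec P →* (ZMod p)ˣ} (hω : Cy (dec P).subtype p ω)
include h hω

theorem om_in (u : (ZMod p)ˣ) : ∃ i ∈ iD P, ω i = u := by
  obtain ⟨g, g1, g2⟩ := H297.L3.inert (m := p) (k := 1) (m' := 1) hp.out.pos hp.out (by simp)
    (Nat.coprime_one_right p) h.2.1 h.2.2 u Nat.modEq_one
  refine ⟨⟨g, inP_le_dec g1⟩, g1, Units.ext (ZMod.val_injective p ?_)⟩
  have : NeZero p := ⟨hp.out.ne_zero⟩
  obtain ⟨ζ, hζ⟩ := HasEnoughRootsOfUnity.exists_primitiveRoot Qb p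
  exact hζ.pow_inj (ZMod.val_lt _) (ZMod.val_lt _)
    ((hω _ ζ hζ.pow_eq_one).symm.trans (g2 ζ hζ.pow_eq_one))

theorem om_neg (h2 : p ≠ 2) : ∃ i ∈ iD P, (1 : F) ≠ (up ω i : Fˣ) := by
  obtain ⟨i, hi, e⟩ := om_in h hω (-1)
  refine ⟨i, hi, fun k => two_ne (F := F) h2 ?_⟩
  rw [up_val, e, Units.val_neg, Units.val_one, map_neg, map_one] at k
  linear_combination k

variable {r : dec P →* M2 F} (hr : IsLocallyConstant r) (hd : ∀ x, (r x).det = (up ω x : Fˣ))
include hr hd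

theorem tri_or (hZ : Z1P) (h2 : p ≠ 2) {j : Gp p →* dec P} (hc : Continuous j)
    (hj : Function.Surjective j) (hy : Cyc p (ω.comp j)) :
    Tri r ∨ Module.rank F (ZS (r.comp j)) ≤ (6 : ℕ) := by
  obtain ⟨τ, T⟩ := Zl.wd h
  obtain ⟨φ, hφ⟩ := Zl.ex_phi h
  obtain ⟨i, hi, e⟩ := om_neg (F := F) h hω h2
  refine (cls h2 (T φ hφ) hr ⟨i, hi, by rw [hd]; exact e.symm⟩).imp_right fun ⟨k1, k2⟩ => ?_
  refine cnt0 hZ h2 hy (ker_om (r := r.comp j) (hr.comp_continuous hc) fun x => hd _)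
    (hr.comp_continuous hc) (fun x => k1 _) fun N n1 n2 => k2 N n1 fun x => ?_
  obtain ⟨y, rfl⟩ := hj x
  rw [hd]
  exact n2 y

omit h hω hr hd

/-- **the unobstructed shapes** -/
theorem dich (hZ : Z1P) (p : ℕ) [Fact p.Prime] (hp : p ≠ 2) {F : Type} [Field F] [Finite F]
    [CharP F p] {P : Id} (h : Ov p P) (ω : dec P →* (ZMod p)ˣ) (hω : Cy (dec P).subtype p ω)
    (r : dec P →* M2 F) (hr : IsLocallyConstant r) (hd : ∀ x, (r x).det = (up ω x : Fˣ)) :
    (∃ (g : Fin 6 → dec P) (a b : Fin 6 → Fin 2), TnG r g a b) ∨ ∃ A B : M2 F, A * B = 1 ∧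
      (∀ x, (B * r x * A) 1 0 = 0) ∧
      ((∀ x, (B * r x * A) 0 0 = (up ω x : Fˣ) * (B * r x * A) 1 1) ∨
        ∀ x, (B * r x * A) 1 1 = (up ω x : Fˣ) * (B * r x * A) 0 0) := by
  obtain ⟨j, hc, hj, -, hy⟩ := Tr.exists_j p h
  rcases tri_or h hω hr hd hZ hp hc hj (hy ω hω) with ⟨A, B, r', k, ht⟩ | k
  swap
  · exact Or.inl (tn_of_rank 6 ((rank_comp j hc hj r).trans k))
  by_cases c1 : ∀ x, th ht x = (up ω x : Fˣ)
  · exact Or.inr ⟨A, B, k.1, fun x => k.2 x ▸ ht x, Or.inr fun x =>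
      k.2 x ▸ (div_eq_iff (n00 ht x)).1 (c1 x)⟩
  by_cases c2 : ∀ x, th' ht x = (up ω x : Fˣ)
  · exact Or.inr ⟨A, B, k.1, fun x => k.2 x ▸ ht x, Or.inl fun x =>
      k.2 x ▸ (div_eq_iff (n11 ht x)).1 (c2 x)⟩
  obtain ⟨i, -, e⟩ := om_neg (F := F) h hω hp
  have hs : ∀ {Q : dec P → Prop}, (∃ x, Q x) → ∃ y, Q (j y) := fun h => hj.exists.1 h
  refine Or.inl (tn_of_rank 6 ((cj_rank k).trans ((rank_comp j hc hj r').trans
    (cnt1 (r := r'.comp j) (fun x => ht _) ((k.lc hr).comp_continuous hc)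
      (ct hZ hp (ω := ω.comp j) (hy ω hω)
        (ker_om (r := r.comp j) (hr.comp_continuous hc) fun x => hd _))
      (hs (Q := fun x => (1 : F) ≠ (up ω x : Fˣ)) ⟨i, e⟩)
      (hs (Q := fun x => th ht x ≠ (up ω x : Fˣ)) (not_forall.1 c1))
      (hs (Q := fun x => th' ht x ≠ (up ω x : Fˣ)) (not_forall.1 c2))))))

end L5

open L5 in
/-- row LP5 -/
theorem lp5_of (hZ : Z1P) (hU : CUP) : LP5 := by
  intro p hp h5 F O _ _ _ _ _ _ hO _ P ω r s d h hω hr _ hd hs hd' _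
  have := hO.cpl
  have h2 : p ≠ 2 := by omega
  obtain ⟨j, hc, hj, -, hy⟩ := Tr.exists_j p h
  have hr' : IsLocallyConstant (r.comp j) := hr.comp_continuous hc
  refine Tr.out_of_surj j hc hj ?_
  suffices H : Good (r.comp j) by
    rcases H with H | ⟨H, H'⟩
    · obtain ⟨g, a, b, hT⟩ := tn_of_rank 6 H
      exact outN hr' hs (fun x => hd' _) hT
    · obtain ⟨g, a, b, hT⟩ := tn_of_rank 7 H
      exact outG_of_out (shell hr' hs (fun x => hd' _) hT H')
  rcases tri_or h hω hr hd hZ h2 hc hj (hy ω hω) with ⟨A, B, r', k, ht⟩ | k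
  swap
  · exact Or.inl k
  obtain ⟨a, c, hC⟩ := hU p (ω.comp j) h2 (hy ω hω)
  obtain ⟨i, -, e⟩ := om_in h hω (Units.mk0 2 (two_ne h2))
  obtain ⟨y, rfl⟩ := hj i
  refine good_tri hr' ⟨A, B, r'.comp j, ⟨k.1, fun x => k.2 _⟩, fun x => ht _⟩
    (ct hZ h2 (ω := ω.comp j) (hy ω hω) (ker_om hr' fun x => hd _)) ⟨y, fun e1 => ?_⟩ hC.up
    (two_ne h2)
  rw [up_val, MonoidHom.comp_apply, e, Units.val_mk0, map_ofNat] at e1
  have e2 : ((3 : ℕ) : F) = 0 := by push_cast; linear_combination e1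
  have := Nat.le_of_dvd (by norm_num) ((CharP.cast_eq_zero_iff F p 3).1 e2)
  omega

end Vale.Agent.P022K.RT
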