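import Vale.Agent.P022K.RT.Smo
import Vale.Agent.P022E.GW.Unr

/-!
# P022K, block RT: row UFR (unramified representations), row ORB
-/

set_option linter.all false

noncomputable section

namespace Vale.Agent.P022K.RT.Zl

open IsLocalRing
open Vale.Agent.P022D.L2b (M2)
open Vale.Agent.P022D.PA (Base)
open Vale.Agent.P027M.S (Inert)
open Vale.Agent.P022D.W (dec)
open Vale.Agent.P022E.GW (Ov Fb)
open Vale.Agent.P022K.GW (Id)

/-- the kernel of a homomorphism to a monoid -/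
def kr {G M : Type} [Group G] [Monoid M] (ρ : G →* M) : Subgroup G := ρ.toHomUnits.ker

theorem mem_kr {G M : Type} [Group G] [Monoid M] {ρ : G →* M} {g : G} : g ∈ kr ρ ↔ ρ g = 1 := by
  rw [kr, MonoidHom.mem_ker, Units.ext_iff]; rfl

theorem kr_open {G M : Type} [Group G] [TopologicalSpace G] [Monoid M] {ρ : G →* M}
    (h : IsOpen {g | ρ g = 1}) : IsOpen (kr ρ : Set G) := by
  convert h using 1
  exact Set.ext fun g => mem_kr

/-- homomorphisms with open kernel are determined by inertia and Frobenius -/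
theorem Wd.ext {G M : Type} [Group G] [TopologicalSpace G] [Monoid M] {l : ℕ} {I W : Subgroup G}
    {τ φ : G} (T : Wd l I W τ φ) {ρ ρ' : G →* M} (h : IsOpen {g | ρ g = 1})
    (h' : IsOpen {g | ρ' g = 1}) (e : ρ φ = ρ' φ) (e' : ∀ s ∈ I, ρ s = ρ' s) : ρ = ρ' := by
  refine MonoidHom.ext fun g => ?_
  obtain ⟨k, s, hs, u, hu, rfl⟩ := T.gen (kr ρ ⊓ kr ρ') ((kr_open h).inter (kr_open h')) g
  simp only [map_mul, map_pow, mem_kr.1 hu.1, mem_kr.1 hu.2, e, e' s hs]

variable {l : ℕ} {P : Id}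

/-- unramified homomorphisms to a finite monoid -/
theorem unr_fin (h : Ov l P) {φ : dec P} (hφ : Fb l P φ) {M : Type} [Monoid M] [Finite M] {γ : M}
    (hγ : IsUnit γ) : ∃ ρ : dec P →* M, ρ φ = γ ∧ (∀ i : dec P, Inert P i → ρ i = 1) ∧
      IsOpen {x | ρ x = 1} ∧ ∀ x, ∃ k : ℕ, ρ x = γ ^ k := by
  have h0 : orderOf γ ≠ 0 := (isOfFinOrder_iff_isUnit.2 hγ).orderOf_pos.ne'
  haveI : NeZero (orderOf γ) := ⟨h0⟩
  obtain ⟨δ, V, hV, h1, h2, h3, h4⟩ := P022E.GW.Unr.deg h.1 h.2.1 h.2.2 hφ h0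
  let ρ : dec P →* M :=
    { toFun := fun x => γ ^ (δ x).val
      map_one' := by
        have : δ (1 : dec P) = 0 := h3 _ (P022.H443.inP P).one_mem
        rw [this, ZMod.val_zero, pow_zero]
      map_mul' := fun x y => by
        have : δ (x * y : dec P) = δ x + δ y := h1 _ x.2 _ y.2
        rw [this, ZMod.val_add, pow_mod_orderOf, pow_add] }
  have e : ∀ x, ρ x = γ ^ (δ x).val := fun x => rfl
  refine ⟨ρ, ?_, fun i hi => ?_, ?_, fun x => ⟨_, e x⟩⟩
  · rw [e, h2, ← Nat.cast_one, ZMod.val_natCast, pow_mod_orderOf, pow_one]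
  · rw [e, h3 _ hi, ZMod.val_zero, pow_zero]
  · have : IsOpen (kr ρ : Set (dec P)) := Subgroup.isOpen_mono (H₁ := V.subgroupOf (dec P))
      (fun v hv => mem_kr.2 (by rw [e, h4 v.1 hv v.2, ZMod.val_zero, pow_zero]))
      (hV.preimage continuous_subtype_val)
    convert this using 1
    exact Set.ext fun g => mem_kr.symm

/-- limits of compatible families of representations -/
theorem lim_rep {G A : Type} [Group G] [CommRing A] [hA : Base A]
    (ρ : ∀ n : ℕ, G →* M2 (A ⧸ maximalIdeal A ^ n))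
    (h : ∀ n x, (ρ (n + 1) x).map
      (Ideal.Quotient.factor (Ideal.pow_le_pow_right n.le_succ)) = ρ n x) :
    ∃ σ : G →* M2 A, ∀ n x, (σ x).map (Ideal.Quotient.mk (maximalIdeal A ^ n)) = ρ n x := by
  have := hA.cpl
  have h1 : ∀ x i j, ∃ f : A, ∀ n, Ideal.Quotient.mk (maximalIdeal A ^ n) f = ρ n x i j := by
    intro x i j
    choose a ha using fun n => Ideal.Quotient.mk_surjective (ρ n x i j)
    obtain ⟨f, hf⟩ := Lu.lim_mod (maximalIdeal A) ⊥ a fun k => by
      rw [bot_sup_eq, ← Ideal.Quotient.eq, ha k, ← h k x, Matrix.map_apply, ← ha (k + 1)]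
      rfl
    exact ⟨f, fun n => by rw [← ha, Ideal.Quotient.eq]; simpa using hf n⟩
  choose f hf using h1
  have h2 : ∀ n x, (Matrix.of (f x)).map (Ideal.Quotient.mk (maximalIdeal A ^ n)) = ρ n x :=
    fun n x => Matrix.ext fun i j => hf x i j n
  exact ⟨{ toFun := fun x => Matrix.of (f x)
           map_one' := Or.cg_pow fun n => cg_one.2 (by rw [h2, map_one])
           map_mul' := fun x y => Or.cg_pow fun n => cg_iff.2 (by
             rw [Matrix.map_mul, h2, h2, h2, map_mul]) }, h2⟩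

end Vale.Agent.P022K.RT.Zl

namespace Vale.Agent.P022K.RT

open Zl IsLocalRing

/-- row UFR -/
theorem ufr : UFR := by
  intro l P φ h hφ A _ hA
  obtain ⟨τ, T⟩ := wd h
  refine ⟨fun γ hγ => ?_, fun ρ ρ' h1 h2 e e' => MonoidHom.ext fun x => Or.cg_pow fun n => ?_⟩
  · have := fin_pow A
    choose ρ a1 a2 a3 a4 using fun n => unr_fin h hφ
      (hγ.map (Ideal.Quotient.mk (maximalIdeal A ^ n)).mapMatrix)
    obtain ⟨σ, hσ⟩ := lim_rep ρ fun n x => by
      refine DFunLike.congr_fun ((T φ hφ).ext (ρ := pm (Ideal.Quotient.factor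
        (Ideal.pow_le_pow_right n.le_succ)) (ρ (n + 1))) ?_ (a3 n) ?_ fun s hs => ?_) x
      · exact ((lc_of_open _ (a3 (n + 1))).comp fun M => M.map _).isOpen_fiber 1
      · rw [pm_apply, a1, a1]
        rfl
      · rw [pm_apply, a2 _ _ hs, a2 _ _ hs, Matrix.map_one _ (map_zero _) (map_one _)]
    refine ⟨σ, Or.cg_pow fun n => cg_iff.2 (by rw [hσ, a1]; rfl),
      fun i hi => Or.cg_pow fun n => cg_one.2 (by rw [hσ, a2 _ _ hi]), fun n => ?_, fun n x => ?_⟩
    · simp only [cg_one, hσ]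
      exact a3 n
    · obtain ⟨k, hk⟩ := a4 n x
      exact ⟨k, cg_iff.2 (by rw [hσ, hk, ← map_pow]; rfl)⟩
  · have b1 := h1 n
    have b2 := h2 n
    simp only [cg_one] at b1 b2
    exact cg_iff.2 (DFunLike.congr_fun ((T φ hφ).ext (ρ := pm (Ideal.Quotient.mk _) ρ)
      (ρ' := pm (Ideal.Quotient.mk _) ρ') b1 b2 (by rw [pm_apply, pm_apply, e])
      fun s hs => by rw [pm_apply, pm_apply, e' s hs]) x)

/-- row ORB -/
theorem orb : ORB := orb_of smo ufr

end Vale.Agent.P022K.RT
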