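import Vale.Agent.P022K.RT.Upa

/-!
# P022K, block RT: equivariant maps from a lattice (row HOMF)
-/

set_option linter.all false

noncomputable section

namespace Vale.Agent.P022K.RT

open IsLocalRing
open Vale.Agent.P022K.PL (Cf)

namespace Hf

theorem idx {K : Type} [Group K] {p e r : ℕ} (hp : p ≠ 0) {k : Fin e ⊕ Fin r → K}
    {N : ℕ → Subgroup K} (h : Unf p k N) (m : ℕ) : (N m).index ≠ 0 := by
  have := h.nor m
  have e1 : ∀ a, (QuotientGroup.mk' (N m)) (mon k a) = mon (fun i => (k i : K ⧸ N m)) a :=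
    fun a => by
      simp only [mon, map_mul, map_list_prod, List.map_ofFn, Function.comp_def, map_pow]
      rfl
  have : Finite (K ⧸ N m) := .of_surjective (fun a : Fin e ⊕ Fin r → Fin (p ^ m) =>
    mon (fun i => (k i : K ⧸ N m)) fun i => a i) fun q => by
      obtain ⟨g, rfl⟩ := QuotientGroup.mk_surjective q
      obtain ⟨a, ha⟩ := h.ex m g
      refine ⟨fun i => ⟨a i % p ^ m, Nat.mod_lt _ (by positivity)⟩, ?_⟩
      rw [← QuotientGroup.eq.2 ha]
      refine .trans ?_ (e1 a).symm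
      have k : ∀ i, (k i : K ⧸ N m) ^ (a i % p ^ m) = (k i : K ⧸ N m) ^ a i := fun i =>
        (pow_eq_pow_mod _ ((QuotientGroup.eq_one_iff _).2 (h.pow m i))).symm
      simp only [mon, k]
  exact Subgroup.index_ne_zero_of_finite

variable {O R G M ι : Type} [CommRing O] [IsLocalRing O] [CommRing R] [Algebra O R]
  [Group G] [AddCommGroup M] [Module O M] [Module R M] [IsScalarTower O R M]
  {N : ℕ → Subgroup G} {ρ : G →* Module.End R M} {j b : ℕ}

variable (O N j ι) in
/-- periodic functions -/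
def Per : Submodule O (G → ι → O) where
  carrier := {c | ∀ g, ∀ h ∈ N j, ∀ i, c (g * h) i - c g i ∈ maximalIdeal O ^ j}
  add_mem' a b g h k i := by
    simpa only [Pi.add_apply, add_sub_add_comm] using add_mem (a g h k i) (b g h k i)
  zero_mem' g h k i := by simp
  smul_mem' o c a g h k i := by
    simpa only [Pi.smul_apply, smul_eq_mul, mul_sub] using Ideal.mul_mem_left _ o (a g h k i)

/-- translation -/
def tl (g : G) (c : Per O ι N j) : Per O ι N j :=
  ⟨fun x => c.1 (g⁻¹ * x), fun x h k i => by simpa only [mul_assoc] using c.2 (g⁻¹ * x) h k i⟩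

/-- coordinates -/
structure Co (ρ : G →* Module.End R M) (Φ : Per O ι N j →ₗ[O] M) : Prop where
  sur : ∀ v ∈ Lv O N ρ j, ∃ c, Φ c = v
  ker : ∀ c, Φ c = 0 ↔ ∀ g i, c.1 g i ∈ maximalIdeal O ^ j
  act : ∀ g c, ρ g (Φ c) = Φ (tl g c)

theorem Co.eq {Φ : Per O ι N j →ₗ[O] M} (h : Co ρ Φ) {c d : Per O ι N j} :
    Φ c = Φ d ↔ ∀ g i, c.1 g i - d.1 g i ∈ maximalIdeal O ^ j := by
  rw [← sub_eq_zero, ← map_sub, h.ker]
  rfl

theorem co_of (hi : (N j).index ≠ 0) (h : Fre O N ρ b j) :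
    ∃ Φ : Per O (Fin b) N j →ₗ[O] M, Co ρ Φ := by
  classical
  have := Subgroup.FiniteIndex.mk hi
  have := Fintype.ofFinite (G ⧸ N j)
  obtain ⟨x, h1, h2, h3⟩ := h
  let t : Per O (Fin b) N j → G → M := fun c g => ∑ i, c.1 g i • ρ g (x i)
  have e : ∀ c (g : G), t c (g : G ⧸ N j).out = t c g := fun c g => Finset.sum_congr rfl fun i _ => by
    obtain ⟨u, e⟩ := QuotientGroup.mk_out_eq_mul (N j) g
    rw [Up.act_out (h1 i), ← sub_eq_zero, ← sub_smul, ← LinearMap.map_smul_of_tower, e,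
      (h1 i).2 _ (c.2 g _ u.2 i), map_zero]
  refine ⟨⟨⟨fun c => ∑ q : G ⧸ N j, t c q.out, fun c d => ?_⟩, fun o c => ?_⟩, fun v hv => ?_,
    fun c => ⟨fun z g i => ?_, fun z => ?_⟩, fun g c => ?_⟩
  · simp [t, add_smul, Finset.sum_add_distrib]
  · simp [t, mul_smul, Finset.smul_sum]
  · obtain ⟨c, rfl⟩ := Up.span_fin h1 (h2 v hv)
    refine ⟨⟨fun g i => (c (g, i)).out, fun g u k i => ?_⟩, ?_⟩
    · simp [QuotientGroup.mk_mul_of_mem g k]
    · simp [t, Fintype.sum_prod_type]
  · obtain ⟨u, e⟩ := QuotientGroup.mk_out_eq_mul (N j) g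
    have := h3 (Finset.univ.image fun q : G ⧸ N j => q.out) c.1 (by
      simp only [Finset.mem_image, Finset.mem_univ, true_and]
      rintro _ ⟨q, rfl⟩ _ ⟨q', rfl⟩ k
      rw [← QuotientGroup.eq, QuotientGroup.out_eq', QuotientGroup.out_eq'] at k
      rw [k]) ((Finset.sum_image Quotient.out_injective.injOn).trans z) _
      (Finset.mem_image_of_mem _ (Finset.mem_univ (g : G ⧸ N j))) i
    simpa only [e, sub_sub_cancel] using sub_mem this (c.2 g _ u.2 i)
  · exact Finset.sum_eq_zero fun q _ => Finset.sum_eq_zero fun i _ => by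
      rw [← LinearMap.map_smul_of_tower, (h1 i).2 _ (z _ i), map_zero]
  · change ρ g (∑ q : G ⧸ N j, t c q.out) = ∑ q : G ⧸ N j, t (tl g c) q.out
    rw [map_sum, ← Equiv.sum_comp (MulAction.toPerm g) fun q : G ⧸ N j => t (tl g c) q.out]
    refine Finset.sum_congr rfl fun q _ => ?_
    rw [show MulAction.toPerm g q = ((g * q.out : G) : G ⧸ N j) from
      (MulAction.Quotient.mk_smul_out _ g q).symm, e]
    simp [t, tl, LinearMap.map_smul_of_tower]

theorem of_co [Fintype ι] (hb : Fintype.card ι = b) (hn : (N j).Normal) (hi : (N j).index ≠ 0)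
    {Φ : Per O ι N j →ₗ[O] M} (h : Co ρ Φ) : Fre O N ρ b j := by
  classical
  have := Subgroup.FiniteIndex.mk hi
  have := Fintype.ofFinite (G ⧸ N j)
  let a := Fintype.equivFinOfCardEq hb
  let d : ι → Per O ι N j := fun i => ⟨fun g i' => if g ∈ N j ∧ i' = i then 1 else 0,
    fun g u k i' => by simp [(N j).mul_mem_cancel_right k]⟩
  refine ⟨fun i => Φ (d (a.symm i)), fun i => ⟨fun g k => ?_, fun o k => ?_⟩, fun v hv => ?_,
    fun s c hs z γ k i => ?_⟩
  · rw [h.act, h.eq]
    exact fun x i => by simp [d, tl, (N j).mul_mem_cancel_left ((N j).inv_mem k)]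
  · rw [← map_smul, h.ker]
    exact fun x i => Ideal.mul_mem_right _ _ k
  · obtain ⟨c, rfl⟩ := h.sur v hv
    have : Φ c = Φ (∑ q : (G ⧸ N j) × ι, c.1 q.1.out q.2 • tl q.1.out (d q.2)) := h.eq.2 fun g i => by
      obtain ⟨u, e⟩ := QuotientGroup.mk_out_eq_mul (N j) g
      rw [Submodule.coe_sum, Finset.sum_apply, Finset.sum_apply,
        Finset.sum_eq_single ((g : G ⧸ N j), i) (fun q _ k => ?_) (by simp)]
      · simpa [d, tl, e] using neg_mem (c.2 g _ u.2 i)
      · refine (congrArg (_ * ·) (if_neg fun z => k ?_)).trans (mul_zero _)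
        rw [← QuotientGroup.eq, QuotientGroup.out_eq'] at z
        exact Prod.ext z.1 z.2.symm
    rw [this, map_sum]
    refine sum_mem fun q _ => ?_
    rw [map_smul, ← h.act]
    exact Submodule.smul_mem _ _ (Submodule.subset_span ⟨(q.1.out, a q.2), by simp⟩)
  · simp only [h.act, ← map_smul, ← map_sum, h.ker] at z
    have := z γ (a.symm i)
    simp only [Submodule.coe_sum, Finset.sum_apply, Submodule.coe_smul, Pi.smul_apply, d, tl,
      smul_eq_mul, a.symm.injective.eq_iff] at this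
    rw [Finset.sum_eq_single γ (fun γ' k' n => Finset.sum_eq_zero fun i' _ => by
      rw [if_neg fun z => n (hs _ k' _ k z.1), mul_zero]) (by simp [k])] at this
    simpa using this

end Hf

open Hf in
theorem homf : HOMF := by
  intro O R K M _ _ _ _ _ _ _ _ _ _ _ p e r b n hp k N ρ τ _ hU hC hτ ρ' h'
  classical
  have ix := idx hp.out.ne_zero hU
  have nz : ∀ {j m}, j ≤ m → NZ p r m ≤ NZ p r j := fun h a ha s => (pow_dvd_pow _ h).trans (ha s)
  have one : ∀ {m z}, z ∈ NZ p r m → ((1, z) : K × Zr r) ∈ NP N p r m := fun h => ⟨one_mem _, h⟩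
  refine ⟨fun x => ?_, fun j => ?_⟩
  · choose j hj using fun i => hC.sm (x.1 i)
    have k := fun i => Up.lv_mono hU.anti (Finset.le_sup (f := j) (Finset.mem_univ i)) (hj i)
    exact ⟨_, fun z hz => Subtype.ext (funext fun i => (h' z x i).trans ((k i).1 _ (one hz))),
      fun o ho => Subtype.ext (funext fun i => (k i).2 o ho)⟩
  obtain ⟨m₀, hm⟩ := hτ j
  obtain ⟨d, hd⟩ := Nat.exists_eq_add_of_le (le_max_left j m₀)
  replace hm : ∀ g ∈ N (j + d), ∀ a a', (τ g - 1) a a' ∈ maximalIdeal O ^ j := fun g hg =>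
    hm g (hU.anti (hd ▸ le_max_right j m₀ : m₀ ≤ j + d)
      (show (g, 1) ∈ NP N p r (j + d) from ⟨hg, one_mem _⟩)).1
  obtain ⟨Φ, hΦ⟩ := co_of (ix (j + d)) (hC.fre (j + d))
  obtain ⟨ϖ, hϖ⟩ := IsDiscreteValuationRing.exists_irreducible O
  have mm : ∀ i (o : O), o ∈ maximalIdeal O ^ i ↔ ϖ ^ i ∣ o := fun i o => by
    rw [hϖ.maximalIdeal_eq, Ideal.span_singleton_pow, Ideal.mem_span_singleton]
  have up : ∀ o, ϖ ^ d * o ∈ maximalIdeal O ^ (j + d) ↔ o ∈ maximalIdeal O ^ j := fun o => by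
    rw [mm, mm, pow_add, mul_comm, mul_dvd_mul_iff_left (pow_ne_zero _ hϖ.ne_zero)]
  let f : Per O (Fin b × Fin n) (NZ p r) j → Fin n → Per O (Fin b) (NP N p r) (j + d) := fun c a =>
    ⟨fun y β => ϖ ^ d * ∑ i, c.1 y.2 (β, i) * τ y.1⁻¹ i a, fun y u hu β => by
      rw [← mul_sub, up, ← Finset.sum_sub_distrib, Prod.fst_mul, mul_inv_rev, map_mul]
      have e : ∑ i, c.1 y.2 (β, i) * (τ u.1⁻¹ * τ y.1⁻¹) i a - ∑ i, c.1 y.2 (β, i) * τ y.1⁻¹ i a ∈
          maximalIdeal O ^ j := by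
        rw [← Finset.sum_sub_distrib]
        refine sum_mem fun i _ => ?_
        rw [← mul_sub, ← Matrix.sub_apply, ← sub_one_mul, Matrix.mul_apply]
        exact Ideal.mul_mem_left _ _ (sum_mem fun l _ =>
          Ideal.mul_mem_right _ _ (hm _ (inv_mem hu.1) _ _))
      convert add_mem (sum_mem fun i (_ : i ∈ Finset.univ) => Ideal.mul_mem_right
        ((τ u.1⁻¹ * τ y.1⁻¹) i a) _ (c.2 y.2 u.2 (nz le_self_add hu.2) (β, i))) e using 1
      simp only [sub_mul, Finset.sum_sub_distrib, Prod.snd_mul, sub_add_sub_cancel]⟩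
  let Ψ : Per O (Fin b × Fin n) (NZ p r) j →ₗ[O] Hm O τ (ρ.comp (MonoidHom.inl K (Zr r))) :=
    ⟨⟨fun c => ⟨fun a => Φ (f c a), fun g a => by
      simp only [← map_smul, ← map_sum]
      refine (hΦ.act _ _).trans (congrArg Φ (Subtype.ext (funext fun y => funext fun β => ?_)))
      simp only [f, tl, Submodule.coe_sum, Finset.sum_apply, Submodule.coe_smul, Pi.smul_apply,
        MonoidHom.inl_apply, Prod.inv_mk, inv_one, Prod.fst_mul, Prod.snd_mul, one_mul, mul_inv_rev,
        inv_inv, map_mul, Matrix.mul_apply, Finset.mul_sum, smul_eq_mul]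
      rw [Finset.sum_comm]
      exact Finset.sum_congr rfl fun _ _ => Finset.sum_congr rfl fun _ _ => by ring⟩,
      fun c c' => Subtype.ext (funext fun a => (congrArg Φ (Subtype.ext (funext fun y =>
        funext fun β => by simp [f, add_mul, mul_add, Finset.sum_add_distrib]))).trans
          (map_add Φ (f c a) (f c' a)))⟩,
      fun o c => Subtype.ext (funext fun a => (congrArg Φ (Subtype.ext (funext fun y =>
        funext fun β => by simp [f, Finset.mul_sum, mul_assoc, mul_left_comm]))).trans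
          (map_smul Φ o (f c a)))⟩
  refine of_co (Φ := Ψ) (by simp) inferInstance (fun z => ix j (by
    rw [NP, Subgroup.index_prod, z, mul_zero])) ⟨fun x hx => ?_, fun c => ⟨fun z y i => ?_,
      fun z => Subtype.ext (funext fun a => (hΦ.ker _).2 fun y β => (up _).2
        (sum_mem fun i _ => Ideal.mul_mem_right _ _ (z _ _)))⟩, fun z c =>
      Subtype.ext (funext fun a => (h' z _ a).trans ((hΦ.act _ _).trans (congrArg Φ
        (Subtype.ext (funext fun y => funext fun β => by simp [f, tl])))))⟩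
  · have kl : ∀ a, ∀ o ∈ maximalIdeal O ^ j, o • x.1 a = 0 := fun a o ho =>
      congrFun (congrArg Subtype.val (hx.2 o ho)) a
    have fx : ∀ a, ∀ z ∈ NZ p r j, ρ (1, z) (x.1 a) = x.1 a := fun a z hz =>
      (h' z x a).symm.trans (congrFun (congrArg Subtype.val (hx.1 z hz)) a)
    choose c hc using fun a => hΦ.sur (x.1 a) ⟨fun g hg => by
      have := x.2 g.1 a
      rw [show g = (1, g.2) * (g.1, 1) by simp, map_mul, Module.End.mul_apply]
      refine (congrArg _ (this.trans ?_)).trans (fx a _ (nz le_self_add hg.2))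
      rw [Finset.sum_eq_single a (fun i _ k => kl i _ (by
        simpa [Matrix.one_apply_ne k] using hm _ hg.1 i a)) (by simp), ← sub_eq_zero]
      simpa [sub_smul] using kl a _ (hm _ hg.1 a a), fun o ho => kl a o (Ideal.pow_le_pow_right le_self_add ho)⟩
    have dv : ∀ a y β, ∃ t, (c a).1 y β = ϖ ^ d * t := fun a y β => by
      have := (hΦ.ker (ϖ ^ j • c a)).1 (by
        rw [map_smul, hc, kl a _ ((mm _ _).2 dvd_rfl)]) y β
      rwa [mm, pow_add, Submodule.coe_smul, Pi.smul_apply, Pi.smul_apply, smul_eq_mul,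
        mul_dvd_mul_iff_left (pow_ne_zero _ hϖ.ne_zero)] at this
    choose t ht using dv
    refine ⟨⟨fun z q => t q.2 (1, z) q.1, fun z u hu q => ?_⟩,
      Subtype.ext (funext fun a => (hΦ.eq.2 fun y β => ?_).trans (hc a))⟩
    · have := hΦ.eq.1 ((hΦ.act _ _).symm.trans ((congrArg _ (hc q.2)).trans
        ((fx q.2 _ (inv_mem hu)).trans (hc q.2).symm))) (1, z) q.1
      rw [← up, mul_sub, ← ht, ← ht]
      simpa [tl, mul_comm] using this
    · have := hΦ.eq.1 (show Φ (∑ i, τ y.1⁻¹ i a • c i) = Φ (tl (y.1⁻¹, 1) (c a)) by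
        simp only [map_sum, map_smul, hc, ← hΦ.act]
        exact (x.2 y.1⁻¹ a).symm) (1, y.2) β
      simpa [f, tl, Finset.mul_sum, ht, mul_comm, mul_left_comm] using this
  · simpa [f, up, Matrix.one_apply] using
      (hΦ.ker _).1 (congrFun (congrArg Subtype.val z) i.2) (1, y) i.1

end Vale.Agent.P022K.RT
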