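import Vale.Agent.P022K.RT.Ufr

/-!
# P022K, block RT: row UNRB (the unramified component)
-/

set_option linter.all false

noncomputable section

namespace Vale.Agent.P022K.RT.Zl

open IsLocalRing MvPowerSeries
open Vale.Agent.P022D.L2b (M2 mem_max_iff ker_eq)
open Vale.Agent.P022D.Core (PS)
open Vale.Agent.P022D

/-- three entries and the determinant are coordinates near an invertible matrix -/
theorem piv {F : Type} [Field F] (M : M2 F) (h : M.det ≠ 0) : ∃ a b : Fin 3 → Fin 2,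
    M (a 0) (b 0) ≠ 0 ∧ (∀ (B : Type) [CommRing B] (x : Fin 3 → B) (D : B), IsUnit (x 0) →
      ∃ γ : M2 B, (∀ k, γ (a k) (b k) = x k) ∧ γ.det = D) ∧
    ∀ (B : Type) [CommRing B] (N N' : M2 B), IsUnit (N (a 0) (b 0)) →
      (∀ k, N (a k) (b k) = N' (a k) (b k)) → N.det = N'.det → N = N' := by
  by_cases h0 : M 0 0 = 0
  · refine ⟨![0, 0, 1], ![1, 0, 1], fun h1 => h ?_, fun B _ x D hx => ?_,
      fun B _ N N' hu he hd => ?_⟩
    · have h2 : M 0 1 = 0 := h1
      rw [Matrix.det_fin_two, h0, h2, zero_mul, zero_mul, sub_zero]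
    · obtain ⟨u, hu⟩ := hx.exists_right_inv
      refine ⟨!![x 1, x 0; u * (x 1 * x 2 - D), x 2], fun k => by fin_cases k <;> rfl, ?_⟩
      rw [Matrix.det_fin_two_of]
      linear_combination (D - x 1 * x 2) * hu
    · have e0 : N 0 1 = N' 0 1 := he 0
      have e1 : N 0 0 = N' 0 0 := he 1
      have e2 : N 1 1 = N' 1 1 := he 2
      have hu' : IsUnit (N 0 1) := hu
      rw [Matrix.det_fin_two, Matrix.det_fin_two, ← e0, ← e1, ← e2] at hd
      have e3 : N 1 0 = N' 1 0 := hu'.mul_left_cancel (by linear_combination -hd)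
      ext i j
      fin_cases i <;> fin_cases j <;> assumption
  · refine ⟨![0, 0, 1], ![0, 1, 0], h0, fun B _ x D hx => ?_, fun B _ N N' hu he hd => ?_⟩
    · obtain ⟨u, hu⟩ := hx.exists_right_inv
      refine ⟨!![x 0, x 1; x 2, u * (D + x 1 * x 2)], fun k => by fin_cases k <;> rfl, ?_⟩
      rw [Matrix.det_fin_two_of]
      linear_combination (D + x 1 * x 2) * hu
    · have e0 : N 0 0 = N' 0 0 := he 0
      have e1 : N 0 1 = N' 0 1 := he 1
      have e2 : N 1 0 = N' 1 0 := he 2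
      have hu' : IsUnit (N 0 0) := hu
      rw [Matrix.det_fin_two, Matrix.det_fin_two, ← e0, ← e1, ← e2] at hd
      have e3 : N 1 1 = N' 1 1 := hu'.mul_left_cancel (by linear_combination hd)
      ext i j
      fin_cases i <;> fin_cases j <;> assumption

theorem open_of_le {G M M' : Type} [Group G] [TopologicalSpace G] [IsTopologicalGroup G]
    [Monoid M] [Monoid M'] {ρ : G →* M} {ρ' : G →* M'} (h : IsOpen {g | ρ g = 1})
    (e : ∀ g, ρ g = 1 → ρ' g = 1) : IsOpen {g | ρ' g = 1} := by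
  have : IsOpen (kr ρ' : Set G) :=
    Subgroup.isOpen_mono (fun g hg => mem_kr.2 (e g (mem_kr.1 hg))) (kr_open h)
  convert this using 1
  exact Set.ext fun g => mem_kr.symm

/-- continuity passes along local homomorphisms -/
theorem cg_open {G A B : Type} [Group G] [TopologicalSpace G] [IsTopologicalGroup G] [CommRing A]
    [CommRing B] {ρ : G →* M2 A} {m : Ideal A} {n : Ideal B} (u : A →+* B) (hu : ∀ a ∈ m, u a ∈ n)
    (h : IsOpen {x | Cg m (ρ x) 1}) : IsOpen {x | Cg n (pm u ρ x) 1} := by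
  have h1 := h
  simp only [cg_one] at h1 ⊢
  refine open_of_le (ρ := pm (Ideal.Quotient.mk m) ρ) (ρ' := pm (Ideal.Quotient.mk n) (pm u ρ)) h1
    fun g hg => cg_one.1 fun i j => ?_
  have := hu _ (cg_one.2 hg i j)
  have e : u ((1 : M2 A) i j) = (1 : M2 B) i j := by
    by_cases e : i = j
    · subst e; simp
    · simp [Matrix.one_apply_ne e]
  rwa [map_sub, e] at this

/-- adically continuous representations are determined by inertia and Frobenius -/
theorem Wd.ext_adic {G A : Type} [Group G] [TopologicalSpace G] [CommRing A] [IsLocalRing A]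
    [IsNoetherianRing A] {l : ℕ} {I W : Subgroup G} {τ φ : G} (T : Wd l I W τ φ)
    {ρ ρ' : G →* M2 A} (h : ∀ n : ℕ, IsOpen {x | Cg (maximalIdeal A ^ n) (ρ x) 1})
    (h' : ∀ n : ℕ, IsOpen {x | Cg (maximalIdeal A ^ n) (ρ' x) 1}) (e : ρ φ = ρ' φ)
    (e' : ∀ s ∈ I, ρ s = ρ' s) : ρ = ρ' := by
  refine MonoidHom.ext fun x => Or.cg_pow fun n => ?_
  have b1 := h n
  have b2 := h' n
  simp only [cg_one] at b1 b2
  exact cg_iff.2 (DFunLike.congr_fun (T.ext (ρ := pm (Ideal.Quotient.mk _) ρ)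
    (ρ' := pm (Ideal.Quotient.mk _) ρ') b1 b2 (by rw [pm_apply, pm_apply, e])
    fun s hs => by rw [pm_apply, pm_apply, e' s hs]) x)

/-- the determinant of a continuous representation is determined by inertia and Frobenius -/
theorem Wd.det_eq {G O A : Type} [Group G] [TopologicalSpace G] [IsTopologicalGroup G]
    [CommRing O] [IsLocalRing O] [CommRing A] [IsLocalRing A] [IsNoetherianRing A] {l : ℕ}
    {I W : Subgroup G} {τ φ : G} (T : Wd l I W τ φ) (u : O →+* A)
    (hu : ∀ a ∈ maximalIdeal O, u a ∈ maximalIdeal A) {d : G →* O} (hd : Cd d) {ρ : G →* M2 A}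
    (h : ∀ n : ℕ, IsOpen {x | Cg (maximalIdeal A ^ n) (ρ x) 1}) (e : (ρ φ).det = u (d φ))
    (e' : ∀ s ∈ I, (ρ s).det = u (d s)) (x : G) : (ρ x).det = u (d x) := by
  refine sub_eq_zero.1 (PL.mod_sep (A := A) fun n => ?_)
  let π := Ideal.Quotient.mk (maximalIdeal A ^ n)
  have h1 := T.ext (ρ := π.toMonoidHom.comp (Matrix.detMonoidHom.comp ρ))
    (ρ' := (π.comp u).toMonoidHom.comp d) (by
      convert ((lc_of_cg ρ _ (h n)).comp Matrix.det).isOpen_fiber 1 using 1
      exact Set.ext fun y => Eq.congr_left (RingHom.map_det π (ρ y)))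
    (open_of_le (ρ := (Ideal.Quotient.mk (maximalIdeal O ^ n)).toMonoidHom.comp d) (by
      convert hd n using 1
      exact Set.ext fun y => (Eq.congr_right (map_one _).symm).trans Ideal.Quotient.eq)
      fun y hy => by
        have h2 : d y - 1 ∈ maximalIdeal O ^ n := Ideal.Quotient.eq.1 (hy.trans (map_one _).symm)
        have h3 := Or.pow_map u hu n _ h2
        rw [map_sub, map_one] at h3
        exact (Ideal.Quotient.eq.2 h3).trans (map_one _))
    (congrArg π e) fun s hs => congrArg π (e' s hs)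
  simpa using Ideal.Quotient.eq.1 (DFunLike.congr_fun h1 x)

theorem surj_loc {A B : Type} [CommRing A] [IsLocalRing A] [CommRing B] [IsLocalRing B]
    (u : A →+* B) (hu : Function.Surjective u) : ∀ a ∈ maximalIdeal A, u a ∈ maximalIdeal B :=
  fun a ha => by
    have h := Ideal.comap_isMaximal_of_surjective u hu (K := maximalIdeal B)
    rw [← eq_maximalIdeal h] at ha
    exact ha

end Vale.Agent.P022K.RT.Zl

namespace Vale.Agent.P022K.RT

open Zl IsLocalRing MvPowerSeries
open Vale.Agent.P022D.L2b (M2 mem_max_iff ker_eq)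
open Vale.Agent.P022D.Core (PS)
open Vale.Agent.P022D

/-- row UNRB -/
theorem unrb : UNRB := by
  intro F O τ _ _ _ _ _ hO _ _ l P r s d g p q I f h hr hs hd hc hU hI
  obtain ⟨t, T⟩ := wd h
  obtain ⟨φ, hφ⟩ := ex_phi h
  replace T := T φ hφ
  have h' := hU.un hs
  haveI hA := PL.base_ps O (Fin 3)
  haveI hB := PL.base_ps O τ
  have c1 := hA.cpl
  have c2 := hB.cpl
  set J := I ⊔ Ideal.span {u | ∃ (i : P022D.W.dec P) (a b : Fin 2),
    P027M.S.Inert P i ∧ u = (f i - 1) a b} with hJ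
  obtain ⟨a, b, h0, hex, hrig⟩ := piv (r φ) (det_unit r φ).ne_zero
  let π : PS O (Fin 3) →+* F := (algebraMap O F).comp constantCoeff
  have hπ : ∀ u, u ∈ maximalIdeal (PS O (Fin 3)) ↔ π u = 0 := fun u => by
    rw [mem_max_iff, ← ker_eq hs]; rfl
  let z : Fin 3 → PS O (Fin 3) := fun k => C (s (r φ (a k) (b k))) + X k
  have hz : ∀ k, π (z k) = r φ (a k) (b k) := fun k => by simp [π, z, hs]
  have hz0 : IsUnit (z 0) := by
    by_contra hn
    exact h0 ((hz 0).symm.trans ((hπ _).1 hn))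
  obtain ⟨γ, g1, g2⟩ := hex _ z (C (d φ)) hz0
  obtain ⟨ρ, a1, a2, a3, -⟩ := (ufr l P φ h hφ (PS O (Fin 3))).1 γ
    ((Matrix.isUnit_iff_isUnit_det _).2 (g2 ▸ ((Group.isUnit φ).map d).map C))
  have hred : pm π ρ = r := T.ext (by
      have := cg_open (n := ⊥) π (fun u hu => (hπ u).1 (by simpa using hu)) (a3 1)
      convert this using 1
      exact Set.ext fun y => ⟨fun e i j => by rw [show pm π ρ y = 1 from e, sub_self]; rfl,
        fun e => Matrix.ext fun i j => sub_eq_zero.1 (e i j)⟩)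
    (hr.isOpen_fiber 1) (by
      rw [pm_apply, a1]
      refine (hrig F _ _ (IsUnit.mk0 _ h0) (fun k => ?_) ?_).symm
      · rw [Matrix.map_apply, g1, hz]
      · rw [← RingHom.mapMatrix_apply, ← RingHom.map_det, g2, ← hd]
        simp [π])
    fun i hi => by
      rw [pm_apply, a2 i hi, (hI i hi).1, Matrix.map_one _ (map_zero _) (map_one _)]
  have hL : LiftC r s d ρ := ⟨a3, fun o ho => Lu.C_max ho, fun x i j => (hπ _).2 (by
      rw [map_sub, ← Matrix.map_apply (f := π), ← pm_apply, hred, sub_eq_zero]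
      exact (hs _).symm.trans (congrArg _ (constantCoeff_C _).symm)),
    T.det_eq (algebraMap O _) (fun o ho => Lu.C_max ho) hc a3 (by rw [a1, g2]; rfl)
      fun i hi => by rw [a2 i hi, (hI i hi).2, Matrix.det_one, map_one]⟩
  obtain ⟨ψ, -, b2, b3⟩ := (luc _ F O τ r s d g p q I f hs hU (PS O (Fin 3))).1 ρ hL
  obtain ⟨θ, t1, t2⟩ := NR.exists_ev (maximalIdeal (PS O τ)) (C : O →+* PS O τ)
    (fun k => f φ (a k) (b k) - C (s (r φ (a k) (b k)))) fun k => h'.red _ _ _
  have ψC : ∀ o, ψ (C o) = C o := fun o => ψ.commutes o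
  have e1 : RingHom.id _ = ψ.toRingHom.comp θ := NR.ev_ext (maximalIdeal (PS O (Fin 3)))
    (fun o => by
      show C o = ψ (θ (C o))
      rw [t1, ψC]) (fun k => by
      show X k = ψ (θ (X k))
      rw [t2, map_sub, ψC, ← Matrix.map_apply (f := ψ), b3, a1, g1, add_sub_cancel_left])
    fun k => Lu.X_max k
  have hsurj : Function.Surjective ψ := fun u => ⟨θ u, (RingHom.congr_fun e1 u).symm⟩
  have hle : J ≤ RingHom.ker ψ := sup_le b2 (Ideal.span_le.2 (by
    rintro _ ⟨i, x, y, hi, rfl⟩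
    show ψ ((f i - 1) x y) = 0
    rw [← Matrix.map_apply (f := ψ), Matrix.map_sub _ (map_sub ψ), b3, a2 i hi,
      Matrix.map_one _ (map_zero ψ) (map_one ψ), sub_self]
    rfl))
  haveI : Nontrivial (PS O τ ⧸ J) := Ideal.Quotient.nontrivial_iff.2 fun e =>
    RingHom.ker_ne_top ψ (top_le_iff.1 (e ▸ hle))
  haveI : IsLocalRing (PS O τ ⧸ J) :=
    IsLocalRing.of_surjective' (Ideal.Quotient.mk J) Ideal.Quotient.mk_surjective
  let mk := Ideal.Quotient.mk J
  have m1 := surj_loc mk Ideal.Quotient.mk_surjective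
  have m2 := map_max θ (fun o ho => t1 o ▸ Lu.C_max ho) fun k => t2 k ▸ h'.red _ _ _
  have k1 : ∀ u ∈ I, mk u = 0 := fun u hu =>
    Ideal.Quotient.eq_zero_iff_mem.2 (Ideal.mem_sup_left hu)
  have k2 : ∀ u ∈ I, ((mk.comp θ).comp ψ.toRingHom) u = 0 := fun u hu =>
    (congrArg (mk.comp θ) (b2 u hu)).trans (map_zero _)
  have e2 : pm (mk.comp θ) ρ = h'.rep mk k1 := T.ext_adic
    (fun n => cg_open _ (Or.pow_map (mk.comp θ) (fun u hu => m1 _ (m2 u hu)) n) (a3 n))
    (fun n => by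
      let π' : (PS O τ ⧸ J) →+* (PS O τ ⧸ J) ⧸ maximalIdeal (PS O τ ⧸ J) ^ n :=
        Ideal.Quotient.mk _
      have n1 : ∀ u ∈ I, (π'.comp mk) u = 0 := fun u hu =>
        (congrArg π' (k1 u hu)).trans (map_zero _)
      have n2 : ∀ u ∈ maximalIdeal (PS O τ) ^ n, (π'.comp mk) u = 0 := fun u hu =>
        Ideal.Quotient.eq_zero_iff_mem.2 (Or.pow_map mk m1 n u hu)
      have := h'.rep_lc (B := (PS O τ ⧸ J) ⧸ maximalIdeal (PS O τ ⧸ J) ^ n) (π'.comp mk) n1 n2
      simp only [cg_one]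
      exact this.isOpen_fiber 1)
    (by
      rw [pm_apply, a1]
      refine hrig _ _ _ ?_ (fun k => ?_) ?_
      · rw [Matrix.map_apply, g1]
        exact hz0.map _
      · rw [Matrix.map_apply, g1, h'.rep_apply, Matrix.map_apply]
        show mk (θ (C _ + X k)) = _
        rw [map_add, t1, t2, add_sub_cancel]
      · rw [← RingHom.mapMatrix_apply, ← RingHom.map_det, g2, h'.rep_det]
        exact congrArg mk (t1 _))
    fun i hi => by
      rw [pm_apply, a2 i hi, Matrix.map_one _ (map_zero _) (map_one _)]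
      refine (cg_one.1 fun x y => Ideal.mem_sup_right (Ideal.subset_span ?_)).symm
      exact ⟨i, x, y, hi, rfl⟩
  have hH := NR.haus_of_le (maximalIdeal.isMaximal (PS O τ ⧸ J)).ne_top
  have e3 : mk = (mk.comp θ).comp ψ.toRingHom := NR.ev_ext (maximalIdeal (PS O τ ⧸ J))
    (fun o => by
      show mk (C o) = mk (θ (ψ (C o)))
      rw [ψC, t1]) (fun u => by
      rw [h'.rep_crd mk k1 u, h'.rep_crd _ k2 u, ← e2, pm_apply, ← b3]
      show _ - mk (C _) = _ - mk (θ (ψ (C _)))
      rw [ψC, t1]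
      rfl) fun u => m1 _ (Lu.X_max u)
  have hker : RingHom.ker ψ = J := le_antisymm (fun u hu => by
    have h1 : ψ u = 0 := hu
    refine Ideal.Quotient.eq_zero_iff_mem.1 ((RingHom.congr_fun e3 u).trans ?_)
    show mk (θ (ψ u)) = 0
    rw [h1, map_zero, map_zero]) hle
  refine ⟨⟨3, ψ, hker⟩, ?_⟩
  obtain ⟨ϖ, hϖ⟩ := IsDiscreteValuationRing.exists_irreducible O
  rw [← hker]
  refine (ringKrullDim_eq_of_ringEquiv
    (RingHom.quotientKerEquivOfSurjective (f := ψ.toRingHom) hsurj)).trans ?_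
  rw [(P022D.Rl.Ch0.reg (σ := Fin 3) hϖ.maximalIdeal_eq).2, Fintype.card_fin]

end Vale.Agent.P022K.RT
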