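import Vale.Agent.P022K.RT.Lu

/-! P022K, block RT: row ORB (the component of a type with finite non scalar inertia). -/

set_option linter.all false

noncomputable section

namespace Vale.Agent.P022K.RT.Or

open IsLocalRing MvPowerSeries Module
open Vale.Agent.P022D.L2b (M2 Z1 Lift pd decomp mem_max_iff ker_eq)
open Vale.Agent.P022D.Loc2 (TnG coG OutG)
open Vale.Agent.P022D.Core (PS)
open Vale.Agent.P022D.PA (Base)
open Vale.Agent.P022K.PL (Cf)
open Vale.Agent.P022D

section mat

variable {R : Type} [CommRing R]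

/-- the class of a matrix modulo scalars -/
def vc (M : M2 R) : Fin 3 → R := ![M 0 0 - M 1 1, M 0 1, M 1 0]

theorem comm_iff (M N : M2 R) : M * N = N * M ↔ ∀ i j, vc M i * vc N j = vc M j * vc N i := by
  constructor
  · intro h i j
    have h0 := congrFun (congrFun h 0) 0
    have h1 := congrFun (congrFun h 0) 1
    have h2 := congrFun (congrFun h 1) 0
    simp only [Matrix.mul_apply, Fin.sum_univ_two] at h0 h1 h2
    fin_cases i <;> fin_cases j <;> simp [vc] <;>
      first | linear_combination h0 | linear_combination h1 | linear_combination h2 |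
        linear_combination -h0 | linear_combination -h1 | linear_combination -h2
  · intro h
    have h0 := h 0 1
    have h1 := h 0 2
    have h2 := h 1 2
    simp [vc] at h0 h1 h2
    ext i j
    fin_cases i <;> fin_cases j <;> simp [Matrix.mul_apply, Fin.sum_univ_two] <;>
      first | linear_combination h0 | linear_combination h1 | linear_combination h2 |
        linear_combination -h0 | linear_combination -h1 | linear_combination -h2

theorem comm_trans [IsDomain R] {Z A Y : M2 R} (h1 : Z * A = A * Z) (h2 : Z * Y = Y * Z)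
    (h3 : Y * A ≠ A * Y) : vc Z = 0 := by
  funext k
  by_contra hk
  refine h3 ((comm_iff _ _).2 fun i j => mul_left_cancel₀ hk ?_)
  have a := (comm_iff _ _).1 h1
  have b := (comm_iff _ _).1 h2
  linear_combination vc Y i * a k j - vc Y j * a k i - vc A k * b i j

theorem disc_eq (A : M2 R) : A.trace ^ 2 - 4 * A.det = vc A 0 ^ 2 + 4 * (vc A 1 * vc A 2) := by
  simp [vc, Matrix.trace_fin_two, Matrix.det_fin_two]
  ring

theorem nil_zero [IsDomain R] {A N : M2 R} (hA : A.trace ^ 2 ≠ 4 * A.det) (h : A * N = N * A)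
    (ht : N.trace = 0) (hd : N.det = 0) : N = 0 := by
  have a := (comm_iff _ _).1 h
  have hD : vc A 0 ^ 2 + 4 * (vc A 1 * vc A 2) ≠ 0 := by
    rw [← disc_eq]; exact sub_ne_zero.2 hA
  have hN : vc N 0 ^ 2 + 4 * (vc N 1 * vc N 2) = 0 := by
    rw [← disc_eq, ht, hd]; ring
  have h1 : vc N 1 = 0 := pow_eq_zero_iff (two_ne_zero) |>.1 (mul_left_cancel₀ hD (by
    linear_combination (vc A 0 * vc N 1 + vc A 1 * vc N 0) * a 0 1 -
      4 * vc A 1 * vc N 1 * a 1 2 + vc A 1 ^ 2 * hN))
  have h2 : vc N 2 = 0 := pow_eq_zero_iff (two_ne_zero) |>.1 (mul_left_cancel₀ hD (by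
    linear_combination (vc A 0 * vc N 2 + vc A 2 * vc N 0) * a 0 2 +
      4 * vc A 2 * vc N 2 * a 1 2 + vc A 2 ^ 2 * hN))
  simp [vc] at h1 h2
  rw [Matrix.trace_fin_two] at ht
  rw [Matrix.det_fin_two, h1] at hd
  have h3 : N 0 0 = 0 := pow_eq_zero_iff (two_ne_zero) |>.1 (by
    linear_combination N 0 0 * ht - hd)
  have h4 : N 1 1 = 0 := by linear_combination ht - h3
  ext i j
  fin_cases i <;> fin_cases j <;> simp [h1, h2, h3, h4]

/-- two directions which are transversal to the centraliser -/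
theorem two_dir [IsDomain R] {A : M2 R} (hA : A.trace ^ 2 ≠ 4 * A.det) :
    ∃ Z0 Z1 : M2 R, ∀ a b : R, (a • Z0 + b • Z1) * A = A * (a • Z0 + b • Z1) → a = 0 ∧ b = 0 := by
  have hD : vc A 0 ^ 2 + 4 * (vc A 1 * vc A 2) ≠ 0 := by
    rw [← disc_eq]; exact sub_ne_zero.2 hA
  by_cases h1 : vc A 1 = 0
  · by_cases h2 : vc A 2 = 0
    · have h0 : vc A 0 ≠ 0 := fun e => hD (by rw [e, h1]; ring)
      refine ⟨!![0, 1; 0, 0], !![0, 0; 1, 0], fun a b h => ?_⟩
      have k := (comm_iff _ _).1 h
      have k1 := k 1 0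
      have k2 := k 2 0
      simp [vc] at k1 k2 h0
      exact ⟨k1.resolve_right h0, k2.resolve_right h0⟩
    · refine ⟨!![1, 0; 0, 0], !![0, 1; 0, 0], fun a b h => ?_⟩
      have k := (comm_iff _ _).1 h
      have k1 := k 0 2
      have k2 := k 1 2
      simp [vc] at k1 k2 h2
      exact ⟨k1.resolve_right h2, k2.resolve_right h2⟩
  · refine ⟨!![1, 0; 0, 0], !![0, 0; 1, 0], fun a b h => ?_⟩
    have k := (comm_iff _ _).1 h
    have k1 := k 0 1
    have k2 := k 2 1
    simp [vc] at k1 k2 h1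
    exact ⟨k1.resolve_right h1, k2.resolve_right h1⟩

end mat

/-- a derivation at a point -/
structure Dr {A B : Type} [CommRing A] [CommRing B] (x : A →+* B) (δ : A → B) : Prop where
  add : ∀ a b, δ (a + b) = δ a + δ b
  mul : ∀ a b, δ (a * b) = δ a * x b + x a * δ b

section der

variable {A B : Type} [CommRing A] [CommRing B] {x : A →+* B} {δ : A → B}

theorem Dr.zero (h : Dr x δ) : δ 0 = 0 := by simpa using h.mul 0 0

theorem Dr.one (h : Dr x δ) : δ 1 = 0 := by simpa using h.mul 1 1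

theorem Dr.sum (h : Dr x δ) {ι : Type} (s : Finset ι) (a : ι → A) :
    δ (∑ i ∈ s, a i) = ∑ i ∈ s, δ (a i) := by
  classical
  induction s using Finset.induction_on with
  | empty => simpa using h.zero
  | insert i s hi ih => rw [Finset.sum_insert hi, Finset.sum_insert hi, h.add, ih]

theorem Dr.mmul (h : Dr x δ) (M N : M2 A) :
    (M * N).map δ = M.map δ * N.map x + M.map x * N.map δ := by
  ext i j
  simp only [Matrix.map_apply, Matrix.mul_apply, Fin.sum_univ_two, h.add, h.mul, Matrix.add_apply]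
  ring

theorem Dr.madd (h : Dr x δ) (M N : M2 A) : (M + N).map δ = M.map δ + N.map δ := by
  ext i j
  exact h.add _ _

theorem Dr.mone (h : Dr x δ) : (1 : M2 A).map δ = 0 := by
  ext i j
  fin_cases i <;> fin_cases j <;> simp [h.one, h.zero]

theorem Dr.comp {A' : Type} [CommRing A'] (h : Dr x δ) (ψ : A' →+* A) :
    Dr (x.comp ψ) fun a => δ (ψ a) :=
  ⟨fun a b => by rw [map_add, h.add], fun a b => by rw [map_mul, h.mul]; rfl⟩

theorem Dr.inv (h : Dr x δ) {U V : M2 A} (e : U * V = 1) (hU : U.map x = 1) :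
    V.map x = 1 ∧ V.map δ = -U.map δ := by
  have h1 : V.map x = 1 := by
    have := congrArg (fun M : M2 A => M.map x) e
    simpa only [Matrix.map_mul, hU, one_mul, Matrix.map_one _ (map_zero x) (map_one x)] using this
  have h2 := h.mmul U V
  rw [e, h.mone, h1, hU, mul_one, one_mul] at h2
  exact ⟨h1, eq_neg_of_add_eq_zero_right h2.symm⟩

end der

/-- a derivation which kills the variables is zero -/
theorem Dr.eq_zero {O τ : Type} [CommRing O] [IsLocalRing O] [IsNoetherianRing O] [Fintype τ]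
    {x : PS O τ →+* O} {δ : PS O τ → O} (h : Dr x δ) (hx : ∀ t, x (X t) ∈ maximalIdeal O)
    (hC : ∀ o, δ (C o) = 0) (hX : ∀ t, δ (X t) = 0) (u : PS O τ) : δ u = 0 := by
  have key : ∀ N u, δ u ∈ maximalIdeal O ^ N := fun N => by
    induction N with
    | zero => simp
    | succ N ih =>
      intro u
      obtain ⟨c, e⟩ := decomp u
      rw [e, h.add, hC, zero_add, h.sum]
      refine Ideal.sum_mem _ fun t _ => ?_
      rw [h.mul, hX, zero_mul, zero_add, pow_succ']
      exact Ideal.mul_mem_mul (hx t) (ih _)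
  exact PL.mod_sep (A := O) fun j => by simpa using key j u

/-- the derivative at the origin in the direction `b` -/
def dz {O : Type} [CommRing O] {m : ℕ} (b : Fin m → O) (u : PS O (Fin m)) : O :=
  ∑ j, b j * coeff (Finsupp.single j 1) u

theorem dz_dr {O : Type} [CommRing O] {m : ℕ} (b : Fin m → O) : Dr constantCoeff (dz b) :=
  ⟨fun u v => by simp only [dz, map_add, mul_add, Finset.sum_add_distrib], fun u v => by
    simp only [dz, coeff_one_mul, mul_add, Finset.sum_add_distrib, Finset.sum_mul,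
      Finset.mul_sum]
    rw [add_comm]
    congr 1 <;> exact Finset.sum_congr rfl fun t _ => by ring⟩

theorem dz_C {O : Type} [CommRing O] {m : ℕ} (b : Fin m → O) (o : O) : dz b (C o) = 0 := by
  simp [dz, coeff_C]

theorem dz_X {O : Type} [CommRing O] {m : ℕ} (b : Fin m → O) (j : Fin m) : dz b (X j) = b j := by
  classical
  simp [dz, coeff_X, Finsupp.single_left_inj]

/-- the Jacobian of a family without constant directions -/
theorem minor_of {O τ : Type} [CommRing O] [IsDomain O] [IsLocalRing O] [IsNoetherianRing O]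
    [Fintype τ] {k : ℕ} (ψ : PS O τ →ₐ[O] PS O (Fin k))
    (hx : ∀ t, constantCoeff (ψ (X t)) ∈ maximalIdeal O)
    (h : ∀ b : Fin k → O, (∀ u, dz b (ψ u) = 0) → b = 0) :
    ∃ (t : Fin k → τ) (e : Fin k → Fin k),
      (Matrix.of fun i j => coeff (Finsupp.single (e j) 1) (ψ (X (t i)))).det ≠ 0 := by
  let K := FractionRing O
  have inj : Function.Injective (algebraMap O K) := IsFractionRing.injective O K
  obtain ⟨c, a, s, h1, Z, h2, h3⟩ := Cm.minor fun (t : τ) (j : Fin k) =>
    algebraMap O K (coeff (Finsupp.single j 1) (ψ (X t)))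
  have h4 : Z = ⊥ := (Submodule.eq_bot_iff Z).2 fun v hv => by
    obtain ⟨n, hn⟩ := IsLocalization.exist_integer_multiples_of_finite (nonZeroDivisors O) v
    choose b hb using hn
    have hb' : ∀ j, algebraMap O K (b j) = algebraMap O K n * v j := fun j =>
      (hb j).trans (Algebra.smul_def _ _)
    have h5 := h b fun u => ((dz_dr b).comp ψ.toRingHom).eq_zero hx
      (fun o => (congrArg (dz b) (ψ.commutes o)).trans (dz_C b o)) (fun t => inj (by
        rw [map_zero, dz, map_sum]
        simp only [map_mul, hb', mul_assoc]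
        rw [← Finset.mul_sum]
        exact mul_eq_zero_of_right _ ((h2 v).1 hv t))) u
    funext j
    have h6 := hb' j
    rw [h5, Pi.zero_apply, map_zero] at h6
    exact (mul_eq_zero.1 h6.symm).resolve_left
      ((map_ne_zero_iff _ inj).2 (nonZeroDivisors.ne_zero n.2))
  rw [h4, finrank_bot, zero_add, Fintype.card_fin] at h3
  subst h3
  refine ⟨a, s, fun e => h1 ?_⟩
  have := congrArg (algebraMap O K) e
  rw [RingHom.map_det, map_zero] at this
  exact this

theorem base_cf (O : Type) [CommRing O] [IsDomain O] [IsDiscreteValuationRing O] [hO : Cf O] :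
    Base O := { cpl := hO.cpl, fin := hO.fin }

theorem pt_loc {O τ : Type} [CommRing O] [IsLocalRing O] (x : PS O τ →ₐ[O] O) :
    ∀ u ∈ maximalIdeal (PS O τ), x u ∈ maximalIdeal O := fun u hu => by
  have h := Ideal.comap_isMaximal_of_surjective x.toRingHom (fun o => ⟨C o, x.commutes o⟩)
    (K := maximalIdeal O)
  rw [← eq_maximalIdeal h] at hu
  exact hu

theorem pow_map {A B : Type} [CommRing A] [CommRing B] (φ : A →+* B) {m : Ideal A} {n : Ideal B}
    (h : ∀ u ∈ m, φ u ∈ n) (k : ℕ) : ∀ u ∈ m ^ k, φ u ∈ n ^ k := fun u hu =>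
  Ideal.le_comap_pow φ k (Ideal.pow_right_mono (show m ≤ n.comap φ from h) k hu)

section fam

variable {G F O τ : Type} [Group G] [TopologicalSpace G] [IsTopologicalGroup G] [Field F]
  [Finite F] [CommRing O] [IsDomain O] [IsDiscreteValuationRing O] [Cf O] [Algebra O F]
  [Fintype τ] {r : G →* M2 F} {s : F → O} {d : G → O} {g : τ → G} {p q : τ → Fin 2}
  {I : Ideal (PS O τ)} {f : G → M2 (PS O τ)}

/-- conjugates of unramified twists -/
theorem fam (h : Uni r s d g p q I f) (hs : ∀ x, algebraMap O F (s x) = x)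
    (x : PS O τ →ₐ[O] O) (hI : ∀ u ∈ I, x u = 0) {m : ℕ} (Z : Fin m → M2 O)
    (lam : G →* M2 (PS O (Fin m)))
    (l1 : ∀ n : ℕ, IsOpen {y | Cg (maximalIdeal (PS O (Fin m)) ^ n) (lam y) 1})
    (l2 : ∀ y, (lam y).map constantCoeff = 1) (l3 : ∀ y, (lam y).det = 1)
    (l4 : ∀ y y', ((f y).map x).map C * lam y' = lam y' * ((f y).map x).map C) :
    ∃ (ψ : PS O τ →ₐ[O] PS O (Fin m)) (U V : M2 (PS O (Fin m))), U * V = 1 ∧
      (∀ u, x u = constantCoeff (ψ u)) ∧ (∀ u ∈ I, ψ u = 0) ∧
      (∀ y, (f y).map ψ = U * (((f y).map x).map C * lam y) * V) ∧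
      ∀ b, (∀ u, dz b (ψ u) = 0) → ∀ y, (∑ j, b j • Z j) * (f y).map x +
        (f y).map x * (lam y).map (dz b) = (f y).map x * ∑ j, b j • Z j := by
  haveI := base_cf O
  haveI := PL.base_ps O (Fin m)
  have h' := h.un hs
  have hx := pt_loc x
  let ρ0 : G →* M2 O := h'.rep x.toRingHom hI
  have e0 : ∀ y, (f y).map x = ρ0 y := fun y => rfl
  simp only [e0] at l4 ⊢
  let U : M2 (PS O (Fin m)) := 1 + ∑ j, (X j : PS O (Fin m)) • (Z j).map C
  have c1 : (1 : M2 (PS O (Fin m))).map constantCoeff = 1 :=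
    Matrix.map_one _ (map_zero _) (map_one _)
  have hU : U.map constantCoeff = 1 := by
    rw [← c1]
    ext i j
    simp [U, Matrix.sum_apply]
  have hUd : ∀ b, U.map (dz b) = ∑ j, b j • Z j := fun b => by
    rw [(dz_dr b).madd, (dz_dr b).mone, zero_add]
    ext i j
    simp only [Matrix.map_apply, Matrix.sum_apply, Matrix.smul_apply, smul_eq_mul,
      (dz_dr b).sum, (dz_dr b).mul, dz_X, dz_C, constantCoeff_C, mul_zero, add_zero]
  have hu : IsUnit U.det := by
    rw [isUnit_iff_constantCoeff, RingHom.map_det, RingHom.mapMatrix_apply, hU, Matrix.det_one]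
    exact isUnit_one
  have hUV : U * U⁻¹ = 1 := Matrix.mul_nonsing_inv U hu
  have hVU : U⁻¹ * U = 1 := Matrix.nonsing_inv_mul U hu
  have hV := fun b => (dz_dr b).inv hUV hU
  have cc : ∀ M : M2 O, (M.map (C : O →+* PS O (Fin m))).map constantCoeff = M := fun M => by
    ext i j; simp
  have cd : ∀ b (M : M2 O), (M.map (C : O →+* PS O (Fin m))).map (dz b) = 0 := fun b M => by
    ext i j; simp [dz_C]
  let ρ : G →* M2 (PS O (Fin m)) :=
    { toFun := fun y => U * ((ρ0 y).map C * lam y) * U⁻¹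
      map_one' := by
        rw [map_one, map_one, Matrix.map_one _ (map_zero _) (map_one _), mul_one, mul_one, hUV]
      map_mul' := fun y y' => by
        rw [map_mul, map_mul, Matrix.map_mul]
        calc _ = U * ((ρ0 y).map C * ((ρ0 y').map C * lam y) * lam y') * U⁻¹ := by
              simp only [mul_assoc]
          _ = U * ((ρ0 y).map C * lam y) * (U⁻¹ * U) * ((ρ0 y').map C * lam y') * U⁻¹ := by
              rw [l4, hVU]; simp only [mul_assoc, one_mul, mul_one]
          _ = _ := by simp only [mul_assoc] }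
  have eρ : ∀ y, ρ y = U * ((ρ0 y).map C * lam y) * U⁻¹ := fun y => rfl
  have hc : ∀ y, (ρ y).map constantCoeff = ρ0 y := fun y => by
    rw [eρ, Matrix.map_mul, Matrix.map_mul, Matrix.map_mul, hU, (hV 0).1, l2, cc, one_mul,
      mul_one, mul_one]
  have xC : ∀ o, x.toRingHom (C o) = o := fun o => x.commutes o
  have hL : LiftC r s d ρ := by
    refine ⟨fun n => ?_, fun a ha => Lu.C_max ha, fun y i j => ?_, fun y => ?_⟩
    · have a1 := h'.rep_lc (((Ideal.Quotient.mk (maximalIdeal (PS O (Fin m)) ^ n)).comp C).comp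
        x.toRingHom) (fun u hu => (congrArg ((Ideal.Quotient.mk _).comp C) (hI u hu)).trans
          (map_zero _)) (k := n)
        fun u hu => Ideal.Quotient.eq_zero_iff_mem.2
          (pow_map (C : O →+* PS O (Fin m)) (fun a ha => Lu.C_max ha) n _
            (pow_map x.toRingHom hx n u hu))
      have a2 := lc_of_cg lam _ (l1 n)
      have a3 := (a1.comp₂ a2 fun M N => U.map (Ideal.Quotient.mk _) * (M * N) *
        U⁻¹.map (Ideal.Quotient.mk _)).isOpen_fiber 1
      simp only [cg_one, eρ, Matrix.map_mul]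
      exact a3
    · rw [mem_max_iff, map_sub, ← Matrix.map_apply (f := constantCoeff), hc]
      have := hx _ (h'.red y i j)
      rw [map_sub] at this
      have e1 : constantCoeff (algebraMap O (PS O (Fin m)) (s (r y i j))) =
          x (C (s (r y i j))) := (constantCoeff_C _).trans (xC _).symm
      rw [e1]
      exact this
    · have a1 := congrArg Matrix.det hUV
      have a2 : ((ρ0 y).map (C : O →+* PS O (Fin m))).det = C (d y) := by
        rw [← RingHom.mapMatrix_apply, ← RingHom.map_det, h'.rep_det, xC]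
      rw [Matrix.det_mul, Matrix.det_one] at a1
      rw [eρ, Matrix.det_mul, Matrix.det_mul, Matrix.det_mul, l3, a2, mul_one, mul_right_comm, a1,
        one_mul]
      rfl
  obtain ⟨ψ, b1, b2, b3⟩ := (luc G F O τ r s d g p q I f hs h (PS O (Fin m))).1 ρ hL
  refine ⟨ψ, U, U⁻¹, hUV, fun u => ?_, b2, b3, fun b hb y => ?_⟩
  · have := ‹Cf O›.cpl
    refine DFunLike.congr_fun (NR.ev_ext (maximalIdeal O) (φ := x.toRingHom)
      (ψ := constantCoeff.comp ψ.toRingHom) (fun o => ?_) (fun t => ?_)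
      fun t => hx _ (Lu.X_max t)) u
    · exact (xC o).trans ((constantCoeff_C o).symm.trans (congrArg _ (ψ.commutes o).symm))
    · rw [h'.rep_crd x.toRingHom hI t, xC]
      show _ = constantCoeff (ψ (X t))
      rw [b1, coG, map_sub, ← Matrix.map_apply (f := constantCoeff), hc]
      exact congrArg _ (constantCoeff_C _).symm
  · have a1 : (ρ y).map (dz b) = 0 := by
      rw [← b3]
      ext i j
      exact hb _
    rw [eρ, (dz_dr b).mmul, (dz_dr b).mmul, (dz_dr b).mmul, Matrix.map_mul, Matrix.map_mul,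
      Matrix.map_mul, (hV b).1, (hV b).2, hU, hUd, l2, cc, cd] at a1
    simp only [mul_one, one_mul, zero_mul, zero_add, mul_neg] at a1
    exact eq_of_add_neg_eq_zero a1

end fam

theorem cg_pow {A : Type} [CommRing A] [IsNoetherianRing A] [IsLocalRing A] {M N : M2 A}
    (h : ∀ n : ℕ, Cg (maximalIdeal A ^ n) M N) : M = N := Matrix.ext fun i j =>
  sub_eq_zero.1 (PL.mod_sep (A := A) fun n => by simpa using h n i j)

/-- a property of the powers of `γ` which passes to limits -/
theorem lim_comm {A : Type} [CommRing A] [IsNoetherianRing A] [IsLocalRing A] {γ M N : M2 A}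
    (h : ∀ n : ℕ, ∃ k : ℕ, Cg (maximalIdeal A ^ n) M (γ ^ k)) (hN : Commute N γ) :
    N * M = M * N := cg_pow fun n => by
  obtain ⟨k, hk⟩ := h n
  rw [cg_iff] at hk ⊢
  rw [Matrix.map_mul, Matrix.map_mul, hk, ← Matrix.map_mul, ← Matrix.map_mul, (hN.pow_right k).eq]

theorem lim_det {A : Type} [CommRing A] [IsNoetherianRing A] [IsLocalRing A] {γ M : M2 A}
    (h : ∀ n : ℕ, ∃ k : ℕ, Cg (maximalIdeal A ^ n) M (γ ^ k)) (hγ : γ.det = 1) : M.det = 1 :=
  sub_eq_zero.1 (PL.mod_sep (A := A) fun n => by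
    obtain ⟨k, hk⟩ := h n
    rw [cg_iff] at hk
    have h1 := congrArg Matrix.det hk
    rw [← RingHom.mapMatrix_apply, ← RingHom.mapMatrix_apply, ← RingHom.map_det,
      ← RingHom.map_det, Matrix.det_pow, hγ, one_pow] at h1
    simpa using Ideal.Quotient.eq.1 h1)

theorem lim_cc {O σ : Type} [CommRing O] [IsNoetherianRing O] [IsLocalRing O]
    {γ M : M2 (PS O σ)} (h : ∀ n : ℕ, ∃ k : ℕ, Cg (maximalIdeal (PS O σ) ^ n) M (γ ^ k))
    (hγ : γ.map constantCoeff = 1) : M.map constantCoeff = 1 := cg_pow fun n => by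
  obtain ⟨k, hk⟩ := h n
  have h1 : (γ ^ k).map (constantCoeff : PS O σ →+* O) = 1 := by
    rw [← RingHom.mapMatrix_apply, map_pow, RingHom.mapMatrix_apply, hγ, one_pow]
  intro i j
  rw [← h1, Matrix.map_apply, Matrix.map_apply, ← map_sub]
  exact pow_map _ (fun u hu => (mem_max_iff u).1 hu) n _ (hk i j)

/-- a curve of determinant one in the centraliser of `A` -/
theorem gam {O : Type} [CommRing O] [IsLocalRing O] {m : ℕ} (A : M2 O) (j : Fin m) :
    ∃ γ : M2 (PS O (Fin m)), γ.det = 1 ∧ γ.map constantCoeff = 1 ∧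
      (∀ N : M2 O, N * A = A * N → Commute (N.map C) γ) ∧
      ∀ b, γ.map (dz b) = b j • (A - A.adjugate) := by
  let W : M2 O → M2 (PS O (Fin m)) := fun M => 1 + (X j : PS O (Fin m)) • M.map C
  have hW : ∀ M, (W M).map constantCoeff = 1 := fun M => by
    ext a c
    fin_cases a <;> fin_cases c <;> simp [W]
  have hd : ∀ b M, (W M).map (dz b) = b j • M := fun b M => by
    rw [(dz_dr b).madd, (dz_dr b).mone, zero_add]
    ext a c
    simp only [Matrix.map_apply, Matrix.smul_apply, smul_eq_mul, (dz_dr b).mul, dz_X, dz_C,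
      constantCoeff_C, mul_zero, add_zero]
  have hu : IsUnit (W A.adjugate).det := by
    rw [isUnit_iff_constantCoeff, RingHom.map_det, RingHom.mapMatrix_apply, hW, Matrix.det_one]
    exact isUnit_one
  have h1 := Matrix.mul_nonsing_inv _ hu
  have h2 := Matrix.nonsing_inv_mul _ hu
  have hc : ∀ M N : M2 O, N * M = M * N → Commute (N.map C) (W M) := fun M N h =>
    (Commute.one_right _).add_right (Commute.smul_right (by
      show N.map C * M.map C = M.map C * N.map C
      rw [← Matrix.map_mul, h, Matrix.map_mul]) _)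
  refine ⟨W A * (W A.adjugate)⁻¹, ?_, ?_, fun N hN => (hc A N hN).mul_right ?_, fun b => ?_⟩
  · have e : (W A).det = (W A.adjugate).det := by
      simp [W, Matrix.det_fin_two, Matrix.adjugate_fin_two]
      ring
    rw [Matrix.det_mul, e, ← Matrix.det_mul, h1, Matrix.det_one]
  · rw [Matrix.map_mul, hW, ((dz_dr 0).inv h1 (hW _)).1, mul_one]
  · have h3 := hc A.adjugate N (by
      rw [comm_iff] at hN ⊢
      have e : vc A.adjugate = -vc A := by
        funext i
        fin_cases i <;> simp [vc, Matrix.adjugate_fin_two]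
      intro a c
      rw [e, Pi.neg_apply, Pi.neg_apply]
      linear_combination -hN a c)
    calc N.map C * (W A.adjugate)⁻¹ =
          ((W A.adjugate)⁻¹ * W A.adjugate) * N.map C * (W A.adjugate)⁻¹ := by rw [h2, one_mul]
      _ = (W A.adjugate)⁻¹ * N.map C * (W A.adjugate * (W A.adjugate)⁻¹) := by
          rw [mul_assoc _ (W A.adjugate), ← h3.eq]; simp only [mul_assoc]
      _ = _ := by rw [h1, mul_one]
  · rw [(dz_dr b).mmul, ((dz_dr b).inv h1 (hW _)).1, ((dz_dr b).inv h1 (hW _)).2, hW, hd, hd,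
      mul_one, one_mul, smul_sub, sub_eq_add_neg]

end Vale.Agent.P022K.RT.Or

namespace Vale.Agent.P022K.RT

open IsLocalRing MvPowerSeries Module Or
open Vale.Agent.P022D.L2b (M2)
open Vale.Agent.P022D.Core (PS)
open Vale.Agent.P022K.PL (Cf)
open Vale.Agent.P027M.S (Inert)
open Vale.Agent.P022D.W (dec)
open Vale.Agent.P022E.GW (Ov Fb)
open Vale.Agent.P022K.GW (Id)

theorem ex_frob {l : ℕ} {P : Id} (hP : Ov l P) : ∃ φ : dec P, Fb l P φ := by
  obtain ⟨φ, hφ⟩ := P022D.W.exists_phi hP.1 hP.2.1 hP.2.2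
  refine ⟨⟨φ, fun x => ⟨fun h => hP.2.1.mem_of_pow_mem l ?_, fun h => ?_⟩⟩, hφ⟩
  · simpa using P.sub_mem h (hφ x)
  · simpa using P.add_mem (hφ x) (P.pow_mem_of_mem h l hP.1.pos)

theorem orb_of (smo : SMO) (ufr : UFR) : ORB := by
  intro F O τ _ _ _ _ _ _ _ _ _ l P r s d g p q I f x hP hl hs h hI ⟨n, n0, hn⟩ ⟨i0, hi0, hA⟩
  obtain ⟨φ, hφ⟩ := ex_frob hP
  haveI := PL.base_ps O (Fin 3)
  let ρ0 : dec P →* M2 O := (h.un hs).rep x.toRingHom hI
  have e0 : ∀ y, (f y).map x = ρ0 y := fun y => rfl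
  have hu : ∀ y, IsUnit (ρ0 y) := fun y => (Group.isUnit y).map ρ0
  have hS := smo F O τ l P r s d g p q I f x hP hl hs h hI ⟨φ, hφ, fun N h1 h2 h3 => by
    refine nil_zero hA (h2 i0 hi0) h1 ?_
    have h4 := congrArg Matrix.det (show (l : O) • (ρ0 φ * N) = N * ρ0 φ from h3)
    rw [Matrix.det_smul, Matrix.det_mul, Matrix.det_mul, Fintype.card_fin] at h4
    have h5 : (ρ0 φ).det ≠ 0 := ((Matrix.isUnit_iff_isUnit_det _).1 (hu φ)).ne_zero
    have h6 : ((l : O) ^ 2 - 1) ≠ 0 := by
      have h7 : l ^ 2 ≠ 1 := by have := hP.1.two_le; nlinarith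
      exact sub_ne_zero.2 (by exact_mod_cast h7)
    exact mul_left_cancel₀ (mul_ne_zero h6 h5) (by linear_combination h4)⟩
  obtain ⟨Z, lam, l0, l1, l2, l3, l4, l5⟩ : ∃ (Z : Fin 3 → M2 O)
      (lam : dec P →* M2 (PS O (Fin 3))), (∀ i : dec P, Inert P i → lam i = 1) ∧
      (∀ n : ℕ, IsOpen {y | Cg (maximalIdeal (PS O (Fin 3)) ^ n) (lam y) 1}) ∧
      (∀ y, (lam y).map constantCoeff = 1) ∧ (∀ y, (lam y).det = 1) ∧
      (∀ y y', (ρ0 y).map C * lam y' = lam y' * (ρ0 y).map C) ∧
      ∀ b : Fin 3 → O, (∀ y, (∑ j, b j • Z j) * ρ0 y + ρ0 y * (lam y).map (dz b) =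
        ρ0 y * ∑ j, b j • Z j) → b = 0 := by
    by_cases hc : ∀ y, ρ0 y * ρ0 i0 = ρ0 i0 * ρ0 y
    · obtain ⟨Z0, Z1, hZ⟩ := two_dir hA
      obtain ⟨γ, g1, g2, g3, g4⟩ := gam (ρ0 i0) (2 : Fin 3)
      obtain ⟨lam, a1, a2, a3, a4⟩ := (ufr l P φ hP hφ (PS O (Fin 3))).1 γ
        ((Matrix.isUnit_iff_isUnit_det _).2 (g1 ▸ isUnit_one))
      refine ⟨![Z0, Z1, 0], lam, a2, a3, fun y => lim_cc (a4 · y) g2, fun y => lim_det (a4 · y) g1,
        fun y y' => lim_comm (a4 · y') (g3 _ (hc y)), fun b hb => ?_⟩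
      have h1 := hb i0
      have h2 := hb φ
      rw [a2 i0 hi0, (dz_dr b).mone, mul_zero, add_zero] at h1
      simp only [Fin.sum_univ_three, Matrix.cons_val_zero, Matrix.cons_val_one, Matrix.cons_val,
        smul_zero, add_zero] at h1 h2
      obtain ⟨b0, b1⟩ := hZ _ _ h1
      rw [b0, b1, zero_smul, zero_smul, add_zero, zero_mul, mul_zero, zero_add, a1, g4,
        (hu φ).mul_right_eq_zero, smul_eq_zero] at h2
      have b2 : b 2 = 0 := h2.resolve_right fun e => hA (by
        have k0 := congrFun (congrFun e 0) 0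
        have k1 := congrFun (congrFun e 0) 1
        have k2 := congrFun (congrFun e 1) 0
        simp [Matrix.adjugate_fin_two] at k0 k1 k2
        rw [e0, ← sub_eq_zero, disc_eq]
        simp [vc, k0, k1, k2])
      funext j
      fin_cases j <;> assumption
    · push Not at hc
      obtain ⟨y0, hy⟩ := hc
      refine ⟨![!![1, 0; 0, 0], !![0, 1; 0, 0], !![0, 0; 1, 0]], 1, fun _ _ => rfl, fun n => ?_,
        fun y => Matrix.map_one _ (map_zero _) (map_one _), fun y => Matrix.det_one,
        fun y y' => by simp, fun b hb => ?_⟩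
      · convert isOpen_univ
        exact Set.eq_univ_of_forall fun y i j => by simp
      · simp only [MonoidHom.one_apply, (dz_dr b).mone, mul_zero, add_zero] at hb
        have h1 := comm_trans (hb i0) (hb y0) hy
        funext j
        have h2 := congrFun h1 j
        fin_cases j <;> simpa [vc, Fin.sum_univ_three] using h2
  obtain ⟨ψ, U, V, b0, b1, b2, b3, b4⟩ := fam h hs x hI Z lam l1 l2 l3 l4
  obtain ⟨c1, a, c2, c3⟩ := cmp O τ 3 3 I ψ x b1 b2 hS
    (minor_of ψ (fun t => b1 _ ▸ pt_loc x _ (Lu.X_max t)) fun b hb => l5 b (b4 b hb))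
  refine ⟨RingHom.ker ψ, a, n, c1, b2, fun u hu => by rw [b1, show ψ u = 0 from hu, map_zero], c2,
    c3, n0, fun i hi => ?_⟩
  have b5 := b3 i
  have hVU : V * U = 1 := mul_eq_one_comm.1 b0
  rw [l0 i hi, mul_one] at b5
  constructor
  · show ψ _ = 0
    have t1 : ψ (f i).trace = ((f i).map ψ).trace := by simp [Matrix.trace_fin_two]
    have t2 : ψ (C ((f i).map x).trace) = (((f i).map x).map (C : O →+* PS O (Fin 3))).trace := by
      refine (ψ.commutes _).trans ?_
      simp [Matrix.trace_fin_two]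
      rfl
    rw [map_sub, t1, t2, b5, Matrix.trace_mul_cycle, hVU, one_mul, sub_self]
  · have t1 : ∀ (M : M2 (PS O (Fin 3))) (k : ℕ), (U * M * V) ^ k = U * M ^ k * V := fun M k => by
      induction k with
      | zero => simp [b0]
      | succ k ih =>
        rw [pow_succ, ih, pow_succ]
        calc _ = U * M ^ k * (V * U) * M * V := by simp only [mul_assoc]
          _ = _ := by rw [hVU]; simp only [mul_assoc, one_mul]
    have t2 : (f i ^ n).map ψ.toRingHom = (1 : M2 (PS O τ)).map ψ.toRingHom := by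
      rw [← RingHom.mapMatrix_apply, map_pow, RingHom.mapMatrix_apply]
      show ((f i).map ψ) ^ n = _
      rw [b5, t1, ← RingHom.mapMatrix_apply, ← map_pow, hn i hi, map_one, mul_one, b0,
        Matrix.map_one _ (map_zero _) (map_one _)]
    intro a c
    show ψ _ = 0
    rw [map_sub, sub_eq_zero]
    exact congrFun (congrFun t2 a) c

end Vale.Agent.P022K.RT
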