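import Vale.Agent.P022K.RT.Trd
import Vale.Agent.P022K.RT.Pkg

/-!
# P022K, block RT: modularity lifting on a site, closed
-/

namespace Vale.Agent.P022K.RT

/-- **row MLS** -/
theorem mlsC : MLS := mls pkg

end Vale.Agent.P022K.RT
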