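import Vale.Agent.P022K.RT.GeoB
import Vale.Agent.P022D.NR.Ev

/-! P022K, block RT: the four parts of row AUX. -/

set_option linter.all false

noncomputable section

namespace Vale.Agent.P022K.RT.Ax

open IsLocalRing MvPowerSeries
open Vale.Agent.P022D
open Vale.Agent.P022D.Core (PS)
open Vale.Agent.P022D.CA (emb)
open Vale.Agent.P022K.PL (Cf)
open Geo

variable {O β σ σ₀ : Type} [CommRing O] [IsDomain O] [IsDiscreteValuationRing O] [hO : Cf O]
  [Fintype β] [Fintype σ] [Fintype σ₀] {τ : β → Type} [∀ b, Fintype (τ b)]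
  (e : (Σ b, τ b) ↪ σ) (e₀ : σ₀ ↪ σ) (J : ∀ b, Ideal (PS O (τ b))) (hd : ∀ a b, e a ≠ e₀ b)

include hd in
/-- saturation and the upper bound for the dimension, with one distinguished block -/
theorem sat_dim (k : β → ℕ) (d : Prop) (h : ∀ b, Sat (J b))
    (hk : d → ∀ b, ringKrullDim (PS O (τ b) ⧸ J b) ≤ (k b + 1 : ℕ)) (J₀ : Ideal (PS O σ₀))
    (k₀ : ℕ) (h0 : Sat J₀) (hk0 : d → ringKrullDim (PS O σ₀ ⧸ J₀) ≤ (k₀ + 1 : ℕ)) :
    ∃ n, k₀ + ∑ b, k b + Fintype.card σ = n + Fintype.card σ₀ + ∑ b, Fintype.card (τ b) ∧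
      Sat (J₀.map (rename (R := O) e₀) ⊔ sumI e J) ∧
      (d → ringKrullDim (PS O σ ⧸ (J₀.map (rename (R := O) e₀) ⊔ sumI e J)) ≤ (n + 1 : ℕ)) :=
  ind_all (O := O)
    (P := fun τ J k => Sat J ∧ (d → ringKrullDim (PS O τ ⧸ J) ≤ (k + 1 : ℕ)))
    (R := fun τ J k => Sat J ∧ (d → ringKrullDim (PS O τ ⧸ J) ≤ (k + 1 : ℕ)))
    (fun τ σ u J k h => ⟨sat_equiv h.1 u, fun c => (dim_equiv J u).trans_le (h.2 c)⟩)
    (fun τ τ' _ _ J K k k' a b => ⟨sat_sum a.1 b.1, fun c => up_sum a.1 b.1 (a.2 c) (b.2 c)⟩)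
    (fun τ _ => ⟨sat_bot, fun _ => (dim_bot τ).le⟩) ⟨h0, hk0⟩ J k
    (fun b => ⟨h b, fun c => hk c b⟩) e₀ e hd

include hd in
/-- a retraction which extends given points of the blocks; the free variables go to zero -/
theorem retr (x : ∀ b, PS O (τ b) →ₐ[O] O) : ∃ π : PS O σ →ₐ[O] PS O σ₀,
    (∀ u, π (rename e₀ u) = u) ∧ (∀ b u, π (rename (emb e b) u) = C (x b u)) ∧
    ∀ s, (∀ a, e a ≠ s) → (∀ a, e₀ a ≠ s) → π (X s) = 0 := by
  classical
  have hB := PL.base_ps O σ₀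
  have := hB.cpl
  have hx : ∀ b t, x b (X t) ∈ maximalIdeal O := fun b t => by
    have h := Ideal.comap_isMaximal_of_surjective (x b).toRingHom
      (fun o => ⟨C o, (x b).commutes o⟩) (K := maximalIdeal O)
    have hu : (X t : PS O (τ b)) ∈ maximalIdeal _ := by
      rw [mem_maximalIdeal, mem_nonunits_iff, isUnit_iff_constantCoeff, constantCoeff_X]
      exact not_isUnit_zero
    rw [← eq_maximalIdeal h] at hu
    exact hu
  have hC : ∀ a ∈ maximalIdeal O, (C a : PS O σ₀) ∈ maximalIdeal _ := fun a ha => by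
    rwa [mem_maximalIdeal, mem_nonunits_iff, isUnit_iff_constantCoeff, constantCoeff_C]
  have hX : ∀ t, (X t : PS O σ₀) ∈ maximalIdeal _ := fun t => by
    rw [mem_maximalIdeal, mem_nonunits_iff, isUnit_iff_constantCoeff, constantCoeff_X]
    exact not_isUnit_zero
  let v : σ → PS O σ₀ := fun s => if h : ∃ a, e₀ a = s then X h.choose else
    if h : ∃ a, e a = s then C (x h.choose.1 (X h.choose.2)) else 0
  have v0 : ∀ a, v (e₀ a) = X a := fun a => by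
    have h : ∃ a', e₀ a' = e₀ a := ⟨a, rfl⟩
    exact (dif_pos h).trans (congrArg X (e₀.injective h.choose_spec))
  have v1 : ∀ a, v (e a) = C (x a.1 (X a.2)) := fun a => by
    have h : ∃ a', e a' = e a := ⟨a, rfl⟩
    refine (dif_neg fun ⟨b, hb⟩ => hd a b hb.symm).trans ((dif_pos h).trans ?_)
    rw [e.injective h.choose_spec]
  obtain ⟨φ, h1, h2⟩ := NR.exists_ev (maximalIdeal (PS O σ₀)) (C : O →+* PS O σ₀) v fun s => by
    simp only [v]
    split_ifs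
    · exact hX _
    · exact hC _ (hx _ _)
    · exact zero_mem _
  refine ⟨{ φ with commutes' := h1 }, fun u => ?_, fun b u => ?_, fun s a b => ?_⟩
  · refine RingHom.congr_fun (NR.ev_ext (maximalIdeal (PS O σ₀))
      (φ := φ.comp (rename (R := O) e₀).toRingHom) (ψ := RingHom.id _) (fun o => ?_)
      (fun i => ?_) fun i => ?_) u
    · exact (congrArg φ (rename_C _ o)).trans (h1 o)
    · exact (congrArg φ (rename_X _ i)).trans ((h2 _).trans (v0 i))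
    · exact ((congrArg φ (rename_X _ i)).trans ((h2 _).trans (v0 i))).symm ▸ hX i
  · refine RingHom.congr_fun (NR.ev_ext (maximalIdeal (PS O σ₀))
      (φ := φ.comp (rename (R := O) (emb e b)).toRingHom)
      (ψ := (C : O →+* PS O σ₀).comp (x b).toRingHom) (fun o => ?_) (fun i => ?_) fun i => ?_) u
    · exact (congrArg φ (rename_C _ o)).trans ((h1 o).trans (congrArg C ((x b).commutes o).symm))
    · exact (congrArg φ (rename_X _ i)).trans ((h2 _).trans (v1 ⟨b, i⟩))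
    · exact ((congrArg φ (rename_X (emb e b) i)).trans
        ((h2 (e ⟨b, i⟩)).trans (v1 ⟨b, i⟩))).symm ▸ hC _ (hx b i)
  · exact (h2 s).trans ((dif_neg fun ⟨c, hc⟩ => b c hc).trans (dif_neg fun ⟨c, hc⟩ => a c hc))

omit [IsDomain O] [IsDiscreteValuationRing O] hO in
/-- a parametrised prime has a point -/
theorem Par.pt {ι : Type} {I : Ideal (PS O ι)} {k : ℕ} (h : RT.Par I k) :
    ∃ x : PS O ι →ₐ[O] O, ∀ u ∈ I, x u = 0 := by
  obtain ⟨m, ψ, rfl⟩ := h.ker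
  let c : PS O (Fin m) →ₐ[O] O :=
    { (constantCoeff : PS O (Fin m) →+* O) with commutes' := fun o => constantCoeff_C o }
  exact ⟨c.comp ψ, fun u hu => (congrArg c hu).trans (map_zero c)⟩

include hd in
theorem pt {k : β → ℕ} (h : ∀ b, RT.Par (J b) (k b)) : ∃ π : PS O σ →ₐ[O] PS O σ₀,
    (∀ u, π (rename e₀ u) = u) ∧ ∀ u ∈ sumI e J, π u = 0 := by
  choose x hx using fun b => Par.pt (h b)
  obtain ⟨π, h1, h2, -⟩ := retr e e₀ hd x
  refine ⟨π, h1, fun u hu => ?_⟩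
  refine (iSup_le fun b => Ideal.map_le_iff_le_comap.2 fun w hw => ?_ :
    sumI e J ≤ RingHom.ker π) hu
  rw [Ideal.mem_comap, RingHom.mem_ker, h2, hx b w hw, map_zero]

include hd in
/-- the four parts -/
theorem all {k : β → ℕ} {n : ℕ} (h : ∀ b, RT.Par (J b) (k b))
    (hn : ∑ b, k b + Fintype.card σ = n + Fintype.card σ₀ + ∑ b, Fintype.card (τ b)) :
    (∀ (J₀ : Ideal (PS O σ₀)) (k : ℕ), J₀.IsPrime → Sat J₀ →
      ringKrullDim (PS O σ₀ ⧸ J₀) = (k + 1 : ℕ) →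
        (J₀.map (rename (R := O) e₀) ⊔ sumI e J).IsPrime ∧
        ringKrullDim (PS O σ ⧸ (J₀.map (rename (R := O) e₀) ⊔ sumI e J)) = (k + n + 1 : ℕ)) ∧
    (∀ J₀ : Ideal (PS O σ₀), Sat J₀ → Sat (J₀.map (rename (R := O) e₀) ⊔ sumI e J)) ∧
    (∀ (J₀ : Ideal (PS O σ₀)) (k : ℕ), Sat J₀ → ringKrullDim (PS O σ₀ ⧸ J₀) ≤ (k + 1 : ℕ) →
      ringKrullDim (PS O σ ⧸ (J₀.map (rename (R := O) e₀) ⊔ sumI e J)) ≤ (k + n + 1 : ℕ)) ∧
    ∃ π : PS O σ →ₐ[O] PS O σ₀, (∀ u, π (rename e₀ u) = u) ∧ ∀ u ∈ sumI e J, π u = 0 := by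
  have hs : ∀ b, Sat (J b) := fun b => (h b).par.gd.sat
  refine ⟨fun J₀ k₀ a b c => ?_, fun J₀ a => ?_, fun J₀ k₀ a b => ?_, pt e e₀ J hd h⟩
  · obtain ⟨h1, -, h2⟩ := geo O β σ σ₀ τ e e₀ J J₀ k k₀ (k₀ + n) hd a b c h (by omega)
    exact ⟨h1, h2⟩
  · obtain ⟨m, -, h1, -⟩ := sat_dim e e₀ J hd k False hs False.elim J₀ 0 a False.elim
    exact h1
  · obtain ⟨m, h0, -, h1⟩ := sat_dim e e₀ J hd k True hs (fun _ b => (h b).dim.le) J₀ k₀ a
      fun _ => b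
    obtain rfl : m = k₀ + n := by omega
    exact h1 trivial

end Vale.Agent.P022K.RT.Ax
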