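import Vale.Agent.P022K.RT.St2
import Vale.Agent.P022K.F0.FreeA

/-!
# P022K, block RT, row TWL, part A: cofree modules from divisibility and surjective traces;
generalised eigenspaces
-/

set_option linter.all false

noncomputable section

namespace Vale.Agent.P022K.RT.Tl

open IsLocalRing Module

/-! ### finite `p`-groups -/

theorem ex_fix {p : ℕ} [Fact p.Prime] {Q R V : Type} [Group Q] [Finite Q] [CommRing R]
    [AddCommGroup V] [Module R V] (hQ : IsPGroup p Q) (ρ : Q →* End R V) (S : Submodule R V)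
    (hS : ∀ q, ∀ v ∈ S, ρ q v ∈ S) (hp : ∀ v ∈ S, p • v = 0) (h0 : S ≠ ⊥) :
    ∃ v ∈ S, v ≠ 0 ∧ ∀ q, ρ q v = v := by
  obtain ⟨u, hu, u0⟩ := (Submodule.ne_bot_iff _).1 h0
  set A := AddSubgroup.closure (Set.range fun q => ρ q u) with hA
  have le : ∀ a ∈ A, a ∈ S := fun a ha =>
    (AddSubgroup.closure_le S.toAddSubgroup).2 (by rintro _ ⟨q, rfl⟩; exact hS q u hu) ha
  have hst : ∀ g, ∀ a ∈ A, ρ g a ∈ A := fun g a ha => by
    refine AddSubgroup.closure_induction (p := fun a _ => ρ g a ∈ A) ?_ (by simp) ?_ ?_ ha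
    · rintro _ ⟨h, rfl⟩
      exact AddSubgroup.subset_closure ⟨g * h, by simp⟩
    · intro a b _ _ h1 h2
      rw [map_add]
      exact add_mem h1 h2
    · intro a _ h1
      rw [map_neg]
      exact neg_mem h1
  have : AddGroup.FG A := AddGroup.closure_finite_fg _
  have : Finite A := AddCommGroup.finite_of_fg_isAddTorsion A fun a =>
    isOfFinAddOrder_iff_nsmul_eq_zero.2 ⟨p, (Fact.out : p.Prime).pos,
      Subtype.ext (hp a (le a a.2))⟩
  let _ : MulAction Q A :=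
    { smul := fun g a => ⟨ρ g a, hst g a a.2⟩
      one_smul := fun a => Subtype.ext (by show ρ 1 a.1 = a; simp)
      mul_smul := fun g h a => Subtype.ext (by show ρ (g * h) a.1 = ρ g (ρ h a.1); simp) }
  have hu' : u ∈ A := AddSubgroup.subset_closure ⟨1, by simp⟩
  have hd : p ∣ Nat.card A := by
    have : addOrderOf (⟨u, hu'⟩ : A) = p :=
      addOrderOf_eq_prime (Subtype.ext (hp u hu)) fun e => u0 (congrArg Subtype.val e)
    exact this ▸ addOrderOf_dvd_natCard _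
  obtain ⟨b, hb, hb0⟩ := hQ.exists_fixed_point_of_prime_dvd_card_of_fixed_point A hd
    (a := (0 : A)) (fun q => Subtype.ext (map_zero (ρ q)))
  exact ⟨b, le b b.2, fun e => hb0 (Subtype.ext e.symm), fun g => congrArg Subtype.val (hb g)⟩

/-- over a field of characteristic `p` -/
theorem free_field {p : ℕ} [Fact p.Prime] {Q k V ι : Type} [Group Q] [Fintype Q] [Field k]
    [AddCommGroup V] [Module k V] [Fintype ι] (hQ : IsPGroup p Q) (hk : (p : k) = 0)
    (ρ : Q →* End k V) (e : ι → V) (hi : LinearIndependent k fun i => ∑ q, ρ q (e i))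
    (hg : ∀ v, (∀ q, ρ q v = v) → v ∈ Submodule.span k (Set.range fun i => ∑ q, ρ q (e i))) :
    LinearIndependent k (fun x : Q × ι => ρ x.1 (e x.2)) ∧
      Submodule.span k (Set.range fun x : Q × ι => ρ x.1 (e x.2)) = ⊤ := by
  classical
  have hp : ∀ (W : Type) [AddCommGroup W] [Module k W] (v : W), p • v = 0 := fun W _ _ v => by
    rw [← Nat.cast_smul_eq_nsmul k, hk, zero_smul]
  let σ : Q →* End k (Q × ι → k) :=
    { toFun := fun g => LinearMap.funLeft _ _ fun x => (g⁻¹ * x.1, x.2)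
      map_one' := by ext c x; simp
      map_mul' := fun g h => by ext c x; simp [mul_assoc] }
  have hσ : ∀ g c x, σ g c x = c (g⁻¹ * x.1, x.2) := fun _ _ _ => rfl
  let Ψ : (Q × ι → k) →ₗ[k] V := Fintype.linearCombination k fun x : Q × ι => ρ x.1 (e x.2)
  have hΨ : ∀ g c, Ψ (σ g c) = ρ g (Ψ c) := fun g c => by
    simp only [Ψ, Fintype.linearCombination_apply, map_sum]
    refine Fintype.sum_equiv ((Equiv.mulLeft g⁻¹).prodCongr (Equiv.refl _)) _ _ fun x => ?_
    rw [hσ, map_smul, ← Module.End.mul_apply, ← map_mul]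
    simp [Prod.map]
  have hinj : Function.Injective Ψ := by
    rw [← LinearMap.ker_eq_bot]
    by_contra h0
    obtain ⟨c, h1, h2, h3⟩ := ex_fix hQ σ _ (fun g c hc => by
      rw [LinearMap.mem_ker] at hc ⊢
      rw [hΨ, hc, map_zero]) (fun v _ => hp _ v) h0
    have h4 : ∀ q i, c (q, i) = c (1, i) := fun q i => by
      have := congrFun (h3 q) (q, i)
      rw [hσ] at this
      simpa using this.symm
    rw [LinearMap.mem_ker, Fintype.linearCombination_apply, Fintype.sum_prod_type_right] at h1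
    simp only [h4 _, ← Finset.smul_sum] at h1
    have h5 := Fintype.linearIndependent_iff.mp hi (fun i => c (1, i)) h1
    exact h2 (funext fun x => (h4 x.1 x.2).trans (h5 x.2))
  refine ⟨linearIndependent_iff_injective_fintypeLinearCombination.2 hinj, ?_⟩
  obtain ⟨l, hl⟩ := Ψ.exists_leftInverse_of_injective (LinearMap.ker_eq_bot.2 hinj)
  have hl' : ∀ c, l (Ψ c) = c := fun c => LinearMap.congr_fun hl c
  let Φ : V →ₗ[k] (Q × ι → k) := LinearMap.pi fun x =>
    LinearMap.proj (1, x.2) ∘ₗ l ∘ₗ ρ x.1⁻¹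
  have hΦ : ∀ v x, Φ v x = l (ρ x.1⁻¹ v) (1, x.2) := fun _ _ => rfl
  have h1 : ∀ c, Φ (Ψ c) = c := fun c => funext fun x => by
    rw [hΦ, ← hΨ, hl', hσ]
    simp
  have h2 : LinearMap.ker Φ = ⊥ := by
    by_contra h0
    obtain ⟨v, h3, h4, h5⟩ := ex_fix hQ ρ _ (fun g v hv => by
      rw [LinearMap.mem_ker] at hv ⊢
      funext x
      have := congrFun hv (g⁻¹ * x.1, x.2)
      rw [hΦ] at this ⊢
      simpa using this) (fun v _ => hp _ v) h0
    obtain ⟨c, hc⟩ := (Submodule.mem_span_range_iff_exists_fun k).1 (hg v h5)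
    have h6 : Ψ (fun x => c x.2) = v := by
      rw [← hc]
      simp only [Ψ, Fintype.linearCombination_apply, Fintype.sum_prod_type_right, Finset.smul_sum]
    have h7 := h1 fun x => c x.2
    rw [h6, LinearMap.mem_ker.1 h3] at h7
    exact h4 (by rw [← h6, ← h7, map_zero])
  rw [eq_top_iff]
  intro v _
  have : Ψ (Φ v) = v := LinearMap.ker_eq_bot.1 h2 (h1 _)
  rw [← this, ← Fintype.range_linearCombination]
  exact ⟨_, rfl⟩

/-! ### cofree modules -/

section

variable (O : Type) {R K M : Type} [CommRing O] [IsDomain O] [IsDiscreteValuationRing O]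
  [CommRing R] [Algebra O R] [Group K] [AddCommGroup M] [Module O M] [Module R M]
  [IsScalarTower O R M]

/-- a basis of the vectors in `S` that are killed by the maximal ideal -/
structure Bs (S : Set M) {b : ℕ} (f : Fin b → M) : Prop where
  mem : ∀ i, f i ∈ S
  kil : ∀ i, ∀ o ∈ maximalIdeal O, o • f i = 0
  ind : ∀ c : Fin b → O, ∑ i, c i • f i = 0 → ∀ i, c i ∈ maximalIdeal O
  gen : ∀ v ∈ S, (∀ o ∈ maximalIdeal O, o • v = 0) → v ∈ Submodule.span O (Set.range f)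

variable {O}

/-- the trace from `N` -/
def trN (ρ : K →* End R M) (N : Subgroup K) (v : M) : M := ∑ᶠ q : K ⧸ N, ρ q.out v

/-- divisible invariants and surjective traces -/
structure DT (p : ℕ) (ρ : K →* End R M) (N : Subgroup K) : Prop where
  div : ∀ v, (∀ g, ρ g v = v) → ∃ v', (∀ g, ρ g v' = v') ∧ p • v' = v
  tro : ∀ k v, (∀ g, ρ g v = v) → p ^ k • v = 0 →
    ∃ v', (∀ g ∈ N, ρ g v' = v') ∧ p ^ k • v' = 0 ∧ trN ρ N v' = v

theorem mapO (φ : End R M) (o : O) (v : M) : φ (o • v) = o • φ v := by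
  rw [← algebraMap_smul R o, map_smul, algebraMap_smul]

theorem ex_Bs (S : Submodule O M) (h : {v | v ∈ S ∧ ∀ o ∈ maximalIdeal O, o • v = 0}.Finite) :
    ∃ (b : ℕ) (f : Fin b → M), Bs O S f := by
  let E : Submodule O M := S ⊓ Submodule.torsionBySet O M (maximalIdeal O)
  have hE : ∀ v, v ∈ E ↔ v ∈ S ∧ ∀ o ∈ maximalIdeal O, o • v = 0 := fun v =>
    and_congr_right fun _ => by simp [Submodule.mem_torsionBySet_iff]
  have ht : IsTorsionBySet O E (maximalIdeal O) := fun v o =>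
    Subtype.ext (((hE _).1 v.2).2 o o.2)
  have : Finite E := h.subset fun v hv => (hE v).1 hv
  let _ := Ideal.Quotient.field (maximalIdeal O)
  let _ : Module (O ⧸ maximalIdeal O) E := ht.module
  let f := Module.finBasis (O ⧸ maximalIdeal O) E
  refine ⟨_, fun i => f i, fun i => ((hE _).1 (f i).2).1, fun i => ((hE _).1 (f i).2).2,
    fun c hc i => Ideal.Quotient.eq_zero_iff_mem.1 (Fintype.linearIndependent_iff.mp
      f.linearIndependent (fun i => Ideal.Quotient.mk _ (c i)) (Subtype.ext ?_) i),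
    fun v hv h' => ?_⟩
  · simp only [ht.mk_smul]
    simpa using hc
  · have e := congrArg Subtype.val (f.sum_repr ⟨v, (hE v).2 ⟨hv, h'⟩⟩)
    choose c hc using fun i => Ideal.Quotient.mk_surjective (f.repr ⟨v, (hE v).2 ⟨hv, h'⟩⟩ i)
    simp only [← hc, ht.mk_smul] at e
    exact (Submodule.mem_span_range_iff_exists_fun O).2 ⟨c, by simpa using e⟩

theorem Bs.map {M' : Type} [AddCommGroup M'] [Module O M'] {S : Submodule O M} {S' : Set M'}
    {b : ℕ} {f : Fin b → M} (h : Bs O S f) (φ : M →ₗ[O] M') (hφ : Set.BijOn φ S S') :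
    Bs O S' (φ ∘ f) where
  mem i := hφ.1 (h.mem i)
  kil i o ho := by rw [Function.comp_apply, ← map_smul, h.kil i o ho, map_zero]
  ind c hc := h.ind c (hφ.2.1 (S.sum_mem fun i _ => S.smul_mem _ (h.mem i)) S.zero_mem
    (by simpa using hc))
  gen v hv h' := by
    obtain ⟨u, hu, rfl⟩ := hφ.2.2 hv
    rw [Set.range_comp, ← Submodule.map_span]
    exact ⟨u, h.gen u hu fun o ho => hφ.2.1 (S.smul_mem _ hu) S.zero_mem
      (by rw [map_smul, h' o ho, map_zero]), rfl⟩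

theorem Bs.comap {M' : Type} [AddCommGroup M'] [Module O M'] {S : Submodule O M} {S' : Set M'}
    {b : ℕ} {f' : Fin b → M'} (h : Bs O S' f') (φ : M →ₗ[O] M') (hφ : Set.BijOn φ S S') :
    ∃ f : Fin b → M, Bs O S f := by
  choose f h1 h2 using fun i => hφ.2.2 (h.mem i)
  refine ⟨f, h1, fun i o ho => hφ.2.1 (S.smul_mem _ (h1 i)) S.zero_mem
    (by rw [map_smul, h2, h.kil i o ho, map_zero]), fun c hc => h.ind c ?_, fun v hv h' => ?_⟩
  · simpa [h2] using congrArg φ hc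
  · obtain ⟨c, hc⟩ := (Submodule.mem_span_range_iff_exists_fun O).1 (h.gen _ (hφ.1 hv)
      fun o ho => by rw [← map_smul, h' o ho, map_zero])
    exact (Submodule.mem_span_range_iff_exists_fun O).2 ⟨c, hφ.2.1
      (S.sum_mem fun i _ => S.smul_mem _ (h1 i)) hv (by simpa [h2] using hc)⟩

variable {ρ : K →* End R M} {N : Subgroup K} {p b : ℕ}

theorem out_eq {v : M} (hv : ∀ g ∈ N, ρ g v = v) (g : K) : ρ (g : K ⧸ N).out v = ρ g v := by
  obtain ⟨h, e⟩ := QuotientGroup.mk_out_eq_mul N g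
  rw [e, map_mul, Module.End.mul_apply, hv _ h.2]

theorem fx_nor [hN : N.Normal] {v : M} (hv : ∀ g ∈ N, ρ g v = v) (g : K) :
    ∀ n ∈ N, ρ n (ρ g v) = ρ g v := fun n hn => by
  rw [← Module.End.mul_apply, ← map_mul, show n * g = g * (g⁻¹ * n * g) by group, map_mul,
    Module.End.mul_apply, hv _ (hN.conj_mem' n hn g)]

/-- the first level -/
theorem lev_one [Fact p.Prime] [N.Normal] [Fintype (K ⧸ N)] (hN : IsPGroup p (K ⧸ N))
    (hp : (p : O) ∈ maximalIdeal O) {x : Fin b → M} (h1 : ∀ i, ∀ g ∈ N, ρ g (x i) = x i)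
    (h2 : ∀ i, ∀ o ∈ maximalIdeal O, o • x i = 0)
    (hb : Bs O {v | ∀ g, ρ g v = v} fun i => trN ρ N (x i)) :
    (∀ c : (K ⧸ N) × Fin b → O, ∑ y, c y • ρ y.1.out (x y.2) = 0 → ∀ y, c y ∈ maximalIdeal O) ∧
    ∀ v, (∀ g ∈ N, ρ g v = v) → (∀ o ∈ maximalIdeal O, o • v = 0) →
      ∃ c : (K ⧸ N) × Fin b → O, ∑ y, c y • ρ y.1.out (x y.2) = v := by
  let E : Submodule O M :=
    { carrier := {v | (∀ g ∈ N, ρ g v = v) ∧ ∀ o ∈ maximalIdeal O, o • v = 0}
      add_mem' := fun {a b} ha hb => ⟨fun g hg => by rw [map_add, ha.1 g hg, hb.1 g hg],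
        fun o ho => by rw [smul_add, ha.2 o ho, hb.2 o ho, add_zero]⟩
      zero_mem' := ⟨fun g _ => map_zero _, fun o _ => smul_zero o⟩
      smul_mem' := fun c a ha => ⟨fun g hg => by rw [mapO, ha.1 g hg], fun o ho => by
        rw [smul_comm, ha.2 o ho, smul_zero]⟩ }
  have ht : IsTorsionBySet O E (maximalIdeal O) := fun v o => Subtype.ext (v.2.2 o o.2)
  have hs : ∀ g (v : E), ρ g v ∈ E := fun g v => ⟨fx_nor v.2.1 g,
    fun o ho => by rw [← mapO, v.2.2 o ho, map_zero]⟩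
  let _ := Ideal.Quotient.field (maximalIdeal O)
  let _ : Module (O ⧸ maximalIdeal O) E := ht.module
  let σ0 : K →* End (O ⧸ maximalIdeal O) E :=
    { toFun := fun g =>
        { toFun := fun v => ⟨ρ g v, hs g v⟩
          map_add' := fun a b => Subtype.ext (map_add _ _ _)
          map_smul' := fun c a => by
            obtain ⟨o, rfl⟩ := Ideal.Quotient.mk_surjective c
            simp only [RingHom.id_apply, ht.mk_smul]
            exact Subtype.ext (mapO _ _ _) }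
      map_one' := LinearMap.ext fun v => Subtype.ext (by show ρ 1 v.1 = v; simp)
      map_mul' := fun g h => LinearMap.ext fun v => Subtype.ext (by
        show ρ (g * h) v.1 = ρ g (ρ h v.1); simp) }
  let σ : K ⧸ N →* End (O ⧸ maximalIdeal O) E := QuotientGroup.lift N σ0 fun g hg =>
    LinearMap.ext fun v => Subtype.ext (v.2.1 g hg)
  have hσ : ∀ q (v : E), (σ q v : M) = ρ q.out v := fun q v => by
    conv_lhs => rw [← QuotientGroup.out_eq' q]
    rfl
  let e : Fin b → E := fun i => ⟨x i, h1 i, h2 i⟩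
  have he : ∀ i, ((∑ q, σ q (e i) : E) : M) = trN ρ N (x i) := fun i => by
    rw [trN, finsum_eq_sum_of_fintype, Submodule.coe_sum]
    exact Finset.sum_congr rfl fun q _ => hσ q _
  obtain ⟨k1, k2⟩ := free_field (k := O ⧸ maximalIdeal O) hN
    (by rw [← map_natCast (Ideal.Quotient.mk (maximalIdeal O))]
        exact Ideal.Quotient.eq_zero_iff_mem.2 hp) σ e
    (Fintype.linearIndependent_iff.2 fun c hc i => by
      choose o ho using fun i => Ideal.Quotient.mk_surjective (c i)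
      have := congrArg Subtype.val hc
      simp only [← ho, ht.mk_smul, Submodule.coe_sum, Submodule.coe_smul] at this
      rw [← ho]
      refine Ideal.Quotient.eq_zero_iff_mem.2 (hb.ind o ?_ i)
      simp only [← he, Submodule.coe_sum]
      exact this)
    (fun v hv => by
      obtain ⟨c, hc⟩ := (Submodule.mem_span_range_iff_exists_fun O).1 (hb.gen v (fun g =>
        congrArg Subtype.val (hv (g : K ⧸ N))) v.2.2)
      refine (Submodule.mem_span_range_iff_exists_fun _).2 ⟨fun i => Ideal.Quotient.mk _ (c i),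
        Subtype.ext ?_⟩
      simp only [ht.mk_smul, ← hc, ← he, Submodule.coe_sum, Submodule.coe_smul])
  refine ⟨fun c hc y => Ideal.Quotient.eq_zero_iff_mem.1 (Fintype.linearIndependent_iff.1 k1
    (fun y => Ideal.Quotient.mk _ (c y)) (Subtype.ext ?_) y), fun v h3 h4 => ?_⟩
  · simp only [ht.mk_smul, Submodule.coe_sum, Submodule.coe_smul, hσ]
    exact hc
  · obtain ⟨c, hc⟩ := (Submodule.mem_span_range_iff_exists_fun _).1
      (k2 ▸ Submodule.mem_top : (⟨v, h3, h4⟩ : E) ∈ _)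
    choose o ho using fun y => Ideal.Quotient.mk_surjective (c y)
    have := congrArg Subtype.val hc
    simp only [← ho, ht.mk_smul, Submodule.coe_sum, Submodule.coe_smul, hσ] at this
    exact ⟨o, this⟩

theorem trN_smul [Fintype (K ⧸ N)] (o : O) (v : M) : trN ρ N (o • v) = o • trN ρ N v := by
  simp only [trN, finsum_eq_sum_of_fintype, mapO, Finset.smul_sum]

theorem kil_iff {ϖ : O} (hϖ : Irreducible ϖ) (j : ℕ) {v : M} :
    (∀ o ∈ maximalIdeal O ^ j, o • v = 0) ↔ ϖ ^ j • v = 0 := by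
  rw [hϖ.maximalIdeal_eq, Ideal.span_singleton_pow]
  refine ⟨fun h => h _ (Ideal.mem_span_singleton_self _), fun h o ho => ?_⟩
  obtain ⟨c, rfl⟩ := Ideal.mem_span_singleton'.1 ho
  rw [mul_smul, h, smul_zero]

/-- higher levels -/
theorem lev_succ [Fact p.Prime] [N.Normal] [Fintype (K ⧸ N)] (hN : IsPGroup p (K ⧸ N))
    (hp : (p : O) ∈ maximalIdeal O) {ϖ : O} (hϖ : Irreducible ϖ) (j : ℕ) :
    ∀ {x : Fin b → M}, (∀ i, ∀ g ∈ N, ρ g (x i) = x i) → (∀ i, ϖ ^ (j + 1) • x i = 0) →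
    (Bs O {v | ∀ g, ρ g v = v} fun i => trN ρ N (ϖ ^ j • x i)) →
    (∀ c : (K ⧸ N) × Fin b → O, ∑ y, c y • ρ y.1.out (x y.2) = 0 → ∀ y, ϖ ^ (j + 1) ∣ c y) ∧
    ∀ v, (∀ g ∈ N, ρ g v = v) → ϖ ^ (j + 1) • v = 0 →
      ∃ c : (K ⧸ N) × Fin b → O, ∑ y, c y • ρ y.1.out (x y.2) = v := by
  have k1 : ∀ v : M, (∀ o ∈ maximalIdeal O, o • v = 0) ↔ ϖ • v = 0 := fun v => by
    simpa using kil_iff (v := v) hϖ 1
  have k2 : ∀ c : O, c ∈ maximalIdeal O ↔ ϖ ∣ c := fun c => by
    rw [hϖ.maximalIdeal_eq, Ideal.mem_span_singleton]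
  induction j with
  | zero =>
    intro x h1 h2 hb
    simp only [zero_add, pow_one, pow_zero, one_smul] at *
    obtain ⟨a1, a2⟩ := lev_one hN hp h1 (fun i => (k1 _).2 (h2 i)) hb
    exact ⟨fun c hc y => (k2 _).1 (a1 c hc y), fun v hv h => a2 v hv ((k1 _).2 h)⟩
  | succ j ih =>
    intro x h1 h2 hb
    obtain ⟨a1, a2⟩ := lev_one (x := fun i => ϖ ^ (j + 1) • x i) hN hp
      (fun i g hg => by rw [mapO, h1 i g hg])
      (fun i => (k1 _).2 (by rw [← mul_smul, ← pow_succ', h2])) hb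
    obtain ⟨b1, b2⟩ := ih (x := fun i => ϖ • x i) (fun i g hg => by rw [mapO, h1 i g hg])
      (fun i => by rw [← mul_smul, ← pow_succ, h2]) (by simpa only [← mul_smul, ← pow_succ] using hb)
    refine ⟨fun c hc => ?_, fun v hv h => ?_⟩
    · choose d hd using fun y => (k2 _).1 (a1 c (by
        simp only [mapO, smul_comm (c _) (ϖ ^ (j + 1)), ← Finset.smul_sum, hc, smul_zero]) y)
      intro y
      rw [hd, pow_succ']
      refine mul_dvd_mul_left _ (b1 d ?_ y)
      simpa only [mapO, ← mul_smul, hd, mul_comm ϖ] using hc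
    · obtain ⟨c, hc⟩ := a2 (ϖ ^ (j + 1) • v) (fun g hg => by rw [mapO, hv g hg])
        ((k1 _).2 (by rw [← mul_smul, ← pow_succ', h]))
      obtain ⟨d, hd⟩ := b2 (v - ∑ y, c y • ρ y.1.out (x y.2)) (fun g hg => by
        rw [map_sub, hv g hg, map_sum]
        congr 1
        exact Finset.sum_congr rfl fun y _ => by rw [mapO, fx_nor (h1 y.2) _ g hg]) (by
        rw [smul_sub, ← hc]
        simp only [mapO, smul_comm (c _) (ϖ ^ (j + 1)), ← Finset.smul_sum, sub_self])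
      refine ⟨fun y => c y + d y * ϖ, ?_⟩
      simp only [mapO, ← mul_smul] at hd
      simp only [add_smul, Finset.sum_add_distrib, hd, add_sub_cancel]

/-- **cofreeness at one level** -/
theorem DT.fre [Fact p.Prime] {N : ℕ → Subgroup K} {j : ℕ} [(N j).Normal]
    (h : DT p ρ (N j)) (hN : ∃ m, (N j).index = p ^ m) (hp : (p : O) ∈ maximalIdeal O)
    {f : Fin b → M} (hb : Bs O {v | ∀ g, ρ g v = v} f) : Fre O N ρ b j := by
  classical
  obtain ⟨m, hm⟩ := hN
  have : Finite (K ⧸ N j) := Nat.finite_of_card_ne_zero (by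
    rw [← Subgroup.index, hm]; exact pow_ne_zero _ (Fact.out : p.Prime).ne_zero)
  let _ := Fintype.ofFinite (K ⧸ N j)
  obtain ⟨ϖ, hϖ⟩ := IsDiscreteValuationRing.exists_irreducible O
  rcases j with _ | j
  · refine ⟨0, fun i => zero_mem _, fun v hv => ?_, fun s c _ _ γ _ i => by simp⟩
    have : v = 0 := by simpa using hv.2 1 (by simp)
    exact this ▸ zero_mem _
  obtain ⟨a, ha⟩ : ϖ ∣ (p : O) := by
    rwa [hϖ.maximalIdeal_eq, Ideal.mem_span_singleton] at hp
  have dv : ∀ k v, (∀ g, ρ g v = v) → ∃ v', (∀ g, ρ g v' = v') ∧ p ^ k • v' = v := fun k => by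
    induction k with
    | zero => exact fun v hv => ⟨v, hv, by simp⟩
    | succ k ih =>
      intro v hv
      obtain ⟨u, h1, rfl⟩ := ih v hv
      obtain ⟨w, h2, rfl⟩ := h.div u h1
      exact ⟨w, h2, by rw [pow_succ, mul_smul]⟩
  have pk : ∀ v : M, p ^ (j + 1) • v = (ϖ ^ (j + 1) * a ^ (j + 1)) • v := fun v => by
    rw [← mul_pow, ← ha, ← Nat.cast_pow, Nat.cast_smul_eq_nsmul]
  have ex : ∀ i, ∃ x, (∀ g ∈ N (j + 1), ρ g x = x) ∧ ϖ ^ (j + 1) • x = 0 ∧
      trN ρ (N (j + 1)) (ϖ ^ j • x) = f i := fun i => by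
    obtain ⟨y, h1, h2⟩ := dv (j + 1) _ (hb.mem i)
    obtain ⟨x, h3, h4, h5⟩ := h.tro (j + 1) (ϖ • y) (fun g => by rw [mapO, h1]) (by
      rw [smul_comm, h2]
      exact hb.kil i ϖ (hϖ.maximalIdeal_eq ▸ Ideal.mem_span_singleton_self _))
    refine ⟨a ^ (j + 1) • x, fun g hg => by rw [mapO, h3 g hg], by rw [← mul_smul, ← pk, h4], ?_⟩
    rw [trN_smul, trN_smul, h5, ← h2, pk, ← mul_smul, ← mul_smul]
    congr 1
    ring
  choose x h1 h2 h3 using ex
  obtain ⟨a1, a2⟩ := lev_succ (IsPGroup.of_card hm) hp hϖ j h1 h2 (by simpa only [h3] using hb)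
  refine ⟨x, fun i => ⟨h1 i, (kil_iff hϖ _).2 (h2 i)⟩, fun v hv => ?_, fun s c hs hc γ hγ i => ?_⟩
  · obtain ⟨c, rfl⟩ := a2 v hv.1 ((kil_iff hϖ _).1 hv.2)
    exact Submodule.sum_mem _ fun y _ => Submodule.smul_mem _ _
      (Submodule.subset_span ⟨(y.1.out, y.2), rfl⟩)
  · have := a1 (fun y => ∑ δ ∈ s with QuotientGroup.mk δ = y.1, c δ y.2) (by
      rw [← hc, Fintype.sum_prod_type, ← Finset.sum_fiberwise s fun δ => (δ : K ⧸ N (j + 1))]
      refine Finset.sum_congr rfl fun q _ => ?_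
      rw [Finset.sum_comm]
      refine Finset.sum_congr rfl fun k _ => ?_
      rw [Finset.sum_smul]
      refine Finset.sum_congr rfl fun δ hδ => ?_
      rw [← (Finset.mem_filter.1 hδ).2, out_eq (h1 k)]) (γ, i)
    rw [Finset.sum_eq_single_of_mem γ (by simpa using hγ) fun δ hδ e => by
      rw [Finset.mem_filter] at hδ
      exact absurd (hs δ hδ.1 γ hγ (QuotientGroup.eq.1 hδ.2)) e] at this
    rwa [hϖ.maximalIdeal_eq, Ideal.span_singleton_pow, Ideal.mem_span_singleton]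

end

/-! ### generalised eigenspaces -/

section

variable {R M ι : Type} [CommRing R] [AddCommGroup M] [Module R M]

/-- the vectors killed by a power of `θ` -/
def Nl (θ : End R M) : Submodule R M where
  carrier := {v | ∃ n : ℕ, (θ ^ n) v = 0}
  add_mem' := by
    rintro a b ⟨m, hm⟩ ⟨n, hn⟩
    refine ⟨m + n, ?_⟩
    rw [map_add, pow_add, Module.End.mul_apply (θ ^ m) _ b, hn, ← pow_add, add_comm m, pow_add,
      Module.End.mul_apply, hm]
    simp
  zero_mem' := ⟨0, map_zero _⟩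
  smul_mem' := by
    rintro c a ⟨m, hm⟩
    exact ⟨m, by rw [map_smul, hm, smul_zero]⟩

theorem mem_Nl {θ : End R M} {v : M} : v ∈ Nl θ ↔ ∃ n : ℕ, (θ ^ n) v = 0 := Iff.rfl

theorem Nl.map {θ φ : End R M} (h : Commute θ φ) {v : M} (hv : v ∈ Nl θ) : φ v ∈ Nl θ :=
  hv.imp fun n hn => by
    rw [← Module.End.mul_apply, (h.pow_left n).eq, Module.End.mul_apply, hn, map_zero]

theorem Nl.ge {θ : End R M} {v : M} {m n : ℕ} (hv : (θ ^ m) v = 0) (h : m ≤ n) :
    (θ ^ n) v = 0 := by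
  obtain ⟨k, rfl⟩ := Nat.exists_eq_add_of_le' h
  rw [pow_add, Module.End.mul_apply, hv, map_zero]

theorem ex_idem (θ : End R M) (Z : Submodule R M) [Finite Z] (h : ∀ v ∈ Z, θ v ∈ Z) :
    ∃ n, 0 < n ∧ ∀ v ∈ Z, (θ ^ n) ((θ ^ n) v) = (θ ^ n) v := by
  have : Finite (End R Z) := Finite.of_injective _ DFunLike.coe_injective
  obtain ⟨n, h0, hn⟩ := Sh.Fre.exists_idem (θ.restrict h : End R Z)
  refine ⟨n, h0, fun v hv => ?_⟩
  have := congrArg Subtype.val (LinearMap.congr_fun (hn 1 one_pos) ⟨v, hv⟩)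
  rw [mul_one, Module.End.pow_restrict] at this
  exact this

/-- projection of a finite stable submodule to the jointly nilpotent part -/
theorem ex_proj (θ : ι → End R M) (hθ : ∀ i k, Commute (θ i) (θ k)) (c : ℕ) :
    ∀ Z : Submodule R M, Finite Z → Nat.card Z = c → (∀ i, ∀ v ∈ Z, θ i v ∈ Z) →
    ∃ η ∈ Algebra.adjoin R (Set.range θ), (∀ v ∈ Z, ∀ i, η v ∈ Nl (θ i)) ∧
      ∀ v ∈ Z, (∀ i, v ∈ Nl (θ i)) → η v = v := by
  induction c using Nat.strong_induction_on with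
  | _ c ih =>
  intro Z hZ hc hs
  by_cases h : ∀ v ∈ Z, ∀ i, v ∈ Nl (θ i)
  · exact ⟨1, one_mem _, h, fun _ _ _ => rfl⟩
  push Not at h
  obtain ⟨u, hu, i, hi⟩ := h
  obtain ⟨n, h0, hn⟩ := ex_idem (θ i) Z (hs i)
  have hp : ∀ v ∈ Z, (θ i ^ n) v ∈ Z := Module.End.pow_apply_mem_of_forall_mem _ (hs i)
  have le : Z.map (1 - θ i ^ n) ≤ Z := by
    rintro _ ⟨v, hv, rfl⟩
    exact sub_mem hv (hp v hv)
  have lt : Z.map (1 - θ i ^ n) < Z := lt_of_le_of_ne le fun e => by
    obtain ⟨v, hv, rfl⟩ : u ∈ Z.map (1 - θ i ^ n) := e.symm ▸ hu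
    exact hi ⟨n, by simp [hn v hv]⟩
  have hf : Finite (Z.map (1 - θ i ^ n)) := Finite.of_injective _ (Submodule.inclusion_injective le)
  obtain ⟨η, h1, h2, h3⟩ := ih _ (hc ▸ Set.Finite.card_lt_card (s := (Z.map (1 - θ i ^ n) : Set M))
    (t := Z) hZ lt) _ hf rfl (by
      rintro k _ ⟨v, hv, rfl⟩
      refine ⟨θ k v, hs k v hv, ?_⟩
      rw [← Module.End.mul_apply, ← Module.End.mul_apply,
        ((Commute.one_right _).sub_right ((hθ k i).pow_right n)).eq])
  refine ⟨η * (1 - θ i ^ n), mul_mem h1 (sub_mem (one_mem _)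
    (pow_mem (Algebra.subset_adjoin (Set.mem_range_self i)) n)), fun v hv => h2 _ ⟨v, hv, rfl⟩, fun v hv h4 => ?_⟩
  have h5 : (θ i ^ n) v = 0 := by
    obtain ⟨m, hm⟩ := h4 i
    have : ∀ k, ((θ i ^ n) ^ (k + 1)) v = (θ i ^ n) v := fun k => by
      induction k with
      | zero => simp
      | succ k ih => rw [pow_succ', Module.End.mul_apply, ih, hn v hv]
    rw [← this m, ← pow_mul]
    exact Nl.ge hm (by nlinarith)
  have h6 : (1 - θ i ^ n) v = v := by simp [h5]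
  rw [Module.End.mul_apply, h6]
  exact h3 v ⟨v, hv, h6⟩ h4

theorem fin_pow {p : ℕ} (S : Submodule R M) (h : {v | v ∈ S ∧ p • v = 0}.Finite) (k : ℕ) :
    {v | v ∈ S ∧ p ^ k • v = 0}.Finite := by
  induction k with
  | zero => exact (Set.finite_singleton 0).subset fun v hv => by simpa using hv.2
  | succ k ih =>
    refine Set.Finite.of_finite_fibers (fun v => p • v) (ih.subset ?_) ?_
    · rintro _ ⟨v, hv, rfl⟩
      exact ⟨nsmul_mem hv.1 p, by rw [← mul_smul, ← pow_succ, hv.2]⟩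
    · rintro _ ⟨u, hu, rfl⟩
      refine (h.image fun w => u + w).subset fun v hv => ⟨v - u, ⟨sub_mem hv.1.1 hu.1, ?_⟩, by simp⟩
      have e : p • v = p • u := hv.2
      rw [smul_sub, e, sub_self]

variable {K R' Y : Type} [Group K] [CommRing R'] [AddCommGroup Y] [Module R' Y]

/-- the fixed vectors -/
def Fx (ρ : K →* End R M) (N : Subgroup K) : Submodule R M where
  carrier := {v | ∀ g ∈ N, ρ g v = v}
  add_mem' h h' u hu := by rw [map_add, h u hu, h' u hu]
  zero_mem' _ _ := map_zero _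
  smul_mem' c v h u hu := by rw [map_smul, h u hu]

/-- **the jointly nilpotent part** -/
theorem DT.ge {p : ℕ} {ρ : K →* End R M} {N : Subgroup K} [Finite (K ⧸ N)] (h : DT p ρ N)
    (fin : {v | v ∈ Fx ρ N ∧ p • v = 0}.Finite) (tor : ∀ v : M, ∃ k, p ^ k • v = 0)
    (θ : ι → End R M) (hθ : ∀ i k, Commute (θ i) (θ k)) (hc : ∀ i g, Commute (θ i) (ρ g))
    {ρ' : K →* End R' Y} (φ : Y →+ M) (inj : Function.Injective φ)
    (rng : ∀ v, (∃ y, φ y = v) ↔ ∀ i, v ∈ Nl (θ i)) (eqv : ∀ g y, φ (ρ' g y) = ρ g (φ y)) :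
    DT p ρ' N := by
  let _ := Fintype.ofFinite (K ⧸ N)
  have key : ∀ k, ∃ η : End R M, (∀ g v, ρ g (η v) = η (ρ g v)) ∧
      (∀ v ∈ Fx ρ N, p ^ k • v = 0 → ∃ y, φ y = η v) ∧
      ∀ y, φ y ∈ Fx ρ N → p ^ k • φ y = 0 → η (φ y) = φ y := fun k => by
    let Z : Submodule R M := Fx ρ N ⊓ LinearMap.ker (p ^ k • LinearMap.id)
    have hZ : ∀ v, v ∈ Z ↔ v ∈ Fx ρ N ∧ p ^ k • v = 0 := fun v => Iff.rfl
    obtain ⟨η, h1, h2, h3⟩ := ex_proj θ hθ _ Z (fin_pow _ fin k) rfl fun i v hv =>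
      ⟨fun g hg => by rw [← Module.End.mul_apply, ← (hc i g).eq, Module.End.mul_apply, hv.1 g hg],
        show p ^ k • θ i v = 0 by rw [← map_nsmul, ((hZ v).1 hv).2, map_zero]⟩
    refine ⟨η, fun g v => LinearMap.congr_fun (Algebra.commute_of_mem_adjoin_of_forall_mem_commute
      h1 (a := ρ g) (by rintro _ ⟨i, rfl⟩; exact (hc i g).symm)).eq v,
      fun v h4 h5 => (rng _).2 (h2 v ⟨h4, h5⟩), fun y h4 h5 => h3 _ ⟨h4, h5⟩ ((rng _).1 ⟨y, rfl⟩)⟩
  have fx : ∀ y, (∀ g, ρ' g y = y) → ∀ g, ρ g (φ y) = φ y := fun y hy g => by rw [← eqv, hy]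
  refine ⟨fun y hy => ?_, fun k y hy hk => ?_⟩
  · obtain ⟨v, h1, h2⟩ := h.div _ (fx y hy)
    obtain ⟨k, hk⟩ := tor v
    obtain ⟨η, a1, a2, a3⟩ := key k
    obtain ⟨z, hz⟩ := a2 v (fun g _ => h1 g) hk
    refine ⟨z, fun g => inj (by rw [eqv, hz, a1, h1]), inj ?_⟩
    rw [map_nsmul, hz, ← map_nsmul, h2]
    exact a3 y (fun g _ => fx y hy g) (by rw [← h2, smul_comm, hk, smul_zero])
  · have hk' : p ^ k • φ y = 0 := by rw [← map_nsmul, hk, map_zero]
    obtain ⟨v, h1, h2, h3⟩ := h.tro k _ (fx y hy) hk'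
    obtain ⟨η, a1, a2, a3⟩ := key k
    obtain ⟨z, hz⟩ := a2 v h1 h2
    refine ⟨z, fun g hg => inj (by rw [eqv, hz, a1, h1 g hg]),
      inj (by rw [map_nsmul, hz, ← map_nsmul, h2, map_zero, map_zero]), inj ?_⟩
    rw [← a3 y (fun g _ => fx y hy g) hk', ← h3]
    simp only [trN, finsum_eq_sum_of_fintype, map_sum, eqv, hz, a1]

end

end Vale.Agent.P022K.RT.Tl
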