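import Vale.Agent.P022K.RT.Unp
import Vale.Agent.P022K.RT.TwlA
import Vale.Agent.P022K.Top.Defs

/-!
# P022K, block RT: the patched module of a site

`Fr` = residual representation and charts at the bad places; `Pd` = the patched module with its
finite levels, its level zero and its points; `Pd.Ok` = the properties.
-/

set_option linter.all false

noncomputable section

namespace Vale.Agent.P022K.RT

open IsLocalRing MvPowerSeries Filter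
open Vale.Agent.P022 Vale.Agent.P022.C
open Vale.Agent.P022D.L2b (M2)
open Vale.Agent.P022D.Loc2 (TnG)
open Vale.Agent.P022D.Core (PS)
open Vale.Agent.P022D.CA (emb)
open Vale.Agent.P022D.PA (Base)
open Vale.Agent.P022D.W (dec)
open Vale.Agent.P022E.GW (Ov)
open Vale.Agent.P022.H443 (inP)
open Vale.Agent.P022K.PL (Cf)
open Vale.Agent.P022K.GW (Id Cy up Adq)
open Vale.Agent.P022K.WB (G2 Kn)
open Vale.Agent.P022K.Top (Si cy Bad)
open Vale.Agent.P022K.Sh (Fv)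

/-- a module over `R` with an action of `A` and of the patching variables, and matrix units -/
structure Mo (O R A T : Type) [CommRing O] [CommRing R] [Algebra O R] [Group A] (r : ℕ) :
    Type 1 where
  Y : Type
  [ab : AddCommGroup Y]
  [mo : Module O Y]
  [mr : Module R Y]
  [tw : IsScalarTower O R Y]
  a : A × Zr r →* Module.End R Y
  E : T → M2 R →ₐ[R] Module.End R Y
  com : ∀ t m x, Commute (E t m) (a x)

attribute [instance] Mo.ab Mo.mo Mo.mr Mo.tw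

/-- the auxiliary variables: `J1` behaves like a sum of parametrised primes, of relative
dimension `n`, in the variables outside the image of `e` -/
structure Aux {O σ₀ σ : Type} [CommRing O] (e : σ₀ ↪ σ) (J1 : Ideal (PS O σ)) (n : ℕ) : Prop where
  geo : ∀ (J₀ : Ideal (PS O σ₀)) (k : ℕ), J₀.IsPrime → Sat J₀ →
    ringKrullDim (PS O σ₀ ⧸ J₀) = (k + 1 : ℕ) → (J₀.map (rename (R := O) e) ⊔ J1).IsPrime ∧
      ringKrullDim (PS O σ ⧸ (J₀.map (rename (R := O) e) ⊔ J1)) = (k + n + 1 : ℕ)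
  sat : ∀ J₀ : Ideal (PS O σ₀), Sat J₀ → Sat (J₀.map (rename (R := O) e) ⊔ J1)
  dim : ∀ (J₀ : Ideal (PS O σ₀)) (k : ℕ), Sat J₀ → ringKrullDim (PS O σ₀ ⧸ J₀) ≤ (k + 1 : ℕ) →
    ringKrullDim (PS O σ ⧸ (J₀.map (rename (R := O) e) ⊔ J1)) ≤ (k + n + 1 : ℕ)
  pt : ∃ π : PS O σ →ₐ[O] PS O σ₀, (∀ u, π (rename e u) = u) ∧ ∀ u ∈ J1, π u = 0
  sep : ∃ (σ₁ : Type) (_ : Fintype σ₁) (e₁ : σ₁ ↪ σ) (J : Ideal (PS O σ₁)),
    (∀ a b, e₁ a ≠ e b) ∧ J1 = J.map (rename (R := O) e₁)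

/-- row AUX -/
def AUX : Prop := ∀ (O β σ σ₀ : Type) [CommRing O] [IsDomain O] [IsDiscreteValuationRing O] [Cf O]
  [Fintype β] [Fintype σ] [Fintype σ₀] (τ : β → Type) [∀ b, Fintype (τ b)]
  (e : (Σ b, τ b) ↪ σ) (e₀ : σ₀ ↪ σ) (J : ∀ b, Ideal (PS O (τ b))) (k : β → ℕ) (n : ℕ),
  (∀ a b, e a ≠ e₀ b) → (∀ b, Par (J b) (k b)) → (∀ b, Sat (J b)) →
  ∑ b, k b + Fintype.card σ = n + Fintype.card σ₀ + ∑ b, Fintype.card (τ b) →
    Aux e₀ (sumI e J) n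

section site

variable {p : ℕ} [Fact p.Prime] {O : Type} [CommRing O] [IsLocalRing O] [Algebra ℤ_[p] O]
  (Z : Si p O)

/-- the group generated by the groups at `p` and by the tame elements -/
def Gr : Subgroup Z.G := Subgroup.closure ({y | Z.Tm y} ∪ ⋃ k, Set.range (Z.x k).ι)

/-- the part on which the trace operators are `t` up to nilpotent operators -/
def Mt (t : Z.H → O) : Submodule O Z.M := ⨅ s, Tl.Nl (Z.tg s - t s • 1)

/-- level zero -/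
def Ym (t : Z.H → O) : Submodule O Z.M := Z.Mp ⊓ Mt Z t

/-- unramified outside the bad primes -/
def Ub {A : Type} [One A] (ρ : Z.H → A) : Prop :=
  ∀ l P, Ov l P → ¬ Bad Z.H Z.S P → ∀ s : Z.H, s.1 ∈ inP P → ρ s = 1

/-- the residual representation, the bad places, the charts -/
structure Fr (F : Type) [Field F] : Type 1 where
  rb : Z.H →* GL (Fin 2) F
  s : F → O
  T : Type
  [ft : Fintype T]
  P : T → Id
  le : ∀ t, dec (P t) ≤ Z.H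
  u : Z.J → T
  τ : T → Type
  [fτ : ∀ t, Fintype (τ t)]
  g : ∀ t, τ t → dec (P t)
  a : ∀ t, τ t → Fin 2
  b : ∀ t, τ t → Fin 2
  I : ∀ t, Ideal (PS O (τ t))
  f : ∀ t, dec (P t) → M2 (PS O (τ t))

attribute [instance] Fr.ft Fr.fτ

variable {Z} {F : Type} [Field F] (C : Fr Z F)

namespace Fr

/-- the local groups -/
def j (t : C.T) : dec (C.P t) →* Z.H := Subgroup.inclusion (C.le t)

/-- the residual matrices -/
def r : Z.H →* M2 F := (Units.coeHom _).comp C.rb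

/-- the lifted residual trace -/
def t (s : Z.H) : O := C.s (C.r s).trace

/-- the hypotheses -/
structure Ok [Algebra O F] [CharP F p] : Prop where
  sec : ∀ x, algebraMap O F (C.s x) = x
  opn : IsOpen {g | C.rb g = 1}
  det : ∀ g, (C.r g).det = algebraMap O F (cy p O g.1)
  spl : Spl C.r
  odd : p ≠ 2 → ∃ ω : Z.H →* (ZMod p)ˣ, Cy Z.H.subtype p ω ∧ Adq C.rb (up ω)
  two : p = 2 → ¬ IsSolvable C.rb.range
  unr : Ub Z C.rb
  bad : ∀ t, Bad Z.H Z.S (C.P t)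
  all : ∀ Q, Bad Z.H Z.S Q → ∃ t, below Z.j Q = below Z.j (C.P t)
  inj : ∀ t t', below Z.j (C.P t) = below Z.j (C.P t') → t = t'
  u : ∀ k, Ov p (C.P (C.u k)) ∧ below Z.j (C.P (C.u k)) = (Z.u k).asIdeal
  tn : ∀ t, TnG (C.r.comp (C.j t)) (C.g t) (C.a t) (C.b t)
  uni : ∀ t, Uni (C.r.comp (C.j t)) C.s (fun x => cy p O x.1) (C.g t) (C.a t) (C.b t) (C.I t)
    (C.f t)

end Fr

/-- **the patched module**: data -/
structure Pd : Type 1 where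
  σ : Type
  [fσ : Fintype σ]
  e : (Σ t, C.τ t) ↪ σ
  J1 : Ideal (PS O σ)
  n1 : ℕ
  r : ℕ
  b : ℕ
  ψ : (Z.J → G2 p) →* Gr Z
  M : Mo O (PS O σ) (Gr Z) C.T r
  Y : ℕ → Mo O (PS O σ) (Gr Z) C.T r
  U : Ultrafilter ℕ
  Rp : M.Y → (∀ n, (Y n).Y) → Prop
  X : ℕ → Type
  ev : ∀ n, (Y n).Y →ₗ[O] X n → Z.M
  lw : ∀ n, (Y n).Y →ₗ[O] Z.M
  qa : Fin r → PS O σ
  qb : Fin r → PS O σ
  S : Set (Fin r)
  κ : Ym Z C.t →ₗ[O] M.Y
  tr : Z.H → PS O σ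

attribute [instance] Pd.fσ

namespace Pd

variable {C} (D : Pd C)

/-- the ring -/
abbrev R : Type := PS O D.σ

/-- the uniform group -/
abbrev K : Type := (Z.J → Kn p (0 + 2)) × Zr D.r

/-- its filtration -/
abbrev N : ℕ → Subgroup D.K := NP (NG p 0 Z.J) p D.r

/-- its action -/
def rho (Y : Mo O D.R (Gr Z) C.T D.r) : D.K →* Module.End D.R Y.Y :=
  Y.a.comp ((D.ψ.comp ((Kn p (0 + 2)).subtype.compLeft Z.J)).prodMap (MonoidHom.id _))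

/-- the action of `GL₂(ℚ_p)` at a place over `p` -/
def ak (Y : Mo O D.R (Gr Z) C.T D.r) (k : Z.J) : G2 p →* Module.End D.R Y.Y :=
  Y.a.comp ((MonoidHom.inl _ _).comp (D.ψ.comp (MonoidHom.mulSingle (fun _ => G2 p) k)))

/-- the local variables -/
abbrev io (t : C.T) : PS O (C.τ t) →ₐ[O] D.R := rename (emb D.e t)

/-- the local universal matrices -/
def fm (t : C.T) (s : dec (C.P t)) : M2 D.R := (C.f t s).map (D.io t)

/-- the ideal of the local equations -/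
def I0 : Ideal D.R := sumI D.e C.I ⊔ D.J1

open Classical in
/-- the operator of an element of the group ring -/
def th (η : MonoidAlgebra O Z.G) : Module.End D.R D.M.Y :=
  η.coeff.sum fun y c => if h : y ∈ Gr Z then algebraMap O D.R c • D.M.a (⟨y, h⟩, 1) else 0

/-- the vectors fixed by the variables in `S` -/
def FS : Set D.M.Y := {v | ∀ s ∈ D.S, D.M.a (1, zg s) v = v}

/-- primes of level zero -/
def L0 (𝔮 : Ideal D.R) : Prop := (∀ s ∈ D.S, D.qa s ∈ 𝔮) ∧ ∀ s, D.qb s ∈ 𝔮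

/-- `φ` is a point of level zero which belongs to `ρ` -/
structure Gp {Λ : Type} [CommRing Λ] [IsLocalRing Λ] [Algebra O Λ] (φ : D.R →ₐ[O] Λ)
    (ρ : Z.H →* M2 Λ) : Prop where
  loc : ∀ i, φ (MvPowerSeries.X i) ∈ maximalIdeal Λ
  ker : ∀ u ∈ D.I0, φ u = 0
  l0 : D.L0 (RingHom.ker φ)
  tr : ∀ s, φ (D.tr s) = (ρ s).trace
  cj : ∃ h h' : M2 Λ, h * h' = 1 ∧ Cg (maximalIdeal Λ) h 1 ∧
    ∀ t s, (D.fm t s).map φ = h * ρ (C.j t s) * h'

/-- `m` lifts the residual matrix of `s` -/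
def Lf [Algebra O F] (s : Z.H) (m : M2 D.R) : Prop :=
  ∀ i j, algebraMap O F (constantCoeff (m i j)) = C.r s i j

/-- **the patched module**: properties -/
structure Ok [Algebra O F] : Prop where
  aux : Aux D.e D.J1 D.n1
  num : 3 * Fintype.card C.T + Fintype.card Z.J + D.n1 ≤ D.r
  psi : ∀ k g, (D.ψ (Pi.mulSingle k g) : Z.G) = (Z.x k).ι g
  ult : Ult O D.N D.U (fun n => (D.Y n).Y) (fun n => D.rho (D.Y n)) (D.rho D.M) D.Rp
  ra : ∀ y v x, D.Rp v x → D.Rp (D.M.a y v) fun n => (D.Y n).a y (x n)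
  rE : ∀ t m v x, D.Rp v x → D.Rp (D.M.E t m v) fun n => (D.Y n).E t m (x n)
  cof : Cof O D.N (D.rho D.M) D.b
  mem : ∀ s, D.qa s ∈ maximalIdeal D.R ∧ D.qb s ∈ maximalIdeal D.R
  quad : ∀ s, (D.M.a (1, zg s) - 1) ^ 2 - D.qa s • (D.M.a (1, zg s) - 1) + D.qb s • 1 = 0
  cst : ∀ s ∉ D.S, ∃ c, D.qa s = MvPowerSeries.C c
  kil : ∀ v, v ∈ Kl D.M.Y D.I0
  inj : ∀ n, Function.Injective (D.ev n)
  eva : ∀ n (y : Gr Z) v ξ, D.ev n ((D.Y n).a (y, 1) v) ξ = Z.a y (D.ev n v ξ)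
  evg : ∀ n t s v ξ, D.ev n ((D.Y n).E t (D.fm t s) v) ξ = Z.g (C.j t s) (D.ev n v ξ)
  evl : ∀ n t (s : Z.H), ∃ (m : M2 D.R) (z : Zr D.r), D.Lf s m ∧
    ∀ v ξ, D.ev n ((D.Y n).E t m ((D.Y n).a (1, z) v)) ξ = Z.g s (D.ev n v ξ)
  lev : ∀ n, ∃ (Q : Set Z.I) (U' : Subgroup Z.G), Q.Finite ∧ Z.Sl U' ∧ Z.aw Q ≤ U' ∧
    ∀ v ξ, D.ev n v ξ ∈ Fv Z.a (U' ⊓ ⨅ k, (Z.x k).π.ker) ⊓ Mt Z C.t
  lwa : ∀ n (y : Gr Z) v, D.lw n ((D.Y n).a (y, 1) v) = Z.a y (D.lw n v)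
  lwg : ∀ n t s v, D.lw n ((D.Y n).E t (D.fm t s) v) = Z.g (C.j t s) (D.lw n v)
  lwk : ∀ z x, D.Rp (D.κ z) x → ∀ᶠ n in (D.U : Filter ℕ), D.lw n (x n) = z
  krg : ∀ v, (∃ z, D.κ z = v) ↔ ∀ z, D.M.a (1, z) v = v
  ka : ∀ (y : Gr Z) z, ∃ z' : Ym Z C.t, z'.1 = Z.a y z.1 ∧ D.κ z' = D.M.a (y, 1) (D.κ z)
  kg : ∀ t s z, ∃ z' : Ym Z C.t, z'.1 = Z.g (C.j t s) z.1 ∧ D.κ z' = D.M.E t (D.fm t s) (D.κ z)
  kl : ∀ t (s : Z.H), ∃ m : M2 D.R, D.Lf s m ∧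
    ∀ z, ∃ z' : Ym Z C.t, z'.1 = Z.g s z.1 ∧ D.κ z' = D.M.E t m (D.κ z)
  kt : ∀ s z, ∃ z' : Ym Z C.t, z'.1 = Z.tg s z.1 ∧ D.κ z' = D.tr s • D.κ z
  trm : ∀ s, algebraMap O F (constantCoeff (D.tr s)) = (C.r s).trace
  dsc : ∃ (Λ : Type) (_ : Finite Λ) (π : Λ → Module.End D.R D.M.Y) (c : O), c ≠ 0 ∧
    (∀ i y, Commute (π i) (D.M.a (y, 1))) ∧ ∀ v ∈ D.FS, (∀ s, D.qb s • v = 0) →
      (∀ i z, D.M.a (1, z) (π i v) = π i v) ∧ ((∀ i, π i v = 0) → c • v = 0)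
  gpt : ∀ (Λ : Type) [CommRing Λ] [Base Λ] [Algebra O Λ] (ρ : Z.H →* M2 Λ),
    LiftC C.r C.s (fun s => cy p O s.1) ρ → Ub Z ρ → ∃ φ, D.Gp φ ρ
  gps : ∀ ρ : Z.H →* M2 O, LiftC C.r C.s (fun s => cy p O s.1) ρ → Ub Z ρ → ∃ φ, D.Gp φ ρ ∧
    ∀ z : Ym Z C.t, z.1 ∈ Z.Eg (fun s => (ρ s).trace) → D.κ z ∈ Kl D.M.Y (RingHom.ker φ)

end Pd

end site

/-- **row PKG: existence of the patched module**; `tw` is the hypothesis used at `p = 2` -/
def PKG (tw : ∀ (p : ℕ) [Fact p.Prime] (O : Type) [CommRing O] [Algebra ℤ_[p] O],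
    Si p O → Prop) : Prop :=
  ∀ (p : ℕ) [Fact p.Prime] (O F : Type) [CommRing O] [IsDomain O] [IsDiscreteValuationRing O]
    [Cf O] [CharZero O] [Algebra ℤ_[p] O] [Field F] [Finite F] [CharP F p] [Algebra O F]
    (Z : Si p O) (C : Fr Z F), Z.Ok → C.Ok → (p = 2 → tw p O Z) → ∃ D : Pd C, D.Ok

end Vale.Agent.P022K.RT

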