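import Vale.Agent.P022K.RT.AuxA
import Vale.Agent.P022K.RT.St3

/-! P022K, block RT: row AUX. -/

set_option linter.all false

noncomputable section

namespace Vale.Agent.P022K.RT

theorem aux : AUX := fun O β σ σ₀ _ _ _ _ _ _ _ τ _ e e₀ J k n hd h _ hn =>
  have H := Ax.all e e₀ J hd h hn
  ⟨H.1, H.2.1, H.2.2.1, H.2.2.2, _, inferInstance, e, sumI (Function.Embedding.refl _) J, hd, by
    rw [sumI, sumI, Ideal.map_iSup]
    exact iSup_congr fun b => (Geo.map_rename _ _ _ _ fun _ => rfl).symm⟩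

end Vale.Agent.P022K.RT
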