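import Vale.Agent.P022K.RT.St
import Vale.Agent.P022K.RU.Obj

/-!
# P022K, block RT: the local charts (row `CHART`)
-/

set_option linter.all false

noncomputable section

namespace Vale.Agent.P022K.RT

open IsLocalRing MvPowerSeries
open Vale.Agent.P022D.L2b (M2 Z1 Lift pd)
open Vale.Agent.P022D.Loc2 (coG)
open Vale.Agent.P022D.Core (PS)
open Vale.Agent.P022D.CA (emb)
open Vale.Agent.P022K.RU (map_one')

namespace Ct

variable {O F G T : Type} [CommRing O] [IsLocalRing O] [Field F] [Algebra O F] [Group G]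
  [TopologicalSpace G] [IsTopologicalGroup G] {L τ : T → Type} [∀ t, Group (L t)]
  [∀ t, TopologicalSpace (L t)] [∀ t, IsTopologicalGroup (L t)] {H : Ch O F G T L τ}
  {S : RU.Dat O F G T} {E : Set G} {A B : Type} [CommRing A] [CommRing B]

theorem cc (h : H.Ok S E) (u : O →+* A) (t : T) : (H.c t).map u * (H.c' t).map u = 1 := by
  rw [← Matrix.map_mul, h.inv, map_one']

theorem cc' (h : H.Ok S E) (u : O →+* A) (t : T) : (H.c' t).map u * (H.c t).map u = 1 :=
  mul_eq_one_comm.1 (cc h u t)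

/-- the local representation as a homomorphism -/
def lh (h : H.Ok S E) (X : RU.Obj S A) (t : T) : L t →* M2 A where
  toFun := H.lr X t
  map_one' := by rw [Ch.lr, map_one, map_one, mul_one, X.inv', mul_one, cc' h]
  map_mul' x y := by
    simp only [Ch.lr, map_mul, mul_assoc]
    rw [← mul_assoc ((H.c t).map X.ι), cc h, one_mul, ← mul_assoc (X.α t), X.inv, one_mul]

theorem lr_map {X : RU.Obj S A} {Y : RU.Obj S B} {u : A →+* B} (k : RU.Hom X Y u) (t : T)
    (x : L t) : (H.lr X t x).map u = H.lr Y t x := by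
  have e : ∀ M : M2 O, (M.map X.ι).map u = M.map Y.ι := fun M => Matrix.ext fun i j => k.ι _
  simp only [Ch.lr, Matrix.map_mul, e, k.ρ, k.α, k.β]

theorem lr_res (h : H.Ok S E) (X : RU.Obj S A) (t : T) (x : L t) :
    (H.lr X t x).map X.π = H.r t x := by
  have e : ∀ M : M2 O, (M.map X.ι).map X.π = M.map S.red := fun M =>
    Matrix.ext fun i j => X.alg _
  simp only [Ch.lr, Matrix.map_mul, e, X.res, X.one, X.oneβ, one_mul, mul_one, h.res]

theorem lr_det (h : H.Ok S E) (X : RU.Obj S A) (t : T) (x : L t) :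
    (H.lr X t x).det = (X.ρ (H.j t x)).det := by
  have e1 := congrArg Matrix.det (cc h X.ι t)
  have e2 := congrArg Matrix.det (X.inv t)
  rw [Matrix.det_mul, Matrix.det_one] at e1 e2
  simp only [Ch.lr, Matrix.det_mul]
  linear_combination (X.ρ (H.j t x)).det * ((X.α t).det * (X.β t).det) * e1 +
    (X.ρ (H.j t x)).det * e2

theorem lh_lc (h : H.Ok S E) (X : RU.Obj S A) (t : T) : IsLocallyConstant (lh h X t) := by
  have o : IsOpen {x | X.ρ (H.j t x) = 1} := X.opn.preimage (h.cts t)
  refine (IsLocallyConstant.iff_exists_open _).2 fun x =>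
    ⟨(fun y => x⁻¹ * y) ⁻¹' {x | X.ρ (H.j t x) = 1}, o.preimage (by fun_prop),
      by simp [← map_mul],
      fun y hy => ?_⟩
  have e : X.ρ (H.j t y) = X.ρ (H.j t x) := by
    rw [← mul_inv_cancel_left x y, map_mul, map_mul, show X.ρ (H.j t (x⁻¹ * y)) = 1 from hy,
      mul_one]
  exact congrArg (fun M => (H.c' t).map X.ι * (X.β t * M * X.α t) * (H.c t).map X.ι) e

theorem nil (X : RU.Obj S A) {a : A} (e : X.π a = 0) : IsNilpotent a := by
  obtain ⟨n, hn⟩ := X.nil
  exact ⟨n, Ideal.mem_bot.1 (hn ▸ Ideal.pow_mem_pow (show a ∈ RingHom.ker X.π from e) n)⟩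

theorem res_s (h : H.Ok S E) (X : RU.Obj S A) (t : T) (x : L t) (i j : Fin 2) :
    X.π (H.lr X t x i j - X.ι (H.s (H.r t x i j))) = 0 := by
  rw [map_sub, X.alg, h.red, h.sec, sub_eq_zero]
  exact congrFun (congrFun (lr_res h X t x) i) j

/-- the local representation of an object is a lift -/
theorem lift (h : H.Ok S E) (X : RU.Obj S A) (k : H.C S E A X) (t : T) :
    letI := X.ι.toAlgebra
    Lift (H.r t) H.s (fun x => H.δ (H.j t x)) (lh h X t) :=
  letI := X.ι.toAlgebra
  ⟨lh_lc h X t, fun a ha => nil X ((X.alg a).trans (show a ∈ RingHom.ker S.red from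
      (IsLocalRing.eq_maximalIdeal (RingHom.ker_isMaximal_of_surjective _ S.surj)).symm ▸ ha)),
    fun x i j => nil X (res_s h X t x i j),
    fun x => (lr_det h X t x).trans (k _ (h.sub t ⟨x, rfl⟩))⟩

theorem closed : RU.Closed (H.C S E) where
  push A B _ _ X Y u k hX x hx := by
    rw [← k.ρ, ← k.ι, ← hX x hx]
    exact (u.map_det _).symm
  pull A B B' _ _ _ X Y Y' u u' k k' hi hY hY' x hx := by
    refine sub_eq_zero.1 (hi _ ?_ ?_)
    · rw [map_sub, k.ι, ← hY x hx, ← k.ρ, sub_eq_zero]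
      exact u.map_det _
    · rw [map_sub, k'.ι, ← hY' x hx, ← k'.ρ, sub_eq_zero]
      exact u'.map_det _

open TrivSqZeroExt in
theorem loc (h : H.Ok S E) : RU.Loc H.D E (H.C S E) (H.κ S) where
  nat A B _ _ X Y u k _ i := by
    rw [Ch.κ, Ch.κ, map_sub, k.ι, ← lr_map k]; rfl
  res A _ X _ i := res_s h X _ _ _ _
  det Y _ hι k g hg := by rw [k g hg, hι, h.det g hg]
  tan Y hπ hι k h0 t := by
    rintro _ ⟨x, rfl⟩
    have f1 : ∀ x i j, (H.lr Y t x i j).fst = H.r t x i j := fun x i j =>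
      (hπ _).symm.trans (congrFun (congrFun (lr_res h Y t x) i) j)
    have z := h.tn t (fun x => (H.lr Y t x).map snd) ⟨(lh_lc h Y t).comp fun M => M.map snd,
      fun x y => Matrix.ext fun i j => by
        have e : H.lr Y t (x * y) = H.lr Y t x * H.lr Y t y := map_mul (lh h Y t) x y
        simp only [e, Matrix.map_apply, Matrix.add_apply, Matrix.mul_apply, Fin.sum_univ_two, f1,
          snd_add, DualNumber.snd_mul]
        ring,
      fun x => by
        have := congrArg snd ((lr_det h Y t x).trans ((k _ (h.sub t ⟨x, rfl⟩)).trans (hι _)))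
        simp only [Matrix.det_fin_two, snd_sub, DualNumber.snd_mul, f1, snd_inl] at this
        simp only [pd, Matrix.map_apply]
        linear_combination this⟩
      (fun u => by
        have := congrArg snd (h0 ⟨t, u⟩)
        rwa [Ch.κ, hι, snd_sub, snd_inl, sub_zero] at this) x
    have e : H.lr Y t x = (H.r t x).map inl := Matrix.ext fun i j =>
      TrivSqZeroExt.ext (f1 x i j) (congrFun (congrFun z i) j)
    have m : ∀ M : M2 O, M.map Y.ι = (M.map S.red).map (inlHom F F) := fun M =>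
      Matrix.ext fun i j => hι _
    have e' : (H.c t).map Y.ι * H.lr Y t x * (H.c' t).map Y.ι =
        Y.β t * Y.ρ (H.j t x) * Y.α t := by
      rw [Ch.lr, ← mul_assoc, ← mul_assoc, cc h, one_mul, mul_assoc, cc h, mul_one]
    rw [← e', e, m, m]
    show _ * (H.r t x).map (inlHom F F) * _ = (S.rb (H.j t x)).map (inlHom F F)
    rw [← Matrix.map_mul, ← Matrix.map_mul, h.res, ← mul_assoc, ← mul_assoc, cc h, one_mul,
      mul_assoc, cc h, mul_one]

end Ct

open Ct in
theorem chart : CHART := by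
  intro O F G T _ _ _ _ _ _ _ _ _ _ L τ _ _ _ _ H S E h
  refine ⟨closed, loc h, fun I g Φ hΦ A _ X k t => ?_⟩
  letI := X.ι.toAlgebra
  haveI := X.fin
  let φ : PS O (τ t) →ₐ[O] A :=
    { (Φ A X).comp (rename (emb Function.Embedding.inl t)).toRingHom with
      commutes' := fun c => (congrArg (Φ A X) (rename_C _ c)).trans (hΦ.cst A X k c) }
  obtain ⟨h1, h2⟩ := (h.uni t).uni A (lh h X t) (lift h X k.1 t) φ fun i =>
    (congrArg (Φ A X) (rename_X _ i)).trans (hΦ.crd A X k ⟨t, i⟩)
  exact ⟨h1, fun x a b => congrFun (congrFun (h2 x) a) b⟩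

end Vale.Agent.P022K.RT
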