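import Vale.Agent.P022K.RT.Gda
import Vale.Agent.P022K.Ex.Main
import Vale.Agent.P022K.GW.Pl

/-!
# P022K, block RT, row CHI: the twisting characters at the auxiliary primes
-/

set_option linter.all false

noncomputable section

namespace Vale.Agent.P022K.RT

open Vale.Agent.P022 Vale.Agent.P022.C
open Vale.Agent.P022E.GW (Ov Fb)
open Vale.Agent.P022D.W (dec)
open Vale.Agent.P022.H443 (inP)
open Vale.Agent.P022K.Top (Si cy Bad)
open Vale.Agent.P022K.GW (Id)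
open scoped Pointwise

namespace Chi

/-- the sign of one coordinate -/
def sg {q a : ℕ} (h : 2 ∣ q) (k : Fin a) : Fm.Dn q a →* ℤˣ where
  toFun d := (-1 : ℤˣ) ^ ZMod.castHom h (ZMod 2) (d.toAdd k)
  map_one' := by simp
  map_mul' d e := by rw [toAdd_mul, Pi.add_apply, map_add, uzpow_add]

theorem dg_eq {q a : ℕ} (k : Fin a) : (Fm.dg q k).toAdd = Pi.single k 1 := by
  funext s
  rw [Fm.dg, Fm.rd_apply]
  by_cases h : s = k <;> simp [zg, h]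

theorem sg_zero {q a : ℕ} (h : 2 ∣ q) {k : Fin a} {d : Fm.Dn q a} (e : d.toAdd k = 0) :
    sg h k d = 1 := by
  show (-1 : ℤˣ) ^ ZMod.castHom h (ZMod 2) (d.toAdd k) = 1
  rw [e, map_zero, uzpow_zero]

theorem sg_dg {q a : ℕ} (h : 2 ∣ q) (k : Fin a) : sg h k (Fm.dg q k) = -1 := by
  show (-1 : ℤˣ) ^ ZMod.castHom h (ZMod 2) ((Fm.dg q k).toAdd k) = -1
  rw [dg_eq, Pi.single_eq_same, map_one, uzpow_one]

/-- a family of characters -/
def pi {G : Type} [Group G] {q a : ℕ} (χ : Fin a → G →* Multiplicative (ZMod q)) :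
    G →* Fm.Dn q a where
  toFun g := Multiplicative.ofAdd fun k => (χ k g).toAdd
  map_one' := by simp; rfl
  map_mul' g h := by simp; rfl

theorem pi_one {G : Type} [Group G] {q a : ℕ} {χ : Fin a → G →* Multiplicative (ZMod q)} {g : G} :
    pi χ g = 1 ↔ ∀ k, χ k g = 1 :=
  ⟨fun h k => congrFun h k, fun h => funext h⟩

end Chi

open Chi

variable {p : ℕ} [Fact p.Prime] {O : Type} [CommRing O] [IsLocalRing O] [Algebra ℤ_[p] O]
  {Z : Si p O}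

/-- the properties of the twisting character -/
structure Tx (T : Finset ℕ) {t : Z.H → O} {r n : ℕ} (D : Tl.TW Z t r n)
    (χ : Z.H →* Fm.Dn (p ^ n) r) : Prop where
  opn : IsOpen {s | χ s = 1}
  spl : ∀ l ∈ T, ∀ P, Ov l P → ∀ s : Z.H, s.1 ∈ dec P → χ s = 1
  cnj : ∀ c : Z.H, P022.IsConj c.1 → χ c = 1
  cI : ∀ s ∈ Inq Z (Set.range D.Q), χ s = 1
  ont : ∀ k, ∃ s ∈ Inq Z ∅, χ s = Fm.dg _ k
  sgn : ∀ k, ∃ (σ : Fm.Dn (p ^ n) r →* ℤˣ) (ν : Z.G →* ℤˣ) (m : Module.End O Z.M),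
    σ (Fm.dg _ k) = -1 ∧ (∀ k2, k2 ≠ k → σ (Fm.dg _ k2) = 1) ∧
      Z.Qc (σ.comp χ) (D.Q k) ∧ Z.Twd (σ.comp χ) (D.Q k) ν m

/-- **row CHI** -/
theorem chi (hp : p = 2) (tw : Z.Twi) (T : Finset ℕ) (hT : Z.S ⊆ T) (n : ℕ) :
    ∃ (V : Subgroup Z.H) (T' : Finset ℕ), V.Normal ∧ IsOpen (V : Set Z.H) ∧
      (∃ m : ℕ, ∀ g, g ^ 2 ^ m ∈ V) ∧ ∀ (t : Z.H → O) (r : ℕ) (D : Tl.TW Z t r n)
        (φ : Fin r → Z.H), (∀ s, (Z.l (D.Q s) : ℕ) ∉ T') →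
        (∀ s, Fb (Z.l (D.Q s)) (D.P s) (φ s)) → (∀ s, φ s ∈ V) → ∃ χ, Tx T D χ := by
  subst hp
  haveI : NeZero (2 ^ n) := ⟨by positivity⟩
  obtain ⟨ζ, hζ⟩ := HasEnoughRootsOfUnity.exists_primitiveRoot Qb (2 ^ n)
  obtain ⟨V, T', -, ho, hn, -, he, -, -, hx⟩ := Exi.exi Z.H T (2 ^ n) ζ (H916.isOpen_GK Z.j) hζ
  refine ⟨V.subgroupOf Z.H, T', ⟨fun v hv g => hn g g.2 v hv⟩, ho.preimage continuous_subtype_val,
    ⟨n + 1 + n, fun g => ?_⟩, fun t r D φ h1 h2 h3 => ?_⟩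
  · have := he g g.2
    rwa [show 4 * 2 ^ n = 2 ^ (n + 1 + 1) by ring, Nat.totient_prime_pow_succ Nat.prime_two,
      show 2 - 1 = 1 from rfl, mul_one, ← pow_add] at this
  choose χ hχ using fun s => (hx _ (h1 s) _ _ (D.ov s) (h2 s) (h3 s)).2
  have bl : ∀ s, below Z.j (D.P s) = (Z.v (D.Q s)).asIdeal := fun s => (D.fr s).2.1
  have unr : ∀ k l P, Ov l P → below Z.j P ≠ (Z.v (D.Q k)).asIdeal → ∀ s : Z.H, s.1 ∈ inP P →
      χ k s = 1 := fun k l P o ne s hs => (hχ k).unr l P o (fun g hg e => ne (by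
    rw [e, GW.Pl.below_smul Z.j hg, bl])) s hs
  have op : IsOpen {s | pi χ s = 1} := by
    simp only [pi_one, Set.setOf_forall]
    exact isOpen_iInter_of_finite fun k => (hχ k).opn
  have on : ∀ k, ∃ s : Z.H, s.1 ∈ inP (D.P k) ∧ pi χ s = Fm.dg _ k := fun k => by
    obtain ⟨τ, a1, a2⟩ := (hχ k).onto
    refine ⟨τ, a1, Multiplicative.toAdd.injective ((funext fun k2 => ?_).trans (dg_eq k).symm)⟩
    show (χ k2 τ).toAdd = _
    by_cases e : k2 = k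
    · rw [e, a2, Pi.single_eq_same]; rfl
    · rw [unr k2 _ _ (D.ov k) (fun h => e (D.inj (D.ok.vinj (IsDedekindDomain.HeightOneSpectrum.ext
        (h.symm.trans (bl k)))))) τ a1, Pi.single_eq_of_ne e]; rfl
  have h2 : 2 ∣ 2 ^ n := dvd_pow_self 2 D.pos.ne'
  refine ⟨pi χ, op, fun l hl P o s hs => pi_one.2 fun k => (hχ k).spl l hl P o s hs,
    fun c hc => pi_one.2 fun k => (hχ k).cnj c hc, ?_, fun k => ?_, fun k => ?_⟩
  · rintro s ⟨l, P, o, -, ne, hs⟩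
    exact pi_one.2 fun k => unr k l P o (ne _ ⟨k, rfl⟩) s hs
  · obtain ⟨s, a1, a2⟩ := on k
    refine ⟨s, ⟨_, _, D.ov k, ?_, fun _ h => h.elim, a1⟩, a2⟩
    rintro ⟨l, hl, o, -⟩
    exact (D.ok.vl (D.Q k)).1 (GW.Pl.ov_uniq o (D.ov k) ▸ hl)
  · have z : ∀ s, χ k s = 1 → (sg h2 k).comp (pi χ) s = 1 := fun s h =>
      sg_zero h2 (congrArg Multiplicative.toAdd h)
    have qc : Z.Qc ((sg h2 k).comp (pi χ)) (D.Q k) := by
      refine ⟨Subgroup.isOpen_mono (H₁ := (χ k).ker) (H₂ := ((sg h2 k).comp (pi χ)).ker) z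
        (hχ k).opn, fun c hc => z c ((hχ k).cnj c hc), ?_,
        fun l P o ne s hs => z s (unr k l P o ne s hs), ?_⟩
      · rintro P ⟨l, hl, o, -⟩ s hs
        exact z s ((hχ k).spl l (hT hl) P o s hs)
      · obtain ⟨s, a1, a2⟩ := on k
        exact ⟨_, s, D.ov k, bl k, a1, (congrArg (sg h2 k) a2).trans (sg_dg h2 k)⟩
    obtain ⟨ν, m, h⟩ := tw _ _ qc
    exact ⟨sg h2 k, ν, m, sg_dg h2 k,
      fun k2 e => sg_zero h2 (by rw [dg_eq, Pi.single_eq_of_ne e.symm]), qc, h⟩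

end Vale.Agent.P022K.RT
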