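import Vale.Agent.P022K.RT.Obj2

/-!
# P022K, block RT, rows RIG0 and DOWN: rigidity at level zero, level zero in the ultraproduct
-/

set_option linter.all false

noncomputable section

namespace Vale.Agent.P022K.RT.Ob

open IsLocalRing Filter
open Vale.Agent.P022K.RU (Dat Obj Hom Cl Closed Univ Fam Crd W Ty Unr map_one' ev_C ev_X)
open Vale.Agent.P022D.L2b (M2)

section rig

variable {O F G T : Type} [CommRing O] [Field F] [Group G] [TopologicalSpace G]
  [IsTopologicalGroup G] {S : Dat O F G T} {A B Λ M : Type} [CommRing A] [CommRing B] [CommRing Λ]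
  [AddCommGroup M] [Module B M]

/-- uniqueness of the normal form -/
theorem uniq (π : A →+* F) (loc : ∀ a, π a ≠ 0 → IsUnit a) (n10 : ∃ g, S.rb g 1 0 ≠ 0)
    (ρ ρ' : G →* M2 A) (r : ∀ g, (ρ g).map π = S.rb g) (r' : ∀ g, (ρ' g).map π = S.rb g)
    (d : ρ S.g0 0 1 = 0 ∧ ρ S.g0 1 0 = 0) (d' : ρ' S.g0 0 1 = 0 ∧ ρ' S.g0 1 0 = 0)
    (n : ρ S.g1 0 1 = ρ' S.g1 0 1) (ht : ∀ g, (ρ g).trace = (ρ' g).trace)
    (hd : (ρ S.g0).det = (ρ' S.g0).det) : ρ = ρ' := by
  have e : ∀ g i j, π (ρ g i j) = S.rb g i j := fun g i j => congrFun (congrFun (r g) i) j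
  have e' : ∀ g i j, π (ρ' g i j) = S.rb g i j := fun g i j => congrFun (congrFun (r' g) i) j
  have t0 := ht S.g0
  simp only [Matrix.trace_fin_two, Matrix.det_fin_two, d.1, d.2, d'.1, d'.2] at t0 hd
  have u1 : IsUnit (ρ S.g0 0 0 - ρ' S.g0 1 1) :=
    loc _ (by rw [map_sub, e, e']; exact sub_ne_zero.2 S.dne)
  have u2 : IsUnit (ρ S.g0 0 0 - ρ S.g0 1 1) :=
    loc _ (by rw [map_sub, e, e]; exact sub_ne_zero.2 S.dne)
  have a0 : ρ S.g0 0 0 = ρ' S.g0 0 0 := sub_eq_zero.1 (u1.mul_right_eq_zero.1 (by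
    linear_combination ρ S.g0 0 0 * t0 - hd))
  have a1 : ρ S.g0 1 1 = ρ' S.g0 1 1 := by linear_combination t0 - a0
  have h00 : ∀ g, ρ g 0 0 = ρ' g 0 0 := fun g => by
    have t1 := ht g
    have t2 := ht (S.g0 * g)
    simp only [map_mul, Matrix.trace_fin_two, Matrix.mul_apply, Fin.sum_univ_two, d.1, d.2, d'.1,
      d'.2, ← a0, ← a1] at t1 t2
    exact sub_eq_zero.1 (u2.mul_right_eq_zero.1 (by linear_combination t2 - ρ S.g0 1 1 * t1))
  have h11 : ∀ g, ρ g 1 1 = ρ' g 1 1 := fun g => by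
    have t1 := ht g
    simp only [Matrix.trace_fin_two] at t1
    linear_combination t1 - h00 g
  have h10 : ∀ g, ρ g 1 0 = ρ' g 1 0 := fun g => by
    have t := h00 (S.g1 * g)
    simp only [map_mul, Matrix.mul_apply, Fin.sum_univ_two] at t
    rw [← n, ← h00, ← h00] at t
    exact sub_eq_zero.1 ((loc _ (by rw [e]; exact S.n01)).mul_right_eq_zero.1
      (by linear_combination t))
  have h01 : ∀ g, ρ g 0 1 = ρ' g 0 1 := fun g => by
    obtain ⟨g2, h2⟩ := n10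
    have t := h00 (g * g2)
    simp only [map_mul, Matrix.mul_apply, Fin.sum_univ_two] at t
    rw [← h10, ← h00, ← h00] at t
    exact sub_eq_zero.1 ((loc _ (by rw [e]; exact h2)).mul_right_eq_zero.1
      (by linear_combination t))
  ext g i j
  fin_cases i <;> fin_cases j
  exacts [h00 g, h01 g, h10 g, h11 g]

variable {τ : Type} {g : ℕ} {C C' : Cl S} {Φ Φ' : Fam S τ g}

/-- **RIG0**: on a vector with the traces of a point the universal ring acts through the point -/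
theorem rig [Module (RU.PS O τ g) M] (hS : Sd S) (n10 : ∃ g, S.rb g 1 0 ≠ 0) {D : Fd S B}
    (h : Md D M C) (a : Ac D M C Φ) {D₁ : Fd S Λ} {x : RU.PS O τ g →+* Λ} (hx : Pn D₁ C' Φ' x)
    (e : ∀ (A : Type) [CommRing A] (X : Obj S A) (u : Λ →+* A), Im D₁ X u → Φ A X = Φ' A X)
    (u : Λ →+* B) (u1 : ∀ c, u (D₁.ι c) = D.ι c) (u2 : ∀ b, D.π (u b) = D₁.π b) (v : M)
    (ht : ∀ s, (D.ρ s).trace • v = u (D₁.ρ s).trace • v)
    (hd : (D.ρ S.g0).det • v = u (D₁.ρ S.g0).det • v)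
    (hα : ∀ l i j, D.α l i j • v = u (D₁.α l i j) • v) (f : RU.PS O τ g) :
    f • v = u (x f) • v := by
  let q := Ideal.Quotient.mk (an D {v})
  have k : ∀ b b', D.π b = D.π b' → b • v = b' • v → q b = q b' := fun b b' h1 h2 =>
    Ideal.Quotient.eq.2 ⟨by rw [map_sub, h1, sub_self], fun y hy => by
      rw [Finset.mem_singleton.1 hy, sub_smul, h2, sub_self]⟩
  have i0 := im_quo hS (h.gd hS {v})
  have hπ : ∀ b, (quo hS (h.gd hS {v})).π (q.comp u b) = D₁.π b := fun b => u2 b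
  have tr : ∀ {R R' : Type} [CommRing R] [CommRing R'] (φ : R →+* R') (m : M2 R),
      (m.map φ).trace = φ m.trace := fun φ m => by simp [Matrix.trace_fin_two]
  have dt : ∀ {R R' : Type} [CommRing R] [CommRing R'] (φ : R →+* R') (m : M2 R),
      (m.map φ).det = φ m.det := fun φ m => by simp [Matrix.det_fin_two]
  have i1 : Im D₁ (quo hS (h.gd hS {v})) (q.comp u) := by
    refine ⟨fun c => congrArg q (u1 c), hπ, fun s => ?_, fun l => Matrix.ext fun i j => ?_⟩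
    · refine DFunLike.congr_fun (uniq (quo hS (h.gd hS {v})).π (quo hS (h.gd hS {v})).loc n10
        ((q.comp u).mapMatrix.toMonoidHom.comp D₁.ρ) _ (fun s => ?_) (quo hS _).res
        ⟨(congrArg (q.comp u) D₁.dg.1).trans (map_zero _),
          (congrArg (q.comp u) D₁.dg.2).trans (map_zero _)⟩ (quo hS _).dg
        ((congrArg (q.comp u) D₁.nm).trans ((congrArg q (u1 _)).trans (quo hS _).nm.symm))
        (fun s => ?_) ?_) s
      · rw [← D₁.res s]
        exact Matrix.ext fun i j => hπ _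
      · refine (tr (q.comp u) _).trans ((k _ _ ?_ (ht s).symm).trans (tr q _).symm)
        rw [u2, ← tr, ← tr, D.res, D₁.res]
      · refine (dt (q.comp u) _).trans ((k _ _ ?_ hd.symm).trans (dt q _).symm)
        rw [u2, ← dt, ← dt, D.res, D₁.res]
    · refine k _ _ ?_ (hα l i j).symm
      rw [u2]
      exact (congrFun (congrFun (D₁.one l) i) j).trans (congrFun (congrFun (D.one l) i) j).symm
  exact a.q hS h {v} (by rw [e _ _ _ i1, hx _ _ _ i1]; rfl) v (Finset.mem_singleton_self v)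

end rig

section down

variable {O R K M Y₀ : Type} [CommRing O] [IsLocalRing O] [CommRing R] [Algebra O R] [Group K]
  [AddCommGroup M] [Module O M] [Module R M] [IsScalarTower O R M] [AddCommGroup Y₀] [Module O Y₀]
  {N : ℕ → Subgroup K} {U : Ultrafilter ℕ} {Y : ℕ → Type} [∀ n, AddCommGroup (Y n)]
  [∀ n, Module O (Y n)] [∀ n, Module R (Y n)] [∀ n, IsScalarTower O R (Y n)]
  {ρ : ∀ n, K →* Module.End R (Y n)} {ρ' : K →* Module.End R M} {Rp : M → (∀ n, Y n) → Prop}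
  (h : Ult O N U Y ρ ρ' Rp)
include h

theorem rp_eq {v v' : M} {x x' : ∀ n, Y n} (a : Rp v x) (a' : Rp v' x')
    (e : ∀ᶠ n in (U : Filter ℕ), x n = x' n) : v = v' := (h.eq _ _ _ _ a a').2 e

theorem rp_zero : Rp 0 0 := by
  obtain ⟨x, hx⟩ := h.ex 0
  simpa using h.smul 0 _ _ hx

theorem rp_smul (c : O) {v : M} {x : ∀ n, Y n} (a : Rp v x) : Rp (c • v) (c • x) := by
  simpa using h.smul (algebraMap O R c) _ _ a

/-- eventually equal sequences represent the same vector -/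
theorem rp_congr {v : M} {x x' : ∀ n, Y n} (a : Rp v x)
    (e : ∀ᶠ n in (U : Filter ℕ), x n = x' n) : Rp v x' := by
  obtain ⟨j, hj⟩ := h.sm v
  obtain ⟨v', a'⟩ := h.sur x' j (((h.lev _ _ _ a).1 hj).mp (e.mono fun n e hn => e ▸ hn))
  exact rp_eq h a a' e ▸ a'

theorem rp_eq_zero {v : M} {x : ∀ n, Y n} (a : Rp v x) :
    v = 0 ↔ ∀ᶠ n in (U : Filter ℕ), x n = 0 := h.eq _ _ _ _ a (rp_zero h)

/-- **DOWN**, existence of the map from level zero -/
theorem ex_kap (e : ∀ n, Y₀ →ₗ[O] Y n)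
    (hl : ∀ z, ∃ j, ∀ᶠ n in (U : Filter ℕ), e n z ∈ Lv O N (ρ n) j) :
    ∃ κ : Y₀ →ₗ[O] M, ∀ z, Rp (κ z) fun n => e n z := by
  choose j hj using hl
  choose κ hκ using fun z => h.sur (fun n => e n z) (j z) (hj z)
  exact ⟨⟨⟨κ, fun z z' => rp_eq h (hκ _) (h.add _ _ _ _ (hκ z) (hκ z'))
    (Eventually.of_forall fun n => map_add _ _ _)⟩, fun c z => rp_eq h (hκ _)
      (rp_smul h c (hκ z)) (Eventually.of_forall fun n => map_smul _ _ _)⟩, hκ⟩

variable {e : ∀ n, Y₀ →ₗ[O] Y n} {κ : Y₀ →ₗ[O] M} (hκ : ∀ z, Rp (κ z) fun n => e n z)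
include hκ

theorem kap_inj (hi : ∀ᶠ n in (U : Filter ℕ), Function.Injective (e n)) : Function.Injective κ :=
  fun z z' k => by
    obtain ⟨n, h1, h2⟩ := (((h.eq _ _ _ _ (hκ z) (hκ z')).1 k).and hi).exists
    exact h2 h1

/-- compatibility with operators -/
theorem kap_op {θ' : M → M} {θ : ∀ n, Y n → Y n}
    (hθ : ∀ v x, Rp v x → Rp (θ' v) fun n => θ n (x n)) {z z' : Y₀}
    (k : ∀ᶠ n in (U : Filter ℕ), e n z' = θ n (e n z)) : κ z' = θ' (κ z) :=
  rp_eq h (hκ z') (hθ _ _ (hκ z)) k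

theorem kap_smul (u : R) {z z' : Y₀} (k : ∀ᶠ n in (U : Filter ℕ), e n z' = u • e n z) :
    κ z' = u • κ z := rp_eq h (hκ z') (h.smul u _ _ (hκ z)) k

/-- **DOWN**, the image: the vectors fixed by finitely many operators -/
theorem kap_range {ι : Type} [Finite ι] {θ' : ι → M → M} {θ : ι → ∀ n, Y n → Y n}
    (hθ : ∀ i v x, Rp v x → Rp (θ' i v) fun n => θ i n (x n))
    (hf : ∀ j, ∃ Z : Set Y₀, Z.Finite ∧ ∀ᶠ n in (U : Filter ℕ), ∀ y ∈ Lv O N (ρ n) j,
      (∀ i, θ i n y = y) → ∃ z ∈ Z, e n z = y) {v : M} (hv : ∀ i, θ' i v = v) : ∃ z, κ z = v := by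
  obtain ⟨x, hx⟩ := h.ex v
  obtain ⟨j, hj⟩ := h.sm v
  obtain ⟨Z, hZ, h1⟩ := hf j
  have h2 : ∀ᶠ n in (U : Filter ℕ), ∀ i, θ i n (x n) = x n :=
    eventually_all.2 fun i => (h.eq _ _ _ _ (hθ i _ _ hx) hx).1 (hv i)
  have h3 : ∀ᶠ n in (U : Filter ℕ), ∃ z ∈ Z, e n z = x n := by
    filter_upwards [h1, h2, (h.lev _ _ _ hx).1 hj] with n a b c using a _ c b
  obtain ⟨z, -, h4⟩ := (Ultrafilter.eventually_exists_mem_iff hZ).1 h3
  exact ⟨z, rp_eq h (hκ z) hx h4⟩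

end down

end Vale.Agent.P022K.RT.Ob
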