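import Vale.Agent.P022K.RT.GeoB

/-!
# P022K, block RT: the chart of a free cyclic group
-/

set_option linter.all false

noncomputable section

namespace Vale.Agent.P022K.RT

open IsLocalRing MvPowerSeries
open Vale.Agent.P022D.L2b (M2 pd)
open Vale.Agent.P022D.Loc2 (TnG coG)
open Vale.Agent.P022D.Core (PS)

namespace Fr1

theorem piv {F : Type} [Field F] (M : M2 F) (h : M.det ≠ 0) : ∃ a b : Fin 3 → Fin 2,
    M (a 0) (b 0) ≠ 0 ∧ (∀ N : M2 F, pd M N = 0 → (∀ k, N (a k) (b k) = 0) → N = 0) ∧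
    (∀ (B : Type) [CommRing B] (x : Fin 3 → B) (D : B), IsUnit (x 0) →
      ∃ γ : M2 B, (∀ k, γ (a k) (b k) = x k) ∧ γ.det = D) ∧
    ∀ (B : Type) [CommRing B] (N N' : M2 B), IsUnit (N (a 0) (b 0)) →
      (∀ k, N (a k) (b k) = N' (a k) (b k)) → N.det = N'.det → N = N' := by
  by_cases h0 : M 0 0 = 0
  · have h1 : M 0 1 ≠ 0 := fun h2 => h (by
      rw [Matrix.det_fin_two, h0, h2, zero_mul, zero_mul, sub_zero])
    refine ⟨![0, 0, 1], ![1, 0, 1], h1, fun N hN he => ?_, fun B _ x D hx => ?_,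
      fun B _ N N' hu he hd => ?_⟩
    · have e0 : N 0 1 = 0 := he 0
      have e1 : N 0 0 = 0 := he 1
      have e2 : N 1 1 = 0 := he 2
      rw [pd, e0, e1, e2] at hN
      have e3 : N 1 0 = 0 := mul_left_cancel₀ h1 (by linear_combination -hN)
      ext i j
      fin_cases i <;> fin_cases j <;> assumption
    · obtain ⟨u, hu⟩ := hx.exists_right_inv
      refine ⟨!![x 1, x 0; u * (x 1 * x 2 - D), x 2], fun k => by fin_cases k <;> rfl, ?_⟩
      rw [Matrix.det_fin_two_of]
      linear_combination (D - x 1 * x 2) * hu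
    · have e0 : N 0 1 = N' 0 1 := he 0
      have e1 : N 0 0 = N' 0 0 := he 1
      have e2 : N 1 1 = N' 1 1 := he 2
      have hu' : IsUnit (N 0 1) := hu
      rw [Matrix.det_fin_two, Matrix.det_fin_two, ← e0, ← e1, ← e2] at hd
      have e3 : N 1 0 = N' 1 0 := hu'.mul_left_cancel (by linear_combination -hd)
      ext i j
      fin_cases i <;> fin_cases j <;> assumption
  · refine ⟨![0, 0, 1], ![0, 1, 0], h0, fun N hN he => ?_, fun B _ x D hx => ?_,
      fun B _ N N' hu he hd => ?_⟩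
    · have e0 : N 0 0 = 0 := he 0
      have e1 : N 0 1 = 0 := he 1
      have e2 : N 1 0 = 0 := he 2
      rw [pd, e0, e1, e2] at hN
      have e3 : N 1 1 = 0 := mul_left_cancel₀ h0 (by linear_combination hN)
      ext i j
      fin_cases i <;> fin_cases j <;> assumption
    · obtain ⟨u, hu⟩ := hx.exists_right_inv
      refine ⟨!![x 0, x 1; x 2, u * (D + x 1 * x 2)], fun k => by fin_cases k <;> rfl, ?_⟩
      rw [Matrix.det_fin_two_of]
      linear_combination (D + x 1 * x 2) * hu
    · have e0 : N 0 0 = N' 0 0 := he 0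
      have e1 : N 0 1 = N' 0 1 := he 1
      have e2 : N 1 0 = N' 1 0 := he 2
      have hu' : IsUnit (N 0 0) := hu
      rw [Matrix.det_fin_two, Matrix.det_fin_two, ← e0, ← e1, ← e2] at hd
      have e3 : N 1 1 = N' 1 1 := hu'.mul_left_cancel (by linear_combination hd)
      ext i j
      fin_cases i <;> fin_cases j <;> assumption

theorem mp {A B : Type} [CommRing A] [CommRing B] (u : A →+* B) {ρ : Multiplicative ℤ →* M2 A}
    {ρ' : Multiplicative ℤ →* M2 B}
    (h : (ρ (Multiplicative.ofAdd 1)).map u = ρ' (Multiplicative.ofAdd 1)) (x : Multiplicative ℤ) :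
    (ρ x).map u = ρ' x :=
  DFunLike.congr_fun (MonoidHom.ext_mint
    (f := (u.mapMatrix : M2 A →+* M2 B).toMonoidHom.comp ρ) (g := ρ') h) x

end Fr1

open Fr1 in
/-- **the chart of a free cyclic group**: three coordinates, no equation -/
theorem fre1 {F O : Type} [Field F] [CommRing O] [IsLocalRing O] [Algebra O F]
    (r : Multiplicative ℤ →* M2 F) (s : F → O) (d : Multiplicative ℤ → O)
    (hs : ∀ x, algebraMap O F (s x) = x) (hm : ∀ x y, d (x * y) = d x * d y)
    (hd : ∀ x, algebraMap O F (d x) = (r x).det) :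
    ∃ (g : Fin 3 → Multiplicative ℤ) (a b : Fin 3 → Fin 2)
      (f : Multiplicative ℤ →* M2 (PS O (Fin 3))), (∀ k, g k = Multiplicative.ofAdd 1) ∧
      TnG r g a b ∧ Uni r s d g a b ⊥ f := by
  have un : ∀ o : O, algebraMap O F o ≠ 0 → IsUnit o := fun o ho => by
    by_contra hn
    have h1 := eq_maximalIdeal (RingHom.ker_isMaximal_of_surjective (algebraMap O F)
      fun x => ⟨s x, hs x⟩)
    exact ho (RingHom.mem_ker.1 (h1 ▸ (mem_maximalIdeal o).2 hn))
  have hu : ∀ x, (r x).det ≠ 0 := fun x =>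
    ((Matrix.isUnit_iff_isUnit_det _).1 ((Group.isUnit x).map r)).ne_zero
  have du : ∀ x, IsUnit (d x) := fun x => un _ (hd x ▸ hu x)
  have d1 : d 1 = 1 := (du 1).mul_left_cancel (by rw [← hm, mul_one, mul_one])
  set φ : Multiplicative ℤ := Multiplicative.ofAdd 1 with hφ
  obtain ⟨a, b, h0, htn, hex, hrig⟩ := piv (r φ) (hu φ)
  let π : PS O (Fin 3) →+* F := (algebraMap O F).comp constantCoeff
  let z : Fin 3 → PS O (Fin 3) := fun k => C (s (r φ (a k) (b k))) + X k
  have hz : ∀ k, π (z k) = r φ (a k) (b k) := fun k => by simp [π, z, hs]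
  have hz0 : IsUnit (z 0) := isUnit_iff_constantCoeff.2 (un _ fun e => h0 ((hz 0).symm.trans e))
  obtain ⟨γ, g1, g2⟩ := hex _ z (C (d φ)) hz0
  obtain ⟨u, rfl⟩ : IsUnit γ := (Matrix.isUnit_iff_isUnit_det _).2 (g2 ▸ (du φ).map C)
  let f : Multiplicative ℤ →* M2 (PS O (Fin 3)) := (Units.coeHom _).comp (zpowersHom _ u)
  have f1 : f φ = u := congrArg Units.val (zpow_one u)
  have key : ∀ (B : Type) [CommRing B] (w : PS O (Fin 3) →+* B) (ρ : Multiplicative ℤ →* M2 B),
      (∀ k, w (z k) = ρ φ (a k) (b k)) → w (C (d φ)) = (ρ φ).det → ∀ x, (f x).map w = ρ x :=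
    fun B _ w ρ h1 h2 => mp w (by
      rw [f1]
      refine hrig B _ _ ?_ (fun k => ?_) ?_
      · rw [Matrix.map_apply, g1]
        exact hz0.map w
      · rw [Matrix.map_apply, g1, h1]
      · rw [← RingHom.mapMatrix_apply, ← RingHom.map_det, g2, h2])
  refine ⟨fun _ => φ, a, b, f, fun _ => rfl, fun c hc h x => ?_, ⟨bot_le, fun i j => ?_,
    fun x y i j => ?_, fun x => ?_, fun x i j => ?_, fun t => ?_, fun n => isOpen_discrete _,
    fun A _ _ _ ρ hρ w hw => ⟨fun u hu => ?_, key A w.toRingHom ρ (fun k => ?_) ?_⟩⟩⟩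
  · have c1 : c 1 = 0 := by
      have h3 := hc.mul 1 1
      rw [mul_one, map_one, mul_one, one_mul] at h3
      exact left_eq_add.1 h3
    let S : Subgroup (Multiplicative ℤ) :=
      { carrier := {y | c y = 0}
        one_mem' := c1
        mul_mem' := fun {y y'} (e : c y = 0) (e' : c y' = 0) => show c (y * y') = 0 by
          rw [hc.mul, e, e', zero_mul, mul_zero, add_zero]
        inv_mem' := fun {y} (e : c y = 0) => show c y⁻¹ = 0 by
          have h3 := hc.mul y⁻¹ y
          rw [inv_mul_cancel, c1, e, mul_zero, add_zero] at h3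
          rw [← mul_one (c y⁻¹), ← map_one r, ← mul_inv_cancel y, map_mul, ← mul_assoc, ← h3,
            zero_mul] }
    have h4 : φ ^ x.toAdd ∈ S := S.zpow_mem (htn _ (hc.det φ) h) _
    rwa [hφ, ← ofAdd_zsmul, smul_eq_mul, mul_one, ofAdd_toAdd] at h4
  · rw [map_one, sub_self]
    exact Ideal.zero_mem _
  · rw [map_mul, sub_self]
    exact Ideal.zero_mem _
  · let D : Multiplicative ℤ →* O := ⟨⟨d, d1⟩, hm⟩
    exact sub_eq_zero.2 (DFunLike.congr_fun (MonoidHom.ext_mint
      (f := Matrix.detMonoidHom.comp f) (g := (C : O →+* PS O (Fin 3)).toMonoidHom.comp D)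
      ((congrArg Matrix.det f1).trans g2)) x)
  · exact congrFun (congrFun (key F π r hz (by rw [← hd]; simp [π]) x) i) j
  · rw [f1, g1, add_sub_cancel_left, sub_self]
    exact Ideal.zero_mem _
  · rw [show u = 0 from hu, map_zero]
  · show w (C _ + X k) = _
    rw [map_add, hw k]
    exact (congrArg (· + _) (w.commutes _)).trans (add_sub_cancel _ _)
  · rw [hρ.det]
    exact w.commutes _

/-- the chart without equations is parametrised -/
theorem fre1_par {O : Type} [CommRing O] [IsDomain O] [IsDiscreteValuationRing O] (k : ℕ) :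
    Par (⊥ : Ideal (PS O (Fin k))) k :=
  ⟨⟨k, AlgHom.id _ _, (RingHom.injective_iff_ker_eq_bot _).1 fun _ _ h => h⟩, by
    rw [Geo.dim_bot, Nat.card_fin]⟩

end Vale.Agent.P022K.RT
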