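import Vale.Agent.P022K.RT.Frm

/-!
# P022K, block RT, row FRAME, part B: the group ring, twists, frames, matrix units
-/

set_option linter.all false

noncomputable section

namespace Vale.Agent.P022K.RT.Fm

open IsLocalRing Module MonoidAlgebra
open Vale.Agent.P022D.L2b (M2)

/-! ### locally nilpotent elements -/

section

variable (B M : Type) [CommRing B] [AddCommGroup M] [Module B M]

/-- the locally nilpotent elements -/
def nl : Ideal B := ⨅ v : M, (Ideal.torsionOf B M v).radical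

variable {B M}

theorem mem_nl {u : B} : u ∈ nl B M ↔ ∀ v : M, ∃ n : ℕ, u ^ n • v = 0 := by
  simp only [nl, Ideal.mem_iInf, Ideal.mem_radical_iff, Ideal.mem_torsionOf_iff]

theorem nl_of_pow {u : B} {n : ℕ} (h : u ^ n ∈ nl B M) : u ∈ nl B M := mem_nl.2 fun v => by
  obtain ⟨k, hk⟩ := mem_nl.1 h v
  exact ⟨n * k, by rwa [pow_mul]⟩

theorem nl_of_unip {p n : ℕ} (hp : p.Prime) (h : (p : B) ∈ nl B M) {x : B} (hx : x ^ p ^ n = 1) :
    x - 1 ∈ nl B M := by
  obtain ⟨r, hr⟩ := exists_add_pow_prime_pow_eq hp (x - 1) 1 n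
  rw [sub_add_cancel, hx, one_pow] at hr
  refine nl_of_pow (n := p ^ n) ?_
  rw [show (x - 1) ^ p ^ n = (-((x - 1) * r)) * p by linear_combination -hr]
  exact Ideal.mul_mem_left _ _ h

theorem pow_smul_zero {u : B} {v : M} {n m : ℕ} (h : u ^ n • v = 0) (e : n ≤ m) :
    u ^ m • v = 0 := by
  obtain ⟨k, rfl⟩ := Nat.exists_eq_add_of_le' e
  rw [pow_add, mul_smul, h, smul_zero]

/-- the maximal ideal of the coefficients is locally nilpotent -/
theorem nl_of_fin {O : Type} [CommRing O] [IsLocalRing O] [Algebra O B]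
    (h : ∀ v : M, ∃ Y : Submodule B M, v ∈ Y ∧ (Y : Set M).Finite) {o : O}
    (ho : o ∈ maximalIdeal O) : algebraMap O B o ∈ nl B M := mem_nl.2 fun v => by
  obtain ⟨Y, hv, hY⟩ := h v
  obtain ⟨a, b, hab, e⟩ := hY.exists_lt_map_eq_of_forall_mem
    (f := fun n : ℕ => algebraMap O B o ^ n • v) fun n => Y.smul_mem _ hv
  obtain ⟨k, rfl⟩ := Nat.exists_eq_add_of_lt hab
  have hu : IsUnit (algebraMap O B (1 - o ^ (k + 1))) :=
    (isUnit_one_sub_self_of_mem_nonunits _ (Ideal.pow_mem_of_mem _ ho _ k.succ_pos)).map _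
  refine ⟨a, hu.smul_eq_zero.1 ?_⟩
  rw [map_sub, map_one, map_pow, sub_smul, one_smul, smul_smul, ← pow_add, sub_eq_zero, e]
  congr 2
  omega

end

/-! ### matrix units -/

section

variable {B M : Type} [CommRing B] [AddCommGroup M] [Module B M]

/-- matrix units -/
structure Eu (e : Fin 2 → Fin 2 → End B M) : Prop where
  mul : ∀ i j k, e i j * e j k = e i k
  zero : ∀ i j k l, j ≠ k → e i j * e k l = 0
  one : ∑ i, e i i = 1

/-- the action of the matrices -/
def Eu.hom {e : Fin 2 → Fin 2 → End B M} (h : Eu e) : M2 B →ₐ[B] End B M :=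
  AlgHom.ofLinearMap
    { toFun := fun m => ∑ i, ∑ j, m i j • e i j
      map_add' := fun a b => by simp only [Matrix.add_apply, add_smul, Finset.sum_add_distrib]
      map_smul' := fun c a => by
        simp only [Matrix.smul_apply, smul_eq_mul, mul_smul, Finset.smul_sum, RingHom.id_apply] }
    (by simpa [Fin.sum_univ_two] using h.one)
    fun a b => by
      simp only [LinearMap.coe_mk, AddHom.coe_mk, Fin.sum_univ_two, Matrix.mul_apply, add_mul,
        mul_add, smul_mul_smul_comm, h.mul, h.zero _ 0 1 _ (by decide),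
        h.zero _ 1 0 _ (by decide), add_smul, smul_zero]
      abel

theorem Eu.hom_apply {e : Fin 2 → Fin 2 → End B M} (h : Eu e) (m : M2 B) :
    h.hom m = ∑ i, ∑ j, m i j • e i j := rfl

/-- the entries from the matrix -/
theorem Eu.ent {e : Fin 2 → Fin 2 → End B M} (h : Eu e) (m : M2 B) (i j : Fin 2) (v : M) :
    m i j • v = ∑ k, e k i (h.hom m (e j k v)) := by
  have key : ∀ k, e k i * (h.hom m * e j k) = m i j • e k k := fun k => by
    rw [h.hom_apply]
    fin_cases i <;> fin_cases j <;>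
      simp [Fin.sum_univ_two, add_mul, mul_add, h.mul, h.zero _ 0 1 _ (by decide),
        h.zero _ 1 0 _ (by decide)]
  have e1 : ∀ k, e k i (h.hom m (e j k v)) = m i j • e k k v := fun k =>
    LinearMap.congr_fun (key k) v
  simp only [e1, ← Finset.smul_sum]
  rw [← LinearMap.sum_apply, h.one, End.one_apply]

/-- a matrix kills `M` if and only if its entries do -/
theorem Eu.ent_zero {e : Fin 2 → Fin 2 → End B M} (h : Eu e) {m : M2 B} {v : M}
    (h0 : ∀ j k, h.hom m (e j k v) = 0) (i j : Fin 2) : m i j • v = 0 := by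
  simp [h.ent, h0]

theorem Eu.hom_zero {e : Fin 2 → Fin 2 → End B M} (h : Eu e) {m : M2 B} {v : M}
    (h0 : ∀ i j, m i j • v = 0) : h.hom m v = 0 := by
  simp only [h.hom_apply, LinearMap.sum_apply, LinearMap.smul_apply, ← map_smul, h0, map_zero,
    Finset.sum_const_zero]

end

/-! ### from `Mu` -/

section

variable {O F G T B M : Type} [CommRing O] [Field F] [Group G] [AddCommGroup M] [Module O M]
  [CommRing B] [Algebra O B] [Module B M] {S : RU.Dat O F G T} {s : F → O}
  {γ : G →* End O M} {ε : G →* O} {ρ : G →* M2 B} {E : M2 B →+* End O M}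

theorem _root_.Vale.Agent.P022K.RT.Mu.lin (h : Mu S s γ ε B ρ E) (m : M2 B) (u : B) (v : M) :
    E m (u • v) = u • E m v := by
  rw [← h.sca, ← h.sca, ← End.mul_apply, ← End.mul_apply, ← map_mul, ← map_mul,
    (Matrix.scalar_commute u (fun _ => Commute.all _ _) m).eq]

/-- the matrix units -/
def _root_.Vale.Agent.P022K.RT.Mu.e (h : Mu S s γ ε B ρ E) (i j : Fin 2) : End B M where
  toFun v := E (Matrix.single i j 1) v
  map_add' := map_add _
  map_smul' := h.lin _

theorem _root_.Vale.Agent.P022K.RT.Mu.eu (h : Mu S s γ ε B ρ E) : Eu h.e where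
  mul i j k := LinearMap.ext fun v => by
    show E _ (E _ v) = E _ v
    rw [← End.mul_apply, ← map_mul, Matrix.single_mul_single_same, one_mul]
  zero i j k l e := LinearMap.ext fun v => by
    show E _ (E _ v) = 0
    rw [← End.mul_apply, ← map_mul, Matrix.single_mul_single_of_ne _ _ _ _ e, map_zero]
    rfl
  one := LinearMap.ext fun v => by
    rw [Fin.sum_univ_two]
    show E _ v + E _ v = v
    rw [← LinearMap.add_apply, ← map_add, show (Matrix.single 0 0 1 + Matrix.single 1 1 1 : M2 B) =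
      1 by ext i j; fin_cases i <;> fin_cases j <;> simp, map_one, End.one_apply]

theorem _root_.Vale.Agent.P022K.RT.Mu.hom (h : Mu S s γ ε B ρ E) (m : M2 B) (v : M) :
    h.eu.hom m v = E m v := by
  conv_rhs => rw [Matrix.matrix_eq_sum_single m]
  simp only [Eu.hom_apply, map_sum, LinearMap.sum_apply, LinearMap.smul_apply]
  refine Finset.sum_congr rfl fun i _ => Finset.sum_congr rfl fun j _ => ?_
  show m i j • E _ v = _
  rw [← h.sca, ← End.mul_apply, ← map_mul]
  congr 2
  ext a b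
  simp [Matrix.single_apply]

theorem _root_.Vale.Agent.P022K.RT.Mu.act (h : Mu S s γ ε B ρ E) (g : G) (v : M) :
    h.eu.hom (ρ g) v = γ g v := by rw [h.hom, h.gal]

theorem com_adj {A : Set (End O M)} {θ : M → M} (a : ∀ v w, θ (v + w) = θ v + θ w)
    (o : ∀ (c : O) v, θ (c • v) = c • θ v) (h : ∀ x ∈ A, ∀ v, θ (x v) = x (θ v)) {x : End O M}
    (hx : x ∈ Algebra.adjoin O A) (v : M) : θ (x v) = x (θ v) := by
  induction hx using Algebra.adjoin_induction generalizing v with
  | mem x hx => exact h x hx v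
  | algebraMap c => exact o c v
  | add x y _ _ h1 h2 => rw [LinearMap.add_apply, a, h1, h2, LinearMap.add_apply]
  | mul x y _ _ h1 h2 => rw [End.mul_apply, h1, h2, End.mul_apply]

/-- operators which commute with the traces are linear -/
theorem _root_.Vale.Agent.P022K.RT.Mu.com (h : Mu S s γ ε B ρ E) (θ : End O M)
    (c : ∀ g v, θ (tt γ ε g v) = tt γ ε g (θ v)) (u : B) (v : M) : θ (u • v) = u • θ v := by
  classical
  obtain ⟨x, h1, h2⟩ := h.loc u {v, θ v}
  rw [h2 v (by simp), h2 (θ v) (by simp)]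
  exact com_adj θ.map_add θ.map_smul (by rintro _ ⟨g, rfl⟩; exact c g) h1 v

/-- operators which commute with the group commute with the matrices -/
theorem _root_.Vale.Agent.P022K.RT.Mu.comE (h : Mu S s γ ε B ρ E) (θ : End O M)
    (c : ∀ g v, θ (γ g v) = γ g (θ v)) (m : M2 B) (v : M) : θ (E m v) = E m (θ v) := by
  classical
  obtain ⟨x, h1, h2⟩ := h.locE m {v, θ v}
  rw [h2 v (by simp), h2 (θ v) (by simp)]
  exact com_adj θ.map_add θ.map_smul (by rintro _ ⟨g, rfl⟩; exact c g) h1 v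

/-- stable submodules -/
theorem _root_.Vale.Agent.P022K.RT.Mu.stab (h : Mu S s γ ε B ρ E) (Y : Submodule O M)
    (c : ∀ g, ∀ v ∈ Y, tt γ ε g v ∈ Y) (u : B) {v : M} (hv : v ∈ Y) : u • v ∈ Y := by
  obtain ⟨x, h1, h2⟩ := h.loc u {v}
  rw [h2 v (by simp)]
  clear h2
  induction h1 using Algebra.adjoin_induction generalizing v with
  | mem x hx => obtain ⟨g, rfl⟩ := hx; exact c g v hv
  | algebraMap c => exact Y.smul_mem c hv
  | add x y _ _ h1 h2 => exact add_mem (h1 hv) (h2 hv)
  | mul x y _ _ h1 h2 => exact h1 (h2 hv)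

theorem _root_.Vale.Agent.P022K.RT.Mu.fin (h : Mu S s γ ε B ρ E) (k : Gm S s γ ε) (v : M) :
    ∃ Y : Submodule B M, v ∈ Y ∧ (Y : Set M).Finite := by
  obtain ⟨Y, h1, h2, h3⟩ := k.fin v
  exact ⟨⟨Y.toAddSubmonoid, fun u _ hw => h.stab Y
    (fun g w hw => add_mem (h3 g w hw) (Y.smul_mem _ (h3 _ w hw))) u hw⟩, h1, h2⟩

/-- elements of the group which act trivially -/
theorem _root_.Vale.Agent.P022K.RT.Mu.triv (h : Mu S s γ ε B ρ E) {g : G} {v : M}
    (e : ∀ j k, γ g (h.e j k v) = h.e j k v) (i j : Fin 2) : (ρ g - 1) i j • v = 0 :=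
  h.eu.ent_zero (fun j k => by
    rw [map_sub, map_one, LinearMap.sub_apply, h.act, e, End.one_apply, sub_self]) i j

theorem _root_.Vale.Agent.P022K.RT.Mu.opn [TopologicalSpace G] (h : Mu S s γ ε B ρ E)
    (o : ∀ v, {g | γ g v = v} ∈ nhds (1 : G)) (v : M) :
    {g | ∀ i j, (ρ g - 1) i j • v = 0} ∈ nhds (1 : G) :=
  Filter.mem_of_superset
    (Filter.iInter_mem.2 fun j => Filter.iInter_mem.2 fun k => o (h.e j k v)) fun g hg =>
      h.triv fun j k => Set.mem_iInter.1 (Set.mem_iInter.1 hg j) k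

/-- on an eigenvector of the traces the ring acts by scalars -/
theorem _root_.Vale.Agent.P022K.RT.Mu.eig (h : Mu S s γ ε B ρ E) {t : G → O} {v : M}
    (e : ∀ g, tt γ ε g v = t g • v) (u : B) : ∃ c : O, u • v = c • v := by
  have := h.stab (Submodule.span O {v}) (fun g w hw => by
    obtain ⟨c, rfl⟩ := Submodule.mem_span_singleton.1 hw
    rw [map_smul, e, smul_smul]
    exact Submodule.smul_mem _ _ (Submodule.mem_span_singleton_self v)) u
    (Submodule.mem_span_singleton_self v)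
  obtain ⟨c, hc⟩ := Submodule.mem_span_singleton.1 this
  exact ⟨c, hc.symm⟩

end

/-! ### maps which commute with traces and determinants commute with the entries -/

section

variable {O F G T B M B' M' : Type} [CommRing O] [Field F] [Group G] [CommRing B] [Algebra O B]
  [AddCommGroup M] [Module B M] [CommRing B'] [Algebra O B'] [AddCommGroup M'] [Module B' M']

theorem inj_of_nl {u c : B} (hc : IsUnit c) (h : u - c ∈ nl B M) {v : M} (e : u • v = 0) :
    v = 0 := by
  obtain ⟨n, hn⟩ := mem_nl.1 h v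
  have : ∀ k : ℕ, (u - c) ^ k • v = (-c) ^ k • v := fun k => by
    induction k with
    | zero => simp
    | succ k ih => rw [pow_succ, mul_smul, sub_smul, e, zero_sub, smul_neg, smul_comm, ih,
        pow_succ', mul_smul, neg_smul]
  rw [this] at hn
  exact (hc.neg.pow n).smul_eq_zero.1 hn

/-- the pairs of scalars which are related by `θ` -/
def rel (B B' : Type) [CommRing B] [CommRing B'] [Module B M] [Module B' M'] (θ : M →+ M') :
    Subring (B × B') where
  carrier := {u | ∀ v, θ (u.1 • v) = u.2 • θ v}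
  mul_mem' {a b} ha hb v := by rw [Prod.fst_mul, Prod.snd_mul, mul_smul, ha, hb, mul_smul]
  one_mem' v := by simp
  add_mem' {a b} ha hb v := by
    rw [Prod.fst_add, Prod.snd_add, add_smul, map_add, ha, hb, add_smul]
  zero_mem' v := by simp
  neg_mem' {a} ha v := by rw [Prod.fst_neg, Prod.snd_neg, neg_smul, map_neg, ha, neg_smul]

variable {θ : M →+ M'}

theorem mem_rel {u : B} {u' : B'} : (u, u') ∈ rel B B' θ ↔ ∀ v, θ (u • v) = u' • θ v := Iff.rfl

theorem rel_cancel {u x : B} {u' x' c : B'} (h : (u, u') ∈ rel B B' θ) (hc : IsUnit c)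
    (n : u' - c ∈ nl B' M') (k : (u * x, u' * x') ∈ rel B B' θ) : (x, x') ∈ rel B B' θ := fun v =>
  sub_eq_zero.1 (inj_of_nl hc n (by
    rw [smul_sub, ← mem_rel.1 h, ← mul_smul, mem_rel.1 k, mul_smul, sub_self]))

theorem rel_root {a b c : B} {a' b' c' d' : B'} (h1 : (a + b, a' + b') ∈ rel B B' θ)
    (h2 : (a * b, a' * b') ∈ rel B B' θ) (h3 : (c, c') ∈ rel B B' θ) (n : a - c ∈ nl B M)
    (n' : b' - d' ∈ nl B' M') (hu : IsUnit (c' - d')) : (a, a') ∈ rel B B' θ := fun v => by
  have key : ∀ v, θ (a • a • v) - a' • θ (a • v) = b' • (θ (a • v) - a' • θ v) := fun v => by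
    have e : a • a • v = (a + b) • a • v - (a * b) • v := by
      simp only [smul_smul, ← sub_smul]
      congr 1
      ring
    rw [e, map_sub, mem_rel.1 h1, mem_rel.1 h2]
    module
  obtain ⟨k, hk⟩ := mem_nl.1 n v
  induction k generalizing v with
  | zero =>
    rw [pow_zero, one_smul] at hk
    simp [hk]
  | succ k ih =>
    have e := ih ((a - c) • v) (by rwa [← mul_smul, ← pow_succ])
    simp only [sub_smul, smul_sub, map_sub, smul_comm a c v, mem_rel.1 h3] at e
    refine sub_eq_zero.1 (inj_of_nl (u := c' - b') hu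
      (by rw [show c' - b' - (c' - d') = -(b' - d') by ring]; exact neg_mem n') ?_)
    rw [sub_smul, ← key, sub_eq_zero]
    show c' • (θ (a • v) - a' • θ v) = _
    rw [sub_eq_iff_eq_add.1 e]
    module

/-- the residual conditions on a representation in normal form -/
structure Nf (S : RU.Dat O F G T) (s : F → O) (M : Type) [AddCommGroup M] [Module B M]
    (ρ : G →* M2 B) : Prop where
  res : ∀ g i j, ρ g i j - algebraMap O B (s (S.rb g i j)) ∈ nl B M
  dg : ρ S.g0 0 1 = 0 ∧ ρ S.g0 1 0 = 0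
  nm : ρ S.g1 0 1 = algebraMap O B S.lam

/-- **entries from traces and determinants** -/
theorem rel_ent {S : RU.Dat O F G T} {s : F → O} {ρ : G →* M2 B} {ρ' : G →* M2 B'}
    (hu : ∀ c, S.red c ≠ 0 → IsUnit c) (sec : ∀ x, S.red (s x) = x)
    (n10 : ∃ g, S.rb g 1 0 ≠ 0) (h : Nf S s M ρ) (h' : Nf S s M' ρ')
    (c : ∀ o : O, (algebraMap O B o, algebraMap O B' o) ∈ rel B B' θ)
    (t : ∀ g, ((ρ g).trace, (ρ' g).trace) ∈ rel B B' θ)
    (d : ((ρ S.g0).det, (ρ' S.g0).det) ∈ rel B B' θ) (g : G) (i j : Fin 2) :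
    (ρ g i j, ρ' g i j) ∈ rel B B' θ := by
  have un : ∀ x, x ≠ 0 → IsUnit (algebraMap O B' (s x)) := fun x hx =>
    (hu _ (by rwa [sec])).map _
  have u0 : IsUnit (algebraMap O B' (s (S.rb S.g0 0 0)) - algebraMap O B' (s (S.rb S.g0 1 1))) := by
    rw [← map_sub]
    exact (hu _ (by rw [map_sub, sec, sec]; exact sub_ne_zero.2 S.dne)).map _
  simp only [Matrix.trace_fin_two] at t
  rw [Matrix.det_fin_two, Matrix.det_fin_two, h.dg.1, h'.dg.1, zero_mul, zero_mul, sub_zero,
    sub_zero] at d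
  have a := rel_root (t S.g0) d (c _) (h.res S.g0 0 0) (h'.res S.g0 1 1) u0
  have b : (ρ S.g0 1 1, ρ' S.g0 1 1) ∈ rel B B' θ := by simpa using sub_mem (t S.g0) a
  have e00 : ∀ g, (ρ g 0 0, ρ' g 0 0) ∈ rel B B' θ := fun g => by
    refine rel_cancel (u := ρ S.g0 0 0 - ρ S.g0 1 1) (u' := ρ' S.g0 0 0 - ρ' S.g0 1 1)
      (sub_mem a b) u0 ?_ ?_
    · have := sub_mem (h'.res S.g0 0 0) (h'.res S.g0 1 1)
      rwa [sub_sub_sub_comm] at this
    · convert sub_mem (t (S.g0 * g)) (mul_mem b (t g)) using 1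
      simp only [map_mul, Matrix.mul_apply, Fin.sum_univ_two, h.dg.1, h.dg.2, h'.dg.1, h'.dg.2,
        Prod.mk_sub_mk, Prod.mk_mul_mk]
      congr 1 <;> ring
  have pr : ∀ g k, (ρ g 0 1 * ρ k 1 0, ρ' g 0 1 * ρ' k 1 0) ∈ rel B B' θ := fun g k => by
    convert sub_mem (e00 (g * k)) (mul_mem (e00 g) (e00 k)) using 1
    simp only [map_mul, Matrix.mul_apply, Fin.sum_univ_two, Prod.mk_sub_mk, Prod.mk_mul_mk]
    congr 1 <;> ring
  have e10 : ∀ g, (ρ g 1 0, ρ' g 1 0) ∈ rel B B' θ := fun g =>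
    rel_cancel (by rw [h.nm, h'.nm]; exact c _) (un _ S.n01) (h'.res S.g1 0 1) (pr S.g1 g)
  obtain ⟨k, hk⟩ := n10
  fin_cases i <;> fin_cases j
  · exact e00 g
  · exact rel_cancel (e10 k) (un _ hk) (h'.res k 1 0)
      (by rw [mul_comm (ρ k 1 0), mul_comm (ρ' k 1 0)]; exact pr g k)
  · exact e10 g
  · simpa using sub_mem (t g) (e00 g)

end

end Vale.Agent.P022K.RT.Fm
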