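import Vale.Agent.P022K.RT.Obj

/-!
# P022K, block RT, row OBJ, second part: modules with framed matrices
-/

set_option linter.all false

noncomputable section

namespace Vale.Agent.P022K.RT

open Vale.Agent.P022K.RU (Dat Obj Hom Cl Closed Univ Fam Crd W Ty Unr map_one' ev_C ev_X)
open Vale.Agent.P022D.L2b (M2)

variable {O F G T : Type} [CommRing O] [Field F] [Group G] [TopologicalSpace G]

/-- framed matrices over a ring which acts on a discrete module -/
structure Po (S : Dat O F G T) (s : F → O) (B M : Type) [CommRing B] [Algebra O B]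
    [AddCommGroup M] [Module B M] (ρ : G →* M2 B) (α : T → M2 B) : Prop where
  fin : ∀ v : M, ∃ Y : Submodule B M, v ∈ Y ∧ (Y : Set M).Finite
  all : ∀ u : B, ∃ c : F, ∀ v : M, ∃ n : ℕ, (u - algebraMap O B (s c)) ^ n • v = 0
  res : ∀ g i j (v : M), ∃ n : ℕ, (ρ g i j - algebraMap O B (s (S.rb g i j))) ^ n • v = 0
  one : ∀ t i j (v : M), ∃ n : ℕ, (α t - 1) i j ^ n • v = 0
  opn : ∀ v : M, {g | ∀ i j, (ρ g - 1) i j • v = 0} ∈ nhds (1 : G)
  dg : ρ S.g0 0 1 = 0 ∧ ρ S.g0 1 0 = 0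
  nm : ρ S.g1 0 1 = algebraMap O B S.lam
  fr : α S.l0 0 0 = 1

namespace Ob

variable [IsTopologicalGroup G] {S : Dat O F G T} {B B' M M' : Type} [CommRing B] [CommRing B']
  [AddCommGroup M] [Module B M] [AddCommGroup M'] [Module B' M']

variable (B M) in
/-- the locally nilpotent elements -/
def Nil : Ideal B := ⨅ v : M, (Ideal.torsionOf B M v).radical

theorem mem_Nil {b : B} : b ∈ Nil B M ↔ ∀ v : M, ∃ n : ℕ, b ^ n • v = 0 := by
  simp only [Nil, Ideal.mem_iInf, Ideal.mem_radical_iff, Ideal.mem_torsionOf_iff]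

theorem ex_pi [Nontrivial M] (hS : Sd S) (ι : O →+* B)
    (fin : ∀ v : M, ∃ Y : Submodule B M, v ∈ Y ∧ (Y : Set M).Finite)
    (all : ∀ u, ∃ c, u - ι c ∈ Nil B M) :
    ∃ π : B →+* F, (∀ c, π (ι c) = S.red c) ∧ ∀ b, π b = 0 ↔ b ∈ Nil B M := by
  have h1 : ∀ c, ι c ∈ Nil B M ↔ S.red c = 0 := fun c => by
    refine ⟨fun h => by_contra fun e => ?_, fun e => mem_Nil.2 fun v => ?_⟩
    · obtain ⟨v, hv⟩ := exists_ne (0 : M)
      obtain ⟨n, hn⟩ := mem_Nil.1 h v
      exact hv (((((hS.unit c e).map ι).pow n).smul_eq_zero).1 hn)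
    · obtain ⟨Y, hv, hY⟩ := fin v
      obtain ⟨a, b, hab, e'⟩ := hY.exists_lt_map_eq_of_forall_mem
        (f := fun n : ℕ => ι c ^ n • v) fun n => Y.smul_mem _ hv
      obtain ⟨k, rfl⟩ := Nat.exists_eq_add_of_lt hab
      have hu := (hS.unit (1 - c ^ (k + 1)) (by simp [e])).map ι
      refine ⟨a, hu.smul_eq_zero.1 ?_⟩
      rw [← mul_smul, map_sub, map_one, map_pow, sub_mul, one_mul, ← pow_add, sub_smul, e',
        show k + 1 + a = a + k + 1 by ring, sub_self]
  let φ := (Ideal.Quotient.mk (Nil B M)).comp ι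
  have hφ : Function.Surjective φ := fun x => by
    obtain ⟨b, rfl⟩ := Ideal.Quotient.mk_surjective x
    obtain ⟨c, hc⟩ := all b
    exact ⟨c, (Ideal.Quotient.eq.2 hc).symm⟩
  let π := (φ.liftOfSurjective hφ ⟨S.red, fun c hc =>
    (h1 c).1 (Ideal.Quotient.eq_zero_iff_mem.1 hc)⟩).comp (Ideal.Quotient.mk (Nil B M))
  have h2 : ∀ c, π (ι c) = S.red c := fun c => φ.liftOfSurjective_comp_apply hφ _ c
  refine ⟨π, h2, fun b => ?_⟩
  obtain ⟨c, hc⟩ := all b
  have h3 : π b = π (ι c) := congrArg (φ.liftOfSurjective hφ _) (Ideal.Quotient.eq.2 hc)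
  rw [h3, h2, ← h1]
  exact ⟨fun h => by simpa using add_mem hc h, fun h => by simpa using sub_mem h hc⟩

/-- all images of the matrices that respect the annihilator of `M` are of class `C` -/
def Cq [Algebra O B] (M : Type) [AddCommGroup M] [Module B M] (ρ : G →* M2 B) (α : T → M2 B)
    (C : Cl S) : Prop :=
  ∀ (A : Type) [CommRing A] (X : Obj S A) (u : B →+* A), (∀ c, u (algebraMap O B c) = X.ι c) →
    (∀ g, (ρ g).map u = X.ρ g) → (∀ l, (α l).map u = X.α l) →
    (∀ b, (∀ v : M, b • v = 0) → u b = 0) → C A X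

theorem cq_ty [Algebra O B] {L τ : T → Type} [∀ t, Group (L t)] (H : Ch O F G T L τ)
    {ρ : G →* M2 B} {α : T → M2 B} {E I : Set G}
    (h1 : ∀ g ∈ E, ∀ v : M, (ρ g).det • v = algebraMap O B (H.δ g) • v)
    (h2 : ∀ g ∈ I, ∀ i j (v : M), (ρ g - 1) i j • v = 0) : Cq M ρ α (Ty (H.C S E) I) := by
  intro A _ X u e1 e2 e3 e4
  refine ⟨fun g hg => ?_, fun g hg => ?_⟩
  · have := e4 ((ρ g).det - algebraMap O B (H.δ g)) fun v => by rw [sub_smul, h1 g hg, sub_self]
    rw [map_sub, sub_eq_zero, e1, RingHom.map_det, RingHom.mapMatrix_apply, e2] at this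
    exact this
  · rw [← e2, ← map_one' u]
    ext i j
    exact sub_eq_zero.1 ((map_sub u _ _).symm.trans (e4 _ (h2 g hg i j)))

/-- `D` extends the matrices `ρ`, `α` along `j` -/
structure Ex [Algebra O B] (M : Type) [AddCommGroup M] [Module B M] [Module B' M]
    (ρ : G →* M2 B) (α : T → M2 B) (j : B →+* B') (D : Fd S B') : Prop where
  act : ∀ b (v : M), j b • v = b • v
  io : ∀ c, D.ι c = j (algebraMap O B c)
  rho : ∀ g, D.ρ g = (ρ g).map j
  al : ∀ l, D.α l = (α l).map j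
  md : ∀ C : Cl S, Cq M ρ α C → Md D M C

/-- **OBJ for `Po`** -/
theorem _root_.Vale.Agent.P022K.RT.Po.obj [Algebra O B] [Nontrivial M] {s : F → O}
    {ρ : G →* M2 B} {α : T → M2 B} (hS : Sd S) (hs : ∀ x, S.red (s x) = x)
    (h : Po S s B M ρ α) : ∃ (B' : Type) (_ : CommRing B') (_ : Module B' M) (j : B →+* B')
      (D : Fd S B'), Ex M ρ α j D := by
  obtain ⟨π, p1, p2⟩ := ex_pi hS (algebraMap O B) h.fin fun u =>
    (h.all u).elim fun c hc => ⟨_, mem_Nil.2 hc⟩
  let N : Submonoid B := (IsUnit.submonoid F).comap π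
  have hN : ∀ b, b ∈ N ↔ π b ≠ 0 := fun b => isUnit_iff_ne_zero
  have inj : ∀ b ∈ N, ∀ v : M, b • v = 0 → v = 0 := fun b hb v hv => by
    obtain ⟨c, hc⟩ := S.surj (π b)
    obtain ⟨n, hn⟩ := mem_Nil.1 ((p2 (algebraMap O B c - b)).1 (by rw [map_sub, p1, hc, sub_self])) v
    have e : ∀ k : ℕ, (algebraMap O B c - b) ^ k • v = algebraMap O B c ^ k • v := fun k => by
      induction k with
      | zero => simp
      | succ k ih => rw [pow_succ', pow_succ', mul_smul, mul_smul, ih, sub_smul, smul_comm b, hv,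
          smul_zero, sub_zero]
    exact ((((hS.unit c (hc ▸ (hN b).1 hb)).map _).pow n).smul_eq_zero).1 ((e n).symm.trans hn)
  have sur : ∀ b ∈ N, ∀ Y : Submodule B M, (Y : Set M).Finite → ∀ v ∈ Y, ∃ y ∈ Y, b • y = v :=
    fun b hb Y hY v hv => by
    have := hY.to_subtype
    obtain ⟨y, hy⟩ := (Finite.injective_iff_surjective (f := fun y : Y => b • y)).1
      (fun y y' e => Subtype.ext (sub_eq_zero.1 (inj b hb _
        (by rw [smul_sub]; exact sub_eq_zero.2 (congrArg Subtype.val e))))) ⟨v, hv⟩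
    exact ⟨y, y.2, congrArg Subtype.val hy⟩
  have : IsLocalizedModule N (LinearMap.id : M →ₗ[B] M) :=
    ⟨fun b => (Module.End.isUnit_iff _).2 ⟨fun v v' e => sub_eq_zero.1 (inj b b.2 _
        (by rw [smul_sub]; exact sub_eq_zero.2 e)), fun v => by
        obtain ⟨Y, hv, hY⟩ := h.fin v
        obtain ⟨y, -, e⟩ := sur b b.2 Y hY v hv
        exact ⟨y, e⟩⟩, fun m => ⟨(m, 1), one_smul _ _⟩, fun e => ⟨1, congrArg _ e⟩⟩
  let _ : Module (Localization N) M := IsLocalizedModule.module N (LinearMap.id : M →ₗ[B] M)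
  have : IsScalarTower B (Localization N) M :=
    IsLocalizedModule.isScalarTower_module N (LinearMap.id : M →ₗ[B] M)
  let j := algebraMap B (Localization N)
  have act : ∀ b (v : M), j b • v = b • v := fun b v => algebraMap_smul _ b v
  let π' : Localization N →+* F := IsLocalization.lift (M := N) (g := π) fun b => b.2
  have q1 : ∀ b, π' (j b) = π b := fun b => IsLocalization.lift_eq _ b
  have q2 : ∀ m : M2 B, (m.map j).map π' = m.map π := fun m => Matrix.ext fun _ _ => q1 _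
  have a1 : ∀ l, (α l).map π = 1 := fun l => by
    rw [← map_one' π]
    ext a b
    exact sub_eq_zero.1 ((map_sub π _ _).symm.trans ((p2 _).2 (mem_Nil.2 (h.one l a b))))
  have hd : ∀ l, IsUnit ((α l).map j).det := fun l => by
    have := IsLocalization.map_units (Localization N) (⟨(α l).det, (hN _).2 (by
      rw [RingHom.map_det, RingHom.mapMatrix_apply, a1, Matrix.det_one]
      exact one_ne_zero)⟩ : N)
    rwa [RingHom.map_det] at this
  let D : Fd S (Localization N) :=
    { ι := j.comp (algebraMap O B)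
      π := π'
      ρ := j.mapMatrix.toMonoidHom.comp ρ
      α := fun l => (α l).map j
      β := fun l => ((α l).map j)⁻¹
      alg := fun c => (q1 _).trans (p1 c)
      res := fun g => (q2 _).trans (Matrix.ext fun a b => by
        have := (p2 _).2 (mem_Nil.2 (h.res g a b))
        rwa [map_sub, p1, hs, sub_eq_zero] at this)
      dg := ⟨(congrArg j h.dg.1).trans j.map_zero, (congrArg j h.dg.2).trans j.map_zero⟩
      nm := congrArg j h.nm
      inv := fun l => Matrix.mul_nonsing_inv _ (hd l)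
      one := fun l => (q2 _).trans (a1 l)
      fr := (congrArg j h.fr).trans j.map_one }
  refine ⟨Localization N, inferInstance, inferInstance, j, D, act, fun _ => rfl, fun _ => rfl,
    fun _ => rfl, fun C hC => ⟨fun v => ?_, fun x hx v => ?_, fun v => ?_, fun A _ X u hu e => ?_⟩⟩
  · obtain ⟨Y, hv, hY⟩ := h.fin v
    refine hY.subset ?_
    rintro _ ⟨x, rfl⟩
    obtain ⟨⟨b, c⟩, e⟩ := IsLocalization.surj N x
    obtain ⟨y, hy, rfl⟩ := sur c c.2 Y hY v hv
    show x • c.1 • y ∈ Y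
    rw [← act, ← mul_smul, e, act]
    exact Y.smul_mem _ hy
  · obtain ⟨⟨b, c⟩, e⟩ := IsLocalization.surj N x
    have e1 : π b = 0 := by
      rw [← q1, ← show x * j c = j b from e, map_mul, show π' x = 0 from hx, zero_mul]
    obtain ⟨n, hn⟩ := mem_Nil.1 ((p2 b).1 e1) v
    refine ⟨n, inj _ (pow_mem c.2 n) _ ?_⟩
    rw [← act, ← mul_smul, map_pow, ← mul_pow, mul_comm, show x * j c = j b from e, ← map_pow, act,
      hn]
  · refine Filter.mem_of_superset (h.opn v) fun g hg a b => ?_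
    rw [← hg a b, ← act]
    congr 1
    rw [← map_one' j]
    exact (map_sub j _ _).symm
  · refine hC A X (u.comp j) hu.ι (fun g => ?_) (fun l => ?_) fun b hb => e _ ?_ fun v => ?_
    · rw [← hu.ρ]
      rfl
    · rw [← hu.α]
      rfl
    · exact (q1 b).trans ((p2 b).2 (mem_Nil.2 fun v => ⟨1, by rw [pow_one, hb]⟩))
    · rw [act, hb]

/-- the entries of `ρ` and `α` suffice -/
theorem ev_lin' {D : Fd S B} {D' : Fd S B'} (θ : M →+ M')
    (h1 : ∀ c v, θ (D.ι c • v) = D'.ι c • θ v)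
    (h2 : ∀ x i j v, θ (D.ρ x i j • v) = D'.ρ x i j • θ v)
    (h3 : ∀ l i j v, θ (D.α l i j • v) = D'.α l i j • θ v) (w : W O G T) (v : M) :
    θ (D.ev w • v) = D'.ev w • θ v := by
  refine ev_lin θ h1 (fun x i j v => ?_) w v
  rcases x with x | l | l
  exacts [h2 x i j v, h3 l i j v, by
    show θ (D.β l i j • v) = D'.β l i j • θ v
    have e : ∀ k, ∑ a, D'.α l k a • θ (D.β l a j • v) = (1 : M2 B') k j • θ v := fun k => by
      simp only [← h3, ← map_sum, ← mul_smul, ← Finset.sum_smul, ← Matrix.mul_apply, D.inv]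
      by_cases hk : k = j <;> simp [Matrix.one_apply, hk]
    have e' := Finset.sum_congr (rfl : Finset.univ = _) fun k _ => congrArg (D'.β l i k • ·) (e k)
    simp only [Finset.smul_sum, ← mul_smul] at e'
    rw [Finset.sum_comm] at e'
    simp only [← Finset.sum_smul, ← Matrix.mul_apply, mul_eq_one_comm.1 (D'.inv l), mul_one] at e'
    simpa [Matrix.one_apply] using e']

/-- the same for two modules of the kind `Po` -/
theorem Ex.lin {B₁ B₁' : Type} [CommRing B₁] [CommRing B₁'] [Algebra O B] [Algebra O B']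
    [Module B₁ M] [Module B₁' M'] {ρ : G →* M2 B} {α : T → M2 B} {ρ' : G →* M2 B'}
    {α' : T → M2 B'} {j : B →+* B₁} {j' : B' →+* B₁'} {D : Fd S B₁} {D' : Fd S B₁'}
    (e : Ex M ρ α j D) (e' : Ex M' ρ' α' j' D') (θ : M →+ M')
    (h1 : ∀ c v, θ (algebraMap O B c • v) = algebraMap O B' c • θ v)
    (h2 : ∀ x a b v, θ (ρ x a b • v) = ρ' x a b • θ v)
    (h3 : ∀ l a b v, θ (α l a b • v) = α' l a b • θ v) (w : W O G T) (v : M) :
    θ (D.ev w • v) = D'.ev w • θ v :=
  ev_lin' θ (fun c v => by rw [e.io, e'.io, e.act, e'.act, h1])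
    (fun x a b v => by rw [e.rho, e'.rho, Matrix.map_apply, Matrix.map_apply, e.act, e'.act, h2])
    (fun l a b v => by rw [e.al, e'.al, Matrix.map_apply, Matrix.map_apply, e.act, e'.act, h3]) w v

end Ob

end Vale.Agent.P022K.RT
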