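import Vale.Agent.P022K.RT.FrmB
import Vale.Agent.P022K.RT.Obj2

/-!
# P022K, block RT, row FRAME, part C: the group ring, twists and frames
-/

set_option linter.all false

noncomputable section

namespace Vale.Agent.P022K.RT.Fm

open IsLocalRing Module
open MonoidAlgebra (single induction_linear single_mul_single single_pow natCast_def one_def
  single_sub single_add single_zero)
open Vale.Agent.P022D.L2b (M2)

variable {B M Δ : Type} [CommRing B] [AddCommGroup M] [Module B M] [CommGroup Δ]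

variable (B M Δ) in
/-- the group ring acts on the functions -/
abbrev gm : Module (MonoidAlgebra B Δ) (Δ → M) :=
  Module.compHom _ (MonoidAlgebra.lift B (End B (Δ → M)) Δ (tl B M)).toRingHom

attribute [local instance] gm

theorem single_smul (z : Δ) (b : B) (f : Δ → M) (d : Δ) :
    ((single z b : MonoidAlgebra B Δ) • f) d = b • f (d * z) := by
  show MonoidAlgebra.lift B (End B (Δ → M)) Δ (tl B M) (single z b) f d = _
  rw [MonoidAlgebra.lift_single]
  rfl

theorem c_smul (b : B) (f : Δ → M) : (single 1 b : MonoidAlgebra B Δ) • f = b • f :=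
  funext fun d => by rw [single_smul, mul_one]; rfl

theorem z_smul (z : Δ) (f : Δ → M) : (single z 1 : MonoidAlgebra B Δ) • f = tl B M z f :=
  funext fun d => by rw [single_smul, one_smul]; rfl

theorem alg_smul {O : Type} [CommRing O] [Algebra O B] [Module O M] [IsScalarTower O B M] (o : O)
    (f : Δ → M) : algebraMap O (MonoidAlgebra B Δ) o • f = o • f := by
  rw [show algebraMap O (MonoidAlgebra B Δ) o = single 1 (algebraMap O B o) from rfl, c_smul,
    algebraMap_smul]

/-- maps which commute with the scalars and the translations -/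
theorem gm_com (θ : (Δ → M) →+ (Δ → M)) (h1 : ∀ (b : B) f, θ (b • f) = b • θ f)
    (h2 : ∀ z f, θ (tl B M z f) = tl B M z (θ f)) (u : MonoidAlgebra B Δ) (f : Δ → M) :
    θ (u • f) = u • θ f := by
  induction u using induction_linear with
  | zero => simp
  | add x y hx hy => rw [add_smul, add_smul, map_add, hx, hy]
  | single z b =>
    rw [show single z b = single 1 b * single z 1 by simp [single_mul_single], mul_smul, mul_smul,
      c_smul, c_smul, z_smul, z_smul, h1, h2]

variable (Δ) in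
/-- operators on the values are linear over the group ring -/
def pl (θ : End B M) : End (MonoidAlgebra B Δ) (Δ → M) where
  toFun f d := θ (f d)
  map_add' _ _ := funext fun _ => map_add θ _ _
  map_smul' u f := gm_com (pw Δ θ).toAddMonoidHom (fun b f => (pw Δ θ).map_smul b f)
    (fun _ _ => rfl) u f

@[simp] theorem pl_apply (θ : End B M) (f : Δ → M) (d : Δ) : pl Δ θ f d = θ (f d) := rfl

theorem nl_c [Finite Δ] {u : B} (h : u ∈ nl B M) :
    (single 1 u : MonoidAlgebra B Δ) ∈ nl (MonoidAlgebra B Δ) (Δ → M) := mem_nl.2 fun f => by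
  choose n hn using fun d => mem_nl.1 h (f d)
  obtain ⟨k, hk⟩ := (Set.finite_range n).bddAbove
  refine ⟨k, ?_⟩
  rw [single_pow, one_pow, c_smul]
  exact funext fun d => pow_smul_zero (hn d) (hk ⟨d, rfl⟩)

section

variable [Finite Δ] {p n : ℕ} (hp : p.Prime) (h : (p : B) ∈ nl B M) (hΔ : ∀ z : Δ, z ^ p ^ n = 1)
include hp h hΔ

theorem nl_z (z : Δ) :
    (single z 1 - 1 : MonoidAlgebra B Δ) ∈ nl (MonoidAlgebra B Δ) (Δ → M) :=
  nl_of_unip (n := n) hp (by simpa only [natCast_def] using nl_c (Δ := Δ) h)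
    (by rw [single_pow, one_pow, hΔ, one_def])

theorem nl_single (z : Δ) {b c : B} (e : b - c ∈ nl B M) :
    (single z b - single 1 c : MonoidAlgebra B Δ) ∈ nl (MonoidAlgebra B Δ) (Δ → M) := by
  rw [show (single z b - single 1 c : MonoidAlgebra B Δ) =
    single 1 b * (single z 1 - 1) + single 1 (b - c) by
      simp [mul_sub, single_mul_single, single_sub]]
  exact add_mem (Ideal.mul_mem_left _ _ (nl_z hp h hΔ z)) (nl_c e)

theorem nl_aug (u : MonoidAlgebra B Δ) :
    ∃ b : B, u - single 1 b ∈ nl (MonoidAlgebra B Δ) (Δ → M) := by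
  induction u using induction_linear with
  | zero => exact ⟨0, by simp⟩
  | add x y hx hy =>
    obtain ⟨a, ha⟩ := hx
    obtain ⟨b, hb⟩ := hy
    exact ⟨a + b, by rw [single_add, add_sub_add_comm]; exact add_mem ha hb⟩
  | single z b => exact ⟨b, nl_single hp h hΔ z (by simp)⟩

end

theorem fin_gm [Finite Δ] (h : ∀ v : M, ∃ Y : Submodule B M, v ∈ Y ∧ (Y : Set M).Finite)
    (f : Δ → M) : ∃ Y : Submodule (MonoidAlgebra B Δ) (Δ → M), f ∈ Y ∧ (Y : Set (Δ → M)).Finite := by
  choose Y h1 h2 using fun d => h (f d)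
  have := Fintype.ofFinite Δ
  have fin : ((⨆ d, Y d : Submodule B M) : Set M).Finite := by
    refine ((Set.Finite.pi' h2).image fun x : Δ → M => ∑ d, x d).subset fun v hv => ?_
    obtain ⟨x, hx, rfl⟩ := (Submodule.mem_iSup_iff_exists_finsupp _ _).1 hv
    exact ⟨x, hx, (Finsupp.sum_fintype x (fun _ y => y) fun _ => rfl).symm⟩
  refine ⟨{ carrier := {g | ∀ d, g d ∈ ⨆ d, Y d}
            add_mem' := fun ha hb d => add_mem (ha d) (hb d)
            zero_mem' := fun _ => zero_mem _
            smul_mem' := fun u g hg => ?_ }, fun d => Submodule.mem_iSup_of_mem d (h1 d),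
    Set.Finite.pi' fun _ => fin⟩
  induction u using induction_linear with
  | zero => exact fun d => by rw [zero_smul]; exact zero_mem _
  | add x y hx hy => exact fun d => by rw [add_smul]; exact add_mem (hx d) (hy d)
  | single z b => exact fun d => by rw [single_smul]; exact Submodule.smul_mem _ _ (hg _)

variable {G T : Type} [Group G]

/-- the twisted representation, conjugated by a diagonal matrix -/
def tw (χ : G →* Δ) (x : Fin 2 → Δ) (ρ : G →* M2 B) : G →* M2 (MonoidAlgebra B Δ) where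
  toFun g := Matrix.of fun i j => single (χ g * (x j / x i)) (ρ g i j)
  map_one' := by
    ext1 i j
    fin_cases i <;> fin_cases j <;> simp [one_def]
  map_mul' g h := by
    ext1 i j
    have e : ∀ k, χ g * (x k / x i) * (χ h * (x j / x k)) = χ g * χ h * (x j / x i) := fun k => by
      simp only [div_eq_mul_inv]
      rw [mul_mul_mul_comm, mul_mul_mul_comm (x k), mul_comm (x i)⁻¹, mul_mul_mul_comm (x k),
        mul_inv_cancel, one_mul]
    simp only [Matrix.of_apply, Matrix.mul_apply, Fin.sum_univ_two, single_mul_single, e, map_mul,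
      single_add]

theorem tw_apply (χ : G →* Δ) (x : Fin 2 → Δ) (ρ : G →* M2 B) (g : G) (i j : Fin 2) :
    tw χ x ρ g i j = single (χ g * (x j / x i)) (ρ g i j) := rfl

theorem tw_trace (χ : G →* Δ) (x : Fin 2 → Δ) (ρ : G →* M2 B) (g : G) :
    (tw χ x ρ g).trace = single (χ g) (ρ g).trace := by
  simp [Matrix.trace_fin_two, tw_apply, single_add]

theorem tw_det (χ : G →* Δ) (x : Fin 2 → Δ) (ρ : G →* M2 B) (g : G) :
    (tw χ x ρ g).det = single (χ g * χ g) (ρ g).det := by
  have e : χ g * (x 1 / x 0) * (χ g * (x 0 / x 1)) = χ g * χ g := by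
    rw [mul_mul_mul_comm, div_mul_div_cancel, div_self', mul_one]
  simp only [Matrix.det_fin_two, tw_apply, single_mul_single, e, div_self', mul_one, single_sub]

/-- the frames -/
def fa (φ : T → Fin 2 → Fin 2 → Δ) (t : T) : M2 (MonoidAlgebra B Δ) :=
  1 + Matrix.of fun i j => single (φ t i j) 1 - 1

theorem fa_sub (φ : T → Fin 2 → Fin 2 → Δ) (t : T) (i j : Fin 2) :
    (fa φ t - 1 : M2 (MonoidAlgebra B Δ)) i j = single (φ t i j) 1 - 1 := by simp [fa]

/-- the matrix units -/
def eu (x : Fin 2 → Δ) (e : Fin 2 → Fin 2 → End B M) (i j : Fin 2) :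
    End (MonoidAlgebra B Δ) (Δ → M) := (single (x i / x j) 1 : MonoidAlgebra B Δ) • pl Δ (e i j)

theorem eu_apply (x : Fin 2 → Δ) (e : Fin 2 → Fin 2 → End B M) (i j : Fin 2) (f : Δ → M) (d : Δ) :
    eu x e i j f d = e i j (f (d * (x i / x j))) := by
  rw [eu, LinearMap.smul_apply, single_smul, one_smul, pl_apply]

theorem Eu.eu {e : Fin 2 → Fin 2 → End B M} (h : Eu e) (x : Fin 2 → Δ) : Eu (eu x e) where
  mul i j k := LinearMap.ext fun f => funext fun d => by
    rw [End.mul_apply, eu_apply, eu_apply, eu_apply, mul_assoc, div_mul_div_cancel,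
      ← End.mul_apply, h.mul]
  zero i j k l c := LinearMap.ext fun f => funext fun d => by
    rw [End.mul_apply, eu_apply, eu_apply, ← End.mul_apply, h.zero _ _ _ _ c]
    rfl
  one := LinearMap.ext fun f => funext fun d => by
    simp only [LinearMap.sum_apply, Finset.sum_apply, eu_apply, div_self', mul_one]
    rw [← LinearMap.sum_apply, h.one]
    rfl

theorem Eu.hom_tw {e : Fin 2 → Fin 2 → End B M} (h : Eu e) (χ : G →* Δ) (x : Fin 2 → Δ)
    (ρ : G →* M2 B) (g : G) (f : Δ → M) (d : Δ) :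
    (h.eu x).hom (tw χ x ρ g) f d = h.hom (ρ g) (f (d * χ g)) := by
  simp only [Eu.hom_apply, LinearMap.sum_apply, Finset.sum_apply, LinearMap.smul_apply, tw_apply,
    single_smul, eu_apply, mul_assoc, div_mul_div_cancel, div_self', mul_one]

theorem tw_sub_smul (χ : G →* Δ) (x : Fin 2 → Δ) (ρ : G →* M2 B) {g : G} (hg : χ g = 1)
    (i j : Fin 2) (f : Δ → M) (d : Δ) :
    ((tw χ x ρ g - 1) i j • f) d = (ρ g - 1) i j • f (d * (x j / x i)) := by
  have e : (tw χ x ρ g - 1) i j = single (x j / x i) ((ρ g - 1) i j) := by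
    rw [Matrix.sub_apply, Matrix.sub_apply, tw_apply, hg, one_mul, single_sub, Matrix.one_apply,
      Matrix.one_apply]
    split_ifs with c
    · rw [c, div_self', one_def]
    · rw [single_zero]
  rw [e, single_smul]

variable {O F : Type} [CommRing O] [IsLocalRing O] [Field F] [Algebra O B] [TopologicalSpace G]
  {S : RU.Dat O F G T} {s : F → O} {ρ : G →* M2 B}

/-- **frames and twists** -/
theorem po_fr [Finite Δ] {p n : ℕ} (hp : p.Prime) (hm : (p : O) ∈ maximalIdeal O)
    (hΔ : ∀ z : Δ, z ^ p ^ n = 1) (h : Po S s B M ρ fun _ => 1) (χ : G →* Δ) (x : Fin 2 → Δ)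
    (φ : T → Fin 2 → Fin 2 → Δ) (hχ : {g | χ g = 1} ∈ nhds (1 : G))
    (hx : χ S.g1 * (x 1 / x 0) = 1) (hφ : φ S.l0 0 0 = 1) :
    Po S s (MonoidAlgebra B Δ) (Δ → M) (tw χ x ρ) (fa φ) := by
  have h0 : (p : B) ∈ nl B M := by simpa using nl_of_fin h.fin hm
  refine ⟨fin_gm h.fin, fun u => ?_, fun g i j => mem_nl.1 (nl_single hp h0 hΔ _
    (mem_nl.2 (h.res g i j))), fun t i j => mem_nl.1 ?_, fun f => ?_, ?_, ?_, ?_⟩
  · obtain ⟨b, hb⟩ := nl_aug hp h0 hΔ u
    obtain ⟨c, hc⟩ := h.all b
    refine ⟨c, mem_nl.1 ?_⟩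
    have := add_mem hb (nl_single hp h0 hΔ 1 (mem_nl.2 hc))
    rwa [sub_add_sub_cancel] at this
  · rw [fa_sub]
    exact nl_z hp h0 hΔ _
  · filter_upwards [hχ, Filter.iInter_mem.2 fun d => h.opn (f d)] with g h1 h2 i j
    funext d
    rw [tw_sub_smul χ x ρ h1]
    exact Set.mem_iInter.1 h2 _ i j
  · rw [tw_apply, tw_apply, h.dg.1, h.dg.2, single_zero, single_zero]
    exact ⟨rfl, rfl⟩
  · rw [tw_apply, hx, h.nm]
    rfl
  · simp [fa, hφ, one_def]

omit [IsLocalRing O] in
theorem po_mu [Module O M] {γ : G →* End O M} {ε : G →* O} {E : M2 B →+* End O M}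
    (h : Mu S s γ ε B ρ E) (k : Gm S s γ ε) (o : ∀ v, {g | γ g v = v} ∈ nhds (1 : G)) :
    Po S s B M ρ fun _ => 1 :=
  ⟨h.fin k, h.all, h.res, fun _ i j v => ⟨1, by simp⟩, h.opn o, h.dg, h.nm, by simp⟩

end Vale.Agent.P022K.RT.Fm
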