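import Vale.Agent.P022K.RT.St2

/-!
# P022K, block RT, row GAL: from a Galois action of rank two to matrices
-/

set_option linter.all false

noncomputable section

namespace Vale.Agent.P022K.RT

open IsLocalRing MulOpposite
open Vale.Agent.P022D.L2b (M2)

namespace Ga

section units

variable {B A : Type} [CommRing B] [Ring A] [Algebra B A]

/-- matrix units -/
structure Un (e p q f : A) : Prop where
  one : e + f = 1
  ee : e * e = e
  ep : e * p = p
  pe : p * e = 0
  qe : q * e = q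
  eq : e * q = 0
  pq : p * q = e
  qp : q * p = f

variable {e p q f : A} (h : Un e p q f)
include h

theorem Un.f_eq : f = 1 - e := eq_sub_of_add_eq' h.one
theorem Un.ef : e * f = 0 := by rw [h.f_eq, mul_sub, mul_one, h.ee, sub_self]
theorem Un.fe : f * e = 0 := by rw [h.f_eq, sub_mul, one_mul, h.ee, sub_self]
theorem Un.ff : f * f = f := by nth_rw 1 [h.f_eq]; rw [sub_mul, one_mul, h.ef, sub_zero]
theorem Un.pf : p * f = p := by rw [h.f_eq, mul_sub, mul_one, h.pe, sub_zero]
theorem Un.fp : f * p = 0 := by rw [h.f_eq, sub_mul, one_mul, h.ep, sub_self]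
theorem Un.qf : q * f = 0 := by rw [h.f_eq, mul_sub, mul_one, h.qe, sub_self]
theorem Un.fq : f * q = q := by rw [h.f_eq, sub_mul, one_mul, h.eq, sub_zero]
theorem Un.pp : p * p = 0 := by nth_rw 2 [← h.ep]; rw [← mul_assoc, h.pe, zero_mul]
theorem Un.qq : q * q = 0 := by nth_rw 1 [← h.qe]; rw [mul_assoc, h.eq, mul_zero]

variable (B) in
/-- the homomorphism given by matrix units -/
def Un.hom : M2 B →ₐ[B] A :=
  AlgHom.ofLinearMap
    { toFun := fun m => m 0 0 • e + m 0 1 • p + m 1 0 • q + m 1 1 • f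
      map_add' := fun a b => by simp only [Matrix.add_apply]; module
      map_smul' := fun c a => by simp only [Matrix.smul_apply, smul_eq_mul, RingHom.id_apply]; module }
    (by simp [h.one]) fun a b => by
      simp only [LinearMap.coe_mk, AddHom.coe_mk, Matrix.mul_apply, Fin.sum_univ_two, add_mul,
        mul_add, smul_mul_smul_comm, h.ee, h.ep, h.pe, h.qe, h.eq, h.pq, h.qp, h.ef, h.fe, h.ff,
        h.pf, h.fp, h.qf, h.fq, h.pp, h.qq, smul_zero]
      module

theorem Un.hom_apply (m : M2 B) :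
    h.hom B m = m 0 0 • e + m 0 1 • p + m 1 0 • q + m 1 1 • f := rfl

theorem Un.ze (inj : Function.Injective (algebraMap B A)) {c : B} (k : c • e = 0) : c = 0 := by
  have k2 : c • f = 0 := by
    rw [← h.qp, ← h.ep, ← mul_smul_comm, ← smul_mul_assoc, k, zero_mul, mul_zero]
  refine inj ?_
  rw [Algebra.algebraMap_eq_smul_one, ← h.one, smul_add, k, k2, add_zero, map_zero]

theorem Un.inj (inj : Function.Injective (algebraMap B A)) : Function.Injective (h.hom B) := by
  refine (injective_iff_map_eq_zero _).2 fun m hm => ?_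
  rw [h.hom_apply] at hm
  have a := congrArg (fun x => e * x * e) hm
  have b := congrArg (fun x => e * x * q) hm
  have c := congrArg (fun x => p * x * e) hm
  have d := congrArg (fun x => p * x * q) hm
  simp only [add_mul, mul_add, mul_smul_comm, smul_mul_assoc, h.ee, h.ep, h.pe, h.qe, h.eq, h.pq,
    h.ef, h.pf, h.pp, smul_zero, zero_mul, mul_zero, add_zero, zero_add] at a b c d
  ext i j
  fin_cases i <;> fin_cases j
  exacts [h.ze inj a, h.ze inj b, h.ze inj c, h.ze inj d]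

end units

section core

variable {B A F G : Type} [CommRing B] [Ring A] [Algebra B A] [Field F] [Algebra B F] [Group G]
  (γ : G →* A) (ε : G →* B) (rb : G →* M2 F)

/-- the action, its adjoint and the residual representation -/
def tri : G →* A × Aᵐᵒᵖ × M2 F where
  toFun g := (γ g, op (ε g • γ g⁻¹), rb g)
  map_one' := by simp
  map_mul' g h := by
    simp only [Prod.mk_mul_mk, ← op_mul, smul_mul_smul_comm, mul_inv_rev, map_mul, mul_comm (ε g)]

/-- `x` has trace `a` and residual matrix `m` -/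
def W (x : A) (a : B) (m : M2 F) : Prop :=
  (x, op (a • 1 - x), m) ∈ Algebra.adjoin B (Set.range (tri γ ε rb)) ∧ algebraMap B F a = m.trace

variable {γ ε rb} {t : G → B} (ht : ∀ g, γ g + ε g • γ g⁻¹ = t g • 1)
  (htr : ∀ g, algebraMap B F (t g) = (rb g).trace) {x y : A} {a b : B} {m n : M2 F}

theorem W.add (h : W γ ε rb x a m) (k : W γ ε rb y b n) : W γ ε rb (x + y) (a + b) (m + n) :=
  ⟨by convert add_mem h.1 k.1 using 1; simp only [Prod.mk_add_mk, ← op_add]; congr 3; module,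
    by rw [map_add, h.2, k.2, Matrix.trace_add]⟩

theorem W.smul (c : B) (h : W γ ε rb x a m) : W γ ε rb (c • x) (c * a) (c • m) :=
  ⟨by convert Subalgebra.smul_mem _ h.1 c using 1
      simp only [Prod.smul_mk, ← op_smul]; congr 3; module,
    by rw [map_mul, h.2, Matrix.trace_smul, Algebra.smul_def]⟩

theorem W.sub (h : W γ ε rb x a m) (k : W γ ε rb y b n) : W γ ε rb (x - y) (a - b) (m - n) := by
  simpa [sub_eq_add_neg] using h.add (k.smul (-1))

theorem W.congr (h : W γ ε rb x a m) (e : m = n) : W γ ε rb x a n := e ▸ h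

theorem W.mem (h : W γ ε rb x a m) : x ∈ Algebra.adjoin B (Set.range γ) := by
  have := Subalgebra.mem_map.2 ⟨_, h.1, (rfl : AlgHom.fst B A _ _ = x)⟩
  rw [AlgHom.map_adjoin, ← Set.range_comp] at this
  exact this

include ht htr

theorem W.of (g : G) : W γ ε rb (γ g) (t g) (rb g) :=
  ⟨Algebra.subset_adjoin ⟨g, by rw [← ht, add_sub_cancel_left]; rfl⟩, htr g⟩

theorem ex_W {z : A × Aᵐᵒᵖ × M2 F} (hz : z ∈ Algebra.adjoin B (Set.range (tri γ ε rb))) :
    ∃ a, W γ ε rb z.1 a z.2.2 ∧ z.2.1 = op (a • 1 - z.1) := by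
  have hz' := hz
  rw [← Subalgebra.mem_toSubmodule, Algebra.adjoin_eq_span, ← MonoidHom.coe_mrange,
    Submonoid.closure_eq] at hz'
  clear hz
  induction hz' using Submodule.span_induction with
  | mem z hz =>
    obtain ⟨g, rfl⟩ := hz
    exact ⟨t g, W.of ht htr g, by rw [← ht]; exact congrArg op (add_sub_cancel_left _ _).symm⟩
  | zero => exact ⟨0, by simpa using (W.of ht htr 1).smul 0, by simp⟩
  | add z w _ _ h k =>
    obtain ⟨a, h1, h2⟩ := h
    obtain ⟨b, k1, k2⟩ := k
    refine ⟨_, h1.add k1, ?_⟩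
    rw [Prod.snd_add, Prod.fst_add, h2, k2, ← op_add, Prod.fst_add]
    congr 1; module
  | smul c z _ h =>
    obtain ⟨a, h1, h2⟩ := h
    refine ⟨_, h1.smul c, ?_⟩
    rw [Prod.smul_snd, Prod.smul_fst, h2, ← op_smul, Prod.smul_fst]
    congr 1; module

theorem W.mul (h : W γ ε rb x a m) (k : W γ ε rb y b n) :
    ∃ c, W γ ε rb (x * y) c (m * n) ∧ c • 1 - x * y = (b • 1 - y) * (a • 1 - x) := by
  obtain ⟨c, h1, h2⟩ := ex_W ht htr (mul_mem h.1 k.1)
  exact ⟨c, h1, (op_injective h2).symm⟩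

theorem W.sand {e : A} {n : M2 F} (he : W γ ε rb e 1 n) (ee : e * e = e) (h : W γ ε rb x a m) :
    ∃ c, W γ ε rb (x * e) c (m * n * n) ∧ e * x * e = c • e := by
  obtain ⟨c, h1, -⟩ := h.mul ht htr he
  obtain ⟨d, h2, h3⟩ := h1.mul ht htr he
  rw [mul_assoc, ee] at h2 h3
  refine ⟨d, h2, ?_⟩
  have := congrArg (e * ·) h3
  simp only [one_smul] at this
  rw [← mul_assoc, mul_sub e 1, mul_one, ee, sub_self, zero_mul, mul_sub, mul_smul_comm, mul_one,
    sub_eq_zero] at this
  rw [this, mul_assoc]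

/-- **matrices for a Cayley-Hamilton action** -/
theorem core (inj : Function.Injective (algebraMap B A))
    (hun : ∀ b, algebraMap B F b ≠ 0 → IsUnit b) {g0 g1 g2 : G} {α β lam : B}
    (hs : α + β = t g0) (hp : α * β = ε g0)
    (h0 : rb g0 = !![algebraMap B F α, 0; 0, algebraMap B F β])
    (hne : algebraMap B F α ≠ algebraMap B F β) (hl : algebraMap B F lam = rb g1 0 1)
    (n01 : rb g1 0 1 ≠ 0) (n10 : rb g2 1 0 ≠ 0) :
    ∃ (ρ : G →* M2 B) (E : M2 B →ₐ[B] A), (∀ g, E (ρ g) = γ g) ∧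
      (∀ m, E m ∈ Algebra.adjoin B (Set.range γ)) ∧ (ρ g0 0 1 = 0 ∧ ρ g0 1 0 = 0) ∧
      ρ g1 0 1 = lam ∧ (∀ g, (ρ g).det = ε g) ∧ (∀ g, (ρ g).trace = t g) ∧
      ∀ g i j, algebraMap B F (ρ g i j) = rb g i j := by
  have w := W.of ht htr
  have w1 : W γ ε rb 1 2 1 := by
    have := w 1
    rw [map_one, map_one] at this
    convert this
    refine inj ?_
    rw [Algebra.algebraMap_eq_smul_one (t 1), ← ht, map_ofNat]
    simp [one_add_one_eq_two]
  obtain ⟨u, hu⟩ := (hun (α - β) (by rw [map_sub]; exact sub_ne_zero.2 hne)).exists_left_inv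
  obtain ⟨l, hl'⟩ := (hun lam (hl ▸ n01)).exists_left_inv
  have hub := congrArg (algebraMap B F) hu
  have hlb := congrArg (algebraMap B F) hl'
  rw [map_mul, map_one] at hub hlb
  rw [map_sub] at hub
  rw [hl] at hlb
  obtain ⟨e, he⟩ : ∃ e : A, e = u • (γ g0 - β • 1) := ⟨_, rfl⟩
  have hg : γ g0 * γ g0 = (α + β) • γ g0 - (α * β) • 1 := by
    have := congrArg (γ g0 * ·) (ht g0)
    simp only [mul_add, mul_smul_comm, ← map_mul γ g0 g0⁻¹, mul_inv_cancel, map_one,
      mul_one] at this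
    rw [hs, hp, ← this, add_sub_cancel_right]
  have hge : γ g0 * e = α • e := by
    rw [he, mul_smul_comm, mul_sub, hg, mul_smul_comm, mul_one, smul_comm α u]
    congr 1
    module
  have hgg : γ g0 = (α - β) • e + β • 1 := by
    rw [he, smul_smul, mul_comm, hu, one_smul, sub_add_cancel]
  have ee : e * e = e := by
    conv_lhs => rw [he, smul_mul_assoc, sub_mul, ← he, hge, smul_mul_assoc, one_mul, ← sub_smul,
      smul_smul, hu, one_smul]
  have we : W γ ε rb e 1 !![1, 0; 0, 0] := by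
    convert ((w g0).sub (w1.smul β)).smul u using 1
    · rw [← hu, ← hs]; ring
    · rw [h0]
      ext i j
      fin_cases i <;> fin_cases j <;> simp [Algebra.smul_def, hub, Matrix.algebraMap_matrix_apply]
  obtain ⟨f, hf⟩ : ∃ f : A, f = 1 - e := ⟨_, rfl⟩
  have wf : W γ ε rb f 1 !![0, 0; 0, 1] := by
    convert w1.sub we using 1
    · norm_num
    · ext i j
      fin_cases i <;> fin_cases j <;> simp
  have ef : e * f = 0 := by rw [hf, mul_sub, mul_one, ee, sub_self]
  have fe : f * e = 0 := by rw [hf, sub_mul, one_mul, ee, sub_self]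
  have ff : f * f = f := by nth_rw 1 [hf]; rw [sub_mul, one_mul, ef, sub_zero]
  obtain ⟨p, hpp⟩ : ∃ p : A, p = l • (e * γ g1 * f) := ⟨_, rfl⟩
  obtain ⟨a1, wp⟩ : ∃ a, W γ ε rb p a !![0, 1; 0, 0] := by
    obtain ⟨_, k, -⟩ := we.mul ht htr (w g1)
    obtain ⟨_, k, -⟩ := k.mul ht htr wf
    refine ⟨_, W.congr (hpp ▸ k.smul l) ?_⟩
    ext i j
    fin_cases i <;> fin_cases j <;>
      simp [Algebra.smul_def, hlb, Matrix.mul_apply, Fin.sum_univ_two, Matrix.vecMul, dotProduct]
  obtain ⟨a2, wq⟩ : ∃ a, W γ ε rb (f * γ g2 * e) a !![0, 0; rb g2 1 0, 0] := by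
    obtain ⟨_, k, -⟩ := wf.mul ht htr (w g2)
    obtain ⟨_, k, -⟩ := k.mul ht htr we
    refine ⟨_, W.congr k ?_⟩
    ext i j
    fin_cases i <;> fin_cases j <;>
      simp [Matrix.mul_apply, Fin.sum_univ_two, Matrix.vecMul, dotProduct]
  have ep : e * p = p := by rw [hpp, mul_smul_comm, ← mul_assoc, ← mul_assoc, ee]
  have pf : p * f = p := by rw [hpp, smul_mul_assoc, mul_assoc, ff]
  obtain ⟨_, k, -⟩ := wp.mul ht htr wq
  obtain ⟨c, k1, k2⟩ := we.sand ht htr ee k
  obtain ⟨_, k, -⟩ := wq.mul ht htr wp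
  obtain ⟨d, k3, k4⟩ := wf.sand ht htr ff k
  have c1 : algebraMap B F c = rb g2 1 0 := by rw [k1.2]; simp [Matrix.trace_fin_two]
  have d1 : algebraMap B F d = rb g2 1 0 := by rw [k3.2]; simp [Matrix.trace_fin_two]
  obtain ⟨v, hv⟩ := (hun c (c1 ▸ n10)).exists_left_inv
  have hvb := congrArg (algebraMap B F) hv
  rw [map_mul, map_one, c1] at hvb
  obtain ⟨q, hq⟩ : ∃ q : A, q = v • (f * γ g2 * e) := ⟨_, rfl⟩
  have wq' : W γ ε rb q (v * a2) !![0, 0; 1, 0] := by
    convert wq.smul v using 1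
    ext i j
    fin_cases i <;> fin_cases j <;> simp [Algebra.smul_def, hvb]
  have qe : q * e = q := by rw [hq, smul_mul_assoc, mul_assoc, ee]
  have pq : p * q = e := by
    rw [← mul_assoc, ep, mul_assoc, mul_assoc _ e e, ee] at k2
    rw [hq, mul_smul_comm, k2, smul_smul, hv, one_smul]
  have qp : q * p = f := by
    rw [mul_assoc f, mul_assoc _ p f, pf, ← mul_assoc, ← mul_assoc, ← mul_assoc, ff] at k4
    have k5 : q * p = (v * d) • f := by rw [hq, smul_mul_assoc, k4, smul_smul]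
    obtain ⟨r, hr⟩ := (hun (v * d) (by rw [map_mul, d1, hvb]; exact one_ne_zero)).exists_left_inv
    have k6 : q * p * (q * p) = q * p := by rw [mul_assoc, ← mul_assoc p, pq, ep]
    nth_rw 1 [k5] at k6
    rw [k5, smul_mul_smul_comm, ff] at k6
    have := congrArg (r • ·) k6
    simp only [smul_smul] at this
    rw [← mul_assoc r, hr, one_mul, one_smul] at this
    rw [k5, this]
  have U : Un e p q f := ⟨by rw [hf, add_sub_cancel], ee, ep,
    by rw [← pf, mul_assoc, fe, mul_zero], qe,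
    by rw [hq, mul_smul_comm, ← mul_assoc, ← mul_assoc, ef, zero_mul, zero_mul, smul_zero], pq, qp⟩
  have I := U.inj inj
  have z0 : ∀ {d : B} {m}, W γ ε rb 0 d m → d = 0 := fun {d m} k => by
    obtain ⟨c, -, k⟩ := k.mul ht htr wf
    rw [zero_mul, sub_zero, sub_zero, one_smul, hf, sub_sub_cancel, mul_smul_comm, mul_one] at k
    have := congrArg (p * · * q) k
    simp only [mul_smul_comm, smul_mul_assoc, mul_one, pq, U.pe, zero_mul, smul_zero] at this
    rw [U.ze inj this, zero_smul] at k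
    exact U.ze inj k.symm
  have ex : ∀ g, ∃ X : M2 B, U.hom B X = γ g ∧ X.trace = t g ∧
      ∀ i j, algebraMap B F (X i j) = rb g i j := fun g => by
    obtain ⟨c1, r1, s1⟩ := we.sand ht htr ee (w g)
    obtain ⟨c4, r4, s4⟩ := wf.sand ht htr ff (w g)
    obtain ⟨_, k, -⟩ := (w g).mul ht htr wq'
    obtain ⟨c2, r2, s2⟩ := we.sand ht htr ee k
    obtain ⟨_, k, -⟩ := (w g).mul ht htr wp
    obtain ⟨c3, r3, s3⟩ := wf.sand ht htr ff k
    refine ⟨!![c1, c2; c3, c4], ?_, ?_, fun i j => ?_⟩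
    · have t2 : c2 • p = e * γ g * f := by
        rw [← ep, ← smul_mul_assoc, ← s2, mul_assoc e, mul_assoc _ q e, qe, ← qp]
        simp only [mul_assoc]
      have t3 : c3 • q = f * γ g * e := by
        rw [← U.fq, ← smul_mul_assoc, ← s3, mul_assoc f, mul_assoc _ p f, pf, ← pq]
        simp only [mul_assoc]
      rw [U.hom_apply]
      show c1 • e + c2 • p + c3 • q + c4 • f = _
      rw [← s1, ← s4, t2, t3, add_assoc, ← mul_add, ← mul_add, ← add_mul, ← add_mul,
        U.one, one_mul, mul_one]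
    · have := (r1.add r4).sub (w g)
      rw [← mul_add, U.one, mul_one, sub_self] at this
      rw [Matrix.trace_fin_two_of]
      exact sub_eq_zero.1 (z0 this)
    · fin_cases i <;> fin_cases j <;>
        simp [r1.2, r2.2, r3.2, r4.2, Matrix.trace_fin_two, Matrix.mul_apply, Fin.sum_univ_two]
  choose ρ r1 r2 r3 using ex
  let ρ' : G →* M2 B := ⟨⟨ρ, I (by rw [r1, map_one, map_one])⟩, fun g h => I (by
    simp only [r1, map_mul])⟩
  have d0 : ρ g0 = !![α, 0; 0, β] := I (by
    rw [r1, U.hom_apply, hgg, hf]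
    simp only [Matrix.of_apply, Matrix.cons_val', Matrix.cons_val_zero, Matrix.cons_val_one,
      Matrix.cons_val_fin_one]
    module)
  refine ⟨ρ', U.hom B, r1, fun m => ?_, ?_, ?_, fun g => ?_, r2, r3⟩
  · exact add_mem (add_mem (add_mem (Subalgebra.smul_mem _ we.mem _)
      (Subalgebra.smul_mem _ wp.mem _)) (Subalgebra.smul_mem _ wq'.mem _))
      (Subalgebra.smul_mem _ wf.mem _)
  · show ρ g0 0 1 = 0 ∧ ρ g0 1 0 = 0
    rw [d0]; simp
  · have k : e * γ g1 * q = lam • e := by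
      have : lam • p = e * γ g1 * f := by rw [hpp, smul_smul, mul_comm lam, hl', one_smul]
      rw [← U.fq, ← mul_assoc, ← this, smul_mul_assoc, pq]
    rw [← r1, U.hom_apply] at k
    simp only [add_mul, mul_add, mul_smul_comm, smul_mul_assoc, ee, ep, U.eq, pq, ef, smul_zero,
      zero_mul, add_zero, zero_add] at k
    exact sub_eq_zero.1 (U.ze inj (by rw [sub_smul]; exact sub_eq_zero.2 k))
  · have e3 : ρ g * ρ g + ε g • (1 : M2 B) = t g • ρ g := I (by
      have := congrArg (γ g * ·) (ht g)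
      simp only [mul_add, mul_smul_comm, ← map_mul γ g g⁻¹, mul_inv_cancel, map_one,
        mul_one] at this
      simpa only [map_add, map_mul, map_smul, map_one, r1] using this)
    have e4 := congrFun (congrFun e3 0) 0
    have e5 := r2 g
    rw [Matrix.trace_fin_two] at e5
    show (ρ g).det = _
    rw [Matrix.det_fin_two]
    simp [Matrix.mul_apply, Fin.sum_univ_two] at e4
    linear_combination -e4 + (ρ g 0 0) * e5

end core

section lim

variable {B M : Type} [CommRing B] [AddCommGroup M] [Module B M]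

variable (B M) in
/-- the locally nilpotent elements -/
def Nl : Ideal B := ⨅ v : M, (Ideal.torsionOf B M v).radical

theorem mem_rad {u : B} {v : M} : u ∈ (Ideal.torsionOf B M v).radical ↔ ∃ n : ℕ, u ^ n • v = 0 :=
  exists_congr fun _ => Ideal.mem_torsionOf_iff _ _

theorem mem_Nl {u : B} : u ∈ Nl B M ↔ ∀ v : M, ∃ n : ℕ, u ^ n • v = 0 :=
  Ideal.mem_iInf.trans (forall_congr' fun _ => mem_rad)

variable (B M) in
/-- sequences which are pointwise eventually constant have a limit -/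
def Lim : Prop := ∀ x : ℕ → B, (∀ v : M, ∃ K, ∀ k ≥ K, x k • v = x K • v) →
  ∃ y : B, ∀ v : M, ∃ K, ∀ k ≥ K, y • v = x k • v

theorem pow_smul_le {n : B} {v : M} {K k : ℕ} (h : n ^ K • v = 0) (l : K ≤ k) (c : B) :
    (n ^ k * c) • v = 0 := by
  rw [← Nat.sub_add_cancel l, pow_add, mul_right_comm, mul_smul, h, smul_zero]

theorem Lim.ex (h : Lim B M) {n : B} (hn : n ∈ Nl B M) {x : ℕ → B}
    (hx : ∀ k, n ^ k ∣ x (k + 1) - x k) : ∃ y : B, ∀ v : M, ∃ K, ∀ k ≥ K, y • v = x k • v := by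
  refine h x fun v => ?_
  obtain ⟨K, hK⟩ := mem_Nl.1 hn v
  refine ⟨K, fun k hk => ?_⟩
  induction k, hk using Nat.le_induction with
  | base => rfl
  | succ k l ih =>
    obtain ⟨c, hc⟩ := hx k
    rw [← ih, ← sub_eq_zero, ← sub_smul, hc, pow_smul_le hK l]

variable [FaithfulSMul B M]

theorem Lim.unit (h : Lim B M) {n : B} (hn : n ∈ Nl B M) : IsUnit (1 - n) := by
  obtain ⟨y, hy⟩ := h.ex hn (x := fun k => ∑ i ∈ Finset.range k, n ^ i) fun k => by
    rw [Finset.sum_range_succ, add_sub_cancel_left]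
  refine IsUnit.of_mul_eq_one y (eq_of_smul_eq_smul fun v : M => ?_)
  obtain ⟨K, hK⟩ := hy v
  obtain ⟨L, hL⟩ := mem_Nl.1 hn v
  rw [mul_smul, hK _ (le_max_left K L), ← mul_smul, mul_neg_geom_sum, sub_smul,
    ← mul_one (n ^ _), pow_smul_le hL (le_max_right K L), sub_zero]

theorem Lim.root (h : Lim B M) {t d a : B} (hn : a ^ 2 - t * a + d ∈ Nl B M)
    (hu : IsUnit (2 * a - t)) : ∃ α β : B, α + β = t ∧ α * β = d ∧ α - a ∈ Nl B M := by
  obtain ⟨w, hw⟩ := hu.exists_left_inv
  obtain ⟨n, e⟩ : ∃ n, n = a ^ 2 - t * a + d := ⟨_, rfl⟩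
  rw [← e] at hn
  let x : ℕ → B := fun k => Nat.rec a (fun _ y => y - w * (y ^ 2 - t * y + d)) k
  have xs : ∀ k, x (k + 1) = x k - w * (x k ^ 2 - t * x k + d) := fun _ => rfl
  have k1 : ∀ k, n ∣ x k - a ∧ n ^ (k + 1) ∣ x k ^ 2 - t * x k + d := fun k => by
    induction k with
    | zero => exact ⟨by simp [x], by rw [zero_add, pow_one, e]; rfl⟩
    | succ k ih =>
      obtain ⟨⟨b, hb⟩, c, hc⟩ := ih
      rw [xs, hc]
      refine ⟨⟨b - w * n ^ k * c, by linear_combination hb⟩,
        ⟨c * (w ^ 2 * n ^ k * c - 2 * w * b), ?_⟩⟩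
      linear_combination hc - (n ^ (k + 1) * c) * hw - (2 * w * n ^ (k + 1) * c) * hb
  obtain ⟨y, hy⟩ := h.ex hn (x := x) fun k => by
    rw [xs, sub_sub_cancel_left]
    exact (((pow_dvd_pow n k.le_succ).trans (k1 k).2).mul_left w).neg_right
  refine ⟨y, t - y, by ring, eq_of_smul_eq_smul fun v : M => ?_,
    Ideal.mem_iInf.2 fun v => ?_⟩
  · obtain ⟨K, hK⟩ := hy v
    obtain ⟨L, hL⟩ := mem_Nl.1 hn v
    obtain ⟨c, hc⟩ := (k1 (max K L)).2
    have a1 : (y - x (max K L)) • v = 0 := by rw [sub_smul, hK _ (le_max_left K L), sub_self]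
    have : y * (t - y) = d - n ^ (max K L + 1) * c +
        (t - y - x (max K L)) * (y - x (max K L)) := by linear_combination -hc
    rw [this, add_smul, sub_smul, mul_smul (t - y - _), a1,
      pow_smul_le hL ((le_max_right K L).trans (Nat.le_succ _)), smul_zero, sub_zero, add_zero]
  · obtain ⟨K, hK⟩ := hy v
    obtain ⟨b, hb⟩ := (k1 K).1
    rw [show y - a = (y - x K) + n * b by rw [← hb]; ring]
    exact add_mem (Ideal.le_radical ((Ideal.mem_torsionOf_iff _ _).2
      (by rw [sub_smul, hK _ le_rfl, sub_self]))) (Ideal.mul_mem_right _ _ (Ideal.mem_iInf.1 hn v))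

end lim

section cl

variable {O M : Type} [CommRing O] [AddCommGroup M] [Module O M]

/-- the closure for pointwise convergence -/
def cl (A : Subalgebra O (Module.End O M)) : Subalgebra O (Module.End O M) where
  carrier := {θ | ∀ Z : Finset M, ∃ θ' ∈ A, ∀ v ∈ Z, θ v = θ' v}
  mul_mem' {a b} ha hb Z := by
    classical
    obtain ⟨b', h1, h2⟩ := hb Z
    obtain ⟨a', h3, h4⟩ := ha (Z.image b)
    exact ⟨a' * b', mul_mem h3 h1, fun v hv => by
      rw [Module.End.mul_apply, h4 _ (Finset.mem_image_of_mem _ hv), h2 v hv]; rfl⟩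
  add_mem' {a b} ha hb Z := by
    obtain ⟨b', h1, h2⟩ := hb Z
    obtain ⟨a', h3, h4⟩ := ha Z
    exact ⟨a' + b', add_mem h3 h1, fun v hv => by
      rw [LinearMap.add_apply, h4 v hv, h2 v hv]; rfl⟩
  algebraMap_mem' c Z := ⟨_, A.algebraMap_mem c, fun _ _ => rfl⟩

variable {A A' : Subalgebra O (Module.End O M)}

theorem le_cl : A ≤ cl A := fun θ h _ => ⟨θ, h, fun _ _ => rfl⟩

theorem cl_mono (h : A ≤ A') : cl A ≤ cl A' := fun _ k Z =>
  (k Z).imp fun _ e => ⟨h e.1, e.2⟩

theorem cl_comm {θ x : Module.End O M} (h : θ ∈ cl A) (k : ∀ a ∈ A, Commute a x) :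
    Commute θ x := LinearMap.ext fun v => by
  classical
  obtain ⟨a, h1, h2⟩ := h {v, x v}
  rw [Module.End.mul_apply, Module.End.mul_apply, h2 v (by simp), h2 (x v) (by simp)]
  exact LinearMap.congr_fun (k a h1).eq v

theorem cl_lim (x : ℕ → cl A) (h : ∀ v : M, ∃ K, ∀ k ≥ K, (x k).1 v = (x K).1 v) :
    ∃ y : cl A, ∀ v : M, ∃ K, ∀ k ≥ K, y.1 v = (x k).1 v := by
  choose K hK using h
  let y : Module.End O M :=
    { toFun := fun v => (x (K v)).1 v
      map_add' := fun v w => by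
        rw [← hK _ (K (v + w) + K v + K w) (by omega), ← hK v (K (v + w) + K v + K w) (by omega),
          ← hK w (K (v + w) + K v + K w) (by omega), map_add]
      map_smul' := fun c v => by
        rw [← hK _ (K (c • v) + K v) (by omega), ← hK v (K (c • v) + K v) (by omega), map_smul]
        rfl }
  refine ⟨⟨y, fun Z => ?_⟩, fun v => ⟨K v, fun k hk => (hK v k hk).symm⟩⟩
  obtain ⟨a, h1, h2⟩ := (x (Z.sup K)).2 Z
  exact ⟨a, h1, fun v hv => (hK v _ (Finset.le_sup hv)).symm.trans (h2 v hv)⟩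

end cl

theorem main {O F G T M B : Type} [CommRing O] [IsLocalRing O] [Field F] [Group G]
    [AddCommGroup M] [Module O M] [Nontrivial M] [CommRing B] [Algebra O B] [Module B M]
    [IsScalarTower O B M] [FaithfulSMul B M] {S : RU.Dat O F G T} {s : F → O}
    {γ : G →* Module.End O M} {ε : G →* O} (hker : ∀ c, S.red c = 0 ↔ c ∈ maximalIdeal O)
    (H : Gm S s γ ε) (lim : Lim B M) (t : G → B) (ht : ∀ g (v : M), t g • v = tt γ ε g v)
    (c1 : ∀ g (u : B) (v : M), γ g (u • v) = u • γ g v)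
    (hA : Algebra.adjoin O (Set.range (tt γ ε)) ≤ Algebra.adjoin O (Set.range γ))
    (loc : ∀ (u : B) (Z : Finset M), ∃ θ ∈ Algebra.adjoin O (Set.range (tt γ ε)),
      ∀ v ∈ Z, u • v = θ v) :
    ∃ (ρ : G →* M2 B) (E : M2 B →+* Module.End O M), Mu S s γ ε B ρ E := by
  classical
  let ι := algebraMap O B
  have n1 : ∀ o ∈ maximalIdeal O, ι o ∈ Nl B M := fun o ho => mem_Nl.2 fun v => by
    obtain ⟨Y, h1, h2, -⟩ := H.fin v
    obtain ⟨i, j, lt, e⟩ := h2.exists_lt_map_eq_of_forall_mem (f := fun i : ℕ => o ^ i • v)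
      fun i => Y.smul_mem _ h1
    obtain ⟨k, rfl⟩ := Nat.exists_eq_add_of_lt lt
    have hu : IsUnit (1 - o ^ (k + 1)) := isUnit_one_sub_self_of_mem_nonunits _
      (Ideal.pow_mem_of_mem _ ho _ k.succ_pos)
    refine ⟨i, ?_⟩
    rw [← map_pow, algebraMap_smul, ← hu.smul_eq_zero, sub_smul, one_smul, smul_smul, ← pow_add,
      sub_eq_zero, e]
    congr 2; omega
  obtain ⟨v0, hv0⟩ := exists_ne (0 : M)
  have n2 : ∀ o, ι o ∈ (Ideal.torsionOf B M v0).radical → o ∈ maximalIdeal O :=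
    fun o h => by
      obtain ⟨n, hn⟩ := mem_rad.1 h
      by_contra k
      exact hv0 ((((notMem_maximalIdeal.1 k).map ι).pow n).smul_eq_zero.1 hn)
  have n3 : ∀ g, t g - ι (s (S.rb g).trace) ∈ Nl B M := fun g => mem_Nl.2 fun v =>
    (H.nil g v).imp fun n hn => by
      rw [← hn]
      clear hn
      induction n generalizing v with
      | zero => simp
      | succ n ih =>
        rw [pow_succ, pow_succ, mul_smul, ih, sub_smul, ht, algebraMap_smul]; rfl
  have n4 : ∀ θ ∈ Algebra.adjoin O (Set.range (tt γ ε)), ∃ b : B, (∀ v, b • v = θ v) ∧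
      ∃ o, b - ι o ∈ Nl B M := fun θ h => by
    induction h using Algebra.adjoin_induction with
    | mem x hx => obtain ⟨g, rfl⟩ := hx; exact ⟨_, ht g, _, n3 g⟩
    | algebraMap r => exact ⟨ι r, algebraMap_smul B r, r, (sub_self (ι r)).symm ▸ zero_mem _⟩
    | add x y hx hy a b =>
      obtain ⟨x', e, a, ha⟩ := a
      obtain ⟨y', e', b, hb⟩ := b
      exact ⟨x' + y', fun v => by rw [add_smul, e, e']; rfl, a + b, by
        rw [map_add, add_sub_add_comm]; exact add_mem ha hb⟩
    | mul x y hx hy a b =>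
      obtain ⟨x', e, a, ha⟩ := a
      obtain ⟨y', e', b, hb⟩ := b
      exact ⟨x' * y', fun v => by rw [mul_smul, e, e']; rfl, a * b, by
        rw [map_mul]; exact Ideal.mul_sub_mul_mem _ ha hb⟩
  have n5 : ∀ (u : B) (v w : M), ∃ o, u - ι o ∈ (Ideal.torsionOf B M v).radical ∧
      u - ι o ∈ (Ideal.torsionOf B M w).radical := fun u v w => by
    obtain ⟨θ, h1, h2⟩ := loc u {v, w}
    obtain ⟨b, e, o, ho⟩ := n4 θ h1
    have k : ∀ z ∈ ({v, w} : Finset M), u - ι o ∈ (Ideal.torsionOf B M z).radical :=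
      fun z hz => by
        rw [← sub_add_sub_cancel u b]
        exact add_mem (Ideal.le_radical ((Ideal.mem_torsionOf_iff _ _).2
          (by rw [sub_smul, e, h2 z hz, sub_self]))) (Ideal.mem_iInf.1 ho z)
    exact ⟨o, k v (by simp), k w (by simp)⟩
  have n6 : ∀ u : B, ∃ o, u - ι o ∈ Nl B M := fun u => by
    obtain ⟨o, ho, -⟩ := n5 u v0 v0
    refine ⟨o, Ideal.mem_iInf.2 fun v => ?_⟩
    obtain ⟨o', h1, h2⟩ := n5 u v0 v
    have := sub_mem ho h1
    rw [sub_sub_sub_cancel_left, ← map_sub] at this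
    rw [← sub_add_sub_cancel u (ι o'), ← map_sub]
    exact add_mem h2 (Ideal.mem_iInf.1 (n1 _ (n2 _ this)) v)
  let φ : O →+* B ⧸ Nl B M := (Ideal.Quotient.mk _).comp ι
  have hφ : Function.Surjective φ := fun x => by
    obtain ⟨u, rfl⟩ := Ideal.Quotient.mk_surjective x
    obtain ⟨o, ho⟩ := n6 u
    exact ⟨o, (Ideal.Quotient.eq.2 ho).symm⟩
  let π : B →+* F := (φ.liftOfSurjective hφ ⟨S.red, fun o ho => (hker o).2
    (n2 o (Ideal.mem_iInf.1 (Ideal.Quotient.eq_zero_iff_mem.1 ho) v0))⟩).comp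
    (Ideal.Quotient.mk _)
  have p1 : ∀ o, π (ι o) = S.red o := fun o => φ.liftOfSurjective_comp_apply hφ _ o
  have p2 : ∀ u, π u = 0 ↔ u ∈ Nl B M := fun u => ⟨fun h => by
    obtain ⟨o, ho⟩ := n6 u
    have : π (u - ι o) = 0 := by
      rw [RingHom.comp_apply, Ideal.Quotient.eq_zero_iff_mem.2 ho, map_zero]
    rw [map_sub, h, p1, zero_sub, neg_eq_zero] at this
    exact sub_add_cancel u (ι o) ▸ add_mem ho (n1 o ((hker o).1 this)),
    fun h => by rw [RingHom.comp_apply, Ideal.Quotient.eq_zero_iff_mem.2 h, map_zero]⟩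
  have p3 : ∀ u c, π u = c → u - ι (s c) ∈ Nl B M := fun u c h =>
    (p2 _).1 (by rw [map_sub, p1, H.sec, h, sub_self])
  have hun : ∀ u, π u ≠ 0 → IsUnit u := fun u h => by
    have := lim.unit ((p2 (1 - ι (s (π u)⁻¹) * u)).1 (by
      rw [map_sub, map_mul, p1, H.sec, inv_mul_cancel₀ h, map_one, sub_self]))
    rw [sub_sub_cancel] at this
    exact isUnit_of_mul_isUnit_right this
  have htr : ∀ g, π (t g) = (S.rb g).trace := fun g => by
    have := (p2 _).2 (n3 g)
    rwa [map_sub, p1, H.sec, sub_eq_zero] at this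
  have t0 : π (t S.g0) = S.rb S.g0 0 0 + S.rb S.g0 1 1 := (htr _).trans (Matrix.trace_fin_two _)
  obtain ⟨α, β, hs, hp, hα⟩ := lim.root (t := t S.g0) (d := ι (ε S.g0))
    (a := ι (s (S.rb S.g0 0 0))) ((p2 _).1 (by
      simp only [map_add, map_sub, map_mul, map_pow, p1, H.sec, H.det, t0, Matrix.det_fin_two,
        S.d01]
      ring)) (hun _ (by
      simp only [map_sub, map_mul, map_ofNat, p1, H.sec, t0]
      exact fun h => S.dne (by linear_combination h)))
  have a1 : π α = S.rb S.g0 0 0 := by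
    have := (p2 _).2 hα
    rwa [map_sub, p1, H.sec, sub_eq_zero] at this
  have a2 : π β = S.rb S.g0 1 1 := by
    have := congrArg π hs
    rw [map_add, a1, t0] at this
    exact add_left_cancel this
  letI : Algebra B F := π.toAlgebra
  let γ' : G →* Module.End B M :=
    { toFun := fun g => { toFun := γ g, map_add' := map_add _, map_smul' := c1 g }
      map_one' := LinearMap.ext fun v => LinearMap.congr_fun (map_one γ) v
      map_mul' := fun g h => LinearMap.ext fun v => LinearMap.congr_fun (map_mul γ g h) v }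
  let R : Module.End B M →+* Module.End O M :=
    { toFun := fun x => x.restrictScalars O
      map_one' := rfl
      map_mul' := fun _ _ => rfl
      map_zero' := rfl
      map_add' := fun _ _ => rfl }
  obtain ⟨g2, n10⟩ := H.n10
  obtain ⟨ρ, E, r1, r2, r3, r4, r5, r6, r7⟩ := core (γ := γ') (ε := (ι : O →* B).comp ε)
    (rb := S.rb) (t := t) (fun g => LinearMap.ext fun v =>
      (congrArg (γ g v + ·) (algebraMap_smul B (ε g) (γ g⁻¹ v))).trans (ht g v).symm) htr
    (fun a b h => eq_of_smul_eq_smul fun v : M => LinearMap.congr_fun h v) hun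
    (g1 := S.g1) (lam := ι S.lam) hs hp (by
      show _ = !![π α, 0; 0, π β]
      rw [a1, a2, ← S.d01]
      nth_rw 2 [S.d01.trans S.d10.symm]
      exact Matrix.eta_fin_two _) (fun h => S.dne (a1.symm.trans (h.trans a2)))
    ((p1 _).trans H.lam) S.n01 n10
  refine ⟨ρ, R.comp E, fun g => congrArg R (r1 g), fun u v => ?_, loc,
    fun m => ?_, r3, r4, r5, fun g v => by rw [r6, ht],
    fun g i j => mem_Nl.1 (p3 _ _ (r7 g i j)), fun u => ⟨_, mem_Nl.1 (p3 u _ rfl)⟩⟩
  · exact LinearMap.congr_fun (E.commutes u) v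
  · show R (E m) ∈ cl (Algebra.adjoin O (Set.range γ))
    have := r2 m
    generalize E m = x at this
    induction this using Algebra.adjoin_induction with
    | mem x hx => obtain ⟨g, rfl⟩ := hx; exact le_cl (Algebra.subset_adjoin ⟨g, rfl⟩)
    | algebraMap r => exact cl_mono hA (loc r)
    | add x y _ _ a b => exact map_add R x y ▸ add_mem a b
    | mul x y _ _ a b => exact map_mul R x y ▸ mul_mem a b

end Ga

open Ga in
theorem gal : GAL := by
  intro O F G T M _ _ _ _ _ _ _ S s γ ε hker H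
  let A := Algebra.adjoin O (Set.range (tt γ ε))
  have hA : A ≤ Algebra.adjoin O (Set.range γ) := Algebra.adjoin_le (by
    rintro _ ⟨g, rfl⟩
    exact add_mem (Algebra.subset_adjoin ⟨g, rfl⟩)
      (Subalgebra.smul_mem _ (Algebra.subset_adjoin (Set.mem_range_self g⁻¹)) _))
  have c1 : ∀ θ ∈ cl A, ∀ g, Commute θ (γ g) := fun θ h g => cl_comm h fun a ha =>
    (Algebra.commute_of_mem_adjoin_of_forall_mem_commute ha (by
      rintro _ ⟨k, rfl⟩; exact (H.cen k g).symm)).symm
  letI : CommRing (cl A) := { (inferInstance : Ring (cl A)) with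
    mul_comm := fun a b => Subtype.ext (cl_comm a.2 fun x hx =>
      (Algebra.commute_of_mem_adjoin_of_forall_mem_commute (hA hx) (by
        rintro _ ⟨k, rfl⟩; exact c1 _ b.2 k)).symm).eq }
  refine ⟨cl A, inferInstance, inferInstance, inferInstance, inferInstance, ?_⟩
  rcases subsingleton_or_nontrivial M with hM | hM
  · let E : M2 (cl A) →+* Module.End O M :=
      { toFun := fun _ => 0
        map_one' := Subsingleton.elim _ _
        map_mul' := fun _ _ => Subsingleton.elim _ _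
        map_zero' := rfl
        map_add' := fun _ _ => Subsingleton.elim _ _ }
    exact ⟨1, E, fun _ => Subsingleton.elim _ _,
      fun _ _ => Subsingleton.elim _ _, fun u Z => u.2 Z,
      fun _ _ => ⟨0, zero_mem _, fun _ _ => rfl⟩, ⟨Subsingleton.elim _ _, Subsingleton.elim _ _⟩,
      Subsingleton.elim _ _, fun _ => Subsingleton.elim _ _, fun _ _ => Subsingleton.elim _ _,
      fun _ _ _ _ => ⟨0, Subsingleton.elim _ _⟩, fun _ => ⟨0, fun _ => ⟨0, Subsingleton.elim _ _⟩⟩⟩
  haveI : FaithfulSMul (cl A) M := FaithfulSMul.mk fun h => Subtype.ext (LinearMap.ext h)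
  exact main hker H cl_lim (fun g => ⟨tt γ ε g, le_cl (Algebra.subset_adjoin ⟨g, rfl⟩)⟩)
    (fun _ _ => rfl) (fun g u v => (LinearMap.congr_fun (c1 _ u.2 g).eq v).symm) hA
    fun u Z => u.2 Z

end Vale.Agent.P022K.RT
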