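import Vale.Agent.P022K.PL.Limop
import Vale.Agent.P022G.Sum
import Vale.Agent.P022D.CA.BlkDefs

/-!
# P022K, block RT: row GEO (a prime away from the special fibre plus a formally parametrised
prime, in disjoint variables, is prime)
-/

set_option linter.all false

noncomputable section

namespace Vale.Agent.P022K.RT.Geo

open IsLocalRing MvPowerSeries
open Vale.Agent.P022D.PA (Base Cv)
open Vale.Agent.P022D.CA.Cpl (JI)
open Vale.Agent.P022D.Core (PS)
open Vale.Agent.P022D.CA (emb)

open Filter in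
/-- Chevalley's lemma -/
theorem chev {A : Type} [CommRing A] [Base A] (K : ℕ → Ideal A) (hK : Antitone K) (I : Ideal A)
    (hI : ∀ a, (∀ n, a ∈ K n) → a ∈ I) (j : ℕ) : ∃ N, K N ≤ I ⊔ maximalIdeal A ^ j := by
  by_contra h
  push Not at h
  choose z hz hz' using fun N => SetLike.not_le_iff_exists.1 (h N)
  let U : Ultrafilter ℕ := Ultrafilter.of atTop
  have hU : (U : Filter ℕ) ≤ atTop := Ultrafilter.of_le _
  obtain ⟨a, ha⟩ := P022D.PA.lim A U z
  refine (P022D.PA.limi A U z a I ha).2 j (Eventually.of_forall hz') (hI a fun n => ?_)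
  exact (P022D.PA.limi A U z a (K n) ha).1
    (((eventually_ge_atTop n).filter_mono hU).mono fun m hm => hK hm (hz m))

/-- coordinates on the image of a map to a finite free module -/
theorem coords {O A S : Type} [CommRing O] [IsDomain O] [IsPrincipalIdealRing O] [AddCommGroup A]
    [Module O A] [Fintype S] (T : A →ₗ[O] (S → O)) :
    ∃ (r : ℕ) (l : Fin r → A →ₗ[O] O) (u : Fin r → A), (∀ b, T (b - ∑ i, l i b • u i) = 0) ∧
      ∀ i, ∃ c ≠ 0, ∃ μ : S → O, ∀ b, c * l i b = ∑ s, μ s * T b s := by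
  classical
  obtain ⟨r, snf⟩ := (LinearMap.range T).smithNormalForm (Pi.basisFun O S)
  choose u hu using fun i => (snf.bN i).2
  refine ⟨r, fun i => (snf.bN.coord i).comp T.rangeRestrict, u, fun b => ?_, fun i => ?_⟩
  · have h := congrArg Subtype.val (snf.bN.sum_repr (T.rangeRestrict b))
    rw [map_sub, map_sum, sub_eq_zero]
    simp only [map_smul, hu]
    rw [Submodule.coe_sum] at h
    exact h.symm
  · refine ⟨snf.a i, fun h0 => ?_, fun s => snf.bM.coord (snf.f i) (Pi.single s 1), fun b => ?_⟩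
    · have h := snf.snf i
      rw [h0, zero_smul] at h
      exact snf.bN.ne_zero i (Subtype.ext h)
    · have h := LinearMap.congr_fun (snf.coord_apply_embedding_eq_smul_coord (i := i))
        (T.rangeRestrict b)
      have h1 : T b = ∑ s, T b s • Pi.single s (1 : O) := by
        ext t
        simp [Finset.sum_apply, Pi.single_apply]
      change snf.bM.coord (snf.f i) (T b) = snf.a i * _ at h
      rw [h1, map_sum] at h
      refine h.symm.trans (Finset.sum_congr rfl fun s _ => ?_)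
      rw [map_smul, smul_eq_mul, mul_comm]

section
variable {σ A : Type} [CommRing A]

theorem mem_map_C [IsNoetherianRing A] (𝔞 : Ideal A) {F : MvPowerSeries σ A}
    (h : ∀ m, coeff m F ∈ 𝔞) : F ∈ 𝔞.map (C : A →+* MvPowerSeries σ A) := by
  obtain ⟨k, s, hs⟩ := Submodule.fg_iff_exists_fin_generating_family.1 (IsNoetherian.noetherian 𝔞)
  choose c hc using fun m => (Submodule.mem_span_range_iff_exists_fun A).1 (hs ▸ h m)
  let G : Fin k → MvPowerSeries σ A := fun i m => c m i
  have e : F = ∑ i, G i * C (s i) := by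
    ext m
    rw [map_sum, ← hc]
    exact Finset.sum_congr rfl fun i _ => (coeff_mul_C m (G i) _).symm
  have h1 : ∀ i, s i ∈ 𝔞 := fun i => by
    rw [← hs]; exact Submodule.subset_span ⟨i, rfl⟩
  rw [e]
  exact Ideal.sum_mem _ fun i _ => Ideal.mul_mem_left _ _ (Ideal.mem_map_of_mem _ (h1 i))

variable {O : Type} [CommRing O] [Algebra O A]

/-- a linear form applied to the coefficients -/
def lam (l : A →ₗ[O] O) (F : MvPowerSeries σ A) : MvPowerSeries σ O := fun m => l (coeff m F)

theorem coeff_lam (l : A →ₗ[O] O) (F : MvPowerSeries σ A) (m : σ →₀ ℕ) :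
    coeff m (lam l F) = l (coeff m F) := rfl

theorem lam_map (l : A →ₗ[O] O) (p : MvPowerSeries σ O) :
    lam l (map (algebraMap O A) p) = p * C (l 1) := by
  ext m
  rw [coeff_lam, coeff_map, coeff_mul_C, Algebra.algebraMap_eq_smul_one, map_smul, smul_eq_mul]

end

/-- exchange of the two sets of variables -/
def sw (σ ζ O : Type) [CommRing O] :
    MvPowerSeries σ (MvPowerSeries ζ O) ≃+* MvPowerSeries ζ (MvPowerSeries σ O) :=
  ((P022G.Sum.sumEquiv ζ σ O).symm.trans (renameEquiv O (Equiv.sumComm ζ σ)).toRingEquiv).trans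
    (P022G.Sum.sumEquiv σ ζ O)

theorem coeff_sw {σ ζ O : Type} [CommRing O] (F : MvPowerSeries σ (MvPowerSeries ζ O))
    (n : ζ →₀ ℕ) (m : σ →₀ ℕ) : coeff m (coeff n (sw σ ζ O F)) = coeff n (coeff m F) := by
  obtain ⟨p, rfl⟩ := (P022G.Sum.sumEquiv ζ σ O).surjective F
  have e : sw σ ζ O (P022G.Sum.sumEquiv ζ σ O p) =
      P022G.Sum.sumEquiv σ ζ O (rename (Equiv.sumComm ζ σ).toEmbedding p) := by
    rw [sw, RingEquiv.trans_apply, RingEquiv.trans_apply, RingEquiv.symm_apply_apply]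
    rfl
  have e2 : (P022G.Sum.ex σ ζ).symm (m, n) =
      Finsupp.embDomain (Equiv.sumComm ζ σ).toEmbedding ((P022G.Sum.ex ζ σ).symm (n, m)) := by
    ext a
    rcases a with a | a
    · exact (Finsupp.embDomain_apply_self (Equiv.sumComm ζ σ).toEmbedding
        ((P022G.Sum.ex ζ σ).symm (n, m)) (Sum.inr a)).symm
    · exact (Finsupp.embDomain_apply_self (Equiv.sumComm ζ σ).toEmbedding
        ((P022G.Sum.ex ζ σ).symm (n, m)) (Sum.inl a)).symm
  rw [e, P022G.Sum.coeff_sumEquiv, P022G.Sum.coeff_sumEquiv, e2, coeff_embDomain_rename]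

section
variable {O A τ ζ : Type} [CommRing O] [CommRing A] [Algebra O A]

/-- the coefficients of `θ` as linear forms -/
def cf (θ : A →ₐ[O] MvPowerSeries ζ O) (n : ζ →₀ ℕ) : A →ₗ[O] O :=
  (coeff n).comp θ.toLinearMap

/-- the map whose kernel is the sum -/
def Th (J : Ideal (MvPowerSeries τ O)) (θ : A →ₐ[O] MvPowerSeries ζ O) :
    MvPowerSeries τ A →+* MvPowerSeries ζ (MvPowerSeries τ O ⧸ J) :=
  (map (Ideal.Quotient.mk J)).comp ((sw τ ζ O).toRingHom.comp (map θ.toRingHom))

theorem Th_zero (J : Ideal (MvPowerSeries τ O)) (θ : A →ₐ[O] MvPowerSeries ζ O)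
    (x : MvPowerSeries τ A) : Th J θ x = 0 ↔ ∀ n, lam (cf θ n) x ∈ J := by
  have e : ∀ n, coeff n (Th J θ x) = Ideal.Quotient.mk J (lam (cf θ n) x) := fun n => by
    have : coeff n (sw τ ζ O (map θ.toRingHom x)) = lam (cf θ n) x := by
      ext m
      rw [coeff_sw, coeff_map, coeff_lam]
      rfl
    rw [← this]
    rfl
  rw [MvPowerSeries.ext_iff]
  refine forall_congr' fun n => ?_
  rw [e, map_zero, Ideal.Quotient.eq_zero_iff_mem]

theorem le_ker (J : Ideal (MvPowerSeries τ O)) (θ : A →ₐ[O] MvPowerSeries ζ O) :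
    J.map (map (algebraMap O A)) ⊔ (RingHom.ker θ).map (C : A →+* MvPowerSeries τ A) ≤
      RingHom.ker (Th J θ) := by
  classical
  refine sup_le (Ideal.map_le_iff_le_comap.2 fun j hj => ?_)
    (Ideal.map_le_iff_le_comap.2 fun k hk => ?_)
  · rw [Ideal.mem_comap, RingHom.mem_ker, Th_zero]
    intro n
    rw [lam_map]
    exact J.mul_mem_right _ hj
  · rw [Ideal.mem_comap, RingHom.mem_ker, Th_zero]
    intro n
    have : lam (cf θ n) (C k : MvPowerSeries τ A) = 0 := by
      ext m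
      rw [coeff_lam, coeff_C]
      split_ifs
      · change coeff n (θ k) = _
        rw [(RingHom.mem_ker).1 hk, map_zero, map_zero]
      · rw [map_zero, map_zero]
    rw [this]
    exact J.zero_mem

/-- the elements whose image has order at least `N` -/
def KN (θ : A →ₐ[O] MvPowerSeries ζ O) (N : ℕ) : Ideal A := (JI ζ ⊥ N).comap θ

theorem mem_KN (θ : A →ₐ[O] MvPowerSeries ζ O) (N : ℕ) (a : A) :
    a ∈ KN θ N ↔ ∀ n : ζ →₀ ℕ, n.degree < N → coeff n (θ a) = 0 := by
  refine forall_congr' fun n => ⟨fun h hn => ?_, fun h => ?_⟩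
  · exact Ideal.pow_le_self (by omega) h
  · by_cases hn : n.degree < N
    · rw [h hn]; exact zero_mem _
    · rw [show N - n.degree = 0 by omega, pow_zero, Ideal.one_eq_top]
      exact Submodule.mem_top

variable [IsDomain O] [IsPrincipalIdealRing O] [Finite ζ]

theorem approx [IsNoetherianRing A] (J : Ideal (MvPowerSeries τ O))
    (hJ : ∀ c : O, c ≠ 0 → ∀ y, C c * y ∈ J → y ∈ J) (θ : A →ₐ[O] MvPowerSeries ζ O)
    {x : MvPowerSeries τ A} (hx : ∀ n, lam (cf θ n) x ∈ J) (N : ℕ) :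
    x ∈ J.map (map (algebraMap O A)) ⊔ (KN θ N).map (C : A →+* MvPowerSeries τ A) := by
  classical
  let S := {n : ζ →₀ ℕ // n.degree < N}
  have _ : Finite S := Finsupp.finite_of_degree_lt N
  have _ := Fintype.ofFinite S
  obtain ⟨r, l, u, h1, h2⟩ := coords (LinearMap.pi fun s : S => cf θ s.1)
  have h3 : ∀ i, lam (l i) x ∈ J := fun i => by
    obtain ⟨c, hc, μ, h⟩ := h2 i
    refine hJ c hc _ ?_
    have : C c * lam (l i) x = ∑ s : S, C (μ s) * lam (cf θ s.1) x := by
      ext m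
      rw [coeff_C_mul, coeff_lam, h, map_sum]
      refine Finset.sum_congr rfl fun s _ => ?_
      rw [coeff_C_mul]
      rfl
    rw [this]
    exact J.sum_mem fun s _ => J.mul_mem_left _ (hx _)
  have h4 : x - ∑ i, map (algebraMap O A) (lam (l i) x) * C (u i) ∈
      (KN θ N).map (C : A →+* MvPowerSeries τ A) := by
    refine mem_map_C _ fun m => (mem_KN θ N _).2 fun n hn => ?_
    have e : coeff m (x - ∑ i, map (algebraMap O A) (lam (l i) x) * C (u i)) =
        coeff m x - ∑ i, l i (coeff m x) • u i := by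
      rw [map_sub, map_sum]
      refine congrArg _ (Finset.sum_congr rfl fun i _ => ?_)
      rw [coeff_mul_C, coeff_map, coeff_lam, Algebra.smul_def]
    rw [e]
    exact congrFun (h1 (coeff m x)) ⟨n, hn⟩
  have h5 := Ideal.add_mem _ (Ideal.mem_sup_right (S := J.map (map (algebraMap O A))) h4)
    (Ideal.mem_sup_left (Ideal.sum_mem _ fun i (_ : i ∈ Finset.univ) =>
      Ideal.mul_mem_right (C (u i)) _ (Ideal.mem_map_of_mem (map (algebraMap O A)) (h3 i))))
  rwa [sub_add_cancel] at h5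

/-- the sum is the kernel of `Th` -/
theorem ker_Th [Base A] [Finite τ] (J : Ideal (MvPowerSeries τ O))
    (hJ : ∀ c : O, c ≠ 0 → ∀ y, C c * y ∈ J → y ∈ J) (θ : A →ₐ[O] MvPowerSeries ζ O) :
    RingHom.ker (Th J θ) =
      J.map (map (algebraMap O A)) ⊔ (RingHom.ker θ).map (C : A →+* MvPowerSeries τ A) := by
  refine le_antisymm (fun x hx => ?_) (le_ker J θ)
  refine P022D.PA.mem_of_sup _ _ fun j => ?_
  obtain ⟨N, hN⟩ := chev (KN θ) (fun a b hab y hy => (mem_KN θ a y).2 fun n hn =>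
    (mem_KN θ b y).1 hy n (hn.trans_le hab)) (RingHom.ker θ) (fun a ha => by
      rw [RingHom.mem_ker]
      ext n
      exact (mem_KN θ _ a).1 (ha (n.degree + 1)) n (Nat.lt_succ_self _)) j
  have h := approx J hJ θ ((Th_zero J θ x).1 hx) N
  rw [sup_assoc]
  have h1 : (KN θ N).map (C : A →+* MvPowerSeries τ A) ≤ (RingHom.ker θ).map C ⊔
      maximalIdeal (MvPowerSeries τ A) ^ j := by
    refine (Ideal.map_mono hN).trans ?_
    rw [Ideal.map_sup]
    exact sup_le_sup_left (Ideal.map_le_iff_le_comap.2 fun a ha => P022D.CA.Cpl.C_mem_pow ha) _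
  exact (sup_le_sup_left h1 (J.map (map (algebraMap O A))) :) h

/-- **GEO**, iterated form -/
theorem prime_it [Base A] [Finite τ] (J : Ideal (MvPowerSeries τ O)) [hp : J.IsPrime]
    (hJ : ∀ c : O, c ≠ 0 → C c ∉ J) (θ : A →ₐ[O] MvPowerSeries ζ O) :
    (J.map (map (algebraMap O A)) ⊔
      (RingHom.ker θ).map (C : A →+* MvPowerSeries τ A)).IsPrime := by
  rw [← ker_Th J (fun c hc y h => (hp.mem_or_mem h).resolve_left (hJ c hc)) θ]
  have _ : IsDomain (MvPowerSeries ζ (MvPowerSeries τ O ⧸ J)) := NoZeroDivisors.to_isDomain _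
  exact RingHom.ker_isPrime _

end

theorem sumEquiv_inr {σ τ R : Type} [CommRing R] (q : MvPowerSeries τ R) :
    P022G.Sum.sumEquiv σ τ R (rename (Function.Embedding.inr : τ ↪ σ ⊕ τ) q) =
      map (algebraMap R (MvPowerSeries σ R)) q := by
  classical
  ext m n
  rw [P022G.Sum.coeff_sumEquiv, coeff_map]
  change _ = coeff n (C (coeff m q))
  rw [coeff_C]
  split_ifs with h
  · have e : (P022G.Sum.ex σ τ).symm (0, m) = Finsupp.embDomain Function.Embedding.inr m := by
      ext a
      rcases a with a | a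
      · rw [Finsupp.embDomain_of_notMem_range _ _ _ (by simp)]
        rfl
      · exact (Finsupp.embDomain_apply_self Function.Embedding.inr m a).symm
    rw [h, e, coeff_embDomain_rename]
  · apply coeff_rename_eq_zero
    rintro ⟨y, hy⟩
    apply h
    ext a
    have h1 : ((P022G.Sum.ex σ τ).symm (n, m)) (Sum.inl a) = n a := rfl
    rw [← h1, ← hy, Finsupp.mapDomain_of_notMem_range _ _ (by simp)]
    rfl

section
variable {O : Type} [CommRing O]

/-- a prime without non-zero constants -/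
def Gd {τ : Type} (J : Ideal (PS O τ)) : Prop := J.IsPrime ∧ ∀ c : O, c ≠ 0 → C c ∉ J

/-- the kernel of a map to a power series ring -/
def Par {τ : Type} (J : Ideal (PS O τ)) : Prop :=
  ∃ (ζ : Type) (_ : Finite ζ) (θ : PS O τ →ₐ[O] PS O ζ), RingHom.ker θ = J

theorem par_bot {τ : Type} [Finite τ] : Par (⊥ : Ideal (PS O τ)) :=
  ⟨τ, inferInstance, AlgHom.id _ _, by ext x; simp [RingHom.mem_ker]⟩

theorem Par.gd [IsDomain O] {τ : Type} {J : Ideal (PS O τ)} (h : Par J) : Gd J := by
  obtain ⟨ζ, _, θ, rfl⟩ := h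
  have _ : IsDomain (PS O ζ) := NoZeroDivisors.to_isDomain _
  refine ⟨RingHom.ker_isPrime _, fun c hc h => hc ?_⟩
  have h1 : (C c : PS O ζ) = 0 := (θ.commutes c).symm.trans (RingHom.mem_ker.1 h)
  simpa using congrArg constantCoeff h1

theorem Gd.equiv {τ σ : Type} {J : Ideal (PS O τ)} (h : Gd J) (u : τ ≃ σ) :
    Gd (J.map (rename (R := O) u)) := by
  have e : J.map (rename (R := O) u) = J.comap (renameEquiv O u).symm :=
    Ideal.map_comap_of_equiv (renameEquiv O u).toRingEquiv
  have _ := h.1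
  rw [e]
  refine ⟨Ideal.comap_isPrime _ _, fun c hc h1 => h.2 c hc ?_⟩
  rw [Ideal.mem_comap] at h1
  have h2 : (renameEquiv O u).symm (C c) = C c := (renameEquiv O u).symm.commutes c
  rwa [h2] at h1

theorem map_rename {τ σ ω : Type} (J : Ideal (PS O τ)) (e : τ ↪ σ) (u : σ ↪ ω) (g : τ ↪ ω)
    (h : ∀ t, u (e t) = g t) :
    (J.map (rename (R := O) e)).map (rename (R := O) u) = J.map (rename (R := O) g) := by
  have e1 : ((rename (R := O) u : PS O σ →ₐ[O] PS O ω) : PS O σ →+* PS O ω).comp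
      ((rename (R := O) e : PS O τ →ₐ[O] PS O σ) : PS O τ →+* PS O σ) =
      ((rename (R := O) g : PS O τ →ₐ[O] PS O ω) : PS O τ →+* PS O ω) := by
    refine RingHom.ext fun p => ?_
    show rename u (rename e p) = rename g p
    rw [rename_rename]
    have : (u : σ → ω) ∘ (e : τ → σ) = g := funext h
    simp only [this]
  exact (Ideal.map_map _ _).trans (congrArg (fun f : PS O τ →+* PS O ω => J.map f) e1)

theorem sup_comap {A B P Q : Type} [CommRing A] [CommRing B] [CommRing P] [CommRing Q]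
    [Algebra O A] [Algebra O B] [Algebra O P] (E : P ≃+* Q) (f : A →ₐ[O] P) (g : B →ₐ[O] P)
    (f' : A →+* Q) (g' : B →+* Q) (hf : ∀ a, E (f a) = f' a) (hg : ∀ a, E (g a) = g' a)
    (J : Ideal A) (K : Ideal B) : J.map f ⊔ K.map g = (J.map f' ⊔ K.map g').comap E := by
  have e1 : J.map f' = (J.map f).map (E : P →+* Q) :=
    ((Ideal.map_map (f : A →+* P) (E : P →+* Q)).trans
      (congrArg (fun k : A →+* Q => J.map k) (RingHom.ext hf))).symm
  have e2 : K.map g' = (K.map g).map (E : P →+* Q) :=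
    ((Ideal.map_map (g : B →+* P) (E : P →+* Q)).trans
      (congrArg (fun k : B →+* Q => K.map k) (RingHom.ext hg))).symm
  rw [e1, e2, ← Ideal.map_sup]
  exact (Ideal.comap_map_of_bijective (E : P →+* Q) E.bijective).symm

variable [IsDomain O] [IsDiscreteValuationRing O] [PL.Cf O]

/-- **GEO** for two complementary sets of variables -/
theorem gd_sum {τ τ' : Type} [Finite τ] [Finite τ'] {J : Ideal (PS O τ)} {K : Ideal (PS O τ')}
    (hJ : Gd J) (hK : Par K) :
    Gd (J.map (rename (R := O) (Function.Embedding.inr : τ ↪ τ' ⊕ τ)) ⊔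
      K.map (rename (R := O) (Function.Embedding.inl : τ' ↪ τ' ⊕ τ))) := by
  classical
  obtain ⟨ζ, _, θ, rfl⟩ := hK
  have _ := Fintype.ofFinite τ'
  have _ := PL.base_ps O τ'
  have hp := hJ.1
  let E := P022G.Sum.sumEquiv τ' τ O
  have hk := ker_Th J (fun c hc y h => (hp.mem_or_mem h).resolve_left (hJ.2 c hc)) θ
  have e : J.map (rename (R := O) (Function.Embedding.inr : τ ↪ τ' ⊕ τ)) ⊔
      (RingHom.ker θ).map (rename (R := O) (Function.Embedding.inl : τ' ↪ τ' ⊕ τ)) =
      (RingHom.ker (Th J θ)).comap E := by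
    rw [hk]
    exact sup_comap E _ _ _ _ sumEquiv_inr P022G.Sum.sumEquiv_inl J _
  have _ : IsDomain (MvPowerSeries ζ (MvPowerSeries τ O ⧸ J)) := NoZeroDivisors.to_isDomain _
  have _ := RingHom.ker_isPrime (Th J θ)
  rw [e]
  refine ⟨Ideal.comap_isPrime _ _, fun c hc h => hJ.2 c hc ?_⟩
  rw [Ideal.mem_comap, RingHom.mem_ker, Th_zero] at h
  have h1 : lam (cf θ 0) (E (C c)) = C c := by
    ext m
    rw [coeff_lam, P022G.Sum.sumEquiv_C, coeff_C, coeff_C]
    split_ifs
    · change coeff 0 (θ (algebraMap O _ c)) = _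
      rw [θ.commutes]
      exact coeff_zero_C c
    · rw [map_zero]
  exact h1 ▸ h 0

/-- **GEO** for two complementary embeddings -/
theorem gd_two {τ τ' σ : Type} [Finite σ] {J : Ideal (PS O τ)} {K : Ideal (PS O τ')}
    (hJ : Gd J) (hK : Par K) (e : τ ↪ σ) (e' : τ' ↪ σ) (hd : ∀ a b, e a ≠ e' b)
    (hs : ∀ s, (∃ a, e a = s) ∨ ∃ b, e' b = s) :
    Gd (J.map (rename (R := O) e) ⊔ K.map (rename (R := O) e')) := by
  have _ := Finite.of_injective _ e.injective
  have _ := Finite.of_injective _ e'.injective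
  let u : τ' ⊕ τ ≃ σ := Equiv.ofBijective (Sum.elim e' e)
    ⟨e'.injective.sumElim e.injective fun a b h => hd b a h.symm, fun s => by
      rcases hs s with ⟨a, h⟩ | ⟨a, h⟩
      · exact ⟨Sum.inr a, h⟩
      · exact ⟨Sum.inl a, h⟩⟩
  have h := (gd_sum hJ hK).equiv u
  rw [Ideal.map_sup] at h
  exact (map_rename J Function.Embedding.inr u.toEmbedding e fun _ => rfl) ▸
    (map_rename K Function.Embedding.inl u.toEmbedding e' fun _ => rfl) ▸ h

/-- more variables -/
theorem Gd.more {τ σ : Type} [Finite σ] {J : Ideal (PS O τ)} (hJ : Gd J) (e : τ ↪ σ) :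
    Gd (J.map (rename (R := O) e)) := by
  classical
  have h := gd_two hJ (par_bot (τ := {s // ¬ ∃ a, e a = s})) e (Function.Embedding.subtype _)
    (fun a b h => b.2 ⟨a, h⟩) fun s => (em _).imp_right fun h => ⟨⟨s, h⟩, rfl⟩
  rwa [Ideal.map_bot, sup_bot_eq] at h

/-- **GEO** for finitely many blocks -/
theorem gd_fin {β τ₀ : Type} {τ : β → Type} {J : Ideal (PS O τ₀)} (hJ : Gd J)
    (K : ∀ b, Ideal (PS O (τ b))) (S : Finset β) : (∀ b ∈ S, Par (K b)) →
    ∀ (σ : Type) [Finite σ] (e₀ : τ₀ ↪ σ) (e : ∀ b ∈ S, τ b ↪ σ),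
      (∀ b hb t t', e₀ t ≠ e b hb t') → (∀ b hb b' hb' t t', e b hb t = e b' hb' t' → b = b') →
      Gd (J.map (rename (R := O) e₀) ⊔ ⨆ (b) (hb : b ∈ S), (K b).map (rename (R := O) (e b hb))) := by
  classical
  induction S using Finset.induction_on with
  | empty =>
    intro _ σ _ e₀ e _ _
    simpa using hJ.more e₀
  | insert b S hb ih =>
    intro hK σ _ e₀ e h0 h1
    have mb := Finset.mem_insert_self b S
    let σ' := {s // ¬ ∃ a, e b mb a = s}
    let i : σ' ↪ σ := Function.Embedding.subtype _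
    let g₀ : τ₀ ↪ σ' := ⟨fun t => ⟨e₀ t, fun ⟨a, h⟩ => h0 b mb t a h.symm⟩,
      fun a a' h => e₀.injective (congrArg Subtype.val h)⟩
    let g : ∀ c ∈ S, τ c ↪ σ' := fun c hc =>
      ⟨fun t => ⟨e c (Finset.mem_insert_of_mem hc) t, fun ⟨a, h⟩ => hb (h1 _ _ _ _ _ _ h ▸ hc)⟩,
        fun a a' h => (e c _).injective (congrArg Subtype.val h)⟩
    have h2 := ih (fun c hc => hK c (Finset.mem_insert_of_mem hc)) σ' g₀ g
      (fun c hc t t' h => h0 c _ t t' (congrArg Subtype.val h))
      (fun c hc c' hc' t t' h => h1 c _ c' _ t t' (congrArg Subtype.val h))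
    have h3 := gd_two h2 (hK b mb) i (e b mb) (fun a t h => a.2 ⟨t, h.symm⟩)
      fun s => (em _).symm.imp_left fun h => ⟨⟨s, h⟩, rfl⟩
    rw [Ideal.map_sup, map_rename J g₀ i e₀ fun _ => rfl, Ideal.map_iSup] at h3
    simp only [Ideal.map_iSup] at h3
    convert h3 using 1
    rw [sup_assoc]
    congr 1
    refine le_antisymm (iSup₂_le fun c hc => ?_) (sup_le (iSup₂_le fun c hc => ?_) ?_)
    · rcases Finset.mem_insert.1 hc with rfl | hc'
      · exact le_sup_right
      · refine le_sup_of_le_left (le_iSup₂_of_le c hc' ?_)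
        rw [map_rename (K c) (g c hc') i (e c hc) fun _ => rfl]
    · rw [map_rename (K c) (g c hc) i (e c (Finset.mem_insert_of_mem hc)) fun _ => rfl]
      exact le_iSup₂_of_le c (Finset.mem_insert_of_mem hc) le_rfl
    · exact le_iSup₂_of_le b mb le_rfl

/-- **GEO** for a family of blocks, one of them only prime -/
theorem gd_blocks {β σ : Type} [Finite β] [Finite σ] {τ : β → Type} (e : (Σ b, τ b) ↪ σ)
    (J : ∀ b, Ideal (PS O (τ b))) (b₀ : β) (h0 : Gd (J b₀)) (h : ∀ b ≠ b₀, Par (J b)) :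
    Gd (⨆ b, (J b).map (rename (R := O) (emb e b))) := by
  classical
  have _ := Fintype.ofFinite β
  have h1 := gd_fin h0 J (Finset.univ.erase b₀) (fun b hb => h b (Finset.ne_of_mem_erase hb)) σ
    (emb e b₀) (fun b _ => emb e b)
    (fun b hb t t' h => Finset.ne_of_mem_erase hb (congrArg Sigma.fst (e.injective h)).symm)
    (fun b _ b' _ t t' h => congrArg Sigma.fst (e.injective h))
  convert h1 using 1
  refine le_antisymm (iSup_le fun b => ?_) (sup_le (le_iSup_of_le b₀ le_rfl)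
    (iSup₂_le fun b _ => le_iSup_of_le b le_rfl))
  by_cases hb : b = b₀
  · subst hb; exact le_sup_left
  · exact le_sup_of_le_right (le_iSup₂_of_le b (by simp [hb]) le_rfl)

/-- no non-zero constant as soon as a uniformiser is not in the prime -/
theorem gd_of {τ : Type} {J : Ideal (PS O τ)} (hp : J.IsPrime) {ϖ : O} (hϖ : Irreducible ϖ)
    (h : C ϖ ∉ J) : Gd J := by
  refine ⟨hp, fun c hc h1 => ?_⟩
  obtain ⟨n, u, rfl⟩ := IsDiscreteValuationRing.eq_unit_mul_pow_irreducible hc hϖ
  rw [map_mul, map_pow] at h1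
  rcases hp.mem_or_mem h1 with h2 | h2
  · exact hp.ne_top (Ideal.eq_top_of_isUnit_mem _ h2 (u.isUnit.map C))
  · exact h (hp.mem_of_pow_mem n h2)

end

end Vale.Agent.P022K.RT.Geo
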