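import Vale.Agent.P022K.RT.Lp5F
import Vale.Agent.P022K.RT.GirD

/-! P022K, block RT, row GIR: triangular lifts along a line. -/

set_option linter.all false

noncomputable section

namespace Vale.Agent.P022K.RT.L5

open Matrix Module IsLocalRing
open Vale.Agent.P022D.L2b (M2 Z1 pd)
open Vale.Agent.P022K.RT.Zl (ZS)

variable {G F B : Type} [Group G] [TopologicalSpace G] [Field F] [CommRing B] [IsLocalRing B]
  [Algebra F B] {r : G →* M2 F} {ρ : G →* M2 B}

theorem kr [IsNoetherianRing B] {I : Ideal B} {a : B} (h : ∀ n, a ∈ I ⊔ maximalIdeal B ^ n) :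
    a ∈ I := by
  have e := Ideal.iInf_pow_smul_eq_bot_of_isLocalRing (M := B ⧸ I) (maximalIdeal B)
    (maximalIdeal.isMaximal B).ne_top
  rw [← Ideal.Quotient.eq_zero_iff_mem, ← Submodule.mem_bot B, ← e, Submodule.mem_iInf]
  intro n
  obtain ⟨b, hb, c, hc, rfl⟩ := Submodule.mem_sup.1 (h n)
  rw [map_add, Ideal.Quotient.eq_zero_iff_mem.2 hb, zero_add, ← mul_one c]
  exact Submodule.smul_mem_smul hc (Submodule.mem_top (x := Ideal.Quotient.mk I 1))

theorem sep {J : Ideal B} {a : B} (h : a ∉ J) :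
    ∃ φ : B →ₗ[F] F, (∀ b ∈ J, φ b = 0) ∧ φ a = 1 := by
  obtain ⟨φ, e1, e2⟩ := (J.restrictScalars F).exists_dual_map_eq_bot_of_notMem h inferInstance
  refine ⟨(φ a)⁻¹ • φ, fun b hb => ?_, inv_mul_cancel₀ e1⟩
  have : φ b = 0 := by
    rw [← Submodule.mem_bot F, ← e2]
    exact Submodule.mem_map_of_mem hb
  rw [LinearMap.smul_apply, this, smul_zero]

theorem sq_le {B : Type} [CommRing B] (I m : Ideal B) (n : ℕ) :
    (I ⊔ m ^ (n + 1)) * (I ⊔ m ^ (n + 1)) ≤ I ⊔ m ^ (n + 1 + 1) := by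
  refine Ideal.mul_le.2 fun a ha b hb => ?_
  obtain ⟨a1, h1, a2, h2, rfl⟩ := Submodule.mem_sup.1 ha
  obtain ⟨b1, h3, b2, h4, rfl⟩ := Submodule.mem_sup.1 hb
  rw [show (a1 + a2) * (b1 + b2) = (a1 * (b1 + b2) + a2 * b1) + a2 * b2 by ring]
  refine Submodule.add_mem_sup (I.add_mem (I.mul_mem_right _ h1) (I.mul_mem_left _ h3)) ?_
  rw [pow_succ]
  exact Ideal.mul_mem_mul h2 (Ideal.pow_le_self n.succ_ne_zero h4)

/-- a triangular lift with constant determinant -/
structure TL (r : G →* M2 F) (ρ : G →* M2 B) : Prop where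
  lc : ∀ n, IsLocallyConstant fun x => (ρ x).map (Ideal.Quotient.mk (maximalIdeal B ^ n))
  tri : ∀ x, ρ x 1 0 = 0
  det : ∀ x, (ρ x).det = algebraMap F B (r x).det
  red : ∀ x i j, ρ x i j - algebraMap F B (r x i j) ∈ maximalIdeal B

/-- the direction `t` does not lift to second order -/
def NZ (r : G →* M2 F) (t : G → M2 F) : Prop := ¬ ∃ z : G → M2 F, IsLocallyConstant z ∧
  (∀ x, z x 1 0 = 0) ∧ (∀ x y, z (x * y) = z x * r y + r x * z y + t x * t y) ∧
    ∀ x, pd (r x) (z x) + (t x).det = 0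

/-- the difference -/
def df (r : G →* M2 F) (ρ : G →* M2 B) (x : G) : M2 B := ρ x - (r x).map (algebraMap F B)

theorem TL.fn (h : TL r ρ) (hr : IsLocallyConstant r) (ht : ∀ x, r x 1 0 = 0) (φ : B →ₗ[F] F)
    {n : ℕ} (hφ : ∀ b ∈ maximalIdeal B ^ n, φ b = 0) :
    IsLocallyConstant (fun x => (df r ρ x).map φ) ∧ (∀ x, (df r ρ x).map φ 1 0 = 0) ∧
      (∀ x y, (df r ρ (x * y)).map φ = (df r ρ x).map φ * r y + r x * (df r ρ y).map φ +
        (df r ρ x * df r ρ y).map φ) ∧
      ∀ x, pd (r x) ((df r ρ x).map φ) + φ (df r ρ x).det = 0 := by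
  have m1 : ∀ (a : F) (b : B), a * φ b = φ (algebraMap F B a * b) := fun a b => by
    rw [← Algebra.smul_def, map_smul, smul_eq_mul]
  have m2 : ∀ (a : F) (b : B), φ b * a = φ (algebraMap F B a * b) := fun a b => by
    rw [mul_comm, m1]
  refine ⟨?_, fun x => by simp [df, h.tri, ht], fun x y => ?_, fun x => ?_⟩
  · have h1 := (h.lc n).prodMk hr
    rw [IsLocallyConstant.iff_eventually_eq] at h1 ⊢
    refine fun x => (h1 x).mono fun y hy => Matrix.ext fun i j => ?_
    have e := hφ _ (Ideal.Quotient.eq.1 (congrFun (congrFun (congrArg Prod.fst hy) i) j))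
    simp only [df, map_apply, Matrix.sub_apply, show r y = r x from congrArg Prod.snd hy, map_sub]
      at e ⊢
    rw [sub_eq_zero.1 e]
  · ext i j
    simp only [map_apply, Matrix.add_apply, Matrix.mul_apply, Fin.sum_univ_two, m1, m2, ← map_add]
    congr 1
    simp only [df, map_mul, map_apply, Matrix.sub_apply, Matrix.mul_apply, Fin.sum_univ_two, map_add]
    ring
  · have e := h.det x
    simp only [pd, map_apply, m1, ← map_add, ← map_sub]
    rw [← map_zero φ]
    congr 1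
    simp only [det_fin_two, map_sub, map_mul, df, map_apply, Matrix.sub_apply] at e ⊢
    linear_combination e

variable {k : ℕ} {g : Fin k → G} {p q : Fin k → Fin 2} {t : G → M2 F} {y : B}

theorem TL.step (h : TL r ρ) (hr : IsLocallyConstant r) (ht : ∀ x, r x 1 0 = 0)
    (hT : ∀ c ∈ Za r, (∀ i, c (g i) (p i) (q i) = 0) → c = 0) (h0 : t ∈ Za r)
    (hc : ∀ i, df r ρ (g i) (p i) (q i) = algebraMap F B (t (g i) (p i) (q i)) * y)
    {J J' : Ideal B} {n : ℕ} (hn : maximalIdeal B ^ n ≤ J) (hJ : J' * J' ≤ J)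
    (hu : ∀ x i j, df r ρ x i j ∈ J') (x : G) (i j : Fin 2) :
    df r ρ x i j - algebraMap F B (t x i j) * y ∈ J := by
  by_contra hne
  obtain ⟨φ, e1, e2⟩ := sep (F := F) hne
  obtain ⟨a1, a2, a3, a4⟩ := h.fn hr ht φ fun b hb => e1 b (hn hb)
  have m0 : ∀ x i j y k l, φ (df r ρ x i j * df r ρ y k l) = 0 := fun x i j y k l =>
    e1 _ (hJ (Ideal.mul_mem_mul (hu x i j) (hu y k l)))
  have m1 : ∀ a : F, φ (algebraMap F B a * y) = φ y * a := fun a => by
    rw [← Algebra.smul_def, map_smul, smul_eq_mul, mul_comm]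
  have hU : (fun x => (df r ρ x).map φ) ∈ Za r := ⟨⟨a1, fun x y => by
    rw [a3, add_eq_left]
    ext i j
    simp [Matrix.mul_apply, Fin.sum_univ_two, m0], fun x => by
    simpa [det_fin_two, m0] using a4 x⟩, funext fun x => by
    exact div_eq_zero_iff.2 (Or.inl (a2 x))⟩
  have e := hT _ ((Za r).sub_mem hU ((Za r).smul_mem (φ y) h0)) fun i => by
    simp only [Pi.sub_apply, Pi.smul_apply, Matrix.sub_apply, Matrix.smul_apply, map_apply, hc, m1,
      smul_eq_mul, sub_self]
  have e3 : φ (df r ρ x i j) - φ y * t x i j = 0 := congrFun (congrFun (congrFun e x) i) j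
  rw [map_sub, m1, e3] at e2
  exact zero_ne_one e2

/-- a triangular lift whose coordinates lie on an obstructed line is constant -/
theorem TL.line [IsNoetherianRing B] [IsDomain B] (h : TL r ρ) (hr : IsLocallyConstant r)
    (ht : ∀ x, r x 1 0 = 0) (hT : ∀ c ∈ Za r, (∀ i, c (g i) (p i) (q i) = 0) → c = 0)
    (h0 : t ∈ Za r) (hy : y ∈ maximalIdeal B)
    (hc : ∀ i, df r ρ (g i) (p i) (q i) = algebraMap F B (t (g i) (p i) (q i)) * y)
    (hz : y = 0 ∨ NZ r t) (x : G) : ρ x = (r x).map (algebraMap F B) := by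
  have y1 : y ∈ Ideal.span {y} := Ideal.mem_span_singleton_self y
  have s1 : ∀ n x i j, df r ρ x i j ∈ Ideal.span {y} ⊔ maximalIdeal B ^ (n + 1) := by
    intro n
    induction n with
    | zero => exact fun x i j => Ideal.mem_sup_right (by rw [zero_add, pow_one]; exact h.red x i j)
    | succ n ih =>
      intro x i j
      have := h.step hr ht hT h0 hc (J := Ideal.span {y} ⊔ maximalIdeal B ^ (n + 1 + 1))
        le_sup_right (sq_le _ _ n) ih x i j
      simpa using Ideal.add_mem _ this (Ideal.mem_sup_left (Ideal.mul_mem_left _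
        (algebraMap F B (t x i j)) y1))
  have s2 : ∀ x i j, df r ρ x i j ∈ Ideal.span {y} := fun x i j => kr fun n =>
    (sup_le_sup_left (Ideal.pow_le_pow_right n.le_succ) _ :
      Ideal.span {y} ⊔ maximalIdeal B ^ (n + 1) ≤ Ideal.span {y} ⊔ maximalIdeal B ^ n) (s1 n x i j)
  suffices H : y = 0 by
    ext i j
    have := s2 x i j
    rw [H, Ideal.span_singleton_zero, Ideal.mem_bot] at this
    exact sub_eq_zero.1 this
  refine hz.elim id fun hz => by_contra fun hy0 => hz ?_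
  have s3 : ∀ x i j, ∃ w, df r ρ x i j = algebraMap F B (t x i j) * y + w * (y * y) := fun x i j => by
    obtain ⟨w, hw⟩ := Ideal.mem_span_singleton'.1 (kr (I := Ideal.span {y * y}) fun n =>
      h.step hr ht hT h0 hc le_sup_right
        (by rw [Ideal.span_singleton_mul_span_singleton]; exact le_sup_left) s2 x i j)
    exact ⟨w, by rw [hw]; ring⟩
  have s4 : y * y ∉ Ideal.span {y * y * y} := fun e => by
    obtain ⟨w, hw⟩ := Ideal.mem_span_singleton'.1 e
    have e1 : y * y * (w * y) = y * y * 1 := by linear_combination hw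
    exact hy (IsUnit.of_mul_eq_one_right w (mul_left_cancel₀ (mul_ne_zero hy0 hy0) e1))
  obtain ⟨n, hn⟩ := not_forall.1 fun e => s4 (kr e)
  obtain ⟨φ, e1, e2⟩ := sep (F := F) hn
  obtain ⟨a1, a2, a3, a4⟩ := h.fn hr ht φ fun b hb => e1 b (Ideal.mem_sup_right hb)
  have m0 : ∀ x i j z k l, φ (df r ρ x i j * df r ρ z k l) = t x i j * t z k l := by
    intro x i j z k l
    obtain ⟨w, hw⟩ := s3 x i j
    obtain ⟨v, hv⟩ := s3 z k l
    have e : df r ρ x i j * df r ρ z k l = (t x i j * t z k l) • (y * y) +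
        (algebraMap F B (t x i j) * v + w * algebraMap F B (t z k l) + w * v * y) * (y * y * y) := by
      rw [hw, hv, Algebra.smul_def, map_mul]; ring
    rw [e, map_add, map_smul, e2, e1 _ (Ideal.mem_sup_left (Ideal.mul_mem_left _ _
      (Ideal.mem_span_singleton_self _))), smul_eq_mul, mul_one, add_zero]
  refine ⟨_, a1, a2, fun x z => ?_, fun x => by simpa [det_fin_two, m0] using a4 x⟩
  rw [a3, add_right_inj]
  ext i j
  simp [Matrix.mul_apply, Fin.sum_univ_two, m0]

theorem TL.of [IsTopologicalGroup G] (h : Bor r ρ) : TL r ρ := by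
  refine ⟨fun n => (IsLocallyConstant.iff_eventually_eq _).2 fun x => ?_, h.up, h.det, h.red⟩
  have h1 : ∀ᶠ y in nhds x, x⁻¹ * y ∈ {u | Cg (maximalIdeal B ^ n) (ρ u) 1} :=
    (continuous_const.mul continuous_id).continuousAt.eventually_mem ((h.lc n).mem_nhds fun i j => by
      simp)
  refine h1.mono fun y hy => Matrix.ext fun i j => Ideal.Quotient.eq.2 ?_
  have e : ρ y - ρ x = ρ x * (ρ (x⁻¹ * y) - 1) := by
    rw [mul_sub, ← map_mul, mul_inv_cancel_left, mul_one]
  rw [← Matrix.sub_apply, e, Matrix.mul_apply]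
  exact Ideal.sum_mem _ fun l _ => Ideal.mul_mem_left _ _ (hy l j)

open MvPolynomial in
/-- **four coordinates, or five coordinates and an obstructed direction** -/
theorem ct_of [IsTopologicalGroup G] (hr : IsLocallyConstant r) (ht : ∀ x, r x 1 0 = 0)
    (h : Module.rank F (Za r) ≤ (4 : ℕ) ∨
      (Module.rank F (Za r) ≤ (5 : ℕ) ∧ ∃ t ∈ Za r, NZ r t)) : CT r := by
  rcases h with h | ⟨h, t, h0, hz⟩
  · obtain ⟨g, p, q, hT⟩ := Zl.pick_ent 4 _ h
    refine ⟨fun i => X (g i, p i, q i) - C (r (g i) (p i) (q i)), fun i => by simp,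
      fun B _ _ _ _ ρ hρ e => (TL.of hρ).line (y := 0) hr ht hT (Za r).zero_mem
        (Ideal.zero_mem _) (fun i => ?_) (Or.inl rfl)⟩
    simpa [df] using e i
  obtain ⟨g, p, q, hT⟩ := Zl.pick_ent 5 _ h
  obtain ⟨k, hk⟩ : ∃ k, t (g k) (p k) (q k) ≠ 0 := not_forall.1 fun e => hz (by
    rw [hT t h0 e]
    exact ⟨0, IsLocallyConstant.const 0, fun _ => rfl, fun x y => by simp, fun x => by simp [pd]⟩)
  let v : Fin 5 → MvPolynomial (G × Fin 2 × Fin 2) F :=
    fun i => X (g i, p i, q i) - C (r (g i) (p i) (q i))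
  refine ⟨fun i => v (k.succAbove i) - C (t (g (k.succAbove i)) (p (k.succAbove i))
      (q (k.succAbove i)) * (t (g k) (p k) (q k))⁻¹) * v k, fun i => by simp [v],
    fun B _ _ _ _ ρ hρ e => (TL.of hρ).line
      (y := algebraMap F B (t (g k) (p k) (q k))⁻¹ * df r ρ (g k) (p k) (q k)) hr ht hT h0
      (Ideal.mul_mem_left _ _ (hρ.red _ _ _)) (fun i => ?_) (Or.inr hz)⟩
  rw [← mul_assoc, ← map_mul]
  refine Fin.succAboveCases k ?_ (fun i => ?_) i
  · rw [mul_inv_cancel₀ hk, map_one, one_mul]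
  · have := e i
    simp only [v, map_sub, map_mul, aeval_X, aeval_C] at this
    rw [map_mul]
    exact sub_eq_zero.1 this

end Vale.Agent.P022K.RT.L5
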