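import Vale.Agent.P022K.RT.L5B

/-! P022K, block RT, row LP5: the cup product over the prime field (row `CUP`). -/

set_option linter.all false

noncomputable section

namespace Vale.Agent.P022K.RT.L5

open Finset
open Vale.Agent.P022K.RT.Tr (Gp)

namespace Cu

variable {p : ℕ} [hp : Fact p.Prime]

theorem add_lt {x y : Om p} (h : ‖x‖ < 1) (h' : ‖y‖ < 1) : ‖x + y‖ < 1 :=
  (IsUltrametricDist.norm_add_le_max x y).trans_lt (max_lt h h')

theorem sub_lt {x y : Om p} (h : ‖x‖ < 1) (h' : ‖y‖ < 1) : ‖x - y‖ < 1 := by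
  rw [sub_eq_add_neg]
  exact add_lt h (by rwa [norm_neg])

theorem padic {y : Om p} (h : ∀ g : Gp p, g y = y) (n : ‖y‖ ≤ 1) :
    ∃ r : ℤ_[p], ((algebraMap ℚ_[p] (Om p)).comp PadicInt.Coe.ringHom) r = y := by
  obtain ⟨r, rfl⟩ := fix h
  exact ⟨⟨r, (PadicAlgCl.norm_extends p r).symm.trans_le n⟩, rfl⟩

theorem padic_inj : Function.Injective ((algebraMap ℚ_[p] (Om p)).comp PadicInt.Coe.ringHom) :=
  (algebraMap ℚ_[p] (Om p)).injective.comp Subtype.val_injective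

/-- the difference of two roots of the polynomial of Artin and Schreier -/
theorem as_diff {x y : Om p} (hx : x ^ p = x + 1) (hy : y ^ p = y + 1) (nx : ‖x‖ ≤ 1)
    (ny : ‖y‖ ≤ 1) : (∃ m : ℤ, ‖x - y - m‖ < 1) ∧ (‖x - y‖ < 1 → x = y) := by
  let O := Valued.integer (Om p)
  have mem : ∀ {z : Om p}, ‖z‖ ≤ 1 → z ∈ O := fun h => h
  let d : O := ⟨x, mem nx⟩ - ⟨y, mem ny⟩
  obtain ⟨r, hr⟩ := exists_add_pow_prime_eq hp.out (⟨y, mem ny⟩ : O) d
  have e : x - y - (x - y) ^ p = p * y * (x - y) * r := by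
    have : (y + (x - y)) ^ p = y ^ p + (x - y) ^ p + p * y * (x - y) * r := congrArg Subtype.val hr
    rw [add_sub_cancel, hx, hy] at this
    linear_combination this
  have n : ‖x - y - (x - y) ^ p‖ ≤ ‖(p : Om p)‖ * ‖x - y‖ := by
    rw [e, norm_mul, norm_mul, norm_mul]
    exact (mul_le_of_le_one_right (by positivity) (show ‖(r : Om p)‖ ≤ 1 from r.2)).trans
      (mul_le_mul_of_nonneg_right (mul_le_of_le_one_right (norm_nonneg _) ny) (norm_nonneg _))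
  have z : ∀ a : O, IsLocalRing.residue O a = 0 ↔ ‖(a : Om p)‖ < 1 := fun a =>
    (IsLocalRing.residue_eq_zero_iff a).trans
      (Valuation.Integer.not_isUnit_iff_valuation_lt_one (v := Valued.v))
  refine ⟨?_, fun h => sub_eq_zero.1 (by_contra fun h0 => ?_)⟩
  · have : CharP (IsLocalRing.ResidueField O) p := (CharP.charP_iff_prime_eq_zero hp.out).2 (by
      rw [← map_natCast (IsLocalRing.residue O), z]; exact p_lt)
    obtain ⟨m, hm⟩ := (mem_bot_iff_intCast p _).1 ((Subfield.mem_bot_iff_pow_eq_self _ p).2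
      (show IsLocalRing.residue O d ^ p = _ from Eq.symm (by
        rw [← sub_eq_zero, ← map_pow, ← map_sub, z]
        exact n.trans_lt (mul_lt_one_of_nonneg_of_lt_one_left (norm_nonneg _) p_lt d.2))))
    exact ⟨m, (z (d - m)).1 (by rw [map_sub, map_intCast, hm, sub_self])⟩
  · have pos := norm_pos_iff.2 h0
    have := IsUltrametricDist.norm_add_le_max (x - y - (x - y) ^ p) ((x - y) ^ p)
    rw [sub_add_cancel, norm_pow] at this
    exact this.not_gt (max_lt (n.trans_lt (mul_lt_of_lt_one_left pos p_lt))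
      (pow_lt_self_of_lt_one₀ pos h hp.out.one_lt))

open Polynomial in
/-- the unramified character -/
theorem unr : ∃ (a : Gp p → ZMod p) (δ : Om p), Hom a ∧ (∃ σ, a σ ≠ 0) ∧ δ ≠ 0 ∧
    (∀ h, a h = 0 → h δ = δ) ∧ ∀ σ, a σ ≠ 0 → Nm σ δ = p ^ p - p - 1 := by
  have h1 := hp.out.one_lt
  let f : (Om p)[X] := X ^ p - (X + 1)
  have d1 : (X + 1 : (Om p)[X]).degree < p := by
    rw [← C_1, degree_X_add_C]; exact_mod_cast h1
  have df : f.degree = p := by rw [degree_sub_eq_left_of_degree_lt (by simpa using d1), degree_X_pow]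
  obtain ⟨θ, hθ⟩ := IsAlgClosed.exists_root f (by rw [df]; exact_mod_cast hp.out.ne_zero)
  replace hθ : θ ^ p = θ + 1 := sub_eq_zero.1 (by simpa [f] using hθ)
  have n : ‖θ‖ ≤ 1 := by
    by_contra! c
    have := IsUltrametricDist.norm_add_le_max θ 1
    rw [← hθ, norm_pow, norm_one, max_eq_left c.le] at this
    exact this.not_gt (lt_self_pow₀ c h1)
  have r : ∀ g : Gp p, g θ ^ p = g θ + 1 := fun g => by rw [← map_pow, hθ, map_add, map_one]
  have A := fun g => as_diff (r g) hθ ((nrm g θ).trans_le n) n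
  choose m hm using fun g => (A g).1
  have u : ∀ g (j : ℤ), ‖g θ - θ - j‖ < 1 → (m g : ZMod p) = j := fun g j h => by
    have := sub_lt (hm g) h
    rw [sub_sub_sub_cancel_left, ← Int.cast_sub, ← map_intCast (algebraMap ℚ_[p] (Om p)),
      PadicAlgCl.norm_extends, Padic.norm_intCast_lt_one_iff] at this
    exact (ZMod.intCast_eq_intCast_iff_dvd_sub _ _ _).2 this
  have ha : Hom fun g => (m g : ZMod p) := ⟨lc_of _ θ fun g v e => u _ _ (by
      rw [AlgEquiv.mul_apply, e]; exact hm g), fun g h => by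
    rw [← Int.cast_add]
    refine u _ _ ?_
    convert add_lt (hm g) ((nrm g _).trans_lt (hm h)) using 2
    simp only [map_sub, map_intCast, AlgEquiv.mul_apply, Int.cast_add]
    ring⟩
  have fx : ∀ h, (m h : ZMod p) = 0 → h θ = θ := fun h e => (A h).2 (by
    obtain ⟨j, hj⟩ := (ZMod.intCast_zmod_eq_zero_iff_dvd _ _).1 e
    rw [← sub_add_cancel (h θ - θ) (m h)]
    refine add_lt (hm h) ?_
    rw [hj, Int.cast_mul, Int.cast_natCast, norm_mul]
    exact mul_lt_one_of_nonneg_of_lt_one_left (norm_nonneg _) p_lt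
      (IsUltrametricDist.norm_intCast_le_one _ j))
  have nq : ¬∀ g : Gp p, g θ = θ := fun c => by
    obtain ⟨t, rfl⟩ := padic c n
    simpa using congrArg PadicInt.toZMod (padic_inj (a₁ := t ^ p) (a₂ := t + 1)
      (by rw [map_pow, map_add, map_one, hθ]))
  refine ⟨_, p - θ, ha, by_contra fun c => nq fun g => fx g (by_contra fun e => c ⟨g, e⟩),
    fun e => nq fun g => by rw [← sub_eq_zero.1 e, map_natCast],
    fun h e => by rw [map_sub, map_natCast, fx h e], fun σ hσ => ?_⟩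
  have inj : Set.InjOn (fun i : ℕ => (σ ^ i) θ) (range p) := fun i hi j hj e => by
    have := u (σ ^ i) _ (by rw [show (σ ^ i) θ = _ from e]; exact hm (σ ^ j))
    rw [ha.pow, ha.pow, mul_left_inj' hσ, ZMod.natCast_eq_natCast_iff'] at this
    rwa [Nat.mod_eq_of_lt (mem_range.1 hi), Nat.mod_eq_of_lt (mem_range.1 hj)] at this
  have e : f = Lagrange.nodal (range p) fun i : ℕ => (σ ^ i) θ :=
    eq_of_degree_le_of_eval_index_eq _ inj (by rw [df, card_range])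
      (by rw [df, Lagrange.degree_nodal, card_range])
      ((monic_X_pow_sub d1).trans Lagrange.nodal_monic.symm) fun i hi => by
        rw [Lagrange.eval_nodal_at_node (v := fun i : ℕ => (σ ^ i) θ) hi]
        simp only [f, eval_sub, eval_add, eval_pow, eval_X, eval_one, r, sub_self]
  have := congrArg (eval (p : Om p)) e
  rw [Lagrange.eval_nodal] at this
  simp only [Nm, map_sub, map_natCast, ← this]
  simp [f, sub_sub]

variable {ω : Gp p →* (ZMod p)ˣ} (hω : Cyc p ω) {ζ : Om p} (hζ : IsPrimitiveRoot ζ p)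

include hω in
/-- the cyclotomic character -/
theorem cyc : ∃ (a : Gp p → ZMod p) (σ : Gp p) (δ : Om p), Hom a ∧ a σ = 1 ∧ δ ≠ 0 ∧
    (∀ h, a h = 0 → h δ = δ) ∧ ‖Nm σ δ‖ = ‖(p : Om p)‖ := by
  classical
  obtain ⟨ξ, hξ⟩ := ex_prim p (1 + 1)
  have hζ : IsPrimitiveRoot (ξ ^ p) p := hξ.pow (pow_pos hp.out.pos _) (by ring)
  have ξ0 := hξ.ne_zero (pow_ne_zero _ hp.out.ne_zero)
  have : NeZero (p ^ (1 + 1)) := ⟨pow_ne_zero _ hp.out.ne_zero⟩
  choose n _ hn using fun g : Gp p => hξ.eq_pow_of_pow_eq_one (hξ.map_of_injective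
    g.injective).pow_eq_one
  have np : ∀ (g : Gp p) j k, g ξ = ξ ^ j → (g ^ k) ξ = ξ ^ j ^ k := fun g j k e => by
    induction k with
    | zero => simp
    | succ k ih => rw [pow_succ', AlgEquiv.mul_apply, ih, map_pow, e, ← pow_mul, pow_succ']
  have w : ∀ g : Gp p, ω (g ^ (p - 1)) = 1 := fun g => by rw [map_pow, ZMod.units_pow_card_sub_one_eq_one]
  choose a ha using fun g : Gp p => ex_log hζ ξ0 (γ := (g ^ (p - 1)) ξ) (by
    rw [← map_pow, hω _ _ hζ.pow_eq_one, w, Units.val_one, ZMod.val_one, pow_one])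
  have A : Hom a := ⟨lc_of _ ξ fun g v e => pw_inj hζ (mul_right_cancel₀ ξ0 (by
      rw [← ha, ← ha, np g _ _ (hn g).symm, np _ _ _ (by rw [AlgEquiv.mul_apply, e, ← hn g])])),
    fun g h => pw_inj hζ (mul_right_cancel₀ ξ0 (by
      have := congrArg (g ^ (p - 1)) (ha h)
      rw [map_mul, pw_map hζ hω, w, Units.val_one, one_mul, ha g, np h _ _ (hn h).symm, map_pow,
        np g _ _ (hn g).symm, ← pow_mul, ← mul_pow] at this
      rw [← ha, np _ (n g * n h) _ (by rw [AlgEquiv.mul_apply, ← hn h, map_pow, ← hn g, pow_mul]),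
        this, pw_add hζ]
      ring))⟩
  obtain ⟨S, δ, s1, s2, s3⟩ := orb A.mh.ker hξ
  have pos : 0 < S.card := card_pos.2 ⟨ξ, (s1 ξ).2 ⟨1, one_mem _, rfl⟩⟩
  have le : S.card ≤ p - 1 := by
    rw [← Nat.totient_prime hp.out, ← hζ.card_primitiveRoots]
    refine card_le_card_of_injOn (· ^ p) (fun η m => ?_) fun η m η' m' e => ?_
    · obtain ⟨g, -, rfl⟩ := (s1 η).1 m
      exact (mem_primitiveRoots hp.out.pos).2
        (by simpa only [map_pow] using hζ.map_of_injective g.injective)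
    · obtain ⟨g, hg, rfl⟩ := (s1 η).1 m
      obtain ⟨g', hg', rfl⟩ := (s1 η').1 m'
      have m : a (g'⁻¹ * g) = 0 := mul_mem (inv_mem hg') hg
      have e1 : (g'⁻¹ * g) (ξ ^ p) = ξ ^ p := by
        rw [AlgEquiv.mul_apply, map_pow, show g ξ ^ p = g' ξ ^ p from e, ← map_pow]
        exact g'.symm_apply_apply _
      obtain ⟨t, ht⟩ := ex_log hζ ξ0 ((map_pow _ ξ p).symm.trans e1)
      have e2 : ∀ k : ℕ, ((g'⁻¹ * g) ^ k) ξ = (ξ ^ p) ^ (k * t).val * ξ := fun k => by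
        induction k with
        | zero => simp
        | succ k ih =>
          rw [pow_succ', AlgEquiv.mul_apply, ih, map_mul, map_pow, e1, ht, Nat.cast_succ,
            add_one_mul, pw_add hζ, mul_assoc]
      have := pw_inj hζ (mul_right_cancel₀ ξ0 ((e2 _).symm.trans (ha _)))
      rw [m, Nat.cast_pred hp.out.pos, ZMod.natCast_self, zero_sub, neg_one_mul, neg_eq_zero] at this
      rw [this, ZMod.val_zero, pow_zero, one_mul] at ht
      exact (g'.apply_symm_apply _).symm.trans (congrArg g' ht)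
  rw [Nat.totient_prime_pow_succ hp.out, pow_one] at s3
  have p1 : p - 1 ≠ 0 := Nat.sub_ne_zero_of_lt hp.out.one_lt
  have t0 := mul_ne_zero hp.out.ne_zero p1
  have δ0 : δ ≠ 0 := by
    rintro rfl
    rw [norm_zero, zero_pow t0] at s3
    exact (pow_pos p_pos _).ne s3
  obtain ⟨σ, hσ⟩ : ∃ σ, a σ ≠ 0 := by
    by_contra! c
    have := (Nat.le_of_dvd pos (val_dvd (fun g => s2 g (c g)) t0 s3)).trans le
    exact this.not_gt (lt_mul_of_one_lt_left (Nat.pos_of_ne_zero p1) hp.out.one_lt)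
  obtain ⟨k, hk⟩ := A.ex hσ 1
  have e : ‖Nm (σ ^ k) δ‖ ^ (p - 1) = ‖(p : Om p)‖ ^ S.card := by
    simp only [Nm, norm_prod, nrm, prod_const, card_range, ← pow_mul, s3]
  refine ⟨a, _, δ, A, hk, δ0, s2, (pow_left_inj₀ (norm_nonneg _) (norm_nonneg _) p1).1 ?_⟩
  rw [e, le.antisymm (Nat.le_of_dvd pos (val_dvd (A.nm (hk ▸ one_ne_zero) δ0 s2) p1 e))]

theorem norm_b : ‖(p ^ p - p - 1 : Om p)‖ = 1 := by
  have := sub_lt (show ‖(p : Om p) ^ p‖ < 1 by
    rw [norm_pow]; exact pow_lt_one₀ (norm_nonneg _) p_lt hp.out.ne_zero) p_lt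
  rw [sub_eq_add_neg _ 1, IsUltrametricDist.norm_add_eq_max_of_norm_ne_norm (by simpa using this.ne)]
  simpa using this.le

/-- independence modulo powers -/
theorem ind (p2 : p ≠ 2) {b w : Om p} (fb : ∀ g : Gp p, g b = b) (nb : ‖b‖ = ‖(p : Om p)‖)
    (fw : ∀ g : Gp p, g w = w) {i j : ℕ} (e : b ^ i * (p ^ p - p - 1) ^ j = w ^ p) :
    (i : ZMod p) = 0 ∧ (j : ZMod p) = 0 := by
  have b0 : b ≠ 0 := norm_pos_iff.1 (nb ▸ p_pos)
  obtain ⟨i, rfl⟩ : p ∣ i := val_dvd fw hp.out.ne_zero (by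
    rw [← norm_pow, ← e, norm_mul, norm_pow, norm_pow, norm_b, one_pow, mul_one, nb])
  have e1 : (p ^ p - p - 1 : Om p) ^ j = (w / b ^ i) ^ p := by
    rw [div_pow, ← e, ← pow_mul, mul_comm i, mul_div_cancel_left₀ _ (pow_ne_zero _ b0)]
  have n : ‖w / b ^ i‖ = 1 := (pow_eq_one_iff_of_nonneg (norm_nonneg _) hp.out.ne_zero).1 (by
    rw [← norm_pow, ← e1, norm_pow, norm_b, one_pow])
  obtain ⟨t, ht⟩ := padic (fun g => by rw [map_div₀, map_pow, fb, fw]) n.le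
  have e2 : (p ^ p - p - 1 : ℤ_[p]) ^ j = t ^ p := padic_inj (by
    rw [map_pow _ t, ht, ← e1]; simp)
  obtain ⟨u, rfl⟩ : IsUnit t := PadicInt.isUnit_iff.2
    ((PadicAlgCl.norm_extends p t).symm.trans ((congrArg norm ht).trans n))
  have : NeZero (p ^ (1 + 1)) := ⟨pow_ne_zero _ hp.out.ne_zero⟩
  have e3 := congrArg (fun x => PadicInt.toZModPow (1 + 1) x ^ (p - 1)) e2
  have e4 := congrArg Units.val (ZMod.pow_totient (Units.map
    (PadicInt.toZModPow (p := p) (1 + 1)).toMonoidHom u))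
  have e5 : (p : ZMod (p ^ (1 + 1))) ^ p = 0 := by
    rw [← Nat.cast_pow, ZMod.natCast_eq_zero_iff]
    exact pow_dvd_pow _ hp.out.two_le
  rw [Nat.totient_prime_pow_succ hp.out, pow_one, Units.val_pow_eq_pow_val] at e4
  simp only [map_pow, map_sub, map_natCast, map_one, e5, ← pow_mul] at e3
  rw [show (0 - p - 1 : ZMod (p ^ (1 + 1))) = -(1 + p) by ring,
    ((hp.out.even_sub_one p2).mul_left j).neg_pow] at e3
  have := orderOf_dvd_of_pow_eq_one (e3.trans e4)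
  rw [ZMod.orderOf_one_add_prime hp.out p2, pow_one, hp.out.dvd_mul] at this
  exact ⟨by simp, (ZMod.natCast_eq_zero_iff _ _).2 (this.resolve_right (Nat.not_dvd_of_pos_of_lt
    (Nat.sub_pos_of_lt hp.out.one_lt) (Nat.sub_lt hp.out.pos one_pos)))⟩

include hω hζ in
/-- Kummer cocycles -/
theorem kum {b : Om p} (b0 : b ≠ 0) (fb : ∀ g : Gp p, g b = b) :
    ∃ (β : Om p) (c : Gp p → ZMod p), β ^ p = b ∧ β ≠ 0 ∧ (∀ g, g β = ζ ^ (c g).val * β) ∧
      IsLocallyConstant c ∧ ∀ x y, c (x * y) = c x + ω x * c y := by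
  obtain ⟨β, rfl⟩ := IsAlgClosed.exists_pow_nat_eq b hp.out.pos
  have β0 : β ≠ 0 := fun e => b0 (by rw [e, zero_pow hp.out.ne_zero])
  choose c hc using fun g : Gp p => ex_log hζ β0 ((map_pow g β p).symm.trans (fb g))
  exact ⟨β, c, rfl, β0, hc, lc_of _ β fun g v e => pw_inj hζ (mul_right_cancel₀ β0 (by
    rw [← hc, ← hc, AlgEquiv.mul_apply, e])), fun x y => pw_inj hζ (mul_right_cancel₀ β0 (by
      rw [← hc, AlgEquiv.mul_apply, hc y, map_mul, pw_map hζ hω, hc x, pw_add hζ]; ring))⟩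

end Cu

open Cu

theorem cup (hL : LOC) : CUP := fun p hp ω p2 hω => by
  obtain ⟨ζ, hζ⟩ := ex_prim p 1
  rw [pow_one] at hζ
  obtain ⟨a₀, δ₀, A₀, ⟨σ₀, h₀⟩, d₀, f₀, n₀⟩ := unr (p := p)
  obtain ⟨a₁, σ₁, δ₁, A₁, h₁, d₁, f₁, n₁⟩ := cyc hω
  have fb := A₁.nm (h₁ ▸ one_ne_zero) d₁ f₁
  generalize hb : Nm σ₁ δ₁ = b at n₁ fb
  obtain ⟨β₀, c₀, p₀, z₀, k₀, l₀, m₀⟩ := kum hω hζ (norm_pos_iff.1 (n₁ ▸ p_pos)) fb
  obtain ⟨β₁, c₁, p₁, z₁, k₁, l₁, m₁⟩ := kum hω hζ (b := p ^ p - p - 1)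
    (norm_pos_iff.1 (norm_b (p := p) ▸ one_pos)) fun g => by simp
  have J : ∀ {a : Gp p → ZMod p}, Hom a → ∀ {σ}, a σ ≠ 0 → ∀ k l k' l' : ZMod p,
      (∃ δ ≠ 0, (∀ h, a h = 0 → h δ = δ) ∧ Nm σ δ = b ^ k.val * (p ^ p - p - 1) ^ l.val) →
      (∃ δ ≠ 0, (∀ h, a h = 0 → h δ = δ) ∧ Nm σ δ = b ^ k'.val * (p ^ p - p - 1) ^ l'.val) →
      k * l' = l * k' := by
    rintro a A σ hσ k l k' l' ⟨x, x0, fx, nx⟩ ⟨y, y0, fy, ny⟩
    by_contra c
    refine A.two hω hζ hL p2 hσ x0 y0 fx fy fun s t w fw e => ?_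
    have := ind p2 fb n₁ fw (i := k.val * s + k'.val * t) (j := l.val * s + l'.val * t)
      (by rw [← e, nx, ny]; ring)
    simp only [Nat.cast_add, Nat.cast_mul, ZMod.natCast_zmod_val] at this
    exact ⟨mul_left_cancel₀ (sub_ne_zero.2 c) (by linear_combination l' * this.1 - k' * this.2),
      mul_left_cancel₀ (sub_ne_zero.2 c) (by linear_combination k * this.2 - l * this.1)⟩
  have N : ∀ {a : Gp p → ZMod p}, Hom a → ∀ {σ}, a σ = 1 → ∀ β : Fin 2 → ZMod p,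
      Cb (fun x => (ω x : ZMod p)) (fun x => ∑ j, β j * ![c₀, c₁] j x) a →
      ∃ δ ≠ 0, (∀ h, a h = 0 → h δ = δ) ∧ Nm σ δ = b ^ (β 0).val * (p ^ p - p - 1) ^ (β 1).val :=
    fun A σ hσ β h => by
      have := A.norm_of hω hζ hσ (mul_ne_zero (pow_ne_zero (β 0).val z₀) (pow_ne_zero (β 1).val z₁))
        (fun g => by
          rw [map_mul, map_pow, map_pow, k₀, k₁, Fin.sum_univ_two, pw_add hζ, mul_comm (β 0),
            mul_comm (β 1), pw_mul hζ, pw_mul hζ, mul_pow, mul_pow, mul_mul_mul_comm]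
          rfl) h
      rwa [mul_pow, pow_right_comm β₀, pow_right_comm β₁, p₀, p₁] at this
  have u₀ : ∀ σ, a₀ σ ≠ 0 → Nm σ δ₀ = b ^ (0 : ZMod p).val * (p ^ p - p - 1) ^ (1 : ZMod p).val :=
    fun σ h => by rw [n₀ σ h, ZMod.val_one]; simp
  have u₁ : Nm σ₁ δ₁ = b ^ (1 : ZMod p).val * (p ^ p - p - 1) ^ (0 : ZMod p).val := by
    rw [hb, ZMod.val_one]; simp
  refine ⟨![a₀, a₁], ![c₀, c₁], Fin.forall_fin_two.2 ⟨A₀.lc, A₁.lc⟩, Fin.forall_fin_two.2
    ⟨A₀.ma, A₁.ma⟩, Fin.forall_fin_two.2 ⟨l₀, l₁⟩, Fin.forall_fin_two.2 ⟨m₀, m₁⟩,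
    fun α hα => ?_, fun β hβ => ?_⟩
  · have A : Hom fun x => ∑ i, α i * ![a₀, a₁] i x := by
      simp only [Fin.sum_univ_two]
      exact ⟨(A₀.lc.comp (α 0 * ·)).add (A₁.lc.comp (α 1 * ·)), fun x y => by
        simp only [Matrix.cons_val_zero, Matrix.cons_val_one, A₀.ma, A₁.ma]; ring⟩
    obtain ⟨σ, hσ⟩ : ∃ σ, ∑ i, α i * ![a₀, a₁] i σ ≠ 0 := by
      by_contra! c
      replace c : ∀ σ, α 0 * a₀ σ + α 1 * a₁ σ = 0 := fun σ => (Fin.sum_univ_two _).symm.trans (c σ)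
      have e := c σ₁
      rw [h₁, mul_one] at e
      have α0 : α 0 ≠ 0 := fun w => hα (funext (Fin.forall_fin_two.2 ⟨w, by simpa [w] using e⟩))
      have α1 : α 1 ≠ 0 := fun w => h₀ (by simpa [w, α0] using c σ₀)
      simpa using J A₁ (h₁ ▸ one_ne_zero) _ _ _ _ ⟨_, d₁, f₁, u₁⟩ ⟨_, d₀, fun h hh =>
        f₀ h (by simpa [hh, α0] using c h), u₀ _ fun w => α1 (by simpa [w] using e)⟩
    obtain ⟨k, hk⟩ := A.ex hσ 1
    by_contra! c
    simpa using J A (hk ▸ one_ne_zero) _ _ _ _ (N A hk ![1, 0] (c _)) (N A hk ![0, 1] (c _))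
  · by_contra! c
    obtain ⟨k, hk⟩ := A₀.ex h₀ 1
    have e0 := J A₀ (hk ▸ one_ne_zero) _ _ _ _ (N A₀ hk β (by simpa using c ![1, 0]))
      ⟨_, d₀, f₀, u₀ _ (hk ▸ one_ne_zero)⟩
    have e1 := J A₁ (h₁ ▸ one_ne_zero) _ _ _ _ (N A₁ h₁ β (by simpa using c ![0, 1]))
      ⟨_, d₁, f₁, u₁⟩
    exact hβ (funext (Fin.forall_fin_two.2 ⟨by simpa using e0, by simpa using e1.symm⟩))

end Vale.Agent.P022K.RT.L5
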