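import Vale.Agent.P022K.RT.Lp5
import Vale.Agent.P022K.RT.L5Z1p
import Vale.Agent.P022K.RT.L5Cup

/-! P022K, block RT: row LP5 without hypotheses. -/

set_option linter.all false

namespace Vale.Agent.P022K.RT

/-- row LP5 -/
theorem lp5 : LP5 := lp5_of L5.z1p' (L5.cup L5.loc)

end Vale.Agent.P022K.RT
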