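import Vale.Agent.P022K.RT.GirL
import Vale.Agent.P022K.RT.Lp5Z

/-! P022K, block RT: row CTO. -/

set_option linter.all false

noncomputable section

namespace Vale.Agent.P022K.RT

open Matrix Module
open Vale.Agent.P022
open Vale.Agent.P022D.L2b (M2 Z1 pd)
open Vale.Agent.P022D.W (dec)
open Vale.Agent.P022E.GW (Ov)
open Vale.Agent.P022K.GW (Id Cy up)
open Vale.Agent.P022K.RT.Tr (Gp)

namespace L5

variable {G F : Type} [Group G] [TopologicalSpace G] [Field F] {r : G →* M2 F}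

theorem ct_surj {G' : Type} [Group G'] [TopologicalSpace G'] (j : G' →* G) (hc : Continuous j)
    (hj : Function.Surjective j) (h : CT (r.comp j)) : CT r := by
  obtain ⟨t, h1, h2⟩ := h
  refine ⟨fun i => MvPolynomial.rename (Prod.map j id) (t i), fun i => ?_,
    fun B _ _ _ _ ρ hρ e x => ?_⟩
  · rw [MvPolynomial.eval_rename]
    exact h1 i
  · obtain ⟨y, rfl⟩ := hj x
    exact h2 B (ρ.comp j) ⟨fun n => (hρ.lc n).preimage hc, fun x => hρ.up _, fun x => hρ.red _,
      fun x => hρ.det _⟩ (fun i => by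
        have := e i
        rwa [MvPolynomial.aeval_rename] at this) y

theorem ct_tri [IsTopologicalGroup G] (ht : ∀ x, r x 1 0 = 0) (hr : IsLocallyConstant r)
    {w : G → F} (hC : Ct w) (h1 : ∃ x, 1 ≠ w x) {a c : Fin 2 → G → F} (hU : Cup w a c)
    (h2 : (2 : F) ≠ 0) : CT r := by
  have bd : ∀ {l m : ℕ}, Module.rank F ((Za r).map (en r 0 0 0)) ≤ l →
      Module.rank F ((Zb r).map (en r 0 1 1)) ≤ m → Module.rank F (Za r) ≤ (l + m : ℕ) :=
    fun k1 k2 => by
      rw [rk2 ht, Nat.cast_add]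
      exact add_le_add k1 k2
  have k2 := (hC 1 (IsLocallyConstant.const 1)).2 h1
  have k3 := hC _ (th'_lc ht hr)
  refine ct_of hr ht ?_
  by_cases h3 : ∀ x, th' ht x = w x
  swap
  · exact Or.inl (bd ((Submodule.rank_mono (le_a ht hr)).trans k2)
      ((Submodule.rank_mono (le_b ht hr)).trans (k3.2 (not_forall.1 h3))))
  by_cases c2 : (Za r).map (en r 0 0 0) = ZC (1 : G →* F)
  swap
  · exact Or.inl (bd (rk_lt (n := 1) (le_a ht hr) c2 k2)
      ((Submodule.rank_mono (le_b ht hr)).trans k3.1))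
  refine Or.inr ⟨bd ((Submodule.rank_mono (le_a ht hr)).trans k2)
    ((Submodule.rank_mono (le_b ht hr)).trans k3.1), ?_⟩
  obtain ⟨κ, eb⟩ := spl3 ht hr hC h1 hU h2 h3 c2
  obtain ⟨β, hβ⟩ := hU.left ![1, 0] fun e => one_ne_zero (congrFun e 0)
  have hw : ∀ x, r x 0 0 = w x * r x 1 1 := fun x => (div_eq_iff (n11 ht x)).1 (h3 x)
  have wm : ∀ x y, w (x * y) = w x * w y := fun x y => by rw [← h3, ← h3, ← h3, map_mul]
  have lA : IsLocallyConstant fun x => ∑ i, ![1, 0] i * a i x := by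
    simp only [Fin.sum_univ_two]
    exact (hU.la 0).comp₂ (hU.la 1) fun u v => _ * u + _ * v
  have lC : IsLocallyConstant fun x => ∑ j, β j * c j x := by
    simp only [Fin.sum_univ_two]
    exact (hU.lc 0).comp₂ (hU.lc 1) fun u v => _ * u + _ * v
  have mA : ∀ x y, ∑ i, ![1, 0] i * a i (x * y) = ∑ i, ![1, 0] i * a i x + ∑ i, ![1, 0] i * a i y :=
    fun x y => by simp only [Fin.sum_univ_two, hU.ma]; ring
  have mC : ∀ x y, ∑ j, β j * c j (x * y) = ∑ j, β j * c j x + w x * ∑ j, β j * c j y :=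
    fun x y => by simp only [Fin.sum_univ_two, hU.mc]; ring
  obtain ⟨A, hA⟩ : ∃ A : G → F, ∀ x, ∑ i, ![1, 0] i * a i x = A x := ⟨_, fun _ => rfl⟩
  obtain ⟨D, hD⟩ : ∃ D : G → F, ∀ x, ∑ j, β j * c j x = D x := ⟨_, fun _ => rfl⟩
  simp only [hA, hD] at hβ lA lC mA mC
  refine ⟨fun x => !![A x * r x 0 0, κ * A x * (r x 0 0 + r x 1 1) + D x * r x 1 1;
    0, -(A x * r x 1 1)], ⟨⟨(lA.prodMk lC).comp₂ hr fun u X => !![u.1 * X 0 0,
      κ * u.1 * (X 0 0 + X 1 1) + u.2 * X 1 1; 0, -(u.1 * X 1 1)], fun x y => ?_, fun x => ?_⟩,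
    funext fun x => div_eq_zero_iff.2 (Or.inl rfl)⟩, fun ⟨z, z1, z2, z3, _⟩ => hβ
      ⟨fun x => (A x * D x - (z x 0 1 + κ * z x 1 1 - κ * z x 0 0) / r x 1 1) / 2,
        (lA.prodMk lC).comp₂ (z1.prodMk hr) fun u v =>
          (u.1 * u.2 - (v.1 0 1 + κ * v.1 1 1 - κ * v.1 0 0) / v.2 1 1) / 2, fun x y => ?_⟩⟩
  · ext i j
    fin_cases i <;> fin_cases j <;>
      simp only [Matrix.add_apply, Matrix.mul_apply, Fin.sum_univ_two, of_apply, cons_val',
        cons_val_zero, cons_val_one, cons_val_fin_one, Fin.zero_eta, Fin.mk_one, Fin.isValue, ht, eb,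
        hw, e11 ht, mA, mC, wm] <;> ring
  · simp only [pd, of_apply, cons_val', cons_val_zero, cons_val_one, cons_val_fin_one, ht]
    ring
  · have := n11 ht x
    have := n11 ht y
    simp only [z3, Matrix.add_apply, Matrix.mul_apply, Fin.sum_univ_two, of_apply, cons_val',
      cons_val_zero, cons_val_one, cons_val_fin_one, ht, z2, eb, hw, e11 ht, mA, mC]
    field_simp
    ring

end L5

open L5 in
/-- row CTO -/
theorem cto : CTO := by
  intro p hp F _ _ _ P ω r h2 h hω hr hd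
  refine ⟨?_, fun ht => ?_⟩
  · by_contra hs
    push Not at hs
    choose χ hχ using hs
    obtain ⟨τ, T⟩ := Zl.wd h
    obtain ⟨φ, hφ⟩ := Zl.ex_phi h
    have hW : ∀ w ∈ Zl.wD h, r w = 1 := fun w hw => by
      have e := congrFun (congrFun (wild_un (T φ hφ) hr hw).1 0) 0
      rw [hχ w] at e ⊢
      simp [Matrix.mul_apply, Fin.sum_univ_two] at e
      rw [sub_eq_zero.1 e, one_smul]
    have e1 : r τ ^ p = r τ := by
      have e := hW _ (T φ hφ).rel
      rw [map_mul, map_mul, map_mul, hχ φ, smul_mul_assoc, one_mul, smul_mul_assoc,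
        ← mul_smul_comm, ← one_mul (r φ⁻¹), ← smul_mul_assoc, ← hχ, Zl.r_inv, mul_one] at e
      rw [← one_mul (r τ ^ p), ← e, ← map_pow, mul_assoc, Zl.inv_r, mul_one]
    obtain ⟨k, hk⟩ := hp.out.odd_of_ne_two h2
    have e2 : (r τ).det ^ k = 1 := by
      have e := congrFun (congrFun e1 0) 0
      have e0 := (Zl.det_unit r τ).ne_zero
      rw [hχ τ] at e e0 ⊢
      rw [smul_pow, one_pow] at e
      simp at e e0 ⊢
      refine mul_right_cancel₀ e0 ?_
      rw [← pow_mul, ← pow_succ, ← hk, e, one_mul]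
    obtain ⟨u, hu⟩ := IsCyclic.exists_ofOrder_eq_natCard (α := (ZMod p)ˣ)
    obtain ⟨i, hi, rfl⟩ := om_in h hω u
    obtain ⟨m, hm⟩ := gen_I (T φ hφ) hr hW hi
    have e3 : ω i ^ k = 1 := by
      refine Units.ext ((ZMod.castHom (dvd_refl p) F).injective ?_)
      rw [Units.val_pow_eq_pow_val, map_pow, ← up_val, ← hd, hm, det_pow, pow_right_comm, e2,
        one_pow, Units.val_one, map_one]
    have e4 := hp.out.two_le
    have e5 := Nat.le_of_dvd (by omega) (orderOf_dvd_of_pow_eq_one e3)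
    rw [hu, Nat.card_eq_fintype_card, ZMod.card_units] at e5
    omega
  · obtain ⟨j, hc, hj, -, hy⟩ := Tr.exists_j p h
    have hr' : IsLocallyConstant (r.comp j) := hr.comp_continuous hc
    obtain ⟨a, c, hC⟩ := cup loc p (ω.comp j) h2 (hy ω hω)
    obtain ⟨i, -, e⟩ := om_neg (F := F) h hω h2
    obtain ⟨y, rfl⟩ := hj i
    exact ct_surj j hc hj (ct_tri (fun x => ht _) hr'
      (ct z1p' h2 (ω := ω.comp j) (hy ω hω) (ker_om hr' fun x => hd _)) ⟨y, e⟩ hC.up (two_ne h2))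

end Vale.Agent.P022K.RT
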