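import Vale.Agent.P022K.RT.Gda
import Vale.Agent.P022K.RT.Chart
import Vale.Agent.P022K.RT.AuxA
import Vale.Agent.P022K.RT.Blk
import Vale.Agent.P022K.RU.Univ
import Vale.Agent.P022K.GW.Defs

/-!
# P022K, block RT: universal families from local charts and tangent bounds
-/

set_option linter.all false

noncomputable section

namespace Vale.Agent.P022K.RT

open IsLocalRing MvPowerSeries
open Vale.Agent.P022D.L2b (M2)
open Vale.Agent.P022D.Loc2 (TnG)
open Vale.Agent.P022D.Core (PS)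
open Vale.Agent.P022D.CA (emb)
open Vale.Agent.P022K.PL (Cf)

/-- a local group with a chart -/
structure Lch (O G : Type) [CommRing O] [Group G] : Type 1 where
  L : Type
  [gr : Group L]
  [tp : TopologicalSpace L]
  [tg : IsTopologicalGroup L]
  τ : Type
  [ft : Fintype τ]
  j : L →* G
  g : τ → L
  p : τ → Fin 2
  q : τ → Fin 2
  I : Ideal (PS O τ)
  f : L → M2 (PS O τ)

attribute [instance] Lch.gr Lch.tp Lch.tg Lch.ft

variable {O F G T : Type} [CommRing O] [Field F] [Group G] [TopologicalSpace G]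

/-- the chart is universal -/
structure Lch.Ok [IsLocalRing O] [Algebra O F] (x : Lch O G) (r : G →* M2 F) (s : F → O)
    (δ : G → O) : Prop where
  cts : Continuous x.j
  tn : TnG (r.comp x.j) x.g x.p x.q
  uni : Uni (r.comp x.j) s (fun y => δ (x.j y)) x.g x.p x.q x.I x.f

namespace Glu

/-- the family of charts -/
def ch (x : T → Lch O G) (c c' : M2 O) (r : G →* M2 F) (s : F → O) (δ : G → O) :
    Ch O F G T (fun t => (x t).L) fun t => (x t).τ where
  j t := (x t).j
  c _ := c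
  c' _ := c'
  r t := r.comp (x t).j
  s := s
  δ := δ
  g t := (x t).g
  p t := (x t).p
  q t := (x t).q
  I t := (x t).I
  f t := (x t).f

/-- the residual object -/
def obj0 [Finite F] (S : RU.Dat O F G T) (hl : S.red S.lam = S.rb S.g1 0 1)
    (ho : IsOpen {g | S.rb g = 1}) : RU.Obj S F where
  ι := S.red
  π := RingHom.id F
  ρ := S.rb
  α _ := 1
  β _ := 1
  fin := inferInstance
  loc _ h := isUnit_iff_ne_zero.2 h
  alg _ := rfl
  res _ := rfl
  opn := ho
  dg := ⟨S.d01, S.d10⟩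
  nm := hl.symm
  inv _ := one_mul _
  one _ := rfl
  fr := rfl

theorem tan_mono {rb : G →* M2 F} {D : T → Set G} {E I I' : Set G} {N N' : ℕ}
    (h : RU.Tan rb D E I N) (e : I ⊆ I') (n : N ≤ N') : RU.Tan rb D E I' N' := fun Z hZ =>
  (h Z fun z hz => ⟨(hZ z hz).coc, (hZ z hz).opn, fun g hg => (hZ z hz).unr g (e hg),
    (hZ z hz).loc, (hZ z hz).tr⟩).trans (Nat.cast_le.2 n)

/-- change of basis in the tangent space -/
theorem tan_conj {rb rb' : G →* M2 F} {w w' : M2 F} (hw : w * w' = 1)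
    (e : ∀ g, rb g = w' * rb' g * w) {D : T → Set G} {E I : Set G} {N : ℕ}
    (h : RU.Tan rb D E I N) : RU.Tan rb' D E I N := by
  intro Z hZ
  have hw' := mul_eq_one_comm.1 hw
  let φ : M2 F →ₗ[F] M2 F := (LinearMap.mulRight F w).comp (LinearMap.mulLeft F w')
  have hφ : ∀ m, φ m = w' * m * w := fun _ => rfl
  have cj : ∀ a b c : M2 F, w' * (a * b * c) * w = w' * a * w * (w' * b * w) * (w' * c * w) :=
    fun a b c => by
      calc w' * (a * b * c) * w = w' * a * (w * w') * b * (w * w') * c * w := by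
            simp only [hw, mul_one, mul_assoc]
        _ = _ := by simp only [mul_assoc]
  have inj : Function.Injective φ := fun a b k => by
    have := congrArg (fun m => w * m * w') k
    simpa only [hφ, ← mul_assoc, hw, one_mul, mul_assoc _ w w', mul_one] using this
  let ψ := (φ.compLeft G).prodMap (φ.compLeft T)
  have hi : Function.Injective ψ := fun a b k =>
    Prod.ext (funext fun g => inj (congrFun (congrArg Prod.fst k) g))
      (funext fun t => inj (congrFun (congrArg Prod.snd k) t))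
  rw [← (Submodule.equivMapOfInjective ψ hi Z).rank_eq.symm]
  refine h _ ?_
  rintro _ ⟨z, hz, rfl⟩
  obtain ⟨h1, ⟨U, u1, u2, u3⟩, h3, h4, h5⟩ := hZ z hz
  refine ⟨fun g k => ?_, ⟨U, u1, u2, fun σ hσ => ⟨?_, ?_⟩⟩, fun g hg => ?_, fun l g hg => ?_,
    fun g hg => ?_⟩
  · show φ (z.1 _) = φ (z.1 _) + rb g * φ (z.1 k) * rb g⁻¹
    rw [h1, map_add, hφ (_ * _ * _), cj, e, e, hφ (z.1 k)]
  · show φ (z.1 _) = 0
    rw [(u3 σ hσ).1, map_zero]
  · rw [e, (u3 σ hσ).2, mul_one, hw']
  · show φ (z.1 _) = 0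
    rw [h3 g hg, map_zero]
  · show φ (z.1 _) = φ (z.2 l) - rb g * φ (z.2 l) * rb g⁻¹
    rw [h4 l g hg, map_sub, hφ (_ * _ * _), cj, e, e, hφ (z.2 l)]
  · show (φ (z.1 _)).trace = 0
    rw [hφ, Matrix.trace_mul_cycle, hw, one_mul, h5 g hg]

variable [IsTopologicalGroup G] [CompactSpace G] [IsDomain O] [IsDiscreteValuationRing O] [Cf O]
  [Finite F] [Algebra O F]

/-- **the universal families** -/
theorem fam [Finite T] (x : T → Lch O G) (S : RU.Dat O F G T) {c c' : M2 O} {r : G →* M2 F}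
    {s : F → O} {δ : G → O} {E I0 : Set G} {I : ℕ → Set G} {g : ℕ}
    (red : S.red = algebraMap O F) (sec : ∀ y, algebraMap O F (s y) = y)
    (lam : S.red S.lam = S.rb S.g1 0 1) (inv : c * c' = 1)
    (res : ∀ y, r y = c'.map S.red * S.rb y * c.map S.red) (ok : ∀ t, (x t).Ok r s δ)
    (sub : ∀ t y, (x t).j y ∈ E) (det : ∀ y, algebraMap O F (δ y) = (r y).det)
    (opn : IsOpen {y | r y = 1}) (h0 : ∀ y ∈ I0, r y = 1) (le : ∀ n, I n ⊆ I0)
    (tan : ∀ n, RU.Tan r (fun t => Set.range (x t).j) E (I n) (g + 4)) :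
    ∃ (κ : RU.Crd S (Σ t, (x t).τ)) (Φ0 : RU.Fam S (Σ t, (x t).τ) g)
      (Φ : ℕ → RU.Fam S (Σ t, (x t).τ) g), RU.Closed (dC S δ E) ∧
      RU.Univ (RU.Ty (dC S δ E) I0) κ Φ0 ∧ ∀ n, RU.Univ (RU.Ty (dC S δ E) (I n)) κ (Φ n) ∧
      (∀ (A : Type) [CommRing A] (X : RU.Obj S A), RU.Ty (dC S δ E) I0 A X →
        Φ n A X = Φ0 A X) ∧
      ∀ (A : Type) [CommRing A] (X : RU.Obj S A), RU.Ty (dC S δ E) (I n) A X → ∀ t,
        (∀ u ∈ (x t).I, Φ n A X (rename (emb Function.Embedding.inl t) u) = 0) ∧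
        ∀ y a b, Φ n A X (rename (emb Function.Embedding.inl t) ((x t).f y a b)) =
          (c'.map X.ι * (X.β t * X.ρ ((x t).j y) * X.α t) * c.map X.ι) a b := by
  have hw : c.map S.red * c'.map S.red = 1 := by rw [← Matrix.map_mul, inv, RU.map_one']
  have hw' := mul_eq_one_comm.1 hw
  have one : ∀ y, r y = 1 ↔ S.rb y = 1 := fun y => by
    refine ⟨fun h => ?_, fun h => by rw [res, h, mul_one, hw']⟩
    have := congrArg (fun m => c.map S.red * m * c'.map S.red) (res y)
    simpa only [h, mul_one, hw, ← mul_assoc, one_mul, mul_assoc _ (c.map S.red) (c'.map S.red)]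
      using this.symm
  have det' : ∀ y, S.red (δ y) = (S.rb y).det := fun y => by
    have := congrArg Matrix.det hw'
    rw [Matrix.det_mul, Matrix.det_one] at this
    rw [red, det, res, Matrix.det_mul, Matrix.det_mul, mul_right_comm, this, one_mul]
  have hH : (ch x c c' r s δ).Ok S E := ⟨red, sec, lam, fun t => (ok t).cts, fun _ => inv,
    fun t y => res _, by rintro t _ ⟨y, rfl⟩; exact sub t y, fun y _ => det' y,
    fun t => (ok t).tn, fun t => (ok t).uni⟩
  obtain ⟨h1, h2, h3⟩ := chart O F G T _ _ (ch x c c' r s δ) S E hH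
  have := Cf.cpl (O := O)
  have tn := fun n => tan_conj hw res (tan n)
  obtain ⟨Φ0, h4, h5⟩ := RU.univ O F G T _ S _ E I0 g _ _
    (fun a => by rw [red, ← RingHom.mem_ker, Bk.ker_res fun y => ⟨_, sec y⟩]) h1 h2
    ⟨F, _, obj0 S lam (by simpa only [one] using opn), fun y _ => (det' y).symm,
      fun y hy => (one y).1 (h0 y hy)⟩ (tan_mono (tn 0) (le 0) le_rfl)
  choose Φ h6 h7 using fun n => h5 (I n) (le n) (tn n)
  exact ⟨_, Φ0, Φ, h1, h4, fun n => ⟨h6 n, h7 n, h3 _ _ _ (h6 n)⟩⟩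

end Glu

end Vale.Agent.P022K.RT
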