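import Vale.Agent.P022K.RT.Blk
import Vale.Agent.P022K.RT.Lu
import Vale.Agent.P022D.Loc2.Inf

/-!
# P022K, block RT: the chart at infinity in residue characteristic two
-/

set_option linter.all false

noncomputable section

namespace Vale.Agent.P022K.RT

open IsLocalRing MvPowerSeries
open Vale.Agent.P022D.L2b (M2 pd mem_max_iff ker_eq)
open Vale.Agent.P022D.Loc2 (TnG coG tr_zero mem_max_of_red)
open Vale.Agent.P022D.Core (PS)
open Vale.Agent.P022D.CA (eqInf matInf)
open Vale.Agent.P022K.PL (Cf)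
open Vale.Agent.P022D

namespace Ifp

variable {O : Type} [CommRing O] [IsDomain O] [IsLocalRing O]

theorem sol {α β γ : O} (h : α ^ 2 + β * γ - 1 ∈ maximalIdeal O) (hβ : IsUnit β) :
    ∃ w ∈ maximalIdeal (PS O (Fin 2)),
      (C α + X 0) ^ 2 + (C β + X 1) * (C γ + w) - 1 = (0 : PS O (Fin 2)) := by
  obtain ⟨n, hn⟩ := (isUnit_iff_constantCoeff.2 (by simpa using hβ) :
    IsUnit (C β + X 1 : PS O (Fin 2))).exists_right_inv
  refine ⟨-(n * ((C α + X 0) ^ 2 + (C β + X 1) * C γ - 1)), neg_mem (Ideal.mul_mem_left _ _ ?_),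
    by linear_combination (-((C α + X 0) ^ 2 + (C β + X 1) * C γ - 1)) * hn⟩
  rw [mem_max_iff]
  simpa using h

theorem cX (i j : Fin 2) :
    coeff (Finsupp.single j 1) (X i : PS O (Fin 2)) = if i = j then 1 else 0 := by
  classical
  rw [coeff_X]
  simp [Finsupp.single_eq_single_iff, eq_comm]

/-- a two parameter family of involutions -/
theorem fam {α β γ : O} (h : α ^ 2 + β * γ - 1 ∈ maximalIdeal O) (h2 : (2 : O) ∈ maximalIdeal O)
    (h0 : (2 : O) ≠ 0) : ∃ (m : Fin 3 → PS O (Fin 2)) (t : Fin 2 → Fin 3),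
      (∀ k, m k ∈ maximalIdeal (PS O (Fin 2))) ∧
      (C α + m 0) ^ 2 + (C β + m 1) * (C γ + m 2) - 1 = 0 ∧
      (Matrix.of fun i j : Fin 2 => coeff (Finsupp.single j 1) (m (t i))).det ≠ 0 := by
  by_cases hβ : IsUnit β
  · obtain ⟨w, w1, w2⟩ := sol h hβ
    refine ⟨![X 0, X 1, w], ![0, 1], fun k => ?_, w2, ?_⟩
    · fin_cases k
      exacts [Lu.X_max 0, Lu.X_max 1, w1]
    · simp [Matrix.det_fin_two, cX]
  by_cases hγ : IsUnit γ
  · obtain ⟨w, w1, w2⟩ := sol (β := γ) (γ := β) (mul_comm β γ ▸ h) hγ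
    refine ⟨![X 0, w, X 1], ![0, 2], fun k => ?_, mul_comm (C γ + X 1 : PS O (Fin 2)) _ ▸ w2, ?_⟩
    · fin_cases k
      exacts [Lu.X_max 0, w1, Lu.X_max 1]
    · simp [Matrix.det_fin_two, cX]
  have b0 : β ∈ maximalIdeal O := hβ
  have c0 : γ ∈ maximalIdeal O := hγ
  have a0 : 1 - α ∈ maximalIdeal O := (maximalIdeal.isMaximal O).isPrime.mem_of_pow_mem 2 (by
    have := add_mem (sub_mem h (Ideal.mul_mem_left _ β c0)) (Ideal.mul_mem_right (1 - α) _ h2)
    convert this using 1
    ring)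
  obtain ⟨n, hn⟩ := (isUnit_iff_constantCoeff.2 (by simp) :
    IsUnit (1 - X 0 * X 1 : PS O (Fin 2))).exists_right_inv
  have n1 : constantCoeff n = 1 := by simpa using congrArg constantCoeff hn
  refine ⟨![(1 + X 0 * X 1) * n - C α, C (-2) * X 0 * n - C β, C 2 * X 1 * n - C γ], ![1, 2],
    fun k => ?_, ?_, ?_⟩
  · rw [mem_max_iff]
    fin_cases k
    · simpa [n1] using a0
    · simpa using b0
    · simpa using c0
  · have e2 : (C 2 : PS O (Fin 2)) = 2 := map_ofNat _ 2
    show (C α + ((1 + X 0 * X 1) * n - C α)) ^ 2 + (C β + (C (-2) * X 0 * n - C β)) *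
      (C γ + (C 2 * X 1 * n - C γ)) - 1 = (0 : PS O (Fin 2))
    rw [map_neg, e2]
    linear_combination ((1 - X 0 * X 1) * n + 1) * hn
  · simp [Matrix.det_fin_two, coeff_one_mul, cX, n1, coeff_C, h0]

end Ifp

open Ifp in
/-- **the chart at infinity** -/
theorem infp {G F O : Type} [Group G] [TopologicalSpace G] [DiscreteTopology G] [Field F]
    [CharP F 2] [CommRing O] [IsDomain O] [IsDiscreteValuationRing O] [hO : Cf O] [CharZero O]
    [Algebra O F] (r : G →* M2 F) (s : F → O) (d : G → O) (c : G) (hG : ∀ x, x = 1 ∨ x = c)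
    (hc : c * c = 1) (hr : (r c).det = 1) (d1 : d 1 = 1) (hd : d c = -1)
    (hs : ∀ x, algebraMap O F (s x) = x) :
    ∃ (g : Fin 3 → G) (a b : Fin 3 → Fin 2) (I : Ideal (PS O (Fin 3))) (f : G → M2 (PS O (Fin 3))),
      TnG r g a b ∧ Uni r s d g a b I f ∧ Par I 2 := by
  classical
  have h2 : (2 : F) = 0 := CharTwo.two_eq_zero
  have o2 : (2 : O) ≠ 0 := two_ne_zero
  have c1 : c ≠ 1 := fun e => o2 (by rw [e, d1] at hd; linear_combination hd)
  have hrc : r c * r c = 1 := by rw [← map_mul, hc, map_one]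
  have h11 : r c 1 1 = -r c 0 0 := tr_zero hrc (by rw [hr]; linear_combination h2)
  have hq : r c 0 0 ^ 2 + r c 0 1 * r c 1 0 = 1 := by
    have e00 := congrFun (congrFun hrc 0) 0
    simp only [Matrix.mul_apply, Fin.sum_univ_two, Matrix.one_apply_eq] at e00
    linear_combination e00
  obtain ⟨α, hα⟩ : ∃ α, α = s (r c 0 0) := ⟨_, rfl⟩
  obtain ⟨β, hβ⟩ : ∃ β, β = s (r c 0 1) := ⟨_, rfl⟩
  obtain ⟨γ, hγ⟩ : ∃ γ, γ = s (r c 1 0) := ⟨_, rfl⟩
  have hm : α ^ 2 + β * γ - 1 ∈ maximalIdeal O := mem_max_of_red (algebraMap O F) (by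
    simp only [hα, hβ, hγ, map_sub, map_add, map_mul, map_pow, map_one, hs, hq, sub_self])
  have hE : eqInf α β γ () ∈ maximalIdeal (PS O (Fin 3)) := by
    rwa [mem_max_iff, CA.const_eqInf]
  obtain ⟨I, hI⟩ : ∃ I, I = Ideal.span {eqInf α β γ ()} := ⟨_, rfl⟩
  have hE' : eqInf α β γ () ∈ I := hI ▸ Ideal.subset_span rfl
  have hk : ∀ {A : Type} [CommRing A] (φ : PS O (Fin 3) →+* A), φ (eqInf α β γ ()) = 0 →
      ∀ u ∈ I, φ u = 0 := fun φ h u hu => by
    obtain ⟨v, rfl⟩ := Ideal.mem_span_singleton'.1 (hI ▸ hu)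
    rw [map_mul, h, mul_zero]
  let f : G → M2 (PS O (Fin 3)) := fun x => if x = 1 then 1 else matInf α β γ
  have f1 : f 1 = 1 := if_pos rfl
  have fc : f c = matInf α β γ := if_neg c1
  have rf : ∀ a : M2 (PS O (Fin 3)), Cg I a a := fun a i j => by
    rw [sub_self]
    exact I.zero_mem
  refine ⟨fun _ => c, ![0, 0, 1], ![0, 1, 0], I, f, fun z hz h0 x => ?_, ⟨?_, f1 ▸ rf 1,
    fun x y => ?_, fun x => ?_, fun x i j => ?_, fun t => ?_, fun n => isOpen_discrete _,
    fun A _ _ _ ρ hρ φ hφ => ?_⟩, ?_⟩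
  · have h1 : z 1 = 0 := by
      have h3 := hz.mul 1 1
      rw [mul_one, map_one, mul_one, one_mul] at h3
      exact left_eq_add.1 h3
    rcases hG x with rfl | rfl
    · exact h1
    · have a0 : z x 0 0 = 0 := h0 0
      have a1 : z x 0 1 = 0 := h0 1
      have a2 : z x 1 0 = 0 := h0 2
      have h3 := hz.mul x x
      rw [hc, h1] at h3
      have e01 := congrFun (congrFun h3 0) 1
      have e := hz.det x
      simp only [Matrix.add_apply, Matrix.mul_apply, Fin.sum_univ_two, a0, a1, a2, pd,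
        Matrix.zero_apply] at e01 e
      have a3 : z x 1 1 = 0 := by
        linear_combination (-z x 1 1) * hq + r x 0 0 * e - r x 1 0 * e01
      ext i j
      fin_cases i <;> fin_cases j <;> assumption
  · rw [hI, Ideal.span_singleton_le_iff_mem]
    exact hE
  · rcases hG x with e | e
    · rw [e, one_mul, f1, one_mul]
      exact rf _
    rcases hG y with e' | e'
    · rw [e', mul_one, f1, mul_one]
      exact rf _
    rw [e, e', hc, f1, fc]
    have h3 : (1 : M2 (PS O (Fin 3))) - matInf α β γ * matInf α β γ = -eqInf α β γ () • 1 := by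
      refine Matrix.ext fun i j => ?_
      fin_cases i <;> fin_cases j <;>
        simp [matInf, eqInf, Matrix.mul_apply, Fin.sum_univ_two] <;> ring
    intro i j
    rw [← Matrix.sub_apply, h3, Matrix.smul_apply, smul_eq_mul]
    exact I.mul_mem_right _ (neg_mem hE')
  · rcases hG x with e | e
    · rw [e, f1, d1, Matrix.det_one, map_one, sub_self]
      exact I.zero_mem
    · rw [e, fc, hd, map_neg, map_one, sub_neg_eq_add, ← neg_mem_iff, ← CA.eqInf_det]
      exact hE'
  · rcases hG x with e | e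
    · rw [e, f1, map_one]
      exact congrFun (congrFun (Matrix.map_one ((algebraMap O F).comp constantCoeff)
        (map_zero _) (map_one _)) i) j
    · rw [e, fc]
      fin_cases i <;> fin_cases j <;> simp [matInf, hα, hβ, hγ, hs, h11]
  · rw [fc]
    fin_cases t <;> simp [matInf, hα, hβ, hγ]
  · have hρc : ρ c * ρ c = 1 := by rw [← map_mul, hc, map_one]
    have ht := tr_zero hρc (by rw [hρ.det, hd, map_neg, map_one])
    have e0 : φ (C α + X 0) = ρ c 0 0 := by
      rw [map_add, hφ 0, hα]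
      exact (congrArg (· + _) (φ.commutes _)).trans (add_sub_cancel _ _)
    have e1 : φ (C β + X 1) = ρ c 0 1 := by
      rw [map_add, hφ 1, hβ]
      exact (congrArg (· + _) (φ.commutes _)).trans (add_sub_cancel _ _)
    have e2 : φ (C γ + X 2) = ρ c 1 0 := by
      rw [map_add, hφ 2, hγ]
      exact (congrArg (· + _) (φ.commutes _)).trans (add_sub_cancel _ _)
    refine ⟨hk φ.toRingHom ?_, fun x => ?_⟩
    · have e00 := congrFun (congrFun hρc 0) 0
      simp only [Matrix.mul_apply, Fin.sum_univ_two, Matrix.one_apply_eq] at e00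
      show φ _ = 0
      rw [eqInf, map_sub, map_add, map_mul, map_pow, e0, e1, e2, map_one]
      linear_combination e00
    · rcases hG x with e | e
      · rw [e, f1, map_one, Matrix.map_one _ (map_zero φ) (map_one φ)]
      · rw [e, fc]
        ext i j
        fin_cases i <;> fin_cases j
        exacts [e0, e1, e2, ((map_neg φ _).trans (congrArg _ e0)).trans ht.symm]
  · let e : (Σ _ : Unit, Fin 3) ↪ Fin 3 := ⟨fun u => u.2, fun _ _ h => Sigma.ext rfl (heq_of_eq h)⟩
    obtain ⟨k, k1, k2, -, k3⟩ := Bk.eq_blocks0 (F := F) (fun x => ⟨s x, hs x⟩)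
      (τ := fun _ : Unit => Fin 3) (ι := fun _ => Unit) e (fun _ => eqInf α β γ)
      (fun _ _ => hE) fun _ => by
        have h3 : (fun i => MvPowerSeries.map (algebraMap O F) (eqInf α β γ i)) =
            eqInf (r c 0 0) (r c 0 1) (r c 1 0) := by
          funext i
          rw [CA.map_eqInf, hα, hβ, hγ, hs, hs, hs]
        rw [h3]
        exact CA.blkInf hq
    obtain rfl : k = 2 := by simpa using k1
    have h4 : CA.eqs (ι := fun _ => Unit) e (fun _ => eqInf α β γ) = fun _ => eqInf α β γ () :=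
      funext fun p => DFunLike.congr_fun (rename_id (σ := Fin 3) (R := O)) _
    rw [h4, Set.range_const, ← hI] at k2 k3
    obtain ⟨m, t, m1, m2, m3⟩ := fam hm (mem_max_of_red (algebraMap O F) (by
      rw [map_ofNat, h2])) o2
    have := (PL.base_ps O (Fin 2)).cpl
    obtain ⟨θ, t1, t2⟩ := NR.exists_ev (maximalIdeal (PS O (Fin 2))) (C : O →+* PS O (Fin 2)) m m1
    let ψ : PS O (Fin 3) →ₐ[O] PS O (Fin 2) := ⟨θ, t1⟩
    have h5 := dim_ge ψ t id (by
      simp only [show ∀ k, ψ (X k) = m k from t2]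
      exact m3)
    have h6 : I ≤ RingHom.ker ψ := hk θ (by
      simp only [eqInf, map_sub, map_add, map_mul, map_pow, map_one, t1, t2]
      exact m2)
    refine ⟨⟨2, ψ, ?_⟩, k3⟩
    by_contra hne
    have h7 := (CA.dimGE_succ k2 (lt_of_le_of_ne h6 (Ne.symm hne)) h5).trans k3.le
    exact absurd (by exact_mod_cast h7 : 2 + 1 + 1 ≤ 2 + 1) (by omega)

end Vale.Agent.P022K.RT
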