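import Vale.Agent.P022K.RT.Lu
import Vale.Agent.P022K.RT.GeoB

/-!
# P022K, block RT: ideals of the universal ring which are invariant under conjugation
-/

set_option linter.all false

noncomputable section

namespace Vale.Agent.P022K.RT

open IsLocalRing MvPowerSeries
open Vale.Agent.P022D.L2b (M2)
open Vale.Agent.P022D.Core (PS)
open Vale.Agent.P022D.PA (Base)
open Vale.Agent.P022K.PL (Cf)
open Vale.Agent.P022D

/-- a quotient of a base ring is a base ring -/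
theorem base_quot {S : Type} [CommRing S] [hS : Base S] {Q : Ideal S} (hQ : Q ≠ ⊤) :
    Base (S ⧸ Q) := by
  have := hS.cpl
  have : Nontrivial (S ⧸ Q) := Ideal.Quotient.nontrivial_iff.2 hQ
  have : IsLocalRing (S ⧸ Q) := IsLocalRing.of_surjective' _ Ideal.Quotient.mk_surjective
  have h1 : IsPrecomplete (maximalIdeal S) (S ⧸ Q) := by
    rw [← AdicCompletion.of_surjective_iff]
    intro z
    obtain ⟨y, rfl⟩ := AdicCompletion.map_surjective (maximalIdeal S) Q.mkQ_surjective z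
    obtain ⟨w, rfl⟩ := AdicCompletion.of_surjective (maximalIdeal S) S y
    exact ⟨Q.mkQ w, (AdicCompletion.map_of ..).symm⟩
  have h2 : IsHausdorff (maximalIdeal S) (S ⧸ Q) := inferInstance
  have h3 : IsAdicComplete (maximalIdeal S) (S ⧸ Q) := { h1, h2 with }
  have := IsLocalHom.of_surjective (Ideal.Quotient.mk Q) Ideal.Quotient.mk_surjective
  have := hS.fin
  refine { cpl := ?_, fin := .of_surjective (ResidueField.map (Ideal.Quotient.mk Q)) fun z => ?_ }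
  · rw [← map_maximalIdeal_of_surjective (algebraMap S (S ⧸ Q)) Ideal.Quotient.mk_surjective]
    exact (IsAdicComplete.map_algebraMap_iff _ _).2 h3
  · obtain ⟨z, rfl⟩ := residue_surjective z
    obtain ⟨z, rfl⟩ := Ideal.Quotient.mk_surjective z
    exact ⟨residue S z, rfl⟩

theorem mk_max {S : Type} [CommRing S] [IsLocalRing S] {Q : Ideal S} [IsLocalRing (S ⧸ Q)]
    {u : S} (h : u ∈ maximalIdeal S) : Ideal.Quotient.mk Q u ∈ maximalIdeal (S ⧸ Q) := fun k =>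
  h ((IsLocalHom.of_surjective (Ideal.Quotient.mk Q) Ideal.Quotient.mk_surjective).map_nonunit u k)

section cg

variable {A : Type} [CommRing A] {I : Ideal A} {a b a' b' c c' : M2 A}

theorem Cg.mul (h : Cg I a b) (k : Cg I a' b') : Cg I (a * a') (b * b') := by
  rw [cg_iff] at *
  rw [Matrix.map_mul, Matrix.map_mul, h, k]

theorem Cg.rfl : Cg I a a := cg_iff.2 (Eq.refl _)

theorem Cg.inv (e : c * c' = 1) (h : Cg I c 1) : Cg I c' 1 := by
  have := (h.mul (Cg.rfl (a := c')))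
  rw [e, one_mul, cg_iff] at this
  exact cg_iff.2 this.symm

theorem Cg.conj (e : c * c' = 1) (h : Cg I c 1) : Cg I (c' * a * c) a := by
  simpa using ((h.inv e).mul (Cg.rfl (a := a))).mul h

theorem Cg.unit [IsLocalRing A] (h : Cg (maximalIdeal A) c 1) : ∃ c', c * c' = 1 := by
  refine ⟨c⁻¹, Matrix.mul_nonsing_inv c (by_contra fun k => ?_)⟩
  have := (residue_eq_zero_iff c.det).2 k
  rw [RingHom.map_det, RingHom.mapMatrix_apply, show c.map (residue A) = 1 from cg_one.1 h,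
    Matrix.det_one] at this
  exact one_ne_zero this

end cg

variable {G F O τ : Type} [Group G] [TopologicalSpace G] [IsTopologicalGroup G]
  [Field F] [Finite F] [CommRing O] [IsDomain O] [IsDiscreteValuationRing O] [Cf O] [Algebra O F]
  [Fintype τ] {r : G →* M2 F} {s : F → O} {d : G → O} {g : τ → G} {p q : τ → Fin 2}
  {I J : Ideal (PS O τ)} {f : G → M2 (PS O τ)}

/-- local homomorphisms -/
def Lc {A : Type} [CommRing A] [IsLocalRing A] [Algebra O A] (φ : PS O τ →ₐ[O] A) : Prop :=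
  ∀ u ∈ maximalIdeal (PS O τ), φ u ∈ maximalIdeal A

/-- `J` is invariant under conjugation by matrices which are residually trivial -/
def Inv (I J : Ideal (PS O τ)) (f : G → M2 (PS O τ)) : Prop :=
  ∀ (A : Type) [CommRing A] [Base A] [Algebra O A] (φ φ' : PS O τ →ₐ[O] A) (c c' : M2 A),
    Lc φ → c * c' = 1 → Cg (maximalIdeal A) c 1 → (∀ u ∈ I, φ' u = 0) →
    (∀ x, (f x).map φ' = c' * (f x).map φ * c) → (∀ u ∈ J, φ u = 0) → ∀ u ∈ J, φ' u = 0

section

variable {A : Type} [CommRing A] [Algebra O A] {φ φ' : PS O τ →ₐ[O] A}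

theorem Uni.crd_eq (h : Uni r s d g p q I f) (k : ∀ u ∈ I, φ u = 0) (t : τ) :
    φ (X t) = (f (g t)).map φ (p t) (q t) - algebraMap O A (s (r (g t) (p t) (q t))) := by
  have := k _ (h.crd t)
  rw [map_sub, map_sub, sub_eq_zero, show φ (C _) = _ from φ.commutes _] at this
  exact this.symm

variable [Base A]

theorem Lc.c (k : Lc φ) : ∀ a ∈ maximalIdeal O, algebraMap O A a ∈ maximalIdeal A :=
  fun a ha => φ.commutes a ▸ k _ (Lu.C_max ha)

theorem Lc.x (k : Lc φ) (t : τ) : φ (X t) ∈ maximalIdeal A := k _ (Lu.X_max t)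

theorem lc_of (h1 : ∀ a ∈ maximalIdeal O, algebraMap O A a ∈ maximalIdeal A)
    (h2 : ∀ t, φ (X t) ∈ maximalIdeal A) : Lc φ :=
  map_max φ.toRingHom (fun a ha => (φ.commutes a).symm ▸ h1 a ha) h2

theorem Lc.ext (k : ∀ t, φ (X t) ∈ maximalIdeal A) (e : ∀ t, φ (X t) = φ' (X t)) : φ = φ' :=
  haveI := ‹Base A›.cpl
  AlgHom.coe_ringHom_injective (NR.ev_ext (maximalIdeal A)
    (fun o => (φ.commutes o).trans (φ'.commutes o).symm) e k)

/-- a point is determined by its matrices -/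
theorem Uni.ext (h : Uni r s d g p q I f) (k : ∀ t, φ (X t) ∈ maximalIdeal A)
    (k1 : ∀ u ∈ I, φ u = 0) (k2 : ∀ u ∈ I, φ' u = 0) (e : ∀ x, (f x).map φ = (f x).map φ') :
    φ = φ' :=
  Lc.ext k fun t => by rw [h.crd_eq k1, h.crd_eq k2, e]

theorem Uni.lc_conj (h : Uni r s d g p q I f) {c c' : M2 A} (l : Lc φ) (e : c * c' = 1)
    (hc : Cg (maximalIdeal A) c 1) (k1 : ∀ u ∈ I, φ u = 0) (k2 : ∀ u ∈ I, φ' u = 0)
    (k : ∀ x, (f x).map φ' = c' * (f x).map φ * c) : Lc φ' :=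
  lc_of l.c fun t => by
    have := add_mem (hc.conj (a := (f (g t)).map φ) e (p t) (q t)) (l.x t)
    rwa [h.crd_eq k1, sub_add_sub_cancel, ← k, ← h.crd_eq k2] at this

/-- the conjugate of a point -/
theorem Uni.ex_conj (h : Uni r s d g p q I f) (hs : ∀ x, algebraMap O F (s x) = x)
    {c c' : M2 A} (l : Lc φ) (e : c * c' = 1) (hc : Cg (maximalIdeal A) c 1)
    (k1 : ∀ u ∈ I, φ u = 0) : ∃ φ' : PS O τ →ₐ[O] A, Lc φ' ∧ (∀ u ∈ I, φ' u = 0) ∧
      ∀ x, (f x).map φ' = c' * (f x).map φ * c := by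
  obtain ⟨a1, a2, -⟩ := luc G F O τ r s d g p q I f hs h A
  obtain ⟨ρ, b1, b2, -⟩ := a2 φ l.c l.x k1
  have e' : c' * c = 1 := mul_eq_one_comm.1 e
  let ρ' : G →* M2 A :=
    { toFun := fun x => c' * ρ x * c
      map_one' := by rw [map_one, mul_one, e']
      map_mul' := fun x y => by
        rw [map_mul]
        simp only [mul_assoc]
        rw [← mul_assoc c c', e, one_mul] }
  suffices hl : LiftC r s d ρ' by
    obtain ⟨φ', -, c2, c3⟩ := a1 ρ' hl
    have k : ∀ x, (f x).map φ' = c' * (f x).map φ * c := fun x => by rw [c3, ← b1]; rfl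
    exact ⟨φ', h.lc_conj l e hc k1 c2 k, c2, k⟩
  refine ⟨fun n => ?_, l.c, fun x i j => ?_, fun x => ?_⟩
  · suffices k : {x | Cg (maximalIdeal A ^ n) (ρ' x) 1} = {x | Cg (maximalIdeal A ^ n) (ρ x) 1} by
      rw [k]; exact b2.lc n
    refine Set.ext fun x => ⟨fun k => ?_, fun k => ?_⟩
    · have := ((Cg.rfl (a := c)).mul k).mul (Cg.rfl (a := c'))
      show Cg _ _ _
      rwa [mul_one, e, show c * ρ' x * c' = c * c' * ρ x * (c * c') by
        simp only [ρ', MonoidHom.coe_mk, OneHom.coe_mk, mul_assoc], e, one_mul, mul_one] at this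
    · have := ((Cg.rfl (a := c')).mul k).mul (Cg.rfl (a := c))
      rwa [mul_one, e'] at this
  · exact sub_add_sub_cancel (ρ' x i j) _ _ ▸ add_mem (hc.conj (a := ρ x) e i j) (b2.red x i j)
  · show (c' * ρ x * c).det = _
    rw [Matrix.det_mul, Matrix.det_mul, mul_right_comm, ← Matrix.det_mul, e', Matrix.det_one,
      one_mul, b2.det]

theorem ex_ev {σ : Type} [Finite σ] (h : ∀ a ∈ maximalIdeal O, algebraMap O A a ∈ maximalIdeal A)
    (x : σ → A) (hx : ∀ i, x i ∈ maximalIdeal A) : ∃ χ : PS O σ →ₐ[O] A, ∀ i, χ (X i) = x i := by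
  have := ‹Base A›.cpl
  obtain ⟨χ, h1, h2⟩ := NR.exists_ev (maximalIdeal A) (algebraMap O A) x hx
  exact ⟨⟨χ, h1⟩, h2⟩

end

/-- the prime of the universal conjugate -/
theorem Uni.ex_prime (h : Uni r s d g p q I f) (hs : ∀ x, algebraMap O F (s x) = x)
    (hJ : J.IsPrime) (sJ : Sat J) (le : I ≤ J) : ∃ K : Ideal (PS O τ), K.IsPrime ∧ I ≤ K ∧ K ≤ J ∧
      (∀ (A : Type) [CommRing A] [Base A] [Algebra O A] (φ φ' : PS O τ →ₐ[O] A) (c c' : M2 A),
        Lc φ → c * c' = 1 → Cg (maximalIdeal A) c 1 → (∀ u ∈ I, φ' u = 0) →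
        (∀ x, (f x).map φ' = c' * (f x).map φ * c) → (∀ u ∈ J, φ u = 0) → ∀ u ∈ K, φ' u = 0) ∧
      ∀ (Ω : Type) [Field Ω] [IsAlgClosed Ω] [Algebra O Ω] [FaithfulSMul O Ω] (u : PS O τ),
        (∀ (x x' : PS O τ →ₐ[O] Ω) (c c' : M2 Ω), Pt J x → Pt I x' → c * c' = 1 →
          (∀ y, (f y).map x' = c' * (f y).map x * c) → x' u = 0) → u ∈ K := by
  let e : τ ↪ τ ⊕ Fin 2 × Fin 2 := Function.Embedding.inl
  have gd := (Geo.gd_of_sat hJ sJ).more e
  obtain ⟨J', hJ'⟩ : ∃ J', J' = J.map (rename (R := O) e) := ⟨_, rfl⟩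
  rw [← hJ'] at gd
  have := gd.1
  have := PL.base_ps O (τ ⊕ Fin 2 × Fin 2)
  have := PL.base_ps O τ
  have := base_quot gd.1.ne_top
  have := base_quot hJ.ne_top
  let φ0 := (Ideal.Quotient.mkₐ O J').comp (rename (R := O) e)
  have l0 : Lc φ0 := lc_of (fun a ha => mk_max (Lu.C_max ha)) fun t => by
    show Ideal.Quotient.mk J' (rename e (X t)) ∈ _
    rw [rename_X]
    exact mk_max (Lu.X_max _)
  have k0 : ∀ u ∈ J, φ0 u = 0 := fun u hu =>
    Ideal.Quotient.eq_zero_iff_mem.2 (hJ' ▸ Ideal.mem_map_of_mem _ hu)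
  let c0 : M2 (PS O (τ ⊕ Fin 2 × Fin 2) ⧸ J') :=
    1 + Matrix.of fun i j => Ideal.Quotient.mk J' (X (Sum.inr (i, j)))
  have hc0 : Cg (maximalIdeal _) c0 1 := fun i j => by
    simp only [c0, Matrix.add_apply, add_sub_cancel_left, Matrix.of_apply]
    exact mk_max (Lu.X_max _)
  obtain ⟨c0', e0⟩ := hc0.unit
  obtain ⟨φ1, l1, k1, m1⟩ := h.ex_conj hs l0 e0 hc0 fun u hu => k0 u (le hu)
  have key : ∀ {A : Type} [CommRing A] [Algebra O A]
      (χ : (PS O (τ ⊕ Fin 2 × Fin 2) ⧸ J') →ₐ[O] A), c0.map χ * c0'.map χ = 1 ∧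
      ∀ y, (f y).map (χ.comp φ1) = c0'.map χ * (f y).map (χ.comp φ0) * c0.map χ :=
    fun χ => ⟨by rw [← Matrix.map_mul (f := χ), e0, Matrix.map_one _ (map_zero _) (map_one _)],
      fun y => by
        have := congrArg (·.map χ) (m1 y)
        simp only [Matrix.map_mul (f := χ)] at this
        exact this⟩
  have K : ∀ (A : Type) [CommRing A] [Base A] [Algebra O A] (φ φ' : PS O τ →ₐ[O] A)
      (c c' : M2 A), Lc φ → c * c' = 1 → Cg (maximalIdeal A) c 1 → (∀ u ∈ I, φ' u = 0) →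
      (∀ x, (f x).map φ' = c' * (f x).map φ * c) → (∀ u ∈ J, φ u = 0) →
      ∀ u ∈ RingHom.ker φ1, φ' u = 0 := by
    intro A _ _ _ φ φ' c c' l ec hc k2 k3 k4 u hu
    obtain ⟨χ0, hχ⟩ := ex_ev (σ := τ ⊕ Fin 2 × Fin 2) l.c
      (Sum.elim (fun t => φ (X t)) fun a : Fin 2 × Fin 2 => (c - 1) a.1 a.2)
      (Sum.rec l.x fun a : Fin 2 × Fin 2 => hc a.1 a.2)
    have a1 : φ = χ0.comp (rename e) := Lc.ext l.x fun t => by
      rw [AlgHom.comp_apply, rename_X]; exact (hχ (Sum.inl t)).symm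
    let χ := Ideal.Quotient.liftₐ J' χ0 fun w hw => by
      rw [hJ'] at hw
      refine (Ideal.map_le_iff_le_comap.2 fun v hv => ?_ : _ ≤ RingHom.ker χ0) hw
      have := k4 v hv
      rwa [a1] at this
    have a2 : χ.comp φ0 = φ := a1 ▸ AlgHom.ext fun _ => rfl
    have a3 : c0.map χ = c := Matrix.ext fun i j => by
      simp only [c0, Matrix.map_apply, Matrix.add_apply, map_add, Matrix.of_apply]
      rw [show χ (Ideal.Quotient.mk J' _) = _ from hχ (Sum.inr (i, j))]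
      simp [Matrix.one_apply, apply_ite χ]
    obtain ⟨b1, b2⟩ := key χ
    rw [a3] at b1
    rw [a2, a3, left_inv_eq_right_inv (mul_eq_one_comm.1 b1) ec] at b2
    rw [h.ext (h.lc_conj l ec hc (fun u hu => k4 u (le hu)) k2 k3).x k2
      (φ' := χ.comp φ1) (fun u hu => by rw [AlgHom.comp_apply, k1 u hu, map_zero])
      fun x => by rw [k3, b2], AlgHom.comp_apply, RingHom.mem_ker.1 hu, map_zero]
  refine ⟨RingHom.ker φ1, RingHom.ker_isPrime _, k1, fun u hu => ?_, K, ?_⟩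
  · have z : ∀ u ∈ J, Ideal.Quotient.mkₐ O J u = 0 := fun u => Ideal.Quotient.eq_zero_iff_mem.2
    exact Ideal.Quotient.eq_zero_iff_mem.1 (K _ (Ideal.Quotient.mkₐ O J) _ 1 1
      (fun u hu => mk_max hu) (mul_one _) Cg.rfl (fun u hu => z u (le hu)) (by simp) z u hu)
  · intro Ω _ _ _ _ u hu
    obtain ⟨w, hw⟩ := Ideal.Quotient.mk_surjective (φ1 u)
    rw [RingHom.mem_ker, ← hw, Ideal.Quotient.eq_zero_iff_mem, ← gd.1.radical]
    refine jac O _ Ω J' w gd.sat fun x hx => ?_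
    let χ := Ideal.Quotient.liftₐ J' x hx.ker
    have hi : ∀ z, IsIntegral O (χ z) := fun z => by
      obtain ⟨z, rfl⟩ := Ideal.Quotient.mk_surjective z
      exact hx.int z
    have := hu (χ.comp φ0) (χ.comp φ1) _ _
      ⟨fun v hv => by rw [AlgHom.comp_apply, k0 v hv, map_zero], fun z => hi (φ0 z)⟩
      ⟨fun v hv => by rw [AlgHom.comp_apply, k1 v hv, map_zero], fun z => hi (φ1 z)⟩
      (key χ).1 (key χ).2
    rwa [AlgHom.comp_apply, ← hw] at this

/-- **a minimal prime over an ideal which kills the conjugates of the points is invariant** -/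
theorem Uni.inv_min (h : Uni r s d g p q I f) (hs : ∀ x, algebraMap O F (s x) = x)
    (hJ : J.IsPrime) (sJ : Sat J) (le : I ≤ J) (Ω : Type) [Field Ω] [IsAlgClosed Ω] [Algebra O Ω]
    [FaithfulSMul O Ω] {𝔞 : Ideal (PS O τ)}
    (min : ∀ K : Ideal (PS O τ), K.IsPrime → I ≤ K → 𝔞 ≤ K → K ≤ J → J ≤ K)
    (pt : ∀ (x x' : PS O τ →ₐ[O] Ω) (c c' : M2 Ω), Pt J x → Pt I x' → c * c' = 1 →
      (∀ y, (f y).map x' = c' * (f y).map x * c) → ∀ u ∈ 𝔞, x' u = 0) : Inv I J f := by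
  obtain ⟨K, k1, k2, k3, k4, k5⟩ := h.ex_prime hs hJ sJ le
  intro A _ _ _ φ φ' c c' a1 a2 a3 a4 a5 a6 u hu
  exact k4 A φ φ' c c' a1 a2 a3 a4 a5 a6 u (min K k1 k2
    (fun v hv => k5 Ω v fun x x' c c' b1 b2 b3 b4 => pt x x' c c' b1 b2 b3 b4 v hv) k3 hu)

/-- **a component is invariant** -/
theorem Uni.inv_h (h : Uni r s d g p q I f) (hs : ∀ x, algebraMap O F (s x) = x)
    (hJ : J.IsPrime) (sJ : Sat J) (le : I ≤ J) {a : PS O τ} (ha : a ∉ J)
    (k : ∀ u ∈ J, a * u ∈ I) : Inv I J f := by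
  obtain ⟨K, k1, k2, k3, k4, -⟩ := h.ex_prime hs hJ sJ le
  intro A _ _ _ φ φ' c c' a1 a2 a3 a4 a5 a6 u hu
  exact k4 A φ φ' c c' a1 a2 a3 a4 a5 a6 u
    ((k1.mem_or_mem (k2 (k u hu))).resolve_left fun e => ha (k3 e))

end Vale.Agent.P022K.RT
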