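import Vale.Agent.P022K.RT.Lp5D

/-! P022K, block RT, row LP5: theorem 90, roots of unity in the algebraic closure of `ℚ_p`, `OM`. -/

set_option linter.all false

noncomputable section

namespace Vale.Agent.P022K.RT.L5

open Polynomial
open Vale.Agent.P022K.RT.Tr (Gp)

namespace Cu

section gal

variable {F Ω : Type} [Field F] [Field Ω] [Algebra F Ω] [IsGalois F Ω]

theorem lc_of {X : Type} (f : Gal(Ω/F) → X) (x : Ω) (h : ∀ g u, u x = x → f (g * u) = f g) :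
    IsLocallyConstant f := by
  refine (IsLocallyConstant.iff_eventually_eq _).2 fun g => ?_
  have : (fun y => g⁻¹ * y) ⁻¹' (MulAction.stabilizer Gal(Ω/F) x : Set Gal(Ω/F)) ∈ nhds g :=
    ((stabilizer_isOpen_of_isIntegral x).preimage (by fun_prop)).mem_nhds (by simp)
  filter_upwards [this] with y hy
  rw [← h g _ hy, mul_inv_cancel_left]

/-- **theorem 90** for an open subgroup -/
theorem h90 (H : Subgroup Gal(Ω/F)) (oH : IsOpen (H : Set Gal(Ω/F))) (f : Gal(Ω/F) → Ω)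
    (lc : IsLocallyConstant f) (f0 : ∀ g, f g ≠ 0)
    (fm : ∀ g ∈ H, ∀ h ∈ H, f (g * h) = f g * g (f h)) : ∃ y ≠ 0, ∀ h ∈ H, h y = f h * y := by
  have f1 : f 1 = 1 := by simpa [f0] using fm 1 (one_mem _) 1 (one_mem _)
  let V : Subgroup Gal(Ω/F) :=
    { carrier := {v | v ∈ H ∧ f v = 1}
      mul_mem' := fun ha hb => ⟨mul_mem ha.1 hb.1, by rw [fm _ ha.1 _ hb.1, ha.2, hb.2]; simp⟩
      one_mem' := ⟨one_mem _, f1⟩
      inv_mem' := fun {a} ha => ⟨inv_mem ha.1, by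
        simpa [f1, ha.2] using (fm _ (inv_mem ha.1) a ha.1).symm⟩ }
  have oV : IsOpen (V : Set Gal(Ω/F)) := oH.inter (lc {1})
  have := V.quotient_finite_of_isOpen oV
  have : V.FiniteIndex := Subgroup.finiteIndex_of_finite_quotient
  have := Fintype.ofFinite (H ⧸ V.subgroupOf H)
  let K := IntermediateField.fixedField V
  let t : H ⧸ V.subgroupOf H → K →* Ω := fun q =>
    ((q.out : Gal(Ω/F)) : Ω →* Ω).comp (algebraMap K Ω : K →* Ω)
  have ti : Function.Injective t := fun q q' e => by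
    refine q.out_eq.symm.trans (((QuotientGroup.eq (s := V.subgroupOf H)).2 ?_).trans q'.out_eq)
    have h : K.fixingSubgroup = V :=
      InfiniteGalois.fixingSubgroup_fixedField ⟨V, V.isClosed_of_isOpen oV⟩
    refine h.le ((IntermediateField.mem_fixingSubgroup_iff _ _).2 fun x hx => ?_)
    exact (congrArg (q.out : Gal(Ω/F)).symm (DFunLike.congr_fun e ⟨x, hx⟩)).symm.trans
      (AlgEquiv.symm_apply_apply _ _)
  obtain ⟨x, hx⟩ : ∃ x : K, ∑ q : H ⧸ V.subgroupOf H, f q.out * (q.out : Gal(Ω/F)) x ≠ 0 := by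
    by_contra! c
    refine f0 _ (Fintype.linearIndependent_iff.1 ((linearIndependent_monoidHom K Ω).comp t ti)
      (fun q => f q.out) (funext fun x => ?_) (QuotientGroup.mk 1))
    rw [Finset.sum_apply]
    exact c x
  have hF : ∀ h : H, f (QuotientGroup.mk h : H ⧸ V.subgroupOf H).out *
      ((QuotientGroup.mk h : H ⧸ V.subgroupOf H).out : Gal(Ω/F)) x = f h * h.1 x := fun h => by
    obtain ⟨v, e⟩ := QuotientGroup.mk_out_eq_mul (V.subgroupOf H) h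
    rw [e, Subgroup.coe_mul, fm _ h.2 _ v.1.2, show f v.1 = 1 from v.2.2, map_one, mul_one,
      AlgEquiv.mul_apply,
      (IntermediateField.mem_fixedField_iff _ _).1 x.2 v.1.1 v.2]
  refine ⟨_, inv_ne_zero hx, fun k hk => ?_⟩
  rw [map_inv₀, ← div_eq_mul_inv, inv_eq_one_div, div_eq_div_iff ((map_ne_zero k).2 hx) hx, one_mul,
    map_sum, Finset.mul_sum]
  refine (Fintype.sum_equiv (MulAction.toPerm (⟨k, hk⟩ : H)) _ _ fun q => ?_).symm
  rw [map_mul, ← mul_assoc, ← fm k hk _ q.out.2, ← AlgEquiv.mul_apply, MulAction.toPerm_apply,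
    ← MulAction.Quotient.mk_smul_out]
  exact (hF (⟨k, hk⟩ * q.out)).symm

end gal

variable {p : ℕ} [hp : Fact p.Prime]

theorem nrm (g : Gp p) (x : Om p) : ‖g x‖ = ‖x‖ := (spectralNorm_eq_of_equiv g x).symm

theorem fix {y : Om p} (h : ∀ g : Gp p, g y = y) : ∃ r : ℚ_[p], algebraMap ℚ_[p] (Om p) r = y :=
  (InfiniteGalois.mem_range_algebraMap_iff_fixed y).2 h

theorem norm_p : ‖(p : Om p)‖ = (p : ℝ)⁻¹ := by
  rw [← map_natCast (algebraMap ℚ_[p] (Om p)), PadicAlgCl.norm_extends, Padic.norm_p]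

theorem p_lt : ‖(p : Om p)‖ < 1 := by
  rw [norm_p]
  exact inv_lt_one_of_one_lt₀ (Nat.one_lt_cast.2 hp.out.one_lt)

theorem p_pos : 0 < ‖(p : Om p)‖ := norm_pos_iff.2 (Nat.cast_ne_zero.2 hp.out.ne_zero)

/-- the values on `ℚ_p` -/
theorem val_dvd {y : Om p} (h : ∀ g : Gp p, g y = y) {m n : ℕ} (m0 : m ≠ 0)
    (e : ‖y‖ ^ m = ‖(p : Om p)‖ ^ n) : m ∣ n := by
  obtain ⟨r, rfl⟩ := fix h
  have r0 : r ≠ 0 := by
    rintro rfl
    rw [map_zero, norm_zero, zero_pow m0] at e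
    exact (pow_pos p_pos n).ne e
  rw [PadicAlgCl.norm_extends, Padic.norm_eq_zpow_neg_valuation r0, norm_p, ← zpow_natCast,
    ← zpow_mul, ← zpow_natCast, inv_zpow', zpow_right_inj₀ (Nat.cast_pos.2 hp.out.pos)
    (Nat.cast_ne_one.2 hp.out.ne_one), neg_mul, neg_inj] at e
  exact Int.natCast_dvd_natCast.1 ⟨_, e.symm.trans (mul_comm _ _)⟩

theorem norm_root {x : Om p} {n : ℕ} (n0 : n ≠ 0) (h : x ^ n = 1) : ‖x‖ = 1 :=
  (pow_eq_one_iff_of_nonneg (norm_nonneg _) n0).1 (by rw [← norm_pow, h, norm_one])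

theorem norm_sub_pow {x : Om p} (h : ‖x‖ = 1) (i : ℕ) : ‖1 - x ^ i‖ ≤ ‖1 - x‖ := by
  rw [← mul_neg_geom_sum, norm_mul]
  exact mul_le_of_le_one_right (norm_nonneg _) (IsUltrametricDist.norm_sum_le_of_forall_le_of_nonneg
    zero_le_one fun j _ => by rw [norm_pow, h, one_pow])

theorem norm_prim {x : Om p} {k : ℕ} (h : IsPrimitiveRoot x (p ^ (k + 1))) :
    ‖1 - x‖ ^ (p ^ (k + 1)).totient = ‖(p : Om p)‖ := by
  have n0 : p ^ (k + 1) ≠ 0 := pow_ne_zero _ hp.out.ne_zero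
  have : NeZero (p ^ (k + 1)) := ⟨n0⟩
  have le : ∀ {x y : Om p}, IsPrimitiveRoot x (p ^ (k + 1)) → IsPrimitiveRoot y (p ^ (k + 1)) →
      ‖1 - y‖ ≤ ‖1 - x‖ := fun hx hy => by
    obtain ⟨i, -, rfl⟩ := hx.eq_pow_of_pow_eq_one hy.pow_eq_one
    exact norm_sub_pow (norm_root n0 hx.pow_eq_one) i
  rw [← eval_one_cyclotomic_prime_pow (R := Om p) k, cyclotomic_eq_prod_X_sub_primitiveRoots h,
    eval_prod, norm_prod, ← h.card_primitiveRoots, ← Finset.prod_const]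
  refine Finset.prod_congr rfl fun y hy => ?_
  have := (mem_primitiveRoots (Nat.pos_of_ne_zero n0)).1 hy
  simpa using le_antisymm (le this h) (le h this)

/-- the product over an orbit -/
theorem orb (H : Subgroup (Gp p)) {x : Om p} {k : ℕ} (h : IsPrimitiveRoot x (p ^ (k + 1))) :
    ∃ (S : Finset (Om p)) (δ : Om p), (∀ η, η ∈ S ↔ ∃ g ∈ H, g x = η) ∧ (∀ g ∈ H, g δ = δ) ∧
      ‖δ‖ ^ (p ^ (k + 1)).totient = ‖(p : Om p)‖ ^ S.card := by
  classical
  have n0 := pow_pos hp.out.pos (k + 1)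
  let S := (primitiveRoots (p ^ (k + 1)) (Om p)).filter fun η => ∃ g ∈ H, g x = η
  have e : ∀ η, η ∈ S ↔ ∃ g ∈ H, g x = η := fun η => Finset.mem_filter.trans (and_iff_right_of_imp fun ⟨g, _, e⟩ =>
    (mem_primitiveRoots n0).2 (e ▸ h.map_of_injective g.injective))
  refine ⟨S, ∏ η ∈ S, (1 - η), e, fun g hg => ?_, ?_⟩
  · rw [map_prod]
    refine Finset.prod_bijective g g.bijective (fun η => ?_) fun η _ => by rw [map_sub, map_one]
    rw [e, e]
    exact ⟨fun ⟨a, ha, w⟩ => ⟨g * a, mul_mem hg ha, congrArg g w⟩, fun ⟨a, ha, w⟩ =>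
      ⟨g⁻¹ * a, mul_mem (inv_mem hg) ha, (congrArg g.symm w).trans (g.symm_apply_apply _)⟩⟩
  · rw [norm_prod, ← Finset.prod_pow, ← Finset.prod_const]
    exact Finset.prod_congr rfl fun η m =>
      norm_prim ((mem_primitiveRoots n0).1 (Finset.mem_filter.1 m).1)

theorem ex_prim (p : ℕ) [hp : Fact p.Prime] (k : ℕ) : ∃ x : Om p, IsPrimitiveRoot x (p ^ k) :=
  haveI : NeZero (p ^ k) := ⟨pow_ne_zero _ hp.out.ne_zero⟩
  HasEnoughRootsOfUnity.exists_primitiveRoot _ _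

/-! ### powers of a primitive root -/

variable {ζ : Om p} (hζ : IsPrimitiveRoot ζ p)
include hζ

theorem pw_add (a b : ZMod p) : ζ ^ (a + b).val = ζ ^ a.val * ζ ^ b.val := by
  rw [ZMod.val_add, ← pow_add]
  exact (pow_eq_pow_mod _ hζ.pow_eq_one).symm

theorem pw_mul (a b : ZMod p) : ζ ^ (a * b).val = (ζ ^ a.val) ^ b.val := by
  rw [ZMod.val_mul, ← pow_mul]
  exact (pow_eq_pow_mod _ hζ.pow_eq_one).symm

theorem pw_inj {a b : ZMod p} (h : ζ ^ a.val = ζ ^ b.val) : a = b :=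
  ZMod.val_injective p (hζ.pow_inj (ZMod.val_lt a) (ZMod.val_lt b) h)

theorem pw_ne (a : ZMod p) : ζ ^ a.val ≠ 0 := pow_ne_zero _ (hζ.ne_zero hp.out.ne_zero)

theorem pw_pow (a : ZMod p) : (ζ ^ a.val) ^ p = 1 := by
  rw [← pow_mul, mul_comm, pow_mul, hζ.pow_eq_one, one_pow]

theorem ex_log {β γ : Om p} (h0 : β ≠ 0) (h : γ ^ p = β ^ p) : ∃ a : ZMod p, γ = ζ ^ a.val * β := by
  obtain ⟨i, hi, e⟩ := hζ.eq_pow_of_pow_eq_one (ξ := γ / β) (by
    rw [div_pow, h, div_self (pow_ne_zero _ h0)])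
  exact ⟨i, by rw [ZMod.val_natCast_of_lt hi, e, div_mul_cancel₀ _ h0]⟩

theorem pw_map {ω : Gp p →* (ZMod p)ˣ} (hω : Cyc p ω) (g : Gp p) (a : ZMod p) :
    g (ζ ^ a.val) = ζ ^ ((ω g : ZMod p) * a).val := by
  rw [hω g _ (pw_pow hζ a), mul_comm, pw_mul hζ]

end Cu

open Cu

theorem om : OM := fun p hp ω hω => by
  obtain ⟨ζ, h1⟩ := ex_prim p (0 + 1)
  have hζ : IsPrimitiveRoot ζ p := by simpa using h1
  refine ⟨fun u => ?_, Subgroup.isOpen_mono (H₁ := MulAction.stabilizer (Gp p) ζ) (fun g m =>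
    Units.ext (pw_inj hζ ?_)) (stabilizer_isOpen_of_isIntegral ζ)⟩
  · obtain ⟨S, δ, s1, s2, s3⟩ := orb ⊤ h1
    have le : S ⊆ primitiveRoots p (Om p) := fun η m => by
      obtain ⟨g, -, rfl⟩ := (s1 η).1 m
      exact (mem_primitiveRoots hp.out.pos).2 (hζ.map_of_injective g.injective)
    have := Finset.eq_of_subset_of_card_le le (hζ.card_primitiveRoots.trans_le (by
      simpa using Nat.le_of_dvd (Finset.card_pos.2 ⟨ζ, (s1 ζ).2 ⟨1, trivial, rfl⟩⟩) (val_dvd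
        (fun g => s2 g trivial) (Nat.totient_pos.2 (pow_pos hp.out.pos _)).ne' s3)))
    obtain ⟨g, -, e⟩ := (s1 (ζ ^ (u : ZMod p).val)).1 (this ▸ (mem_primitiveRoots hp.out.pos).2
      (hζ.pow_of_coprime _ (ZMod.val_coe_unit_coprime u)))
    exact ⟨g, Units.ext (pw_inj hζ ((hω g ζ hζ.pow_eq_one).symm.trans e))⟩
  · rw [← hω g ζ hζ.pow_eq_one, Units.val_one, ZMod.val_one, pow_one]
    exact m

end Vale.Agent.P022K.RT.L5
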