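import Vale.Agent.P022K.RT.L5A

/-! P022K, block RT, row LP5: norms from cyclic extensions of degree `p` of `ℚ_p`. -/

set_option linter.all false

noncomputable section

namespace Vale.Agent.P022K.RT.L5.Cu

open Module Finset
open Vale.Agent.P022K.GW (Ac AF mu tor St Fu)
open Vale.Agent.P022K.RT.Tr (Gp)

open Polynomial in
theorem lin {k M : Type} [Field k] [AddCommGroup M] [Module k M] [Module.Finite k M] {p : ℕ}
    [hp : Fact p.Prime] [CharP k p] {S : End k M} (h : S ^ p = 1) {x y : M}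
    (i : ∀ s t : k, s • (∑ i ∈ range p, S ^ i) x + t • (∑ i ∈ range p, S ^ i) y = 0 →
      s = 0 ∧ t = 0) : p * 2 ≤ finrank k M := by
  have e0 : (X - 1 : k[X]) ^ (p - 1) = ∑ i ∈ range p, X ^ i :=
    mul_right_cancel₀ (X_sub_C_ne_zero 1) (by
      rw [C_1, ← pow_succ, Nat.sub_add_cancel hp.out.pos, geom_sum_mul, sub_pow_char, one_pow])
  have e : (S - 1) ^ (p - 1) = ∑ i ∈ range p, S ^ i := by simpa using congrArg (aeval S) e0
  have z : (S - 1) * ∑ i ∈ range p, S ^ i = 0 := by rw [mul_geom_sum, h, sub_self]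
  suffices ∀ n ≤ p, n * 2 + finrank k (LinearMap.range ((S - 1) ^ n)) ≤ finrank k M from
    le_of_add_le_left (this p le_rfl)
  intro n hn
  induction n with
  | zero => simpa using Submodule.finrank_le _
  | succ n ih =>
    have := ((S - 1).domRestrict (LinearMap.range ((S - 1) ^ n))).finrank_range_add_finrank_ker
    rw [LinearMap.range_domRestrict, ← LinearMap.range_comp, ← End.mul_eq_comp, ← pow_succ'] at this
    have m : ∀ v, (∑ i ∈ range p, S ^ i) v ∈ LinearMap.range ((S - 1) ^ n) := fun v =>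
      ⟨((S - 1) ^ (p - 1 - n)) v, by
        rw [← End.mul_apply, ← pow_add, Nat.add_sub_cancel' (by omega), e]⟩
    let w : M → LinearMap.ker ((S - 1).domRestrict (LinearMap.range ((S - 1) ^ n))) := fun v =>
      ⟨⟨_, m v⟩, LinearMap.congr_fun z v⟩
    have l : 2 ≤ finrank k (LinearMap.ker ((S - 1).domRestrict (LinearMap.range ((S - 1) ^ n)))) :=
      (LinearIndependent.pair_iff.2 fun s t q => i s t
        (congrArg (fun a => a.1.1) q) : LinearIndependent k ![w x, w y]).fintype_card_le_finrank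
    have := ih (by omega)
    omega

variable {p : ℕ} [hp : Fact p.Prime]

theorem lin' {G M : Type} [Group G] [AddCommGroup M] [Finite M] (hM : ∀ m : M, p • m = 0)
    (α : Ac G M) {σ : G} (h : ∀ m, α (σ ^ p) m = m) {x y : M} (i : ∀ s t : ℕ,
      s • ∑ i ∈ range p, α (σ ^ i) x + t • ∑ i ∈ range p, α (σ ^ i) y = 0 →
      (s : ZMod p) = 0 ∧ (t : ZMod p) = 0) : p * 2 ≤ padicValNat p (Nat.card M) := by
  have : Module (ZMod p) M := AddCommGroup.zmodModule hM
  let S : End (ZMod p) M := AddMonoidHom.toZModLinearMap p (α σ)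
  have hS : ∀ (n : ℕ) m, (S ^ n) m = α (σ ^ n) m := fun n m => by
    induction n with
    | zero => rw [pow_zero, pow_zero, map_one]; rfl
    | succ n ih => rw [pow_succ', pow_succ', map_mul, End.mul_apply, ih]; rfl
  rw [Module.natCard_eq_pow_finrank (K := ZMod p), Nat.card_zmod, padicValNat.prime_pow]
  refine lin (S := S) (LinearMap.ext fun m => (hS p m).trans (h m)) (x := x) (y := y) fun s t q => ?_
  rw [← ZMod.natCast_zmod_val s, ← ZMod.natCast_zmod_val t] at q ⊢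
  simp only [Nat.cast_smul_eq_nsmul, LinearMap.sum_apply, hS] at q
  exact i _ _ q

/-- characters -/
structure Hom (a : Gp p → ZMod p) : Prop where
  lc : IsLocallyConstant a
  ma : ∀ x y, a (x * y) = a x + a y

/-- the norm -/
def Nm (σ : Gp p) (δ : Om p) : Om p := ∏ i ∈ range p, (σ ^ i) δ

namespace Hom

variable {a : Gp p → ZMod p} (ha : Hom a) {σ : Gp p}
include ha

/-- the homomorphism -/
def mh : Gp p →* Multiplicative (ZMod p) := .mk' (fun g => .ofAdd (a g)) ha.ma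

theorem one : a 1 = 0 := ha.mh.map_one

theorem inv (g : Gp p) : a g⁻¹ = -a g := ha.mh.map_inv g

theorem pow (g : Gp p) (n : ℕ) : a (g ^ n) = n * a g :=
  (show _ = n • a g from ha.mh.map_pow g n).trans (nsmul_eq_mul n _)

theorem powp (g : Gp p) : a (g ^ p) = 0 := by rw [ha.pow, ZMod.natCast_self, zero_mul]

theorem ex (h : a σ ≠ 0) (t : ZMod p) : ∃ n : ℕ, a (σ ^ n) = t :=
  ⟨(t / a σ).val, by rw [ha.pow, ZMod.natCast_zmod_val, div_mul_cancel₀ _ h]⟩

theorem cj {y : Om p} (h : ∀ h, a h = 0 → h y = y) (g u : Gp p) (hu : a u = 0) : u (g y) = g y := by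
  rw [← AlgEquiv.mul_apply, show u * g = g * (g⁻¹ * u * g) by group, AlgEquiv.mul_apply,
    h _ (by rw [ha.ma, ha.ma, ha.inv, hu]; ring)]

theorem all (hσ : a σ ≠ 0) {y : Om p} (h : ∀ h, a h = 0 → h y = y) (e : σ y = y) (g : Gp p) :
    g y = y := by
  obtain ⟨n, hn⟩ := ha.ex hσ (a g)
  rw [← mul_inv_cancel_left (σ ^ n) g, AlgEquiv.mul_apply, h _ (by rw [ha.ma, ha.inv, hn]; ring)]
  exact pow_mem (show σ ∈ MulAction.stabilizer (Gp p) y from e) n

theorem nm (hσ : a σ ≠ 0) {y : Om p} (y0 : y ≠ 0) (h : ∀ h, a h = 0 → h y = y) :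
    ∀ g : Gp p, g (Nm σ y) = Nm σ y := by
  refine ha.all hσ (fun u hu => ?_) (mul_right_cancel₀ y0 ?_)
  · rw [Nm, map_prod]
    exact prod_congr rfl fun i _ => ha.cj h _ u hu
  · have := (prod_range_succ' (fun i => (σ ^ i) y) p).symm.trans (prod_range_succ _ p)
    rw [h _ (ha.powp σ)] at this
    rw [Nm, map_prod, ← this]
    simp only [pow_succ', AlgEquiv.mul_apply, pow_zero, AlgEquiv.one_apply]

variable {ω : Gp p →* (ZMod p)ˣ} (hω : Cyc p ω) {ζ : Om p} (hζ : IsPrimitiveRoot ζ p)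
include hω hζ

theorem root (p2 : p ≠ 2) {x : Om p} (e : x ^ p = 1) (h : ∀ h, a h = 0 → h x = x) : x = 1 := by
  obtain ⟨g, hg⟩ := (om p ω hω).1 (-1)
  obtain ⟨i, rfl⟩ := ex_log hζ one_ne_zero (e.trans (one_pow p).symm)
  have := h _ (ha.powp g)
  rw [mul_one, pw_map hζ hω, map_pow, hg, (hp.out.odd_of_ne_two p2).neg_one_pow] at this
  have := pw_inj hζ this
  rw [Units.val_neg, Units.val_one, neg_one_mul, ZMod.neg_eq_self_iff] at this
  rcases this with rfl | h
  · simp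
  · exact absurd ⟨_, h.symm.trans (two_mul _)⟩
      (Nat.not_even_iff_odd.2 (hp.out.odd_of_ne_two p2))

/-- a cup product which vanishes gives a norm -/
theorem norm_of (hσ : a σ = 1) {c : Gp p → ZMod p} {B : Om p} (B0 : B ≠ 0)
    (hB : ∀ g, g B = ζ ^ (c g).val * B) (h : Cb (fun x => (ω x : ZMod p)) c a) :
    ∃ δ ≠ 0, (∀ h, a h = 0 → h δ = δ) ∧ Nm σ δ = B ^ p := by
  obtain ⟨z, lz, hz⟩ := h
  obtain ⟨y, y0, hy⟩ := h90 ha.mh.ker (ha.lc {0}) (fun g => ζ ^ (z g).val)
    (lz.comp fun t => ζ ^ t.val) (fun g => pw_ne hζ _) fun g _ h (hh : a h = 0) => by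
      rw [hz, hh, mul_zero, add_zero, pw_add hζ, pw_map hζ hω]
  let D : Gp p → Om p := fun x => x y / (ζ ^ (z x).val * y)
  have D0 : ∀ x, D x ≠ 0 := fun x => div_ne_zero ((map_ne_zero x).2 y0) (mul_ne_zero (pw_ne hζ _) y0)
  have D1 : ∀ h, a h = 0 → D h = 1 := fun h hh => (div_eq_one_iff_eq
    (mul_ne_zero (pw_ne hζ _) y0)).2 (hy h hh)
  have D2 : ∀ x x', D (x * x') * ζ ^ (c x * a x').val = x (D x') * D x := fun x x' => by
    have := pw_ne hζ (c x * a x')
    have := (map_ne_zero x).2 y0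
    simp only [D, hz, pw_add hζ, map_div₀, map_mul, pw_map hζ hω, AlgEquiv.mul_apply]
    field_simp
  have D3 : ∀ n, D (σ ^ n) * ∏ i ∈ range n, (σ ^ i) (B / D σ) = B ^ n := fun n => by
    induction n with
    | zero => simpa using D1 1 ha.one
    | succ n ih =>
      have := D2 (σ ^ n) σ
      rw [hσ, mul_one, ← pow_succ] at this
      rw [prod_range_succ, pow_succ B, ← ih, map_div₀, hB, mul_div_assoc', mul_div_assoc',
        div_eq_iff ((map_ne_zero _).2 (D0 σ))]
      linear_combination (B * ∏ i ∈ range n, (σ ^ i) (B / D σ)) * this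
  refine ⟨B / D σ, div_ne_zero B0 (D0 σ), fun h hh => ?_, by rw [← D3, D1 _ (ha.powp σ), one_mul, Nm]⟩
  have e1 := D2 h σ
  have e2 := D2 σ (σ⁻¹ * h * σ)
  have m : a (σ⁻¹ * h * σ) = 0 := by rw [ha.ma, ha.ma, ha.inv, hh]; ring
  rw [m, D1 _ m, ← mul_assoc, mul_inv_cancel_left] at e2
  rw [hσ, D1 h hh, mul_one, mul_one] at e1
  rw [map_div₀, hB, ← e1, div_eq_div_iff (mul_ne_zero (D0 _) (pw_ne hζ _)) (D0 σ)]
  simp only [mul_zero, ZMod.val_zero, pow_zero, mul_one, map_one, one_mul] at e2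
  rw [e2]
  ring

omit ha hω hζ in
theorem el_nm {B : AddSubgroup (Additive (Om p)ˣ)} (hB : St (aM p) B) (b : B) (σ : Gp p) :
    el (∑ i ∈ range p, (aM p).sub B hB (σ ^ i) b).1 = Nm σ (el b.1) := by
  rw [AddSubmonoidClass.coe_finsetSum, el, toMul_sum, Units.coe_prod]
  rfl

/-- two independent elements are not both norms -/
theorem two (hL : LOC) (p2 : p ≠ 2) (hσ : a σ ≠ 0) {x y : Om p} (x0 : x ≠ 0) (y0 : y ≠ 0)
    (hx : ∀ h, a h = 0 → h x = x) (hy : ∀ h, a h = 0 → h y = y)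
    (i : ∀ (s t : ℕ) (w : Om p), (∀ g : Gp p, g w = w) → Nm σ x ^ s * Nm σ y ^ t = w ^ p →
      (s : ZMod p) = 0 ∧ (t : ZMod p) = 0) : False := by
  let Ψ : AF (Gp p) := fun M _ _ => padicValNat p (Nat.card M)
  obtain ⟨f, -, e⟩ := hL p ha.mh.ker p2 inferInstance (ha.lc {0})
  replace e := e Ψ fun A B C _ _ _ _ _ _ i q m i1 q1 ex _ _ => by
    have := m.fin
    have := Finite.of_injective i i1
    have := Finite.of_surjective q q1
    change padicValNat _ _ = padicValNat _ _ + padicValNat _ _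
    rw [← padicValNat.mul Nat.card_pos.ne' Nat.card_pos.ne', mul_comm,
      AddSubgroup.card_eq_card_quotient_mul_card_addSubgroup q.ker, Nat.card_congr
        (QuotientAddGroup.quotientKerEquivOfSurjective q q1).toEquiv,
      show q.ker = i.range from AddSubgroup.ext ex, Nat.card_congr (i.ofInjective i1).toEquiv]
  have le : ∀ (M : Type) [AddCommGroup M] (α : Ac (Gp p) M) (B : AddSubgroup M) (n : ℕ),
      Nat.card B ≤ p ^ n → Ψ.sq α B ⊥ ≤ n := fun M _ α B n h => by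
    rw [AF.sq]
    split_ifs
    · refine (padicValNat_le_nat_log _).trans ((Nat.log_mono_right ?_).trans_eq
        (Nat.log_pow hp.out.one_lt n))
      exact (AddSubgroup.relIndex_bot_left B).trans_le h
    · exact n.zero_le
  have s1 : St (aM p) (Fix ha.mh.ker) := fun g m hm u hu =>
    el_inj (ha.cj (fun h hh => congrArg el (hm h hh)) g u hu)
  have s2 : St (aM p) (mu p (Fix ha.mh.ker)) := by
    rintro g _ ⟨m, hm, rfl⟩
    exact ⟨_, s1 g m hm, (map_nsmul (aM p g) p m).symm⟩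
  have e1 := le _ (GW.fa (1 : Gp p →* Equiv.Perm Unit) (1 : Gp p →* (ZMod p)ˣ)) ⊤ 1 (by simp)
  have e2 := le _ (GW.fa (lm (Gp p)) (1 : Gp p →* (ZMod p)ˣ)) (Fu p (lm (Gp p)) ha.mh.ker) p
    ((Nat.card_le_card_of_injective (fun (f : Fu p (lm (Gp p)) ha.mh.ker) (t : ZMod p) =>
      f.1 (σ ^ (ha.ex hσ t).choose))
      fun f f' e => Subtype.ext (funext fun g => by
        have := (ha.ex hσ (a g)).choose_spec
        have m : a (g * (σ ^ (ha.ex hσ (a g)).choose)⁻¹) = 0 := by rw [ha.ma, ha.inv, this]; ring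
        rw [← inv_mul_cancel_right g _, ← lm_apply, f.2 _ m, f'.2 _ m]
        exact congrFun e _)).trans_eq (by simp [Nat.card_fun]))
  have e3 := le _ (aM p) (tor p (Fix ha.mh.ker)) 0 (by
    rw [show tor p (Fix ha.mh.ker) = ⊥ from eq_bot_iff.2 fun m hm => el_inj (ha.root hω hζ p2
      ((Units.val_pow_eq_pow_val _ _).symm.trans (congrArg el hm.2))
      fun h hh => congrArg el (hm.1 h hh))]
    simp)
  rw [AF.sq, dif_pos ⟨s1, s2⟩] at e
  generalize hB : Fix ha.mh.ker = B at s1 s2 f e e3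
  let π := QuotientAddGroup.mk' ((mu p B).addSubgroupOf B)
  have : Finite (B ⧸ (mu p B).addSubgroupOf B) := Nat.finite_of_card_ne_zero f
  let u : ∀ {x : Om p}, x ≠ 0 → (∀ h, a h = 0 → h x = x) → B := fun x0 hx =>
    ⟨.ofMul (.mk0 _ x0), hB ▸ fun h hh => el_inj (hx h hh)⟩
  have := lin' (fun m => QuotientAddGroup.induction_on m fun b =>
    (QuotientAddGroup.eq_zero_iff (p • b)).2 ⟨b, b.2, rfl⟩) (((aM p).sub B s1).quo
      ((mu p B).addSubgroupOf B) fun g m hm => s2 g m hm) (σ := σ)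
    (fun m => QuotientAddGroup.induction_on m fun b =>
      congrArg π (Subtype.ext ((hB ▸ b.2 : b.1 ∈ Fix ha.mh.ker) _ (ha.powp σ))))
    (x := π (u x0 hx)) (y := π (u y0 hy)) fun s t q => by
      replace q : π (s • ∑ i ∈ range p, (aM p).sub B s1 (σ ^ i) (u x0 hx) +
          t • ∑ i ∈ range p, (aM p).sub B s1 (σ ^ i) (u y0 hy)) = 0 := by
        rw [map_add, map_nsmul, map_nsmul, map_sum, map_sum]
        exact q
      obtain ⟨w, hw, q⟩ := (QuotientAddGroup.eq_zero_iff _).1 q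
      have q' : Nm σ x ^ s * Nm σ y ^ t = el w ^ p := by
        rw [← show _ = Nm σ x from el_nm s1 (u x0 hx) σ, ← show _ = Nm σ y from el_nm s1 (u y0 hy) σ]
        exact (congrArg el q).symm
      have w0 : el w ≠ 0 := Units.ne_zero _
      have fw : ∀ h, a h = 0 → h (el w) = el w := fun h hh =>
        congrArg el ((hB ▸ hw : w ∈ Fix ha.mh.ker) h hh)
      refine i _ _ _ (ha.all hσ fw ((div_eq_one_iff_eq w0).1 (ha.root hω hζ p2 ?_ fun h hh => ?_))) q'
      · rw [div_pow, ← map_pow, ← q', map_mul, map_pow, map_pow, ha.nm hσ x0 hx, ha.nm hσ y0 hy,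
          q', div_self (pow_ne_zero _ w0)]
      · rw [map_div₀, ha.cj fw σ h hh, fw h hh]
  have := hp.out.two_le
  change padicValNat p (Nat.card (B ⧸ (mu p B).addSubgroupOf B)) = Ψ.sq _ _ _ + Ψ.sq _ _ _ + _ at e
  omega

end Hom

end Vale.Agent.P022K.RT.L5.Cu
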