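import Vale.Agent.P022K.RT.Lp5D
import Vale.Agent.P022K.GW.Tws

/-! P022K, block RT, row LOC: the multiplicative group of a local field modulo powers. -/

set_option linter.all false

noncomputable section

namespace Vale.Agent.P022K.RT.L5

open Vale.Agent.P022K.GW Vale.Agent.P022K.GW.Cal
open Vale.Agent.P022K.RT.Tr (Gp)
open scoped NNReal

namespace Lc

/-- finite index from a classifying function -/
theorem rel_cls {M : Type} [AddCommGroup M] (H K : AddSubgroup M) {T : Type} [Finite T]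
    (c : K → T) (h : ∀ x y : K, c x = c y → x.1 - y.1 ∈ H) : H.relIndex K ≠ 0 := by
  haveI : Finite (K ⧸ H.addSubgroupOf K) :=
    Finite.of_injective (fun q => c q.out) fun q q' e => by
      rw [← QuotientAddGroup.out_eq' q, ← QuotientAddGroup.out_eq' q']
      exact QuotientAddGroup.eq_iff_sub_mem.2 (h _ _ e)
  exact AddSubgroup.index_ne_zero_of_finite

section

variable {G : Type} [Group G] {p : ℕ} [Fact p.Prime] {U : Subgroup G} {Ψ : AF G}

/-- the permutation module with coefficients in `R` -/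
def pR (R : Type) [AddCommGroup R] {I : Type} (π : G →* Equiv.Perm I) : Ac G (I → R) where
  toFun g := AddMonoidHom.mk' (fun f s => f (π g⁻¹ s)) fun _ _ => rfl
  map_one' := AddMonoidHom.ext fun f => funext fun s => by
    show f (π 1⁻¹ s) = f s
    rw [inv_one, map_one]; rfl
  map_mul' g h := AddMonoidHom.ext fun f => funext fun s => by
    show f (π (g * h)⁻¹ s) = f (π h⁻¹ (π g⁻¹ s))
    rw [mul_inv_rev, map_mul]; rfl

theorem pR_triv {R : Type} [AddCommGroup R] {I : Type} {π : G →* Equiv.Perm I}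
    (hI : ∀ u ∈ U, ∀ i, π u i = i) {u : G} (hu : u ∈ U) (f : I → R) : pR R π u f = f :=
  funext fun i => congrArg f (hI _ (U.inv_mem hu) i)

theorem pR_sq {R : Type} [AddCommGroup R] (ρ : R →+ ZMod p) (hs : Function.Surjective ρ)
    (hk : ∀ x, ρ x = 0 ↔ ∃ y, p • y = x) {I : Type} [Finite I] (π : G →* Equiv.Perm I)
    (hI : ∀ u ∈ U, ∀ i, π u i = i) : (mu p ⊤).relIndex (⊤ : AddSubgroup (I → R)) ≠ 0 ∧
      (Ψ.Add p U → Ψ.sq (pR R π) ⊤ (mu p ⊤) = Ψ.sq (fa π (1 : G →* (ZMod p)ˣ)) ⊤ ⊥) := by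
  let r : (I → R) →+ (I → ZMod p) := AddMonoidHom.mk' (fun f i => ρ (f i)) fun a b =>
    funext fun i => map_add ρ _ _
  have k : ∀ c : I → R, r c = 0 ↔ c ∈ mu p (⊤ : AddSubgroup (I → R)) := fun c => ⟨fun e => by
    choose d hd using fun i => (hk (c i)).1 (congrFun e i)
    exact ⟨d, trivial, funext hd⟩, by
    rintro ⟨d, -, rfl⟩
    exact funext fun i => (hk _).2 ⟨d i, rfl⟩⟩
  have i1 : (mu p ⊤).relIndex (⊤ : AddSubgroup (I → R)) ≠ 0 :=
    rel_cls _ _ (fun c => r c.1) fun x y e => (k _).1 (by rw [map_sub, sub_eq_zero]; exact e)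
  refine ⟨i1, fun h => trans' h r (st_mu st_top p) st_bot st_top st_top
    (fun g c _ => funext fun i => (one_mul _).symm) (fun _ _ => trivial) (fun f _ => ?_)
    (fun c _ => k c) i1 (fun m hm => ⟨m, hm, rfl⟩) fun u hu m _ => ?_⟩
  · choose d hd using fun i => hs (f i)
    exact ⟨d, trivial, sub_eq_zero.2 (funext hd)⟩
  · rw [pR_triv hI hu, sub_self]; exact zero_mem _

end

/-! ### norms -/

section

variable {F : Type} [NormedField F] [IsUltrametricDist F]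

theorem one_of {w : F} (h : ‖w - 1‖ < 1) : ‖w‖ = 1 := by
  have := IsUltrametricDist.norm_add_eq_max_of_norm_ne_norm (x := w - 1) (y := 1)
    (by rw [norm_one]; exact h.ne)
  rwa [sub_add_cancel, norm_one, max_eq_right h.le] at this

theorem pow_sub {w : F} (hw : ‖w‖ ≤ 1) (i : ℕ) : ‖w ^ i - 1‖ ≤ ‖w - 1‖ := by
  induction i with
  | zero => simp
  | succ i ih =>
    rw [show w ^ (i + 1) - 1 = w * (w ^ i - 1) + (w - 1) by ring]
    refine (IsUltrametricDist.norm_add_le_max _ _).trans (max_le ?_ le_rfl)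
    rw [norm_mul]
    exact (mul_le_of_le_one_left (norm_nonneg _) hw).trans ih

theorem pw {n : ℕ} {w : F} (h : ‖w - 1‖ < ‖(n : F)‖) : ‖w ^ n - 1‖ = ‖(n : F)‖ * ‖w - 1‖ := by
  have h1 : ‖w‖ = 1 := one_of (h.trans_le (IsUltrametricDist.norm_natCast_le_one F n))
  have h2 : ‖∑ i ∈ Finset.range n, (w ^ i - 1)‖ ≤ ‖w - 1‖ :=
    IsUltrametricDist.norm_sum_le_of_forall_le_of_nonneg (norm_nonneg _) fun i _ => pow_sub h1.le i
  have h3 := IsUltrametricDist.norm_add_eq_max_of_norm_ne_norm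
    (x := ∑ i ∈ Finset.range n, (w ^ i - 1)) (y := (n : F)) (h2.trans_lt h).ne
  rw [max_eq_right (h2.trans h.le), Finset.sum_sub_distrib, Finset.sum_const, Finset.card_range,
    nsmul_one, sub_add_cancel] at h3
  rw [← geom_sum_mul, norm_mul, h3]

open Polynomial in
theorem der_le (r : ℝ) (s : Multiset F) (h : ∀ y ∈ s, r ≤ ‖y‖) :
    ‖(derivative (s.map fun y => X - C y).prod).eval 0‖ * r ≤
      ‖((s.map fun y => X - C y).prod).eval 0‖ := by
  induction s using Multiset.induction_on with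
  | empty => simp
  | cons a s ih =>
    have ih := ih fun y hy => h y (Multiset.mem_cons_of_mem hy)
    have ha := h a (Multiset.mem_cons_self a s)
    rw [Multiset.map_cons, Multiset.prod_cons]
    set P := (s.map fun y => X - C y).prod
    have e1 : (derivative ((X - C a) * P)).eval 0 = P.eval 0 + -a * (derivative P).eval 0 := by
      simp [derivative_mul]
    have e2 : ((X - C a) * P).eval 0 = -a * P.eval 0 := by simp
    rw [e1, e2, norm_mul, norm_neg]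
    rcases le_total r 0 with hr | hr
    · exact (mul_nonpos_of_nonneg_of_nonpos (norm_nonneg _) hr).trans (by positivity)
    · refine (mul_le_mul_of_nonneg_right (IsUltrametricDist.norm_add_le_max _ _) hr).trans ?_
      rw [max_mul_of_nonneg _ _ hr, norm_mul, norm_neg]
      refine max_le ?_ ?_
      · rw [mul_comm]
        exact mul_le_mul_of_nonneg_right ha (norm_nonneg _)
      · rw [mul_assoc]
        exact mul_le_mul_of_nonneg_left ih (norm_nonneg _)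

open Polynomial in
theorem root [IsAlgClosed F] {n : ℕ} (hn : n ≠ 0) (z : F) :
    ∃ w : F, w ^ n = z ∧ ‖(n : F)‖ * ‖w - 1‖ ≤ ‖z - 1‖ := by
  classical
  let f : F[X] := (X + C 1) ^ n - C z
  have hm : ((X + C 1 : F[X]) ^ n).Monic := (monic_X_add_C 1).pow n
  have hd : ((X + C 1 : F[X]) ^ n).natDegree = n := by
    rw [(monic_X_add_C 1).natDegree_pow, natDegree_X_add_C, mul_one]
  have mf : f.Monic := hm.sub_of_left (by
    rw [degree_eq_natDegree hm.ne_zero, hd]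
    exact degree_C_le.trans_lt (by exact_mod_cast hn.bot_lt))
  have e := (IsAlgClosed.splits f).eq_prod_roots_of_monic mf
  obtain ⟨w0, hw0⟩ := IsAlgClosed.exists_pow_nat_eq z hn.bot_lt
  have mem : ∀ y, y ∈ f.roots ↔ (y + 1) ^ n = z := fun y => by
    rw [mem_roots mf.ne_zero, IsRoot.def]
    simp [f, sub_eq_zero]
  obtain ⟨y, hy, hmin⟩ := f.roots.toFinset.exists_min_image (fun y => ‖y‖)
    ⟨w0 - 1, Multiset.mem_toFinset.2 ((mem _).2 (by rw [sub_add_cancel, hw0]))⟩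
  have := der_le ‖y‖ f.roots fun x hx => hmin x (Multiset.mem_toFinset.2 hx)
  rw [← e] at this
  refine ⟨y + 1, (mem y).1 (Multiset.mem_toFinset.1 hy), ?_⟩
  rw [add_sub_cancel_right, norm_sub_rev]
  simpa [f, derivative_pow] using this

end

variable {p : ℕ} [Fact p.Prime] {U : Subgroup (Gp p)}

theorem nrm (g : Gp p) (x : Om p) : ‖g x‖ = ‖x‖ := (spectralNorm_eq_of_equiv g x).symm

theorem gsm (g : Gp p) (c : ℚ_[p]) (x : Om p) : g (c • x) = c • g x :=
  g.toLinearEquiv.map_smul c x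

theorem p_ne : (p : Om p) ≠ 0 := Nat.cast_ne_zero.2 (Fact.out : p.Prime).ne_zero

theorem np_pos : 0 < ‖(p : Om p)‖ := norm_pos_iff.2 p_ne

theorem np_lt : ‖(p : Om p)‖ < 1 := by
  rw [← map_natCast (algebraMap ℚ_[p] (Om p)), norm_algebraMap']
  exact Padic.norm_p_lt_one

/-! ### the additive side -/

/-- the action on the additive group -/
def aA (p : ℕ) [Fact p.Prime] : Ac (Gp p) (Om p) where
  toFun g := AddMonoidHom.mk' g (map_add g)
  map_one' := AddMonoidHom.ext fun _ => rfl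
  map_mul' _ _ := AddMonoidHom.ext fun _ => rfl

theorem aA_ap (g : Gp p) (x : Om p) : aA p g x = g x := rfl

/-- balls of the fixed field -/
def Bl (U : Subgroup (Gp p)) (r : ℝ≥0) : AddSubgroup (Om p) where
  carrier := {x | (∀ u ∈ U, u x = x) ∧ ‖x‖ ≤ r}
  add_mem' ha hb := ⟨fun u hu => by rw [map_add, ha.1 u hu, hb.1 u hu],
    (IsUltrametricDist.norm_add_le_max _ _).trans (max_le ha.2 hb.2)⟩
  zero_mem' := ⟨fun u _ => map_zero _, by simp⟩
  neg_mem' ha := ⟨fun u hu => by rw [map_neg, ha.1 u hu], by rw [norm_neg]; exact ha.2⟩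

theorem fix_conj [U.Normal] {x : Om p} (h : ∀ u ∈ U, u x = x) (g : Gp p) :
    ∀ u ∈ U, u (g x) = g x := fun u hu => by
  have := h _ (Subgroup.Normal.conj_mem' inferInstance u hu g)
  refine Eq.trans ?_ (congrArg g this)
  rw [← AlgEquiv.mul_apply, ← AlgEquiv.mul_apply, mul_assoc, mul_inv_cancel_left]

theorem st_Bl [U.Normal] (r : ℝ≥0) : St (aA p) (Bl U r) := fun g x hx =>
  ⟨fix_conj hx.1 g, by rw [aA_ap, nrm]; exact hx.2⟩

theorem Bl_mono {r R : ℝ≥0} (h : r ≤ R) : Bl U r ≤ Bl U R := fun _ hx => ⟨hx.1, hx.2.trans h⟩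

theorem ball_rel [hU : FiniteDimensional ℚ_[p] (IntermediateField.fixedField U)] {r : ℝ≥0}
    (hr : r ≠ 0) (R : ℝ≥0) : (Bl U r).relIndex (Bl U R) ≠ 0 := by
  let K : Submodule ℚ_[p] (Om p) := (IntermediateField.fixedField U).toSubmodule
  haveI : FiniteDimensional ℚ_[p] K := hU
  haveI : ProperSpace K := FiniteDimensional.proper ℚ_[p] K
  have hc : IsCompact (Bl U R : Set (Om p)) := by
    convert (isCompact_closedBall (0 : K) R).image continuous_subtype_val using 1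
    ext x
    refine ⟨fun hx => ⟨⟨x, (IntermediateField.mem_fixedField_iff U x).2 hx.1⟩,
      mem_closedBall_zero_iff.2 hx.2, rfl⟩, ?_⟩
    rintro ⟨y, hy, rfl⟩
    exact ⟨(IntermediateField.mem_fixedField_iff U y.1).1 y.2, mem_closedBall_zero_iff.1 hy⟩
  haveI : CompactSpace (Bl U R) := isCompact_iff_compactSpace.1 hc
  haveI := AddSubgroup.quotient_finite_of_isOpen ((Bl U r).addSubgroupOf (Bl U R)) (by
    convert (IsUltrametricDist.isOpen_closedBall (0 : Om p) (r := r)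
      (NNReal.coe_ne_zero.2 hr)).preimage (continuous_subtype_val (p := (· ∈ Bl U R))) using 1
    ext x
    exact ⟨fun hx => mem_closedBall_zero_iff.2 hx.2, fun hx => ⟨x.2.1, mem_closedBall_zero_iff.1 hx⟩⟩)
  exact AddSubgroup.index_ne_zero_of_finite

theorem Bl_mu (r : ℝ≥0) : mu p (Bl U r) = Bl U (‖(p : Om p)‖₊ * r) := by
  refine le_antisymm ?_ fun x hx => ⟨(p : Om p)⁻¹ * x, ⟨fun u hu => ?_, ?_⟩, ?_⟩
  · rintro _ ⟨x, hx, rfl⟩
    refine ⟨((Bl U r).nsmul_mem hx p).1, ?_⟩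
    show ‖p • x‖ ≤ ‖(p : Om p)‖ * r
    rw [nsmul_eq_mul, norm_mul]
    exact mul_le_mul_of_nonneg_left hx.2 (norm_nonneg _)
  · rw [map_mul, map_inv₀, map_natCast, hx.1 u hu]
  · rw [norm_mul, norm_inv, inv_mul_le_iff₀ np_pos]
    exact hx.2
  · show p • ((p : Om p)⁻¹ * x) = x
    rw [nsmul_eq_mul, mul_inv_cancel_left₀ p_ne]

theorem tor_add (X : AddSubgroup (Om p)) : tor p X = ⊥ := eq_bot_iff.2 fun x hx => by
  have := (mem_tor.1 hx).2
  rw [nsmul_eq_mul] at this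
  exact (mul_eq_zero.1 this).resolve_left p_ne

theorem npn : ‖(p : Om p)‖₊ ≠ 0 := nnnorm_ne_zero_iff.2 p_ne

/-- lattices -/
theorem lt_ball [U.Normal] [FiniteDimensional ℚ_[p] (IntermediateField.fixedField U)]
    {Ψ : AF (Gp p)} (h : Ψ.Add p U) {X : AddSubgroup (Om p)} (hX : St (aA p) X) {r R : ℝ≥0}
    (hr : r ≠ 0) (lo : Bl U r ≤ X) (hi : X ≤ Bl U R) :
    Ψ.sq (aA p) (Bl U R) (mu p (Bl U R)) = Ψ.sq (aA p) X (mu p X) := by
  have := lat Fact.out h hX (st_Bl R) hi (rel_mono (ball_rel hr R) lo le_rfl)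
    (fun u hu m hm => hm.1 u hu)
    (rel_mono (ball_rel (mul_ne_zero npn hr) R) (by rw [← Bl_mu]; exact mu_mono p lo) hi)
    (by rw [tor_add]; infer_instance)
  rwa [tor_add, tor_add, add_left_inj] at this

theorem low {I : Type} [Fintype I] (K : Submodule ℚ_[p] (Om p)) (b : Module.Basis I ℚ_[p] K) :
    ∃ r : ℝ≥0, r ≠ 0 ∧ ∀ x : K, ‖(x : Om p)‖ ≤ r → ∀ i, ‖b.repr x i‖ ≤ 1 := by
  haveI : FiniteDimensional ℚ_[p] K := Module.Finite.of_basis b
  obtain ⟨C, hC, h⟩ := (LinearMap.toContinuousLinearMap b.equivFun.toLinearMap).bound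
  refine ⟨⟨C⁻¹, by positivity⟩, fun e => (inv_pos.2 hC).ne' (congrArg NNReal.toReal e),
    fun x hx i => ?_⟩
  refine (norm_le_pi_norm (b.equivFun x) i).trans ((h x).trans ?_)
  rw [← mul_inv_cancel₀ hC.ne']
  exact mul_le_mul_of_nonneg_left hx hC.le

/-- the class of a ball modulo `p` is the class of the regular representation -/
theorem ball_sq [U.Normal] [FiniteDimensional ℚ_[p] (IntermediateField.fixedField U)]
    [IsGalois ℚ_[p] (IntermediateField.fixedField U)]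
    (hK : (IntermediateField.fixedField U).fixingSubgroup = U) {Ψ : AF (Gp p)} (h : Ψ.Add p U)
    {r : ℝ≥0} (hr : r ≠ 0) : Ψ.sq (aA p) (Bl U r) (mu p (Bl U r)) =
      Ψ.fu (lm (Gp p)) U (1 : Gp p →* (ZMod p)ˣ) := by
  classical
  set K := IntermediateField.fixedField U with hKd
  let d : Gp p →* Gal(K/ℚ_[p]) := AlgEquiv.restrictNormalHom K
  have dk : ∀ g, d g = 1 ↔ g ∈ U := fun g => by
    rw [← hK, ← IntermediateField.restrictNormalHom_ker]; rfl
  let π : Gp p →* Equiv.Perm Gal(K/ℚ_[p]) := (lm _).comp d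
  obtain ⟨e1, -, hI⟩ := fu_eq (π := lm (Gp p)) h π d (AlgEquiv.restrictNormalHom_surjective _)
    (fun g s => map_mul d g s) (fun s s' => ⟨fun e => ⟨s' * s⁻¹, (dk _).1 (by
      rw [map_mul, map_inv, e, mul_inv_cancel]), inv_mul_cancel_right s' s⟩, by
      rintro ⟨u, hu, rfl⟩
      rw [lm_apply, map_mul, (dk u).2 hu, one_mul]⟩) (χ := 1) fun _ _ => rfl
  let b := IsGalois.normalBasis ℚ_[p] K
  let y : Gal(K/ℚ_[p]) → Om p := fun i => (b i : Om p)
  have hy : ∀ g i, y (π g i) = g (y i) := fun g i => by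
    show ((b (d g * i) : K) : Om p) = g (b i : Om p)
    rw [IsGalois.normalBasis_apply (d g * i), IsGalois.normalBasis_apply i, AlgEquiv.mul_apply]
    exact AlgEquiv.restrictNormal_commutes g K _
  let φ : (Gal(K/ℚ_[p]) → ℤ_[p]) →+ Om p :=
    AddMonoidHom.mk' (fun c => ∑ i, (c i : ℚ_[p]) • y i) fun a b => by
      simp only [Pi.add_apply, PadicInt.coe_add, add_smul, Finset.sum_add_distrib]
  have φb : ∀ c, φ c = ((b.equivFun.symm fun i => (c i : ℚ_[p]) : K) : Om p) := fun c => by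
    rw [Module.Basis.equivFun_symm_apply]
    simp [φ, y]
  have inj : Function.Injective φ := fun c c' e => by
    rw [φb, φb] at e
    exact funext fun i => Subtype.ext (congrFun (b.equivFun.symm.injective (Subtype.ext e)) i)
  have hφ : ∀ g c, φ (pR _ π g c) = aA p g (φ c) := fun g c => by
    show ∑ i, (c (π g⁻¹ i) : ℚ_[p]) • y i = g (∑ i, (c i : ℚ_[p]) • y i)
    rw [← Equiv.sum_comp (π g), map_sum]
    exact Finset.sum_congr rfl fun i _ => by rw [perm_inv, hy g i, gsm]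
  have sL : St (aA p) φ.range := by
    rintro g _ ⟨c, rfl⟩
    exact ⟨_, hφ g c⟩
  obtain ⟨i1, e2⟩ := pR_sq (Ψ := Ψ) (PadicInt.toZMod (p := p)).toAddMonoidHom
    (ZMod.ringHom_surjective _) (fun x => by
      show x ∈ RingHom.ker PadicInt.toZMod ↔ _
      rw [PadicInt.ker_toZMod, PadicInt.maximalIdeal_eq_span_p, Ideal.mem_span_singleton']
      simp only [nsmul_eq_mul, mul_comm]) π hI
  have e3 : Ψ.sq (pR _ π) ⊤ (mu p ⊤) = Ψ.sq (aA p) φ.range (mu p φ.range) :=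
    trans' h φ (st_mu st_top p) (st_mu sL p) sL st_top (fun g c _ => hφ g c) (fun c _ => ⟨c, rfl⟩)
      (by
        rintro _ ⟨c, rfl⟩
        exact ⟨c, trivial, by rw [sub_self]; exact zero_mem _⟩)
      (fun c _ => ⟨by
        rintro ⟨_, ⟨d, rfl⟩, e⟩
        exact ⟨d, trivial, inj ((map_nsmul φ p d).trans e)⟩, by
        rintro ⟨d, -, rfl⟩
        exact ⟨_, ⟨d, rfl⟩, (map_nsmul φ p d).symm⟩⟩) i1 (fun m hm => ⟨m, hm, rfl⟩)
      fun u hu m _ => by rw [pR_triv hI hu, sub_self]; exact zero_mem _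
  obtain ⟨r0, h0, lo⟩ := low (p := p) K.toSubmodule b
  have l1 : Bl U r0 ≤ φ.range := fun x hx => by
    let x' : K := ⟨x, (IntermediateField.mem_fixedField_iff U x).2 hx.1⟩
    refine ⟨fun i => ⟨b.repr x' i, lo x' hx.2 i⟩, ?_⟩
    exact (φb _).trans (congrArg Subtype.val (b.equivFun.symm_apply_apply x'))
  have l2 : φ.range ≤ Bl U (max r (∑ i, ‖y i‖₊)) := by
    rintro _ ⟨c, rfl⟩
    refine AddSubgroup.sum_mem _ fun i _ => ⟨fun u hu => by rw [gsm, ← hy, hI u hu], ?_⟩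
    rw [norm_smul]
    refine (mul_le_of_le_one_left (norm_nonneg _) (c i).2).trans ?_
    exact_mod_cast le_max_of_le_right
      (Finset.single_le_sum (f := fun i => ‖y i‖₊) (fun _ _ => zero_le) (Finset.mem_univ i))
  rw [← lt_ball h (st_Bl r) hr le_rfl (Bl_mono (le_max_left r (∑ i, ‖y i‖₊))),
    lt_ball h sL h0 l1 l2, ← e3, e2 h, e1, top_bot h (md_fa (fun _ _ => rfl) hI)]

/-! ### the multiplicative side -/

theorem el_add (x y : Additive (Om p)ˣ) : el (x + y) = el x * el y := rfl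

theorem el_zero : el (0 : Additive (Om p)ˣ) = 1 := rfl

theorem el_neg (x : Additive (Om p)ˣ) : el (-x) = (el x)⁻¹ := Units.val_inv_eq_inv_val _

theorem el_sub (x y : Additive (Om p)ˣ) : el (x - y) = el x / el y := by
  rw [sub_eq_add_neg, el_add, el_neg, div_eq_mul_inv]

theorem el_nsmul (n : ℕ) (x : Additive (Om p)ˣ) : el (n • x) = el x ^ n :=
  Units.val_pow_eq_pow_val _ _

theorem el_zsmul (n : ℤ) (x : Additive (Om p)ˣ) : el (n • x) = el x ^ n :=
  Units.val_zpow_eq_zpow_val _ _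

theorem el_ne (x : Additive (Om p)ˣ) : el x ≠ 0 := Units.ne_zero _

theorem mem_Fix {x : Additive (Om p)ˣ} : x ∈ Fix U ↔ ∀ u ∈ U, u (el x) = el x :=
  ⟨fun h u hu => congrArg el (h u hu), fun h u hu => el_inj (h u hu)⟩

theorem st_Fix [U.Normal] : St (aM p) (Fix U) := fun g _ hx =>
  mem_Fix.2 (fix_conj (mem_Fix.1 hx) g)

/-- principal units of the fixed field -/
def Un (U : Subgroup (Gp p)) (r : ℝ≥0) : AddSubgroup (Additive (Om p)ˣ) where
  carrier := {x | x ∈ Fix U ∧ ‖el x‖ = 1 ∧ ‖el x - 1‖ ≤ r}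
  add_mem' {a b} ha hb := ⟨add_mem ha.1 hb.1, by rw [el_add, norm_mul, ha.2.1, hb.2.1, one_mul], by
    rw [el_add, show el a * el b - 1 = el a * (el b - 1) + (el a - 1) by ring]
    refine (IsUltrametricDist.norm_add_le_max _ _).trans (max_le ?_ ha.2.2)
    rw [norm_mul, ha.2.1, one_mul]
    exact hb.2.2⟩
  zero_mem' := ⟨zero_mem _, norm_one, by simp [el_zero]⟩
  neg_mem' {a} ha := ⟨neg_mem ha.1, by rw [el_neg, norm_inv, ha.2.1, inv_one], by
    rw [el_neg, show (el a)⁻¹ - 1 = -((el a)⁻¹ * (el a - 1)) by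
      rw [mul_sub, inv_mul_cancel₀ (el_ne a)]; ring, norm_neg, norm_mul, norm_inv, ha.2.1, inv_one,
      one_mul]
    exact ha.2.2⟩

theorem st_Un [U.Normal] (r : ℝ≥0) : St (aM p) (Un U r) := fun g x hx =>
  ⟨st_Fix g x hx.1, by rw [el_aM, nrm]; exact hx.2.1, by
    rw [el_aM, ← map_one g, ← map_sub, nrm]; exact hx.2.2⟩

theorem Un_mono {r R : ℝ≥0} (h : r ≤ R) : Un U r ≤ Un U R := fun _ hx =>
  ⟨hx.1, hx.2.1, hx.2.2.trans h⟩

theorem pw_inj {x y : Om p} (hy : ‖y‖ = 1) (h : ‖x - y‖ < ‖(p : Om p)‖) (e : x ^ p = y ^ p) :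
    x = y := by
  have y0 : y ≠ 0 := norm_ne_zero_iff.1 (by rw [hy]; exact one_ne_zero)
  have h1 : ‖x / y - 1‖ < ‖(p : Om p)‖ := by
    rwa [div_sub_one y0, norm_div, hy, div_one]
  have := pw h1
  rw [div_pow, e, div_self (pow_ne_zero _ y0), sub_self, norm_zero] at this
  exact (div_eq_one_iff_eq y0).1
    (sub_eq_zero.1 (norm_eq_zero.1 ((mul_eq_zero.1 this.symm).resolve_left np_pos.ne')))

theorem Un_mu {r : ℝ≥0} (hr : (r : ℝ) < ‖(p : Om p)‖) :
    mu p (Un U r) = Un U (‖(p : Om p)‖₊ * r) := by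
  refine le_antisymm ?_ fun x hx => ?_
  · rintro _ ⟨x, hx, rfl⟩
    have := (Un U r).nsmul_mem hx p
    refine ⟨this.1, this.2.1, ?_⟩
    show ‖el (p • x) - 1‖ ≤ ‖(p : Om p)‖ * r
    rw [el_nsmul, pw (hx.2.2.trans_lt hr)]
    exact mul_le_mul_of_nonneg_left hx.2.2 (norm_nonneg _)
  · obtain ⟨w, hw, hn⟩ := root (Fact.out : p.Prime).ne_zero (el x)
    have h1 : ‖w - 1‖ ≤ r := le_of_mul_le_mul_left (hn.trans hx.2.2) np_pos
    have h2 : ‖w‖ = 1 := one_of ((h1.trans_lt hr).trans np_lt)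
    have w0 : w ≠ 0 := norm_ne_zero_iff.1 (by rw [h2]; exact one_ne_zero)
    refine ⟨Additive.ofMul (Units.mk0 w w0), ⟨mem_Fix.2 fun u hu => ?_, h2, h1⟩,
      el_inj ((el_nsmul _ _).trans hw)⟩
    refine pw_inj (x := u w) (y := w) h2 ?_ (by rw [← map_pow, hw, mem_Fix.1 hx.1 u hu])
    rw [show u w - w = u (w - 1) + -(w - 1) by rw [map_sub, map_one]; ring]
    refine (IsUltrametricDist.norm_add_le_max _ _).trans_lt ?_
    rw [nrm, norm_neg, max_self]
    exact h1.trans_lt hr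

/-- principal units and balls -/
theorem Un_sq [U.Normal] [FiniteDimensional ℚ_[p] (IntermediateField.fixedField U)]
    {Ψ : AF (Gp p)} (h : Ψ.Add p U) {r : ℝ≥0} (h0 : r ≠ 0) (hr : (r : ℝ) < ‖(p : Om p)‖)
    (hi : (mu p (Un U r)).relIndex (Un U r) ≠ 0) :
    Ψ.sq (aM p) (Un U r) (mu p (Un U r)) = Ψ.sq (aA p) (Bl U r) (mu p (Bl U r)) := by
  have sW : St (aA p) (mu p (Bl U r)) := st_mu (st_Bl r) p
  have b1 : ∀ x ∈ Un U r, el x - 1 ∈ Bl U r := fun x hx =>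
    ⟨fun u hu => by rw [map_sub, map_one, mem_Fix.1 hx.1 u hu], hx.2.2⟩
  let q := QuotientAddGroup.mk' (mu p (Bl U r))
  let f : Un U r →+ Om p ⧸ mu p (Bl U r) := AddMonoidHom.mk' (fun x => q (el x.1 - 1)) fun x y => by
    rw [← map_add]
    refine QuotientAddGroup.eq_iff_sub_mem.2 ?_
    show el x.1 * el y.1 - 1 - (el x.1 - 1 + (el y.1 - 1)) ∈ _
    rw [show el x.1 * el y.1 - 1 - (el x.1 - 1 + (el y.1 - 1)) = (el x.1 - 1) * (el y.1 - 1) by ring,
      Bl_mu]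
    refine ⟨fun u hu => by rw [map_mul, (b1 _ x.2).1 u hu, (b1 _ y.2).1 u hu], ?_⟩
    rw [norm_mul]
    exact mul_le_mul (x.2.2.2.trans hr.le) y.2.2.2 (norm_nonneg _) (norm_nonneg _)
  have sB : St ((aA p).quo _ sW) ((Bl U r).map q) := by
    rintro g _ ⟨x, hx, rfl⟩
    exact ⟨_, st_Bl r g x hx, rfl⟩
  have e1 : Ψ.sq (aA p) (Bl U r) (mu p (Bl U r)) = Ψ.sq ((aA p).quo _ sW) ((Bl U r).map q) ⊥ :=
    trans' h q sW st_bot sB (st_Bl r) (fun _ _ _ => rfl) (fun m hm => ⟨m, hm, rfl⟩)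
      (by
        rintro _ ⟨x, hx, rfl⟩
        exact ⟨x, hx, sub_self _⟩) (fun m _ => QuotientAddGroup.eq_zero_iff m)
      (by rw [Bl_mu]; exact ball_rel (mul_ne_zero npn h0) r) (fun m hm => ⟨m, hm, rfl⟩)
      fun u hu m hm => by rw [aA_ap, hm.1 u hu, sub_self]; exact zero_mem _
  rw [e1]
  refine trans h f (st_mu (st_Un r) p) st_bot sB (st_Un r) (fun g m => sub_eq_zero.2 ?_)
    (fun m => ⟨_, b1 _ m.2, rfl⟩) ?_ (fun m => ?_) hi (fun m hm => ⟨m, hm, rfl⟩)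
    fun u hu m hm => by rw [hm.1 u hu, sub_self]; exact zero_mem _
  · show q (g (el m.1) - 1) = q (g (el m.1 - 1))
    rw [map_sub g, map_one]
  · rintro _ ⟨x, hx, rfl⟩
    have h1 : ‖x + 1 - 1‖ ≤ r := by rw [add_sub_cancel_right]; exact hx.2
    have h2 : ‖x + 1‖ = 1 := one_of ((h1.trans_lt hr).trans np_lt)
    have w0 : x + 1 ≠ 0 := norm_ne_zero_iff.1 (by rw [h2]; exact one_ne_zero)
    refine ⟨⟨Additive.ofMul (Units.mk0 _ w0), mem_Fix.2 fun u hu => ?_, h2, h1⟩, sub_eq_zero.2 ?_⟩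
    · show u (x + 1) = x + 1
      rw [map_add, map_one, hx.1 u hu]
    · show q (x + 1 - 1) = q x
      rw [add_sub_cancel_right]
  · refine (QuotientAddGroup.eq_zero_iff (el m.1 - 1)).trans ?_
    rw [Bl_mu, Un_mu hr]
    exact ⟨fun e => ⟨m.2.1, m.2.2.1, e.2⟩, fun e => ⟨(b1 _ m.2).1, e.2.2⟩⟩

/-- the prime as a unit -/
def pi (p : ℕ) [Fact p.Prime] : Additive (Om p)ˣ := Additive.ofMul (Units.mk0 (p : Om p) p_ne)

theorem el_pi : el (pi p) = p := rfl

theorem aM_pi (g : Gp p) : aM p g (pi p) = pi p := el_inj (map_natCast g p)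

/-- powers of `p ^ k` times principal units -/
def An (U : Subgroup (Gp p)) (k : ℕ) (r : ℝ≥0) : AddSubgroup (Additive (Om p)ˣ) :=
  AddSubgroup.zmultiples (k • pi p) ⊔ Un U r

theorem mem_An {k : ℕ} {r : ℝ≥0} {x : Additive (Om p)ˣ} :
    x ∈ An U k r ↔ ∃ n : ℤ, ∃ u ∈ Un U r, (n * k) • pi p + u = x := by
  rw [An, AddSubgroup.mem_sup]
  refine ⟨?_, ?_⟩
  · rintro ⟨_, ⟨n, rfl⟩, u, hu, e⟩
    exact ⟨n, u, hu, by rw [mul_smul, natCast_zsmul]; exact e⟩
  · rintro ⟨n, u, hu, e⟩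
    exact ⟨_, ⟨n, rfl⟩, u, hu, by rw [mul_smul, natCast_zsmul] at e; exact e⟩

theorem st_An [U.Normal] (k : ℕ) (r : ℝ≥0) : St (aM p) (An U k r) := fun g x hx => by
  obtain ⟨n, u, hu, rfl⟩ := mem_An.1 hx
  exact mem_An.2 ⟨n, _, st_Un r g u hu, by rw [map_add, map_zsmul, aM_pi]⟩

theorem An_le (k : ℕ) (r : ℝ≥0) : An U k r ≤ Fix U := fun x hx => by
  obtain ⟨n, u, hu, rfl⟩ := mem_An.1 hx
  exact add_mem ((Fix U).zsmul_mem (fun g _ => aM_pi g) _) hu.1

theorem val_eq {n : ℤ} {x : Additive (Om p)ˣ} (hx : ‖el x‖ = 1) (e : ‖el (n • pi p + x)‖ = 1) :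
    n = 0 := by
  rw [el_add, norm_mul, hx, mul_one, el_zsmul, norm_zpow, el_pi] at e
  exact zpow_right_injective₀ np_pos np_lt.ne (e.trans (zpow_zero _).symm)

theorem An_mu {r : ℝ≥0} (hr : (r : ℝ) < ‖(p : Om p)‖) :
    mu p (An U 1 r) = An U p (‖(p : Om p)‖₊ * r) := by
  rw [An, An, ← Un_mu hr, mu, AddSubgroup.map_sup, AddMonoidHom.map_zmultiples, one_smul]
  rfl

theorem An_tor {r : ℝ≥0} (hr : (r : ℝ) < ‖(p : Om p)‖) : tor p (An U 1 r) = ⊥ :=
  eq_bot_iff.2 fun x hx => by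
    obtain ⟨hx, e⟩ := mem_tor.1 hx
    obtain ⟨n, u, hu, rfl⟩ := mem_An.1 hx
    have h1 : ‖el ((n * (1 : ℕ)) • pi p + u)‖ = 1 := by
      have := congrArg (fun x => ‖el x‖) e
      simp only [el_nsmul, norm_pow, el_zero, norm_one] at this
      exact (pow_eq_one_iff_of_nonneg (norm_nonneg _) (Fact.out : p.Prime).ne_zero).1 this
    rw [val_eq hu.2.1 h1, zero_smul, zero_add] at e ⊢
    refine el_inj (pw_inj (y := 1) norm_one (hu.2.2.trans_lt hr) ?_)
    rw [← el_nsmul, e, one_pow, el_zero]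

theorem An_rel [FiniteDimensional ℚ_[p] (IntermediateField.fixedField U)] {k : ℕ} (hk : k ≠ 0)
    {r : ℝ≥0} (h0 : r ≠ 0) (hr : (r : ℝ) < 1) : (An U k r).relIndex (Fix U) ≠ 0 := by
  have t0 : 0 < ‖(p : Om p)‖ ^ k := pow_pos np_pos k
  have t1 : ‖(p : Om p)‖ ^ k < 1 := pow_lt_one₀ np_pos.le np_lt hk
  have ex : ∀ x : Fix U, ∃ n : ℤ, ‖(p : Om p)‖ ^ k ≤ ‖el (x.1 - (n * k) • pi p)‖ ∧
      ‖el (x.1 - (n * k) • pi p)‖ ≤ 1 := fun x => by
    obtain ⟨n, h1, h2⟩ := exists_mem_Ico_zpow (norm_pos_iff.2 (el_ne x.1)) ((one_lt_inv₀ t0).2 t1)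
    refine ⟨-(n + 1), ?_⟩
    have e : ‖el (x.1 - (-(n + 1) * k) • pi p)‖ = ‖el x.1‖ / (‖(p : Om p)‖ ^ k)⁻¹ ^ (n + 1) := by
      rw [el_sub, norm_div, el_zsmul, norm_zpow, el_pi, mul_comm, zpow_mul, zpow_natCast, inv_zpow']
    have i0 : 0 < (‖(p : Om p)‖ ^ k)⁻¹ := inv_pos.2 t0
    rw [e, div_le_one (zpow_pos i0 _), le_div_iff₀ (zpow_pos i0 _), zpow_add_one₀ i0.ne',
      mul_comm, inv_mul_cancel_right₀ t0.ne']
    exact ⟨h1, by rw [← zpow_add_one₀ i0.ne']; exact h2.le⟩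
  choose n h1 h2 using ex
  have fx : ∀ x : Fix U, x.1 - (n x * k) • pi p ∈ Fix U := fun x =>
    sub_mem x.2 ((Fix U).zsmul_mem (fun g _ => aM_pi g) _)
  haveI : Finite (Bl U 1 ⧸ (Bl U (‖(p : Om p)‖₊ ^ k * r)).addSubgroupOf (Bl U 1)) :=
    Nat.finite_of_card_ne_zero (ball_rel (mul_ne_zero (pow_ne_zero k npn) h0) 1)
  refine rel_cls _ _ (fun x => ((⟨el (x.1 - (n x * k) • pi p), mem_Fix.1 (fx x), h2 x⟩ : Bl U 1) :
    Bl U 1 ⧸ (Bl U (‖(p : Om p)‖₊ ^ k * r)).addSubgroupOf (Bl U 1))) fun x y e => ?_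
  have e1 : ‖el (x.1 - (n x * k) • pi p) - el (y.1 - (n y * k) • pi p)‖ ≤ ‖(p : Om p)‖ ^ k * r :=
    (QuotientAddGroup.eq_iff_sub_mem.1 e).2
  have e2 : ‖el (x.1 - (n x * k) • pi p - (y.1 - (n y * k) • pi p)) - 1‖ ≤ r := by
    rw [el_sub, div_sub_one (el_ne _), norm_div, div_le_iff₀' (norm_pos_iff.2 (el_ne _))]
    exact e1.trans (mul_le_mul_of_nonneg_right (h1 y) r.2)
  refine mem_An.2 ⟨n x - n y, _, ⟨sub_mem (fx x) (fx y), one_of (e2.trans_lt hr), e2⟩, ?_⟩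
  rw [sub_mul, sub_smul]
  abel

theorem An_sq [U.Normal] [FiniteDimensional ℚ_[p] (IntermediateField.fixedField U)]
    {Ψ : AF (Gp p)} (h : Ψ.Add p U) {r : ℝ≥0} (h0 : r ≠ 0) (hr : (r : ℝ) < ‖(p : Om p)‖)
    (hi : (mu p (An U 1 r)).relIndex (Fix U) ≠ 0) :
    Ψ.sq (aM p) (An U 1 r) (mu p (An U 1 r)) =
      Ψ.ch (1 : Gp p →* (ZMod p)ˣ) + Ψ.sq (aA p) (Bl U r) (mu p (Bl U r)) := by
  have pp : p.Prime := Fact.out
  have tu : ∀ {C D : AddSubgroup (Additive (Om p)ˣ)}, C ≤ Fix U → ∀ u ∈ U, ∀ m ∈ C,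
      aM p u m - m ∈ D := fun l u k m hm => by rw [l hm u k, sub_self]; exact zero_mem _
  have lU : ∀ k s, Un U s ≤ An U k s := fun _ _ => le_sup_right
  have l1 : mu p (An U 1 r) ≤ An U p r := by
    rw [An_mu hr]
    exact sup_le_sup_left (Un_mono (mul_le_of_le_one_left zero_le np_lt.le)) _
  have l2 : An U p r ≤ An U 1 r := fun x hx => by
    obtain ⟨n, u, hu, rfl⟩ := mem_An.1 hx
    exact mem_An.2 ⟨n * p, u, hu, by simp⟩
  have e1 := chain h (st_mu (st_An 1 r) p) (st_An p r) (st_An 1 r) l1 l2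
    (rel_mono hi le_rfl (An_le 1 r)) (fun m hm => ⟨m, hm, rfl⟩) (tu (An_le 1 r))
  have k1 : ∀ m ∈ Un U r, m ∈ mu p (An U 1 r) ↔ m ∈ mu p (Un U r) := fun m hm =>
    ⟨fun e => by
      rw [An_mu hr] at e
      obtain ⟨n, u, hu, rfl⟩ := mem_An.1 e
      rw [val_eq hu.2.1 hm.2.1, zero_smul, zero_add, Un_mu hr]
      exact hu, fun e => mu_mono p (lU 1 r) e⟩
  have i1 : (mu p (Un U r)).relIndex (Un U r) ≠ 0 := by
    have := rel_mono hi le_rfl ((lU 1 r).trans (An_le 1 r))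
    rw [← AddSubgroup.inf_relIndex_right] at this
    exact rel_mono this (fun m hm => (k1 m hm.2).1 hm.1) le_rfl
  have e2 : Ψ.sq (aM p) (Un U r) (mu p (Un U r)) = Ψ.sq (aM p) (An U p r) (mu p (An U 1 r)) :=
    trans' h (AddMonoidHom.id _) (st_mu (st_Un r) p) (st_mu (st_An 1 r) p) (st_An p r) (st_Un r)
      (fun _ _ _ => rfl) (fun m hm => lU p r hm) (fun x hx => by
        obtain ⟨n, u, hu, rfl⟩ := mem_An.1 hx
        refine ⟨u, hu, ?_⟩
        rw [An_mu hr]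
        exact mem_An.2 ⟨-n, 0, zero_mem _, by simp⟩) k1 i1 (fun m hm => ⟨m, hm, rfl⟩)
      (tu fun _ hm => hm.1)
  obtain ⟨i2, e3⟩ := pR_sq (Ψ := Ψ) (U := U) (Int.castAddHom (ZMod p)) (ZMod.intCast_surjective)
    (fun x => by
      show (x : ZMod p) = 0 ↔ _
      rw [ZMod.intCast_zmod_eq_zero_iff_dvd]
      exact ⟨fun ⟨c, e⟩ => ⟨c, e.symm⟩, fun ⟨c, e⟩ => ⟨c, e.symm⟩⟩)
    (1 : Gp p →* Equiv.Perm Unit) fun _ _ _ => rfl
  have e4 : Ψ.sq (pR ℤ (1 : Gp p →* Equiv.Perm Unit)) ⊤ (mu p ⊤) =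
      Ψ.sq (aM p) (An U 1 r) (An U p r) :=
    trans' h (AddMonoidHom.mk' (fun c => c () • pi p) fun a b => add_zsmul (pi p) (a ()) (b ())) (st_mu st_top p)
      (st_An p r) (st_An 1 r) st_top (fun g c _ => by
        show c () • pi p = aM p g (c () • pi p)
        rw [map_zsmul, aM_pi])
      (fun c _ => mem_An.2 ⟨c (), 0, zero_mem _, by simp⟩) (fun x hx => by
        obtain ⟨n, u, hu, rfl⟩ := mem_An.1 hx
        exact ⟨fun _ => n, trivial, lU p r (by simpa using hu)⟩)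
      (fun c _ => ⟨fun e => by
        obtain ⟨n, u, hu, e⟩ := mem_An.1 e
        have e' : (n * p) • pi p + u = c () • pi p := e
        have := val_eq (n := n * p - c ()) hu.2.1 (by
          rw [sub_smul, sub_add_eq_add_sub, e', sub_self, el_zero, norm_one])
        exact ⟨fun _ => n, trivial, funext fun _ => by
          show (p : ℕ) • n = c ()
          rw [nsmul_eq_mul, mul_comm]
          exact sub_eq_zero.1 this⟩, by
        rintro ⟨d, -, rfl⟩
        exact mem_An.2 ⟨d (), 0, zero_mem _, by simp [mul_comm]⟩⟩) i2 (fun m hm => ⟨m, hm, rfl⟩)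
      fun u hu m _ => by rw [pR_triv (fun _ _ _ => rfl) hu, sub_self]; exact zero_mem _
  rw [e1, ← e2, ← e4, e3 h, Un_sq h h0 hr i1]
  rfl

end Lc

open Lc in
theorem loc : LOC := fun p _ U _ hN hO => by
  have hK : (IntermediateField.fixedField U).fixingSubgroup = U :=
    InfiniteGalois.fixingSubgroup_fixedField ⟨U, U.isClosed_of_isOpen hO⟩
  haveI : FiniteDimensional ℚ_[p] (IntermediateField.fixedField U) :=
    (InfiniteGalois.isOpen_iff_finite _).1 (by rw [hK]; exact hO)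
  haveI : IsGalois ℚ_[p] (IntermediateField.fixedField U) :=
    (InfiniteGalois.normal_iff_isGalois _).1 (by rw [hK]; exact hN)
  let r : ℝ≥0 := ‖(p : Om p)‖₊ * ‖(p : Om p)‖₊
  have h0 : r ≠ 0 := mul_ne_zero npn npn
  have hr : (r : ℝ) < ‖(p : Om p)‖ := mul_lt_of_lt_one_left np_pos np_lt
  have i1 : (mu p (An U 1 r)).relIndex (Fix U) ≠ 0 := by
    rw [An_mu hr]
    exact An_rel (Fact.out : p.Prime).ne_zero (mul_ne_zero npn h0)
      ((mul_le_of_le_one_left r.2 np_lt.le).trans_lt (hr.trans np_lt))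
  have i2 : (An U 1 r).relIndex (Fix U) ≠ 0 := rel_mono i1 (mu_le p _) le_rfl
  have t1 : Finite (tor p (An U 1 r)) := by rw [An_tor hr]; infer_instance
  refine ⟨rel_mono i1 (mu_mono p (An_le 1 r)) le_rfl, fin_tor p i2 t1, fun Ψ h => ?_⟩
  have := lat Fact.out h (st_An 1 r) st_Fix (An_le 1 r) i2 (fun u hu m hm => hm u hu)
    (rel_mono i1 le_rfl (An_le 1 r)) t1
  rwa [An_tor hr, self h st_bot, add_zero, An_sq h h0 hr i1, ball_sq hK h h0] at this

end Vale.Agent.P022K.RT.L5
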