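import Vale.Agent.P022D.L2b.Defs
import Vale.Agent.P022D.L2b.Ps

/-! P022K, block RT, row LP5: a hypersurface whose quadratic part has rank three or more. -/

set_option linter.all false

noncomputable section

namespace Vale.Agent.P022K.RT.L5

open IsLocalRing MvPowerSeries
open Vale.Agent.P022D
open Vale.Agent.P022D.L2b (decomp mem_max_iff)

variable {F σ : Type} [Field F] [Fintype σ]

/-- a power series is a combination of small monomials whose coefficients are powers -/
theorem pw_decomp (p : ℕ) [hp : Fact p.Prime] [CharP F p] [PerfectRing F p] [DecidableEq σ]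
    (g : MvPowerSeries σ F) : ∃ c : (σ → Fin p) → MvPowerSeries σ F,
      g = ∑ e, c e ^ p * ∏ i, X i ^ (e i : ℕ) := by
  have p0 := hp.out.pos
  let E : (σ → Fin p) → σ →₀ ℕ := fun e => Finsupp.equivFunOnFinite.symm fun i => (e i : ℕ)
  have hE : ∀ e i, E e i = e i := fun e i => rfl
  have hm : ∀ e : σ → Fin p, ∏ i, (X i : MvPowerSeries σ F) ^ (e i : ℕ) = monomial (E e) 1 := by
    intro e
    rw [MvPowerSeries.monomial_one_eq, Finsupp.prod_fintype _ _ (by simp)]
    rfl
  let h : (σ → Fin p) → MvPowerSeries σ F := fun e m => coeff (p • m + E e) g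
  have hh : ∀ e m, coeff m (h e) = coeff (p • m + E e) g := fun e m => rfl
  refine ⟨fun e => MvPowerSeries.map (frobeniusEquiv F p).symm.toRingHom (h e), ?_⟩
  have h1 : ∀ e, (MvPowerSeries.map (frobeniusEquiv F p).symm.toRingHom (h e)) ^ p =
      expand p p0.ne' (h e) := by
    intro e
    rw [← map_frobenius_expand p p0.ne', map_expand]
    congr 1
    ext m
    simp [coeff_map]
  ext d
  simp only [h1, hm, map_sum, coeff_mul_monomial, mul_one]
  rw [Finset.sum_eq_single (fun i => (⟨d i % p, Nat.mod_lt _ p0⟩ : Fin p))]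
  · have h2 : E (fun i => (⟨d i % p, Nat.mod_lt _ p0⟩ : Fin p)) ≤ d := fun i => Nat.mod_le _ _
    have h3 : d - E (fun i => (⟨d i % p, Nat.mod_lt _ p0⟩ : Fin p)) =
        p • Finsupp.equivFunOnFinite.symm fun i => d i / p := by
      ext i
      rw [Finsupp.tsub_apply, hE, Finsupp.smul_apply, Finsupp.equivFunOnFinite_symm_apply_apply,
        smul_eq_mul]
      have := Nat.div_add_mod (d i) p
      show d i - d i % p = _
      omega
    rw [if_pos h2, h3, coeff_expand_smul, hh, ← h3, tsub_add_cancel_of_le h2]
  · intro e _ he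
    split_ifs with h2
    · obtain ⟨i, hi⟩ := Function.ne_iff.1 he
      refine coeff_expand_of_not_dvd p p0.ne' _ (i := i) ?_
      have h4 : (e i : ℕ) ≤ d i := h2 i
      rw [Finsupp.tsub_apply, hE]
      rintro ⟨k, hk⟩
      apply hi
      apply Fin.ext
      show (e i : ℕ) = d i % p
      rw [show d i = e i + p * k by omega, Nat.add_mul_mod_self_left, Nat.mod_eq_of_lt (e i).2]
    · rfl
  · intro h
    exact absurd (Finset.mem_univ _) h

/-- the chain rule over a finite field -/
theorem chain [Finite F] {K : Type} [Field K] (ψ : MvPowerSeries σ F →+* K)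
    (D : Derivation ℤ K K) (g : MvPowerSeries σ F) :
    D (ψ g) = ∑ t, ψ (pderiv F t g) * D (ψ (X t)) := by
  classical
  obtain ⟨p, hc⟩ := CharP.exists F
  have hp : Fact p.Prime := ⟨CharP.char_is_prime F p⟩
  have hK : (p : K) = 0 := by
    rw [← map_natCast ψ, ← map_natCast (C : F →+* MvPowerSeries σ F), CharP.cast_eq_zero,
      map_zero, map_zero]
  let S : Subsemiring (MvPowerSeries σ F) :=
    { carrier := {g | D (ψ g) = ∑ t, ψ (pderiv F t g) * D (ψ (X t))}
      mul_mem' := fun {a b} ha hb => by
        show _ = _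
        rw [map_mul, Derivation.leibniz, show D (ψ a) = _ from ha, show D (ψ b) = _ from hb]
        simp only [Derivation.leibniz, smul_eq_mul, map_add, map_mul, Finset.mul_sum,
          ← Finset.sum_add_distrib]
        exact Finset.sum_congr rfl fun t _ => by ring
      one_mem' := by
        show _ = _
        simp
      add_mem' := fun {a b} ha hb => by
        show _ = _
        rw [map_add, map_add, show D (ψ a) = _ from ha, show D (ψ b) = _ from hb]
        simp only [map_add, add_mul, Finset.sum_add_distrib]
      zero_mem' := by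
        show _ = _
        simp }
  obtain ⟨c, rfl⟩ := pw_decomp p g
  refine S.sum_mem fun e _ => S.mul_mem ?_ (S.prod_mem fun i _ => S.pow_mem ?_ _)
  · show _ = _
    simp only [map_pow, Derivation.leibniz_pow, nsmul_eq_mul, hK, zero_mul, map_mul, map_natCast,
      Finset.sum_const_zero]
  · show _ = _
    rw [Finset.sum_eq_single i (fun j _ hj => by rw [pderiv_X_of_ne hj.symm]; simp) (by simp)]
    simp

theorem sub_cc_mem (g : MvPowerSeries σ F) :
    g - C (constantCoeff g) ∈ maximalIdeal (MvPowerSeries σ F) := by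
  rw [mem_max_iff]
  simp

/-- the Hessian at the origin -/
def hs (f : MvPowerSeries σ F) : Matrix σ σ F :=
  Matrix.of fun k t => constantCoeff (pderiv F t (pderiv F k f))

theorem hs_add (f g : MvPowerSeries σ F) : hs (f + g) = hs f + hs g := by
  ext k t; simp [hs]

theorem hs_smul (a : F) (f : MvPowerSeries σ F) : hs (C a * f) = a • hs f := by
  ext k t; simp [hs, Derivation.leibniz]

theorem hs_q (w : σ → σ → MvPowerSeries σ F) (k t : σ) :
    hs (∑ i, ∑ j, X i * X j * w i j) k t = constantCoeff (w k t) + constantCoeff (w t k) := by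
  classical
  simp only [hs, Matrix.of_apply, map_sum, Derivation.leibniz, smul_eq_mul, pderiv_X,
    Pi.single_apply, map_add,
    map_mul, constantCoeff_X, zero_mul, mul_zero, zero_add, add_zero, apply_ite constantCoeff,
    apply_ite (pderiv F t), Derivation.map_one_eq_zero, map_one, map_zero, ite_self, mul_ite,
    mul_one, mul_add, Finset.sum_add_distrib, Finset.sum_ite_eq, Finset.sum_ite_eq',
    Finset.mem_univ, if_true, ite_mul, one_mul]
  simp [add_comm]

/-- a linear term -/
theorem blk_lin (f : MvPowerSeries σ F) (k : σ) (h : constantCoeff (pderiv F k f) ≠ 0) :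
    CA.BlkPt (fun _ : Unit => f) := by
  intro B _ _ _ _ _ φ _ _ _ hf K _ _ _
  left
  intro l hl i
  have := hl k
  rw [Fintype.sum_unique] at this
  have hu : IsUnit (pderiv F k f) := isUnit_iff_constantCoeff.2 (IsUnit.mk0 _ h)
  exact (mul_eq_zero.1 this).resolve_right ((hu.map φ).map (algebraMap B K)).ne_zero

/-- a Hessian of rank three or more -/
theorem blk_hs [Finite F] [DecidableEq σ] (f : MvPowerSeries σ F)
    (h : Module.finrank F (LinearMap.ker (hs f).mulVecLin) + 3 ≤ Fintype.card σ) :
    CA.BlkPt (fun _ : Unit => f) := by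
  classical
  intro B _ _ _ _ _ φ _ _ hm hf K _ _ _
  by_cases h1 : ∀ k, φ (pderiv F k f) = 0
  swap
  · left
    obtain ⟨k, hk⟩ := not_forall.1 h1
    intro l hl i
    have := hl k
    rw [Fintype.sum_unique] at this
    exact (mul_eq_zero.1 this).resolve_right
      ((map_ne_zero_iff _ (IsFractionRing.injective B K)).2 hk)
  right
  set m := Module.finrank F (LinearMap.ker (hs f).mulVecLin)
  obtain ⟨A, hA⟩ := LinearMap.exists_extend
    (Module.finBasis F (LinearMap.ker (hs f).mulVecLin)).equivFun.toLinearMap
  have hi : LinearMap.ker ((hs f).mulVecLin.prod A) = ⊥ := by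
    rw [LinearMap.ker_eq_bot']
    intro y hy
    have a1 : y ∈ LinearMap.ker (hs f).mulVecLin := congrArg Prod.fst hy
    have a2 : A y = 0 := congrArg Prod.snd hy
    have a3 := LinearMap.congr_fun hA ⟨y, a1⟩
    rw [LinearMap.comp_apply, Submodule.subtype_apply, a2] at a3
    exact congrArg Subtype.val ((LinearEquiv.map_eq_zero_iff _).1 a3.symm)
  obtain ⟨L, hL⟩ := LinearMap.exists_leftInverse_of_injective _ hi
  let L1 : Matrix σ σ F := LinearMap.toMatrix' (L.comp (LinearMap.inl F _ _))
  let L2 : Matrix σ (Fin m) F := LinearMap.toMatrix' (L.comp (LinearMap.inr F _ _))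
  let A' : Matrix (Fin m) σ F := LinearMap.toMatrix' A
  have hM : L1 * hs f + L2 * A' = 1 := by
    apply Matrix.toLin'.injective
    rw [map_add, Matrix.toLin'_mul, Matrix.toLin'_mul, Matrix.toLin'_one, Matrix.toLin'_toMatrix',
      Matrix.toLin'_toMatrix', Matrix.toLin'_toMatrix', ← hL]
    ext y : 1
    ext1
    simp only [LinearMap.add_apply, LinearMap.comp_apply, ← map_add]
    congr 1
    simp
  let ψ := (algebraMap B K).comp φ
  let c : F →+* B := φ.comp C
  refine ⟨Finset.univ.image fun i => ψ (∑ t, C (A' i t) * X t), ?_, fun D hD => ?_⟩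
  · have := Finset.card_image_le (s := Finset.univ) (f := fun i => ψ (∑ t, C (A' i t) * X t))
    rw [Finset.card_univ, Fintype.card_fin] at this
    rw [Fintype.card_unit]
    omega
  let H : Matrix σ σ B := Matrix.of fun k t => φ (pderiv F t (pderiv F k f))
  let y : σ → K := fun t => D (ψ (X t))
  have a1 : (H.map (algebraMap B K)).mulVec y = 0 := funext fun k => by
    have := chain ψ D (pderiv F k f)
    rw [show ψ (pderiv F k f) = 0 by simp [ψ, h1], map_zero] at this
    exact this.symm
  have a2 : ((A'.map c).map (algebraMap B K)).mulVec y = 0 := funext fun i => by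
    have := chain ψ D (∑ t, C (A' i t) * X t)
    rw [hD _ (Finset.mem_image_of_mem _ (Finset.mem_univ i))] at this
    refine Eq.trans (Finset.sum_congr rfl fun t _ => ?_) this.symm
    congr 1
    simp [ψ, c, Derivation.leibniz, pderiv_X, Pi.single_apply]
  have a3 : IsUnit (L1.map c * H + L2.map c * A'.map c).det := by
    rw [← isUnit_map_iff (residue B), RingHom.map_det]
    have e : (residue B).mapMatrix (L1.map c * H + L2.map c * A'.map c) =
        ((residue B).comp c).mapMatrix (L1 * hs f + L2 * A') := by
      have e1 : H.map (residue B) = (hs f).map ((residue B).comp c) := by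
        ext k t
        exact Ideal.Quotient.eq.2 (map_sub φ _ _ ▸ hm _ (sub_cc_mem _))
      simp only [RingHom.mapMatrix_apply, Matrix.map_add _ (map_add _), Matrix.map_mul, e1,
        Matrix.map_map]
      rfl
    rw [e, hM, map_one, Matrix.det_one]
    exact isUnit_one
  have a4 : ((L1.map c * H + L2.map c * A'.map c).map (algebraMap B K)).mulVec y = 0 := by
    rw [Matrix.map_add _ (map_add _), Matrix.map_mul, Matrix.map_mul, Matrix.add_mulVec,
      ← Matrix.mulVec_mulVec, ← Matrix.mulVec_mulVec, a1, a2, Matrix.mulVec_zero,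
      Matrix.mulVec_zero, add_zero]
  have a5 := Matrix.eq_zero_of_mulVec_eq_zero (by
    have := a3.map (algebraMap B K)
    rw [RingHom.map_det] at this
    exact this.ne_zero) a4
  exact fun t => congrFun a5 t

end Vale.Agent.P022K.RT.L5
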