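import Vale.Agent.P022K.RT.Lp5A
import Vale.Agent.P022D.L2b.Gen

/-! P022K, block RT, row LP5: the shell (seven coordinates, one equation). -/

set_option linter.all false

noncomputable section

namespace Vale.Agent.P022K.RT.L5

open IsLocalRing MvPowerSeries
open Vale.Agent.P022D
open Vale.Agent.P022D.L2b (M2 Z1 Tn Lift co Out Fam pd decomp mem_max_iff exists_ev lift_of ker_eq
  fam_ne gen)

/-- the ring `F ⊕ V ⊕ F w` with `u v = (β u v + β v u) w` -/
structure T3 {F V : Type} [Field F] [AddCommGroup V] [Module F V] (β : V →ₗ[F] V →ₗ[F] F) where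
  a : F
  b : V
  w : F

namespace T3

variable {F V : Type} [Field F] [AddCommGroup V] [Module F V] {β : V →ₗ[F] V →ₗ[F] F}

theorem ext' {x y : T3 β} (ha : x.a = y.a) (hb : x.b = y.b) (hw : x.w = y.w) : x = y := by
  cases x; cases y; simp only at ha hb hw; rw [ha, hb, hw]

instance : Zero (T3 β) := ⟨⟨0, 0, 0⟩⟩
instance : One (T3 β) := ⟨⟨1, 0, 0⟩⟩
instance : Add (T3 β) := ⟨fun x y => ⟨x.a + y.a, x.b + y.b, x.w + y.w⟩⟩
instance : Neg (T3 β) := ⟨fun x => ⟨-x.a, -x.b, -x.w⟩⟩
instance : Mul (T3 β) := ⟨fun x y => ⟨x.a * y.a, x.a • y.b + y.a • x.b,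
  x.a * y.w + x.w * y.a + (β x.b y.b + β y.b x.b)⟩⟩

theorem z0 : (0 : T3 β).a = 0 ∧ (0 : T3 β).b = 0 ∧ (0 : T3 β).w = 0 := ⟨rfl, rfl, rfl⟩
theorem o1 : (1 : T3 β).a = 1 ∧ (1 : T3 β).b = 0 ∧ (1 : T3 β).w = 0 := ⟨rfl, rfl, rfl⟩
theorem ad (x y : T3 β) : (x + y).a = x.a + y.a ∧ (x + y).b = x.b + y.b ∧
    (x + y).w = x.w + y.w := ⟨rfl, rfl, rfl⟩
theorem ng (x : T3 β) : (-x).a = -x.a ∧ (-x).b = -x.b ∧ (-x).w = -x.w := ⟨rfl, rfl, rfl⟩
theorem ml (x y : T3 β) : (x * y).a = x.a * y.a ∧ (x * y).b = x.a • y.b + y.a • x.b ∧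
    (x * y).w = x.a * y.w + x.w * y.a + (β x.b y.b + β y.b x.b) := ⟨rfl, rfl, rfl⟩

instance : CommRing (T3 β) := CommRing.ofMinimalAxioms
  (fun _ _ _ => by apply ext' <;> simp only [ad] <;> abel)
  (fun _ => by apply ext' <;> simp only [ad, z0, zero_add])
  (fun _ => by apply ext' <;> simp only [ad, ng, z0, neg_add_cancel])
  (fun _ _ _ => by
    apply ext' <;> simp only [ml, map_add, map_smul, LinearMap.add_apply, LinearMap.smul_apply,
      smul_eq_mul]
    · ring
    · module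
    · ring)
  (fun _ _ => by
    apply ext' <;> simp only [ml]
    · ring
    · abel
    · ring)
  (fun _ => by apply ext' <;> simp [ml, o1])
  (fun _ _ _ => by
    apply ext' <;> simp only [ml, ad, map_add, LinearMap.add_apply]
    · ring
    · module
    · ring)

theorem sb (x y : T3 β) : (x - y).a = x.a - y.a ∧ (x - y).b = x.b - y.b ∧
    (x - y).w = x.w - y.w := by
  simp only [sub_eq_add_neg, ad, ng, and_self]

/-- constants -/
def io (β : V →ₗ[F] V →ₗ[F] F) : F →+* T3 β where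
  toFun x := ⟨x, 0, 0⟩
  map_one' := rfl
  map_zero' := rfl
  map_mul' x y := by apply ext' <;> simp [ml]
  map_add' x y := by apply ext' <;> simp [ad]

/-- the residue -/
def pa (β : V →ₗ[F] V →ₗ[F] F) : T3 β →+* F where
  toFun x := x.a
  map_one' := rfl
  map_zero' := rfl
  map_mul' _ _ := rfl
  map_add' _ _ := rfl

instance {O : Type} [CommRing O] [Algebra O F] : Algebra O (T3 β) :=
  ((io β).comp (algebraMap O F)).toAlgebra

theorem am {O : Type} [CommRing O] [Algebra O F] (o : O) :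
    (algebraMap O (T3 β) o).a = algebraMap O F o ∧ (algebraMap O (T3 β) o).b = 0 ∧
    (algebraMap O (T3 β) o).w = 0 := ⟨rfl, rfl, rfl⟩

instance [Finite F] [Finite V] : Finite (T3 β) :=
  Finite.of_injective (fun x : T3 β => (x.a, x.b, x.w)) fun x y h => by
    simp only [Prod.mk.injEq] at h
    exact ext' h.1 h.2.1 h.2.2

theorem nil_iff {x : T3 β} : IsNilpotent x ↔ x.a = 0 := by
  refine ⟨fun h => (h.map (pa β)).eq_zero, fun h => ⟨3, ?_⟩⟩
  rw [pow_succ, pow_two]
  apply ext' <;> simp [ml, z0, h]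

theorem sum_z {ι : Type} (S : Finset ι) (x : ι → T3 β) :
    (∑ i ∈ S, x i).a = ∑ i ∈ S, (x i).a ∧ (∑ i ∈ S, x i).b = ∑ i ∈ S, (x i).b ∧
    (∑ i ∈ S, x i).w = ∑ i ∈ S, (x i).w := by
  classical
  induction S using Finset.induction_on with
  | empty => exact z0
  | insert i S hi ih => simp only [Finset.sum_insert hi, ad, ih, and_self]

variable {σ : Type} [Fintype σ]

theorem ev_a (φ : MvPowerSeries σ F →ₐ[F] T3 β) (hφ : ∀ i, (φ (X i)).a = 0)
    (h : MvPowerSeries σ F) : (φ h).a = constantCoeff h := by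
  obtain ⟨k, e⟩ := decomp h
  have : φ (C (constantCoeff h)) = algebraMap F (T3 β) (constantCoeff h) := φ.commutes _
  conv_lhs => rw [e]
  simp only [map_add, map_sum, map_mul, this, ad, am, sum_z, ml, hφ, zero_mul,
    Finset.sum_const_zero, add_zero, Algebra.algebraMap_self, RingHom.id_apply]

/-- a series without terms of degree zero and one -/
theorem ev_q (φ : MvPowerSeries σ F →ₐ[F] T3 β) (b : σ → V) (hφ : ∀ i, φ (X i) = ⟨0, b i, 0⟩)
    (f : MvPowerSeries σ F) (h0 : constantCoeff f = 0)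
    (h1 : ∀ k, constantCoeff (pderiv F k f) = 0)
    (h2 : ∑ k, ∑ l, hs f k l * β (b k) (b l) = 0) : φ f = 0 := by
  classical
  obtain ⟨h, eh⟩ := decomp f
  rw [h0, map_zero, zero_add] at eh
  have hh : ∀ k, constantCoeff (h k) = 0 := by
    intro k
    rw [← h1 k]
    simp only [eh, map_sum, Derivation.leibniz, smul_eq_mul, pderiv_X, Pi.single_apply, map_add,
      map_mul, constantCoeff_X, zero_mul, zero_add, apply_ite constantCoeff, map_one, map_zero,
      mul_ite, mul_one, mul_zero, Finset.sum_ite_eq, Finset.sum_ite_eq', Finset.mem_univ, if_true]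
  choose w hw using fun k => decomp (h k)
  have ef : f = ∑ i, ∑ j, X i * X j * w i j := by
    rw [eh]
    refine Finset.sum_congr rfl fun i _ => ?_
    rw [hw i, hh, map_zero, zero_add, Finset.mul_sum]
    exact Finset.sum_congr rfl fun j _ => (mul_assoc _ _ _).symm
  clear eh
  subst ef
  have ha := ev_a φ fun i => by rw [hφ]
  apply ext' <;> simp only [map_sum, map_mul, sum_z, ml, hφ, ha, zero_mul, mul_zero,
    add_zero, zero_add, Finset.sum_const_zero, z0, zero_smul, smul_zero, map_zero,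
    LinearMap.zero_apply]
  rw [← h2]
  simp only [hs_q, add_mul, Finset.sum_add_distrib]
  congr 1
  · exact Finset.sum_congr rfl fun i _ => Finset.sum_congr rfl fun j _ => mul_comm _ _
  · rw [Finset.sum_comm]
    exact Finset.sum_congr rfl fun i _ => Finset.sum_congr rfl fun j _ => mul_comm _ _

end T3

open T3

variable {G F O : Type} [Group G] [TopologicalSpace G] [Field F] [CommRing O] [IsLocalRing O]
  [Algebra O F] {r : G →* M2 F} {s : F → O} {d : G → O} {g : Fin 7 → G} {p q : Fin 7 → Fin 2}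
  {ι : Type} [Fintype ι] [DecidableEq ι] {μ : Matrix ι ι F}

theorem ana (hs : ∀ x, algebraMap O F (s x) = x) {ρ : G →* M2 (T3 (Matrix.toBilin' μ))}
    (h : Lift r s d ρ) : (∀ i, Z1 r (fun x => (ρ x).map fun y => y.b i)) ∧
      IsLocallyConstant (fun x => (ρ x).map T3.w) ∧ ∀ x y, (ρ (x * y)).map T3.w =
        (ρ x).map T3.w * r y + r x * (ρ y).map T3.w + ∑ i, ∑ j, μ i j •
          (((ρ x).map fun y => y.b i) * ((ρ y).map fun y => y.b j) +
            ((ρ x).map fun y => y.b j) * ((ρ y).map fun y => y.b i)) := by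
  have ha : ∀ x i j, (ρ x i j).a = r x i j := fun x i j => by
    have := nil_iff.1 (h.red x i j)
    simp only [sb, am, hs] at this
    exact sub_eq_zero.1 this
  have hd : ∀ x, ρ x 0 0 * ρ x 1 1 - ρ x 0 1 * ρ x 1 0 = algebraMap O _ (d x) := fun x => by
    rw [← h.det, Matrix.det_fin_two]
  refine ⟨fun k => ⟨h.lc.comp fun X : M2 (T3 (Matrix.toBilin' μ)) => X.map fun y => y.b k,
    fun x y => ?_, fun x => ?_⟩, h.lc.comp fun X : M2 (T3 (Matrix.toBilin' μ)) => X.map T3.w,
    fun x y => ?_⟩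
  · ext i j
    simp only [map_mul, Matrix.map_apply, Matrix.add_apply, Matrix.mul_apply, Fin.sum_univ_two, ad,
      ml, ha, Pi.add_apply, Pi.smul_apply, smul_eq_mul]
    ring
  · have := congrFun (congrArg T3.b (hd x)) k
    simp only [sb, ml, am, ha, Pi.add_apply, Pi.sub_apply, Pi.smul_apply, smul_eq_mul,
      Pi.zero_apply] at this
    simp only [pd, Matrix.map_apply]
    linear_combination this
  · ext i j
    simp only [map_mul, Matrix.map_apply, Matrix.add_apply, Matrix.mul_apply, Fin.sum_univ_two, ad,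
      ml, ha, Matrix.smul_apply, smul_eq_mul, Matrix.sum_apply, Matrix.toBilin'_apply, mul_add,
      Finset.sum_add_distrib]
    have e : ∀ u v : ι → F, ∑ i, ∑ j, u i * μ i j * v j = ∑ i, ∑ j, μ i j * (u i * v j) ∧
        ∑ i, ∑ j, u i * μ i j * v j = ∑ i, ∑ j, μ i j * (v j * u i) := fun u v =>
      ⟨Finset.sum_congr rfl fun i _ => Finset.sum_congr rfl fun j _ => by ring,
        Finset.sum_congr rfl fun i _ => Finset.sum_congr rfl fun j _ => by ring⟩
    rw [(e (ρ x i 0).b _).1, (e (ρ x i 1).b _).1, (e (ρ y 0 j).b _).2, (e (ρ y 1 j).b _).2]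
    ring

theorem z1_eq (hT : Tn r g p q) {t t' : G → M2 F} (ht : Z1 r t) (ht' : Z1 r t')
    (h : ∀ i, t (g i) (p i) (q i) = t' (g i) (p i) (q i)) : t = t' :=
  funext fun x => sub_eq_zero.1 (hT (fun x => t x - t' x)
    ⟨ht.lc.comp₂ ht'.lc fun X Y => X - Y, fun x y => by rw [ht.mul, ht'.mul]; noncomm_ring,
      fun x => by
        have e1 := ht.det x
        have e2 := ht'.det x
        simp only [pd, Matrix.sub_apply] at e1 e2 ⊢
        linear_combination e1 - e2⟩ (fun i => sub_eq_zero.2 (h i)) x)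

/-- the reduction -/
abbrev rd (F : Type) [Field F] [Algebra O F] : MvPowerSeries (Fin 7) O →+* MvPowerSeries (Fin 7) F :=
  MvPowerSeries.map (algebraMap O F)

variable [Finite F] [IsNoetherianRing O] [IsAdicComplete (maximalIdeal O) O]

/-- if the equations vanish to second order, there is a lift -/
theorem obs (hr : IsLocallyConstant r) (hs' : ∀ x, algebraMap O F (s x) = x)
    (hd : ∀ x, algebraMap O F (d x) = (r x).det) (hT : Tn r g p q) (b : Fin 7 → ι → F)
    (h1 : ∀ f ∈ sInf (Fam r s d g p q), ∀ k, constantCoeff (pderiv F k (rd F f)) = 0)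
    (h2 : ∀ f ∈ sInf (Fam r s d g p q),
      ∑ k, ∑ l, hs (rd F f) k l * Matrix.toBilin' μ (b k) (b l) = 0) :
    ∃ (t : ι → G → M2 F) (z : G → M2 F), (∀ i, Z1 r (t i)) ∧
      (∀ i k, t i (g k) (p k) (q k) = b k i) ∧ IsLocallyConstant z ∧
      ∀ x y, z (x * y) = z x * r y + r x * z y + ∑ i, ∑ j, μ i j •
        (t i x * t j y + t j x * t i y) := by
  obtain ⟨φ, hφ⟩ := exists_ev (O := F)
    (fun i => (⟨0, b i, 0⟩ : T3 (Matrix.toBilin' μ))) fun i => nil_iff.2 rfl
  let φ' : MvPowerSeries (Fin 7) O →ₐ[O] T3 (Matrix.toBilin' μ) :=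
    { φ.toRingHom.comp (rd F) with
      commutes' := fun o => by
        show φ (MvPowerSeries.map (algebraMap O F) (C o)) = _
        rw [map_C]
        exact φ.commutes _ }
  have hφ' : ∀ i, φ' (X i) = ⟨0, b i, 0⟩ := fun i => by
    show φ (MvPowerSeries.map (algebraMap O F) (X i)) = _
    rw [map_X, hφ]
  obtain ⟨I0, hI0, hle⟩ := fam_ne (g := g) (p := p) (q := q) hr hs' hd
  obtain ⟨ρ, h, e⟩ := lift_of hr hs' hd hT (fun a ha => nil_iff.2 (by
    rw [← ker_eq hs'] at ha
    exact ha)) φ' (fun i => nil_iff.2 (by rw [hφ'])) fun f hf => ev_q φ b hφ _ (by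
      have := hle (sInf_le hI0 hf)
      rw [mem_max_iff, ← ker_eq hs'] at this
      rw [constantCoeff_map]
      exact this) (h1 f hf) (h2 f hf)
  obtain ⟨a1, a2, a3⟩ := ana hs' h
  refine ⟨_, _, a1, fun i k => ?_, a2, a3⟩
  have := congrFun (congrArg T3.b (e k)) i
  simp only [hφ', co, sb, am, sub_zero] at this
  exact this.symm

end Vale.Agent.P022K.RT.L5
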