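import Vale.Agent.P022K.RT.Lp5B

/-! P022K, block RT, row LP5: the shell, second part. -/

set_option linter.all false

noncomputable section

namespace Vale.Agent.P022K.RT.L5

open IsLocalRing MvPowerSeries Matrix
open Vale.Agent.P022D
open Vale.Agent.P022D.L2b (M2 Z1 Tn Lift co Out Fam pd decomp mem_max_iff fam_ne gen)

/-- an additive family of matrices without common kernel contains an invertible matrix -/
theorem ex_det {F : Type} [Field F] (W : Set (M2 F)) (hW : ∀ a ∈ W, ∀ b ∈ W, a + b ∈ W)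
    (hl : ∀ α : Fin 2 → F, α ≠ 0 → ∃ N ∈ W, α ᵥ* N ≠ 0)
    (hr : ∀ β : Fin 2 → F, β ≠ 0 → ∃ N ∈ W, N *ᵥ β ≠ 0) : ∃ N ∈ W, N.det ≠ 0 := by
  by_contra hc
  push Not at hc
  have hd : ∀ N ∈ W, N 0 0 * N 1 1 - N 0 1 * N 1 0 = 0 := fun N hN => by
    rw [← det_fin_two, hc N hN]
  have hp : ∀ a ∈ W, ∀ b ∈ W,
      a 0 0 * b 1 1 + a 1 1 * b 0 0 - a 0 1 * b 1 0 - a 1 0 * b 0 1 = 0 := fun a ha b hb => by
    have e := hd _ (hW a ha b hb)
    simp only [Matrix.add_apply] at e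
    linear_combination e - hd a ha - hd b hb
  have hv : ∀ v : Fin 2 → F, v 0 = 0 → v 1 = 0 → v = 0 := fun v h0 h1 => by
    ext i; fin_cases i <;> assumption
  by_cases h0 : ∀ N ∈ W, N 0 0 = 0
  · obtain ⟨a, ha, ea⟩ := hl ![1, 0] fun e => one_ne_zero (congrFun e 0)
    obtain ⟨b, hb, eb⟩ := hr ![1, 0] fun e => one_ne_zero (congrFun e 0)
    have a1 : a 0 1 ≠ 0 := fun e => ea (hv _ (by simp [vecMul, dotProduct, h0 a ha])
      (by simp [vecMul, dotProduct, e]))
    have b1 : b 1 0 ≠ 0 := fun e => eb (hv _ (by simp [mulVec, dotProduct, h0 b hb])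
      (by simp [mulVec, dotProduct, e]))
    have a2 : a 1 0 = 0 := (mul_eq_zero.1 (by
      linear_combination -hd a ha + a 1 1 * h0 a ha : a 0 1 * a 1 0 = 0)).resolve_left a1
    exact mul_ne_zero a1 b1 (by
      linear_combination -hp a ha b hb + b 1 1 * h0 a ha + a 1 1 * h0 b hb - b 0 1 * a2)
  · push Not at h0
    obtain ⟨N, hN, hn⟩ := h0
    obtain ⟨a, ha, ea⟩ := hl ![N 1 0, -N 0 0] fun e => hn (neg_eq_zero.1 (congrFun e 1))
    obtain ⟨b, hb, eb⟩ := hr ![N 0 1, -N 0 0] fun e => hn (neg_eq_zero.1 (congrFun e 1))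
    have cn : ∀ {x : F}, N 0 0 * x = 0 → x = 0 := fun h => (mul_eq_zero.1 h).resolve_left hn
    have e0 := hd N hN
    have k1 : (N 1 0 * a 0 0 - N 0 0 * a 1 0) * N 0 1 = (N 1 0 * a 0 1 - N 0 0 * a 1 1) * N 0 0 := by
      linear_combination N 0 0 * hp N hN a ha - a 0 0 * e0
    have k2 : (b 0 0 * N 0 1 - b 0 1 * N 0 0) * N 1 0 = (b 1 0 * N 0 1 - b 1 1 * N 0 0) * N 0 0 := by
      linear_combination N 0 0 * hp N hN b hb - b 0 0 * e0
    have x1 : N 1 0 * a 0 0 - N 0 0 * a 1 0 ≠ 0 := fun e => ea (hv _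
      (by simp [vecMul, dotProduct]; linear_combination e) (by
        simp [vecMul, dotProduct]
        exact cn (by linear_combination N 0 1 * e - k1)))
    have x2 : b 0 0 * N 0 1 - b 0 1 * N 0 0 ≠ 0 := fun e => eb (hv _
      (by simp [mulVec, dotProduct]; linear_combination e) (by
        simp [mulVec, dotProduct]
        exact cn (by linear_combination N 1 0 * e - k2)))
    have y1 : a 0 1 * N 0 0 = a 0 0 * N 0 1 := mul_left_cancel₀ x1 (by
      linear_combination N 0 0 ^ 2 * hd a ha - a 0 0 * k1)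
    have y2 : b 1 0 * N 0 0 = b 0 0 * N 1 0 := mul_left_cancel₀ x2 (by
      linear_combination N 0 0 ^ 2 * hd b hb - b 0 0 * k2)
    have y3 : a 1 1 * N 0 0 = a 1 0 * N 0 1 :=
      mul_left_cancel₀ hn (by linear_combination k1 + N 1 0 * y1)
    have y4 : b 1 1 * N 0 0 = b 0 1 * N 1 0 :=
      mul_left_cancel₀ hn (by linear_combination k2 + N 0 1 * y2)
    refine mul_ne_zero x1 x2 (cn ?_)
    linear_combination (-N 0 0 ^ 3) * hp a ha b hb + N 0 0 ^ 2 * a 0 0 * y4 +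
      N 0 0 ^ 2 * b 0 0 * y3 - N 0 0 ^ 2 * a 0 1 * y2 - N 0 0 * b 0 0 * N 1 0 * y1

variable {G F O : Type} [Group G] [TopologicalSpace G] [Field F] [CommRing O] [IsLocalRing O]
  [Algebra O F] {r : G →* M2 F} {s : F → O} {d : G → O} {g : Fin 7 → G} {p q : Fin 7 → Fin 2}

/-- the symmetric cup product -/
def cp (t t' : G → M2 F) : G → G → M2 F := fun x y => t x * t' y + t' x * t y

/-- coboundaries -/
def Bd (r : G →* M2 F) (f : G → G → M2 F) : Prop :=
  ∃ z : G → M2 F, IsLocallyConstant z ∧ ∀ x y, z (x * y) = z x * r y + r x * z y + f x y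

/-- a linear form of the obstruction has rank four -/
def ND (r : G →* M2 F) : Prop :=
  ∃ (ψ : (G → G → M2 F) →ₗ[F] F) (t t' : Fin 2 → G → M2 F), (∀ f, Bd r f → ψ f = 0) ∧
    (∀ i, Z1 r (t i)) ∧ (∀ i, Z1 r (t' i)) ∧ (∀ i j, ψ (cp (t i) (t j)) = 0) ∧
    (Matrix.of fun i j => ψ (cp (t i) (t' j))).det ≠ 0

theorem cp_comm (t t' : G → M2 F) : cp t t' = cp t' t := by
  funext x y; exact add_comm _ _

theorem cp_sum {ι : Type} [Fintype ι] (T : ι → G → M2 F) (u v : ι → F) :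
    cp (∑ k, u k • T k) (∑ k, v k • T k) = ∑ k, ∑ l, (u k * v l) • cp (T k) (T l) := by
  funext x y
  simp only [cp, Finset.sum_apply, Pi.smul_apply, Finset.sum_mul, Finset.mul_sum, smul_add,
    Finset.sum_add_distrib, smul_mul_smul_comm]
  congr 1
  · exact Finset.sum_comm
  · exact Finset.sum_congr rfl fun k _ => Finset.sum_congr rfl fun l _ => by rw [mul_comm (v l)]

theorem z1_sum {ι : Type} [Fintype ι] {T : ι → G → M2 F} (hT : ∀ k, Z1 r (T k)) (u : ι → F) :
    Z1 r (∑ k, u k • T k) := by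
  classical
  refine Finset.sum_induction _ (Z1 r) (fun a b ha hb => ⟨ha.lc.comp₂ hb.lc (· + ·), fun x y => by
    simp only [Pi.add_apply, ha.mul, hb.mul, add_mul, mul_add]; abel, fun x => by
    have h1 := ha.det x
    have h2 := hb.det x
    simp only [pd, Pi.add_apply, Matrix.add_apply] at h1 h2 ⊢
    linear_combination h1 + h2⟩)
    ⟨IsLocallyConstant.const 0, fun x y => by simp, fun x => by simp [pd]⟩ fun k _ =>
    ⟨(hT k).lc.comp (u k • ·), fun x y => by
      simp only [Pi.smul_apply, (hT k).mul, smul_add, smul_mul_assoc, mul_smul_comm], fun x => by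
      have h1 := (hT k).det x
      simp only [pd, Pi.smul_apply, Matrix.smul_apply, smul_eq_mul] at h1 ⊢
      linear_combination u k * h1⟩

variable [Finite F] [IsNoetherianRing O] [IsAdicComplete (maximalIdeal O) O]

/-- every linear form of the obstruction is the Hessian of an equation -/
theorem hess (hr : IsLocallyConstant r) (hs' : ∀ x, algebraMap O F (s x) = x)
    (hd : ∀ x, algebraMap O F (d x) = (r x).det) (hT : Tn r g p q)
    (h1 : ∀ f ∈ sInf (Fam r s d g p q), ∀ k, constantCoeff (pderiv F k (rd F f)) = 0)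
    (ψ : (G → G → M2 F) →ₗ[F] F) (hψ : ∀ f, Bd r f → ψ f = 0) :
    ∃ f ∈ sInf (Fam r s d g p q), ∀ t t', Z1 r t → Z1 r t' →
      (fun k => t (g k) (p k) (q k)) ⬝ᵥ hs (rd F f) *ᵥ (fun k => t' (g k) (p k) (q k)) =
        ψ (cp t t') := by
  classical
  obtain ⟨T, -, k1, k2, -⟩ := obs (μ := 0) hr hs' hd hT (fun k : Fin 7 => Pi.single k (1 : F)) h1
    fun f _ => by simp
  let Q : Submodule F (Matrix (Fin 7) (Fin 7) F) :=
    { carrier := {h | ∃ f ∈ sInf (Fam r s d g p q), hs (rd F f) = h}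
      add_mem' := by
        rintro _ _ ⟨a, ha, rfl⟩ ⟨b, hb, rfl⟩
        exact ⟨a + b, Ideal.add_mem _ ha hb, by rw [map_add, hs_add]⟩
      zero_mem' := ⟨0, Ideal.zero_mem _, by ext k l; simp [hs]⟩
      smul_mem' := by
        rintro a _ ⟨b, hb, rfl⟩
        exact ⟨C (s a) * b, Ideal.mul_mem_left _ _ hb, by rw [map_mul, map_C, hs', hs_smul]⟩ }
  have hM : (Matrix.of fun k l => ψ (cp (T k) (T l))) ∈ Q := by
    by_contra hM
    obtain ⟨Φ, hΦ, hQ⟩ := Q.exists_dual_map_eq_bot_of_notMem hM inferInstance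
    have e : ∀ h : Matrix (Fin 7) (Fin 7) F, Φ h = ∑ k, ∑ l, h k l * Φ (single k l 1) := fun h => by
      conv_lhs => rw [matrix_eq_sum_single h]
      simp only [map_sum]
      refine Finset.sum_congr rfl fun k _ => Finset.sum_congr rfl fun l _ => ?_
      rw [← smul_eq_mul, ← map_smul, smul_single, smul_eq_mul, mul_one]
    obtain ⟨t, z, m1, m2, m3, m4⟩ := obs (μ := Matrix.of fun k l => Φ (single k l 1)) hr hs' hd hT
      (fun k : Fin 7 => Pi.single k (1 : F)) h1 fun f hf => by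
        have : Φ (hs (rd F f)) = 0 := by
          rw [← Submodule.mem_bot F, ← hQ]
          exact Submodule.mem_map_of_mem ⟨f, hf, rfl⟩
        rw [e] at this
        simpa only [Matrix.toBilin'_single, Matrix.of_apply] using this
    have ht : t = T := funext fun i => z1_eq hT (m1 i) (k1 i) fun k => by rw [m2, k2]
    subst ht
    refine hΦ ?_
    rw [e, ← hψ (∑ k, ∑ l, Φ (single k l 1) • cp (t k) (t l)) ⟨z, m3, fun x y => by
      rw [m4]
      simp only [Finset.sum_apply, Pi.smul_apply, cp, Matrix.of_apply]⟩]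
    simp only [map_sum, map_smul, Matrix.of_apply, smul_eq_mul, mul_comm]
  obtain ⟨f, hf, e⟩ := hM
  refine ⟨f, hf, fun t t' ht ht' => ?_⟩
  have hs : ∀ {t}, Z1 r t → t = ∑ k, t (g k) (p k) (q k) • T k := fun {t} ht =>
    z1_eq hT ht (z1_sum k1 _) fun i => by
      simp [Finset.sum_apply, Matrix.sum_apply, k2, Pi.single_apply]
  conv_rhs => rw [hs ht, hs ht', cp_sum]
  simp only [e, map_sum, map_smul, smul_eq_mul, dotProduct, mulVec, Matrix.of_apply, Finset.mul_sum]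
  exact Finset.sum_congr rfl fun k _ => Finset.sum_congr rfl fun l _ => by ring

/-- **the shell** -/
theorem shell (hr : IsLocallyConstant r) (hs' : ∀ x, algebraMap O F (s x) = x)
    (hd : ∀ x, algebraMap O F (d x) = (r x).det) (hT : Tn r g p q) (hN : ND r) : Out r s d := by
  classical
  obtain ⟨I0, hI0, hle⟩ := fam_ne (g := g) (p := p) (q := q) hr hs' hd
  suffices H : ∃ f ∈ sInf (Fam r s d g p q), CA.BlkPt (fun _ : Unit => rd F f) by
    obtain ⟨f, m, hf⟩ := H
    exact ⟨g, p, q, f, hle (sInf_le hI0 m), hf, hT, fun A _ _ _ ρ h =>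
      ⟨gen hr hs' hd hT h, fun φ hφ => (sInf_le (s := Fam r s d g p q)
        ⟨A, _, _, ‹_›, ρ, φ, h, hφ, rfl⟩ : _ ≤ RingHom.ker φ.toRingHom) m⟩⟩
  by_cases h1 : ∀ f ∈ sInf (Fam r s d g p q), ∀ k, constantCoeff (pderiv F k (rd F f)) = 0
  swap
  · push Not at h1
    obtain ⟨f, m, k, hk⟩ := h1
    exact ⟨f, m, blk_lin _ k hk⟩
  obtain ⟨ψ, t, t', n1, n2, n3, n4, n5⟩ := hN
  obtain ⟨f, m, hf⟩ := hess hr hs' hd hT h1 ψ n1
  refine ⟨f, m, blk_hs _ ?_⟩
  let U : Matrix (Fin 7) (Fin 2 ⊕ Fin 2) F := Matrix.of fun k i => Sum.elim t t' i (g k) (p k) (q k)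
  have hU : Uᵀ * (hs (rd F f) * U) = fromBlocks 0 (Matrix.of fun i j => ψ (cp (t i) (t' j)))
      (Matrix.of fun i j => ψ (cp (t i) (t' j)))ᵀ (Matrix.of fun i j => ψ (cp (t' i) (t' j))) := by
    ext (i | i) (j | j)
    · exact (hf _ _ (n2 i) (n2 j)).trans (n4 i j)
    · exact hf _ _ (n2 i) (n3 j)
    · exact (hf _ _ (n3 i) (n2 j)).trans (congrArg ψ (cp_comm _ _))
    · exact hf _ _ (n3 i) (n3 j)
  have hu : IsUnit (Uᵀ * (hs (rd F f) * U)) := by
    rw [hU]
    generalize (Matrix.of fun i j => ψ (cp (t i) (t' j))) = N at n5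
    generalize (Matrix.of fun i j => ψ (cp (t' i) (t' j))) = M
    have u1 := Matrix.mul_nonsing_inv N (IsUnit.mk0 _ n5)
    have u2 := Matrix.mul_nonsing_inv Nᵀ (IsUnit.mk0 _ (by rwa [det_transpose]))
    refine IsUnit.of_mul_eq_one (fromBlocks (-(Nᵀ⁻¹ * (M * N⁻¹))) Nᵀ⁻¹ N⁻¹ 0) ?_
    rw [fromBlocks_multiply, ← fromBlocks_one]
    simp only [Matrix.zero_mul, Matrix.mul_zero, zero_add, add_zero, u1, u2, Matrix.mul_neg,
      ← Matrix.mul_assoc Nᵀ, Matrix.one_mul, neg_add_cancel, neg_zero]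
  have h4 := Matrix.rank_of_isUnit _ hu
  have h5 := (Matrix.rank_mul_le_right Uᵀ (hs (rd F f) * U)).trans
    (Matrix.rank_mul_le_left (hs (rd F f)) U)
  have h6 := LinearMap.finrank_range_add_finrank_ker (hs (rd F f)).mulVecLin
  rw [h4] at h5
  simp only [Matrix.rank, Fintype.card_sum, Fintype.card_fin, Module.finrank_fintype_fun_eq_card]
    at h5 h6 ⊢
  omega

end Vale.Agent.P022K.RT.L5
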