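import Vale.Agent.P022K.RT.Tr

/-! P022K, block RT, row LP5: the arithmetic of the local Galois group. Definitions and rows. -/

set_option linter.all false

noncomputable section

namespace Vale.Agent.P022K.RT.L5

open Module
open Vale.Agent.P022K.GW (Ac AF mu tor tw up h0)
open Vale.Agent.P022K.RT.Tr (Gp)

/-- the algebraic closure of `ℚ_p` -/
abbrev Om (p : ℕ) [Fact p.Prime] : Type := PadicAlgCl p

/-- `ω` is the cyclotomic character -/
def Cyc (p : ℕ) [Fact p.Prime] (ω : Gp p →* (ZMod p)ˣ) : Prop :=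
  ∀ σ (x : Om p), x ^ p = 1 → σ x = x ^ (ω σ : ZMod p).val

/-- locally constant cocycles -/
def ZR {G F V : Type} [Group G] [TopologicalSpace G] [Field F] [AddCommGroup V] [Module F V]
    (ν : Representation F G V) : Submodule F (G → V) where
  carrier := {c | IsLocallyConstant c ∧ ∀ x y, c (x * y) = c x + ν x (c y)}
  add_mem' {a b} ha hb := ⟨ha.1.add hb.1, fun x y => by
    simp only [Pi.add_apply, ha.2, hb.2, map_add]; abel⟩
  zero_mem' := ⟨IsLocallyConstant.const 0, fun _ _ => by simp⟩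
  smul_mem' r a ha := ⟨ha.1.comp (r • ·), fun x y => by
    simp only [Pi.smul_apply, ha.2, map_smul, smul_add]⟩

/-- the element of the field -/
def el {p : ℕ} [Fact p.Prime] (x : Additive (Om p)ˣ) : Om p := (Additive.toMul x : (Om p)ˣ)

theorem el_inj {p : ℕ} [Fact p.Prime] {x y : Additive (Om p)ˣ} (h : el x = el y) : x = y :=
  Additive.toMul.injective (Units.ext h)

/-- the action on the multiplicative group -/
def aM (p : ℕ) [Fact p.Prime] : Ac (Gp p) (Additive (Om p)ˣ) where
  toFun g := MonoidHom.toAdditive (Units.map (g.toRingEquiv : Om p →* Om p))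
  map_one' := AddMonoidHom.ext fun _ => el_inj rfl
  map_mul' _ _ := AddMonoidHom.ext fun _ => el_inj rfl

theorem el_aM {p : ℕ} [Fact p.Prime] (g : Gp p) (x : Additive (Om p)ˣ) :
    el (aM p g x) = g (el x) := rfl

/-- the multiplicative group of the fixed field -/
def Fix {p : ℕ} [Fact p.Prime] (U : Subgroup (Gp p)) : AddSubgroup (Additive (Om p)ˣ) where
  carrier := {x | ∀ u ∈ U, aM p u x = x}
  add_mem' ha hb u hu := by rw [map_add, ha u hu, hb u hu]
  zero_mem' u _ := map_zero _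
  neg_mem' ha u hu := by rw [map_neg, ha u hu]

/-- left translations -/
def lm (G : Type) [Group G] : G →* Equiv.Perm G := MulAction.toPermHom G G

theorem lm_apply {G : Type} [Group G] (g x : G) : lm G g x = g * x := rfl

/-- row LOC: the class of the multiplicative group modulo powers -/
def LOC : Prop := ∀ (p : ℕ) [Fact p.Prime] (U : Subgroup (Gp p)), p ≠ 2 → U.Normal →
  IsOpen (U : Set (Gp p)) → (mu p (Fix U)).relIndex (Fix U) ≠ 0 ∧ Finite (tor p (Fix U)) ∧
    ∀ Ψ : AF (Gp p), Ψ.Add p U → Ψ.sq (aM p) (Fix U) (mu p (Fix U)) =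
      Ψ.ch (1 : Gp p →* (ZMod p)ˣ) + Ψ.fu (lm (Gp p)) U (1 : Gp p →* (ZMod p)ˣ) +
        Ψ.sq (aM p) (tor p (Fix U)) ⊥

/-- row Z1P: the number of cocycles when the image has order prime to `p` -/
def Z1P : Prop := ∀ (p : ℕ) [Fact p.Prime] (ω : Gp p →* (ZMod p)ˣ) (F V : Type) [Field F]
  [Finite F] [CharP F p] [AddCommGroup V] [Module F V] [Module.Finite F V]
  (ν : Representation F (Gp p) V) (U : Subgroup (Gp p)), p ≠ 2 → Cyc p ω → U.Normal →
  IsOpen (U : Set (Gp p)) → (∀ u ∈ U, ν u = 1) → (∀ u ∈ U, ω u = 1) → (U.index : F) ≠ 0 →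
  Module.Finite F (ZR ν) ∧ finrank F (ZR ν) ≤ 2 * finrank F V + h0 (tw (up ω)⁻¹ ν)

/-- the cup product of the twisted cocycle `c` and the character `a` is a coboundary -/
def Cb {G F : Type} [Group G] [TopologicalSpace G] [Field F] (θ c a : G → F) : Prop :=
  ∃ z : G → F, IsLocallyConstant z ∧ ∀ x y, z (x * y) = z x + θ x * z y + c x * a y

/-- two characters and two twisted cocycles on which the cup product has no kernel -/
structure Cup {G F : Type} [Group G] [TopologicalSpace G] [Field F] (θ : G → F)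
    (a c : Fin 2 → G → F) : Prop where
  la : ∀ i, IsLocallyConstant (a i)
  ma : ∀ i x y, a i (x * y) = a i x + a i y
  lc : ∀ j, IsLocallyConstant (c j)
  mc : ∀ j x y, c j (x * y) = c j x + θ x * c j y
  left : ∀ α : Fin 2 → F, α ≠ 0 → ∃ β : Fin 2 → F,
    ¬ Cb θ (fun x => ∑ j, β j * c j x) fun x => ∑ i, α i * a i x
  right : ∀ β : Fin 2 → F, β ≠ 0 → ∃ α : Fin 2 → F,
    ¬ Cb θ (fun x => ∑ j, β j * c j x) fun x => ∑ i, α i * a i x

/-- row CUP: the cup product over the prime field -/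
def CUP : Prop := ∀ (p : ℕ) [Fact p.Prime] (ω : Gp p →* (ZMod p)ˣ), p ≠ 2 → Cyc p ω →
  ∃ a c : Fin 2 → Gp p → ZMod p, Cup (fun x => (ω x : ZMod p)) a c

/-- row OM: the cyclotomic character is onto and continuous -/
def OM : Prop := ∀ (p : ℕ) [Fact p.Prime] (ω : Gp p →* (ZMod p)ˣ), Cyc p ω →
  Function.Surjective ω ∧ IsOpen (ω.ker : Set (Gp p))

end Vale.Agent.P022K.RT.L5
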