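import Vale.Agent.P022K.RT.Z1b
import Vale.Agent.P022E.G5.Two

/-! P022K, block RT, row LP5: classification of the residual representations. -/

set_option linter.all false

noncomputable section

namespace Vale.Agent.P022K.RT.L5

open Matrix
open Vale.Agent.P022D.L2b (M2)
open Vale.Agent.P022E.G5 (Cj cjr cj_mul)
open Vale.Agent.P022K.RT.Zl (Wd r_inv inv_r)

variable {G F : Type} [Group G] [Field F]

theorem ch2 (X : M2 F) : X * X = X.trace • X - X.det • (1 : M2 F) := by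
  ext i j
  fin_cases i <;> fin_cases j <;>
    simp [Matrix.mul_apply, Fin.sum_univ_two, trace_fin_two, det_fin_two] <;> ring

theorem unip {p : ℕ} [Fact p.Prime] [CharP F p] {X : M2 F} {n : ℕ} (h : X ^ p ^ n = 1) :
    (X - 1) * (X - 1) = 0 ∧ X.trace = 2 := by
  have h1 : IsNilpotent (X - 1) :=
    ⟨p ^ n, by rw [sub_pow_char_pow_of_commute p n (Commute.one_right X), h, one_pow, sub_self]⟩
  have h2 : (X - 1).trace = 0 := (Matrix.isNilpotent_trace_of_isNilpotent h1).eq_zero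
  have h3 : (X - 1).det = 0 := by
    obtain ⟨k, hk⟩ := h1
    refine IsNilpotent.eq_zero ⟨k + 1, ?_⟩
    rw [← det_pow, pow_succ, hk, zero_mul, det_zero]
  refine ⟨by rw [ch2, h2, h3, zero_smul, zero_smul, sub_zero], ?_⟩
  rw [trace_sub, trace_one] at h2
  simpa [sub_eq_zero] using h2

theorem nil_frame {N : M2 F} (h0 : N ≠ 0) (h2 : N * N = 0) :
    ∃ P Q : M2 F, P * Q = 1 ∧ Q * N * P = !![0, 1; 0, 0] := by
  have e : ∀ i j, N i 0 * N 0 j + N i 1 * N 1 j = 0 := fun i j => by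
    simpa [Matrix.mul_apply, Fin.sum_univ_two] using congrFun (congrFun h2 i) j
  suffices H : ∃ P : M2 F, P.det ≠ 0 ∧ N * P = P * !![0, 1; 0, 0] by
    obtain ⟨P, h1, h3⟩ := H
    exact ⟨P, P⁻¹, mul_nonsing_inv P (IsUnit.mk0 _ h1), by
      rw [mul_assoc, h3, ← mul_assoc, nonsing_inv_mul P (IsUnit.mk0 _ h1), one_mul]⟩
  by_cases hc : N 1 0 = 0
  · have a0 : N 0 0 = 0 := mul_self_eq_zero.1 (by linear_combination e 0 0 - N 0 1 * hc)
    have a1 : N 1 1 = 0 := mul_self_eq_zero.1 (by linear_combination e 1 1 - N 0 1 * hc)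
    refine ⟨!![N 0 1, 0; 0, 1], ?_, ?_⟩
    · simp only [det_fin_two_of, mul_one, mul_zero, sub_zero]
      intro hb
      refine h0 ?_
      ext i j
      fin_cases i <;> fin_cases j <;> assumption
    · ext i j
      fin_cases i <;> fin_cases j <;> simp [Matrix.mul_apply, Fin.sum_univ_two, hc, a0, a1]
  · refine ⟨!![N 0 0, 1; N 1 0, 0], by simpa [det_fin_two_of] using hc, ?_⟩
    ext i j
    fin_cases i <;> fin_cases j <;> simp [Matrix.mul_apply, Fin.sum_univ_two, e]

/-- the elements that act by upper triangular matrices -/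
def Sb (r : G →* M2 F) : Subgroup G where
  carrier := {x | r x 1 0 = 0}
  one_mem' := by simp
  mul_mem' {x y} hx hy := by
    simp only [Set.mem_setOf_eq] at hx hy ⊢
    simp [Matrix.mul_apply, Fin.sum_univ_two, hx, hy]
  inv_mem' {x} hx := by
    simp only [Set.mem_setOf_eq] at hx ⊢
    have e0 := congrFun (congrFun (inv_r r x) 0) 0
    have e1 := congrFun (congrFun (inv_r r x) 1) 0
    simp [Matrix.mul_apply, Fin.sum_univ_two, hx] at e0 e1
    exact e1.resolve_right (right_ne_zero_of_mul_eq_one e0)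

variable [TopologicalSpace G] {r : G →* M2 F}

/-- triangular in some frame -/
def Tri (r : G →* M2 F) : Prop := ∃ P Q r', Cj P Q r r' ∧ ∀ x, r' x 1 0 = 0

theorem tri_of {N : M2 F} (h0 : N ≠ 0) (h2 : N * N = 0)
    (H : ∀ P Q r', Cj P Q r r' → Q * N * P = !![0, 1; 0, 0] → ∀ x, x ∈ Sb r') : Tri r := by
  obtain ⟨P, Q, h, e⟩ := nil_frame h0 h2
  exact ⟨P, Q, _, cjr r h, H P Q _ (cjr r h) e⟩

theorem mem_Sb {P Q N : M2 F} {r' : G →* M2 F} (h : Cj P Q r r') (e : Q * N * P = !![0, 1; 0, 0])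
    {x : G} {a : F} (hx : r x * N = a • (N * r x)) : x ∈ Sb r' := by
  have : r' x * !![0, 1; 0, 0] = a • (!![0, 1; 0, 0] * r' x) := by
    rw [← e, h.2, cj_mul h.1, cj_mul h.1, hx, Matrix.mul_smul, Matrix.smul_mul]
  have e1 := congrFun (congrFun this 1) 1
  simp only [Matrix.mul_apply, Fin.sum_univ_two, Matrix.smul_apply, smul_eq_mul, of_apply,
    cons_val', cons_val_zero, cons_val_one, cons_val_fin_one] at e1
  show r' x 1 0 = 0
  linear_combination e1

theorem cj_sub {P Q : M2 F} {r' : G →* M2 F} (h : Cj P Q r r') {x : G}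
    (e : Q * (r x - 1) * P = !![0, 1; 0, 0]) : r' x = !![1, 1; 0, 1] := by
  rw [Matrix.mul_sub, Matrix.sub_mul, ← h.2, mul_one, h.symm.1, sub_eq_iff_eq_add] at e
  rw [e]
  ext i j
  fin_cases i <;> fin_cases j <;> simp

variable {p : ℕ} [hp : Fact p.Prime] [CharP F p] {I W : Subgroup G} {τ φ : G}

theorem wild_un (T : Wd p I W τ φ) (hr : IsLocallyConstant r) {w : G} (hw : w ∈ W) :
    (r w - 1) * (r w - 1) = 0 ∧ (r w).trace = 2 := by
  obtain ⟨n, hn⟩ := T.wild r.toHomUnits.ker (by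
    convert hr {1} using 1
    ext g
    simp [Units.ext_iff]) w hw
  refine unip (p := p) (n := n) ?_
  rw [← map_pow]
  exact congrArg Units.val (MonoidHom.mem_ker.1 hn)

theorem gen_I (T : Wd p I W τ φ) (hr : IsLocallyConstant r) (hW : ∀ w ∈ W, r w = 1) {s : G}
    (hs : s ∈ I) : ∃ m : ℕ, r s = r τ ^ m := by
  obtain ⟨m, w, hw, u, hu, rfl⟩ := T.cyc r.toHomUnits.ker (by
    convert hr {1} using 1
    ext g
    simp [Units.ext_iff]) s hs
  exact ⟨m, by rw [map_mul, map_mul, map_pow, hW w hw,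
    show r u = 1 from congrArg Units.val (MonoidHom.mem_ker.1 hu), mul_one, mul_one]⟩

theorem gen_G (T : Wd p I W τ φ) (hr : IsLocallyConstant r) (hW : ∀ w ∈ W, r w = 1) (x : G) :
    ∃ k m : ℕ, r x = r φ ^ k * r τ ^ m := by
  obtain ⟨k, s, hs, u, hu, rfl⟩ := T.gen r.toHomUnits.ker (by
    convert hr {1} using 1
    ext g
    simp [Units.ext_iff]) x
  obtain ⟨m, hm⟩ := gen_I T hr hW hs
  exact ⟨k, m, by rw [map_mul, map_mul, map_pow, hm,
    show r u = 1 from congrArg Units.val (MonoidHom.mem_ker.1 hu), one_mul]⟩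

theorem gen_Sb (T : Wd p I W τ φ) (hr : IsLocallyConstant r) (hW : ∀ w ∈ W, r w = 1)
    {P Q : M2 F} {r' : G →* M2 F} (h : Cj P Q r r') (h1 : τ ∈ Sb r') (h2 : φ ∈ Sb r') (x : G) :
    x ∈ Sb r' := by
  obtain ⟨k, m, e⟩ := gen_G T hr hW x
  have : φ ^ k * τ ^ m ∈ Sb r' := mul_mem (pow_mem h2 k) (pow_mem h1 m)
  show r' x 1 0 = 0
  rw [h.2, e, ← map_pow, ← map_pow, ← map_mul, ← h.2]
  exact this

/-- **the classification** -/
theorem cls [Finite F] (hp2 : p ≠ 2) (T : Wd p I W τ φ) (hr : IsLocallyConstant r)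
    (hI : ∃ i ∈ I, (r i).det ≠ 1) : Tri r ∨ ((∀ x, ∃ n : ℕ, (n : F) ≠ 0 ∧ r x ^ n = 1) ∧
      ∀ N : M2 F, N.trace = 0 → (∀ x, r x * N = (r x).det • (N * r x)) → N = 0) := by
  have h2 : (2 : F) ≠ 0 := fun e => hp2 ((Nat.prime_dvd_prime_iff_eq hp.out Nat.prime_two).1
    ((CharP.cast_eq_zero_iff F p 2).1 (by exact_mod_cast e)))
  by_cases hW : ∀ w ∈ W, r w = 1
  swap
  · push Not at hW
    obtain ⟨w, hw, h1⟩ := hW
    refine Or.inl (tri_of (sub_ne_zero.2 h1) (wild_un T hr hw).1 fun P Q r' h e g => ?_)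
    have e1 := (wild_un T (h.lc hr) (W.mul_mem hw (T.nor.conj_mem w hw g))).2
    have e2 := congrArg trace (r_inv r' g)
    rw [map_mul, map_mul, map_mul, cj_sub h e] at e1
    simp only [trace_fin_two, Matrix.mul_apply, Fin.sum_univ_two, of_apply,
      cons_val', cons_val_zero, cons_val_one, cons_val_fin_one] at e1
    have e3 := congrFun (congrFun (r_inv r' g) 1) 0
    have e5 := congrFun (congrFun (inv_r r' g) 1) 0
    simp [trace_fin_two, Matrix.mul_apply, Fin.sum_univ_two] at e2 e3 e5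
    have : r' g 1 0 * r' g⁻¹ 1 0 = 0 := by
      linear_combination e1 - e2 - e3 - e5
    rcases mul_eq_zero.1 this with k | k
    · exact k
    · exact (Sb r').inv_mem_iff.1 k
  have rel : r φ * r τ = r τ ^ p * r φ := by
    have := hW _ T.rel
    rw [show φ * τ * φ⁻¹ * (τ ^ p)⁻¹ = φ * τ * (τ ^ p * φ)⁻¹ by group] at this
    rw [← map_mul, ← map_pow, ← map_mul, ← one_mul (r (τ ^ p * φ)), ← this, ← map_mul,
      inv_mul_cancel_right]
  have rel1 : ∀ k m : ℕ, ∃ j : ℕ, r φ ^ k * r τ ^ m = r τ ^ j * r φ ^ k := by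
    intro k
    induction k with
    | zero => exact fun m => ⟨m, by simp⟩
    | succ k ih =>
      intro m
      obtain ⟨j, hj⟩ := ih (p * m)
      refine ⟨j, ?_⟩
      rw [pow_succ, mul_assoc, (SemiconjBy.pow_right rel m).eq, ← pow_mul, ← mul_assoc, hj,
        mul_assoc]
  have ho : ∀ x, 0 < orderOf (r.toHomUnits x) := fun x => orderOf_pos _
  have ho1 : ∀ x n, r x ^ n = 1 ↔ orderOf (r.toHomUnits x) ∣ n := fun x n => by
    rw [orderOf_dvd_iff_pow_eq_one, Units.ext_iff, Units.val_pow_eq_pow_val]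
    rfl
  by_cases hφ : p ∣ orderOf (r.toHomUnits φ)
  · obtain ⟨m, hm⟩ := hφ
    have m0 : 0 < m := Nat.pos_of_mul_pos_left (hm ▸ ho φ)
    have u1 : r (φ ^ m) ≠ 1 := fun e => by
      rw [map_pow, ho1, hm] at e
      have := Nat.le_of_dvd m0 e
      nlinarith [hp.out.two_le]
    have u2 := (unip (p := p) (n := 1) (X := r (φ ^ m)) (by
      rw [map_pow, pow_one, ← pow_mul, ho1, hm, mul_comm])).1
    refine Or.inl (tri_of (sub_ne_zero.2 u1) u2 fun P Q r' h e => gen_Sb T hr hW h ?_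
      (mem_Sb h e (a := 1) (by
        rw [one_smul, mul_sub, sub_mul, ← map_mul, ← map_mul, mul_one, one_mul, pow_mul_comm'])))
    obtain ⟨j, hj⟩ := rel1 m 1
    have e1 : !![1, 1; 0, 1] * r' τ = r' (τ ^ j) * !![1, 1; 0, 1] := by
      rw [← cj_sub h e, h.2, h.2, h.2, cj_mul h.1, cj_mul h.1, map_pow, map_pow, ← hj, pow_one]
    have e2 : r' (τ ^ j) * r' τ = r' τ * r' (τ ^ j) := by
      rw [← map_mul, ← map_mul, pow_mul_comm']
    have a0 := congrFun (congrFun e1 0) 0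
    have a1 := congrFun (congrFun e1 1) 0
    have a2 := congrFun (congrFun e1 1) 1
    have a3 := congrFun (congrFun e2 1) 0
    generalize r' (τ ^ j) = D at a0 a1 a2 a3
    simp [Matrix.mul_apply, Fin.sum_univ_two] at a0 a1 a2 a3
    refine mul_self_eq_zero.1 ((mul_eq_zero.1 (?_ : 2 * (r' τ 1 0 * r' τ 1 0) = 0)).resolve_left h2)
    linear_combination -a3 - (r' τ 0 0 - r' τ 1 1 - r' τ 1 0) * a1 + r' τ 1 0 * a0 - r' τ 1 0 * a2
  have hτ : ¬ p ∣ orderOf (r.toHomUnits τ) := fun e => by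
    have e1 : SemiconjBy (r.toHomUnits φ) (r.toHomUnits τ) (r.toHomUnits τ ^ p) := Units.ext rel
    have e2 := SemiconjBy.orderOf_eq _ e1
    rw [orderOf_pow_of_dvd hp.out.ne_zero e] at e2
    exact (Nat.div_lt_self (ho τ) hp.out.one_lt).ne' e2
  by_cases hN : ∀ N : M2 F, N.trace = 0 → (∀ x, r x * N = (r x).det • (N * r x)) → N = 0
  · refine Or.inr ⟨fun x => ⟨orderOf (r.toHomUnits φ) * orderOf (r.toHomUnits τ), fun e => ?_, ?_⟩,
      hN⟩
    · exact (hp.out.dvd_mul.1 ((CharP.cast_eq_zero_iff F p _).1 e)).elim hφ hτ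
    · obtain ⟨k, m, e⟩ := gen_G T hr hW x
      have : ∀ n : ℕ, ∃ j : ℕ, r x ^ n = r τ ^ j * r φ ^ (k * n) := by
        intro n
        induction n with
        | zero => exact ⟨0, by simp⟩
        | succ n ih =>
          obtain ⟨j, hj⟩ := ih
          obtain ⟨i, hi⟩ := rel1 (k * n + k) m
          exact ⟨j + i, by
            rw [pow_succ, hj, e, mul_assoc, ← mul_assoc (r φ ^ (k * n)), ← pow_add, hi, ← mul_assoc,
              ← pow_add, mul_add, mul_one]⟩
      obtain ⟨j, hj⟩ := this (orderOf (r.toHomUnits φ))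
      rw [pow_mul, hj, (ho1 φ _).2 (dvd_mul_left _ _), mul_one, ← pow_mul, ho1]
      exact dvd_mul_left _ _
  left
  push Not at hN
  obtain ⟨N, n1, n2, n3⟩ := hN
  by_cases n4 : N.det = 0
  · exact tri_of n3 (by rw [ch2, n1, n4, zero_smul, zero_smul, sub_zero])
      fun P Q r' h e x => mem_Sb h e (n2 x)
  obtain ⟨i, hi, d1⟩ := hI
  obtain ⟨m, hm⟩ := gen_I T hr hW hi
  have d2 : (r τ).det ≠ 1 := fun e => d1 (by rw [hm, det_pow, e, one_pow])
  have d3 : (r τ).det = -1 := by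
    have e := congrArg det (n2 τ)
    rw [det_smul, det_mul, det_mul, Fintype.card_fin] at e
    have e1 : (r τ).det * N.det * (((r τ).det - 1) * ((r τ).det + 1)) = 0 := by
      linear_combination -e
    exact eq_neg_of_add_eq_zero_left ((mul_eq_zero.1 ((mul_eq_zero.1 e1).resolve_left
      (mul_ne_zero (Zl.det_unit r τ).ne_zero n4))).resolve_left (sub_ne_zero.2 d2))
  have a1 : r τ * N = -(N * r τ) := by rw [n2, d3, neg_one_smul]
  have nu := mul_nonsing_inv N (IsUnit.mk0 _ n4)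
  have a2 : (r τ).trace = 0 := by
    have e : r τ = -(N * r τ * N⁻¹) := by rw [← neg_mul, ← a1, mul_assoc, nu, mul_one]
    have e1 := congrArg trace e
    rw [trace_neg, trace_mul_comm, ← mul_assoc, mul_eq_one_comm.1 nu, one_mul] at e1
    exact (mul_eq_zero.1 (by linear_combination e1 : 2 * (r τ).trace = 0)).resolve_left h2
  have a3 : r τ * r τ = 1 := by rw [ch2, a2, d3]; simp
  have a4 : r φ * r τ = r τ * r φ := by
    obtain ⟨k, hk⟩ := hp.out.odd_of_ne_two hp2
    rw [rel, hk, pow_succ, pow_mul, pow_two, a3, one_pow, one_mul]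
  refine tri_of (N := (r τ + 1) * N) (fun e => ?_) ?_ fun P Q r' h e => gen_Sb T hr hW h
    (mem_Sb h e (a := -1) ?_) (mem_Sb h e (a := (r φ).det) ?_)
  · have e1 : r τ = -1 := by
      have := congrArg (· * N⁻¹) e
      simp only [mul_assoc, nu, mul_one, zero_mul] at this
      exact eq_neg_of_add_eq_zero_left this
    rw [e1] at d3
    simp [det_neg] at d3
    exact h2 (by linear_combination d3)
  · have e : N * r τ = -(r τ * N) := by rw [a1, neg_neg]
    calc (r τ + 1) * N * ((r τ + 1) * N) = (r τ + 1) * (N * r τ + N) * N := by noncomm_ring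
      _ = (1 - r τ * r τ) * (N * N) := by rw [e]; noncomm_ring
      _ = 0 := by rw [a3, sub_self, zero_mul]
  · rw [neg_one_smul, mul_assoc, ← mul_neg, ← a1]
    noncomm_ring
  · rw [← mul_assoc, mul_add, a4, mul_one, mul_assoc _ N, ← Matrix.mul_smul, ← n2]
    noncomm_ring

end Vale.Agent.P022K.RT.L5
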