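import Vale.Agent.P022K.RT.Lp5C
import Vale.Agent.P022K.RT.Lp5D
import Vale.Agent.P022K.RT.Lp5E

/-! P022K, block RT, row LP5: counting first order deformations of a triangular representation. -/

set_option linter.all false

noncomputable section

namespace Vale.Agent.P022K.RT.L5

open Matrix Module
open Vale.Agent.P022D.L2b (M2 Z1 pd)
open Vale.Agent.P022E.G5 (Cj cjr cj_mul cj_cj)
open Vale.Agent.P022K.RT.Zl (ZS r_inv inv_r)

section lin

variable {F V V' : Type} [Field F] [AddCommGroup V] [Module F V] [AddCommGroup V'] [Module F V']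

theorem rk (Z : Submodule F V) (f : V →ₗ[F] V') :
    Module.rank F Z = Module.rank F (Z.map f) + Module.rank F ↥(Z ⊓ LinearMap.ker f) := by
  have e : LinearMap.ker (f.domRestrict Z) = (Z ⊓ LinearMap.ker f).comap Z.subtype := by
    ext x; simp
  rw [← (f.domRestrict Z).rank_range_add_rank_ker, LinearMap.range_domRestrict, e,
    (Submodule.comapSubtypeEquivOfLe inf_le_left).rank_eq]

theorem rk_lt {A B : Submodule F V} (h : A ≤ B) (hne : A ≠ B) {n : ℕ}
    (hB : Module.rank F B ≤ (n + 1 : ℕ)) : Module.rank F A ≤ n := by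
  have : Module.Finite F B := Module.rank_lt_aleph0_iff.1 (hB.trans_lt (Cardinal.natCast_lt_aleph0))
  have : Module.Finite F A := Submodule.finiteDimensional_of_le h
  have h1 := Submodule.finrank_lt_finrank_of_lt (lt_of_le_of_ne h hne)
  rw [← finrank_eq_rank] at hB ⊢
  have h2 : finrank F B ≤ n + 1 := by exact_mod_cast hB
  exact_mod_cast (by omega : finrank F A ≤ n)

end lin

variable {G F : Type} [Group G] [TopologicalSpace G] [Field F] {r : G →* M2 F}

/-- twisted cocycles -/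
def ZC (θ : G → F) : Submodule F (G → F) where
  carrier := {c | IsLocallyConstant c ∧ ∀ x y, c (x * y) = c x + θ x * c y}
  add_mem' {a b} ha hb := ⟨ha.1.add hb.1, fun x y => by
    simp only [Pi.add_apply, ha.2, hb.2]; ring⟩
  zero_mem' := ⟨IsLocallyConstant.const 0, fun _ _ => by simp⟩
  smul_mem' r a ha := ⟨ha.1.comp (r • ·), fun x y => by
    simp only [Pi.smul_apply, ha.2, smul_eq_mul]; ring⟩

/-- twisted coboundaries -/
def BS (θ : G → F) : Submodule F (G → G → F) where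
  carrier := {f | ∃ z : G → F, IsLocallyConstant z ∧ ∀ x y, z (x * y) = z x + θ x * z y + f x y}
  add_mem' := by
    rintro a b ⟨u, h1, h2⟩ ⟨v, h3, h4⟩
    exact ⟨u + v, h1.add h3, fun x y => by simp only [Pi.add_apply, h2, h4]; ring⟩
  zero_mem' := ⟨0, IsLocallyConstant.const 0, fun _ _ => by simp⟩
  smul_mem' := by
    rintro r a ⟨u, h1, h2⟩
    exact ⟨r • u, h1.comp (r • ·), fun x y => by simp only [Pi.smul_apply, h2, smul_eq_mul]; ring⟩

/-- the number of twisted cocycles -/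
def Ct (w : G → F) : Prop := ∀ θ : G →* F, IsLocallyConstant θ →
  Module.rank F (ZC θ) ≤ (3 : ℕ) ∧ ((∃ x, θ x ≠ w x) → Module.rank F (ZC θ) ≤ (2 : ℕ))

/-- unobstructed, or one equation of rank four -/
def Good (r : G →* M2 F) : Prop :=
  Module.rank F (ZS r) ≤ (6 : ℕ) ∨ (Module.rank F (ZS r) ≤ (7 : ℕ) ∧ ND r)

/-- conjugation of functions -/
def cjL (P Q : M2 F) : M2 F →ₗ[F] M2 F := LinearMap.mulLeftRight F (Q, P)

theorem cjL_apply (P Q X : M2 F) : cjL P Q X = Q * X * P := rfl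

theorem cj_rank {P Q : M2 F} {r' : G →* M2 F} (h : Cj P Q r r') :
    Module.rank F (ZS r) ≤ Module.rank F (ZS r') :=
  LinearMap.rank_le_of_injective
    (((cjL P Q).compLeft G).restrict (p := ZS r) (q := ZS r') fun c hc => h.z1 hc)
    fun a b e => Subtype.ext (funext fun x => by
      have : Q * a.1 x * P = Q * b.1 x * P := congrFun (congrArg Subtype.val e) x
      rw [← cj_cj h.1 (a.1 x), this, cj_cj h.1])

theorem Good.cj {P Q : M2 F} {r' : G →* M2 F} (h : Cj P Q r r') (H : Good r') : Good r := by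
  refine H.imp (cj_rank h).trans fun ⟨h1, ψ, t, t', n1, n2, n3, n4, n5⟩ => ⟨(cj_rank h).trans h1, ?_⟩
  have e : ∀ u v : G → M2 F, ((cjL P Q).compLeft G).compLeft G
      (cp (fun x => P * u x * Q) fun x => P * v x * Q) = cp u v := fun u v => by
    funext x y
    show Q * (_ + _) * P = _
    rw [cj_mul h.symm.1, cj_mul h.symm.1, ← Matrix.add_mul, ← Matrix.mul_add, cj_cj h.symm.1]
    rfl
  refine ⟨ψ.comp (((cjL P Q).compLeft G).compLeft G), fun i x => P * t i x * Q,
    fun i x => P * t' i x * Q, fun f ⟨z, k1, k2⟩ => n1 _ ⟨fun x => Q * z x * P,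
      k1.comp fun X => Q * X * P, fun x y => ?_⟩, fun i => h.symm.z1 (n2 i),
    fun i => h.symm.z1 (n3 i), fun i j => by rw [LinearMap.comp_apply, e, n4],
    by simpa only [LinearMap.comp_apply, e] using n5⟩
  show _ = _ + Q * f x y * P
  beta_reduce
  rw [k2, h.2, h.2, cj_mul h.1, cj_mul h.1]
  simp only [Matrix.mul_add, Matrix.add_mul]

section tri

variable (ht : ∀ x, r x 1 0 = 0)
include ht

theorem e00 (x y : G) : r (x * y) 0 0 = r x 0 0 * r y 0 0 := by
  simp [Matrix.mul_apply, Fin.sum_univ_two, ht]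

theorem e11 (x y : G) : r (x * y) 1 1 = r x 1 1 * r y 1 1 := by
  simp [Matrix.mul_apply, Fin.sum_univ_two, ht]

theorem n00 (x : G) : r x 0 0 ≠ 0 :=
  left_ne_zero_of_mul_eq_one (b := r x⁻¹ 0 0) (by rw [← e00 ht]; simp)

theorem n11 (x : G) : r x 1 1 ≠ 0 :=
  left_ne_zero_of_mul_eq_one (b := r x⁻¹ 1 1) (by rw [← e11 ht]; simp)

/-- the ratio of the diagonal characters -/
def th : G →* F where
  toFun x := r x 1 1 / r x 0 0
  map_one' := by simp
  map_mul' x y := by rw [e00 ht, e11 ht, mul_div_mul_comm]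

/-- the inverse ratio -/
def th' : G →* F where
  toFun x := r x 0 0 / r x 1 1
  map_one' := by simp
  map_mul' x y := by rw [e00 ht, e11 ht, mul_div_mul_comm]

omit ht in
/-- a normalised entry -/
def en (r : G →* M2 F) (i j k : Fin 2) : (G → M2 F) →ₗ[F] G → F where
  toFun t x := t x i j / r x k k
  map_add' a b := funext fun x => add_div _ _ _
  map_smul' a b := funext fun x => mul_div_assoc _ _ _

omit ht in
theorem en_lc (hr : IsLocallyConstant r) {t : G → M2 F} (h : IsLocallyConstant t) (i j k : Fin 2) :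
    IsLocallyConstant (en r i j k t) := h.comp₂ hr fun X Y => X i j / Y k k

theorem ent {t : G → M2 F} (h : Z1 r t) (x y : G) :
    t (x * y) 1 0 = t x 1 0 * r y 0 0 + r x 1 1 * t y 1 0 ∧
    t (x * y) 0 0 = t x 0 0 * r y 0 0 + r x 0 0 * t y 0 0 + r x 0 1 * t y 1 0 ∧
    t (x * y) 0 1 = t x 0 0 * r y 0 1 + t x 0 1 * r y 1 1 + r x 0 0 * t y 0 1 + r x 0 1 * t y 1 1 ∧
    r x 0 0 * t x 1 1 + r x 1 1 * t x 0 0 = r x 0 1 * t x 1 0 := by
  have e := h.det x
  simp only [pd, ht] at e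
  simp only [h.mul, Matrix.add_apply, Matrix.mul_apply, Fin.sum_univ_two, ht]
  refine ⟨by ring, by ring, by ring, by linear_combination e⟩

omit ht in
theorem en0 {i j k : Fin 2} {t : G → M2 F} (hk : ∀ x, r x k k ≠ 0)
    (h : t ∈ LinearMap.ker (en r i j k)) (x : G) : t x i j = 0 :=
  (div_eq_zero_iff.1 (congrFun (LinearMap.mem_ker.1 h) x)).resolve_right (hk x)

omit ht in
/-- the first step of the filtration -/
abbrev Za (r : G →* M2 F) : Submodule F (G → M2 F) := ZS r ⊓ LinearMap.ker (en r 1 0 0)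

omit ht in
/-- the second step of the filtration -/
abbrev Zb (r : G →* M2 F) : Submodule F (G → M2 F) := Za r ⊓ LinearMap.ker (en r 0 0 0)

theorem rk2 : Module.rank F (Za r) =
    Module.rank F ((Za r).map (en r 0 0 0)) + Module.rank F ((Zb r).map (en r 0 1 1)) := by
  have e : Zb r ⊓ LinearMap.ker (en r 0 1 1) = ⊥ := by
    rw [eq_bot_iff]
    rintro t ⟨⟨⟨h0, h1⟩, h2⟩, h3⟩
    funext x
    have a1 := en0 (n00 ht) h1 x
    have a2 := en0 (n00 ht) h2 x
    have a3 := en0 (n11 ht) h3 x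
    have a4 := (ent ht h0 x x).2.2.2
    rw [a1, a2, mul_zero, mul_zero, add_zero] at a4
    have a5 := (mul_eq_zero.1 a4).resolve_left (n00 ht x)
    ext i j
    fin_cases i <;> fin_cases j <;> assumption
  rw [rk (Za r) (en r 0 0 0), rk (Zb r) (en r 0 1 1), e, rank_bot, add_zero]

theorem rk3 : Module.rank F (ZS r) = Module.rank F ((ZS r).map (en r 1 0 0)) +
    (Module.rank F ((Za r).map (en r 0 0 0)) + Module.rank F ((Zb r).map (en r 0 1 1))) := by
  rw [rk (ZS r) (en r 1 0 0), rk2 ht]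

variable (hr : IsLocallyConstant r)
include hr

theorem th_lc : IsLocallyConstant (th ht) := hr.comp fun X => X 1 1 / X 0 0

theorem th'_lc : IsLocallyConstant (th' ht) := hr.comp fun X => X 0 0 / X 1 1

theorem le_c : (ZS r).map (en r 1 0 0) ≤ ZC (th ht) := by
  rintro _ ⟨t, h, rfl⟩
  refine ⟨en_lc hr h.lc _ _ _, fun x y => ?_⟩
  have := n00 ht x
  have := n00 ht y
  show t (x * y) 1 0 / _ = t x 1 0 / _ + r x 1 1 / r x 0 0 * (t y 1 0 / _)
  rw [(ent ht h x y).1, e00 ht]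
  field_simp

theorem le_a : (Za r).map (en r 0 0 0) ≤ ZC (1 : G →* F) := by
  rintro _ ⟨t, ⟨h, h1⟩, rfl⟩
  refine ⟨en_lc hr h.lc _ _ _, fun x y => ?_⟩
  have := n00 ht x
  have := n00 ht y
  show t (x * y) 0 0 / _ = t x 0 0 / _ + 1 * (t y 0 0 / _)
  rw [(ent ht h x y).2.1, e00 ht, en0 (n00 ht) h1]
  field_simp
  ring

theorem le_b : (Zb r).map (en r 0 1 1) ≤ ZC (th' ht) := by
  rintro _ ⟨t, ⟨⟨h, h1⟩, h2⟩, rfl⟩
  refine ⟨en_lc hr h.lc _ _ _, fun x y => ?_⟩
  have := n11 ht x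
  have := n11 ht y
  have a4 := (ent ht h y y).2.2.2
  rw [en0 (n00 ht) h1, en0 (n00 ht) h2, mul_zero, mul_zero, add_zero] at a4
  show t (x * y) 0 1 / _ = t x 0 1 / _ + r x 0 0 / r x 1 1 * (t y 0 1 / _)
  rw [(ent ht h x y).2.2.1, e11 ht, en0 (n00 ht) h2, (mul_eq_zero.1 a4).resolve_left (n00 ht y)]
  field_simp
  ring

theorem bnd {k l m : ℕ} (h1 : Module.rank F ((ZS r).map (en r 1 0 0)) ≤ k)
    (h2 : Module.rank F ((Za r).map (en r 0 0 0)) ≤ l)
    (h3 : Module.rank F ((Zb r).map (en r 0 1 1)) ≤ m) :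
    Module.rank F (ZS r) ≤ (k + (l + m) : ℕ) := by
  rw [rk3 ht, Nat.cast_add, Nat.cast_add]
  exact add_le_add h1 (add_le_add h2 h3)

variable {w : G → F} (hC : Ct w) (h1 : ∃ x, 1 ≠ w x)
include hC h1

/-- the generic case -/
theorem cnt1 (h2 : ∃ x, th ht x ≠ w x) (h3 : ∃ x, th' ht x ≠ w x) :
    Module.rank F (ZS r) ≤ (6 : ℕ) :=
  bnd ht hr ((Submodule.rank_mono (le_c ht hr)).trans ((hC _ (th_lc ht hr)).2 h2))
    ((Submodule.rank_mono (le_a ht hr)).trans ((hC 1 (IsLocallyConstant.const 1)).2 h1))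
    ((Submodule.rank_mono (le_b ht hr)).trans ((hC _ (th'_lc ht hr)).2 h3))

variable {a c : Fin 2 → G → F} (hU : Cup w a c) (h2 : (2 : F) ≠ 0)
include hU h2

/-- the obstructed case -/
theorem cnt2 (h3 : ∀ x, th ht x = w x) (h4 : ∃ x, th' ht x ≠ w x) : Good r := by
  have k1 := (hC _ (th_lc ht hr)).1
  have k2 := (hC 1 (IsLocallyConstant.const 1)).2 h1
  have k3 := (Submodule.rank_mono (le_b ht hr)).trans ((hC _ (th'_lc ht hr)).2 h4)
  by_cases c1 : (ZS r).map (en r 1 0 0) = ZC (th ht)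
  swap
  · exact Or.inl (bnd ht hr (rk_lt (n := 2) (le_c ht hr) c1 k1)
      ((Submodule.rank_mono (le_a ht hr)).trans k2) k3)
  by_cases c2 : (Za r).map (en r 0 0 0) = ZC (1 : G →* F)
  swap
  · exact Or.inl (bnd ht hr ((Submodule.rank_mono (le_c ht hr)).trans k1)
      (rk_lt (n := 1) (le_a ht hr) c2 k2) k3)
  refine Or.inr ⟨bnd ht hr ((Submodule.rank_mono (le_c ht hr)).trans k1)
      ((Submodule.rank_mono (le_a ht hr)).trans k2) k3, ?_⟩
  have m1 : ∀ i, a i ∈ (Za r).map (en r 0 0 0) := fun i =>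
    c2 ▸ ⟨hU.la i, fun x y => by rw [hU.ma, MonoidHom.one_apply, one_mul]⟩
  have m2 : ∀ j, c j ∈ (ZS r).map (en r 1 0 0) := fun j =>
    c1 ▸ ⟨hU.lc j, fun x y => by rw [hU.mc, h3]⟩
  choose t ht1 ht2 using m1
  choose t' ht3 ht4 using m2
  have key : ∀ (α β : Fin 2 → F), ¬ Cb w (fun x => ∑ j, β j * c j x) (fun x => ∑ i, α i * a i x) →
      ∃ ψ : (G → G → F) →ₗ[F] F, (∀ f ∈ BS w, ψ f = 0) ∧
        α ⬝ᵥ (Matrix.of fun i j => ψ fun x y => c j x * a i y) *ᵥ β ≠ 0 := by
    intro α β h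
    obtain ⟨ψ, e1, e2⟩ := (BS w).exists_dual_map_eq_bot_of_notMem
      (x := fun x y => (∑ j, β j * c j x) * ∑ i, α i * a i y) h inferInstance
    refine ⟨ψ, fun f hf => ?_, fun e => e1 ?_⟩
    · rw [← Submodule.mem_bot F, ← e2]
      exact Submodule.mem_map_of_mem hf
    · rw [← e]
      simp only [dotProduct, mulVec, Fin.sum_univ_two, of_apply, mul_comm (ψ _), ← smul_eq_mul (a := β _),
        ← smul_eq_mul (a := α _), ← map_smul, ← map_add]
      congr 1
      funext x y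
      simp only [Pi.add_apply, Pi.smul_apply, smul_eq_mul]
      ring
  obtain ⟨_, ⟨ψ, e1, rfl⟩, e2⟩ := ex_det {N | ∃ ψ : (G → G → F) →ₗ[F] F, (∀ f ∈ BS w, ψ f = 0) ∧
      (Matrix.of fun i j => ψ fun x y => c j x * a i y) = N} (by
      rintro _ ⟨ψ, e1, rfl⟩ _ ⟨ψ', e2, rfl⟩
      exact ⟨ψ + ψ', fun f hf => by rw [LinearMap.add_apply, e1 f hf, e2 f hf, add_zero], rfl⟩)
    (fun α hα => by
      obtain ⟨β, h⟩ := hU.left α hα
      obtain ⟨ψ, e1, e2⟩ := key α β h
      exact ⟨_, ⟨ψ, e1, rfl⟩, fun e => e2 (by rw [dotProduct_mulVec, e, zero_dotProduct])⟩)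
    fun β hβ => by
      obtain ⟨α, h⟩ := hU.right β hβ
      obtain ⟨ψ, e1, e2⟩ := key α β h
      exact ⟨_, ⟨ψ, e1, rfl⟩, fun e => e2 (by rw [e, dotProduct_zero])⟩
  let L : (G → G → M2 F) →ₗ[F] G → G → F :=
    { toFun := fun f x y => f x y 1 0 / (r x 0 0 * r y 0 0)
      map_add' := fun _ _ => funext fun _ => funext fun _ => add_div _ _ _
      map_smul' := fun _ _ => funext fun _ => funext fun _ => mul_div_assoc _ _ _ }
  have hL : ∀ f x y, L f x y = f x y 1 0 / (r x 0 0 * r y 0 0) := fun _ _ _ => rfl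
  have hw : ∀ x, w x = r x 1 1 / r x 0 0 := fun x => (h3 x).symm
  have z0 : ∀ i x, t i x 1 0 = 0 := fun i => en0 (n00 ht) (ht1 i).2
  refine ⟨ψ.comp L, t, t', fun f ⟨z, k4, k5⟩ => e1 _ ⟨en r 1 0 0 z, en_lc hr k4 _ _ _, fun x y => ?_⟩,
    fun i => (ht1 i).1, ht3, fun i j => ?_, ?_⟩
  · have := n00 ht x
    have := n00 ht y
    show z (x * y) 1 0 / _ = z x 1 0 / _ + w x * (z y 1 0 / _) + _
    rw [hL, hw, k5, e00 ht]
    simp only [Matrix.add_apply, Matrix.mul_apply, Fin.sum_univ_two, ht]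
    field_simp
    ring
  · have : L (cp (t i) (t j)) = 0 := by
      funext x y
      simp [hL, cp, Matrix.mul_apply, Fin.sum_univ_two, z0]
    rw [LinearMap.comp_apply, this, map_zero]
  · have e : (Matrix.of fun i j => (ψ.comp L) (cp (t i) (t' j))) =
        (2 : F) • Matrix.of fun i j => ψ fun x y => c j x * a i y := by
      ext i j
      rw [Matrix.smul_apply, of_apply, of_apply, ← map_smul, LinearMap.comp_apply, ← sub_eq_zero,
        ← map_sub]
      refine e1 _ ⟨fun x => -(a i x * c j x), (hU.la i).comp₂ (hU.lc j) fun u v => -(u * v),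
        fun x y => ?_⟩
      have := n00 ht x
      have := n00 ht y
      have a1 : ∀ x, t i x 0 0 = a i x * r x 0 0 := fun x =>
        (div_eq_iff (n00 ht x)).1 (congrFun (ht2 i) x)
      have a2 : ∀ x, t' j x 1 0 = c j x * r x 0 0 := fun x =>
        (div_eq_iff (n00 ht x)).1 (congrFun (ht4 j) x)
      have a3 : t i x 1 1 = -(a i x * r x 1 1) := mul_left_cancel₀ (n00 ht x) (by
        have := (ent ht (ht1 i).1 x x).2.2.2
        rw [z0, a1] at this
        linear_combination this)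
      simp only [hU.ma, hU.mc, Pi.sub_apply, Pi.smul_apply, smul_eq_mul, hL, hw, cp,
        Matrix.add_apply, Matrix.mul_apply, Fin.sum_univ_two, z0, a1, a2, a3]
      field_simp
      ring
    rw [e, det_smul]
    exact mul_ne_zero (pow_ne_zero _ h2) e2

/-- if every character lifts, the extension splits -/
theorem spl3 (h3 : ∀ x, th' ht x = w x) (c2 : (Za r).map (en r 0 0 0) = ZC (1 : G →* F)) :
    ∃ κ, ∀ x, r x 0 1 = κ * (r x 0 0 - r x 1 1) := by
  have k3 := (hC _ (th'_lc ht hr)).1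
  have hw : ∀ x, w x = r x 0 0 / r x 1 1 := fun x => (h3 x).symm
  have ew : (th' ht : G → F) = w := funext h3
  rw [ew] at k3
  have cb : ∀ (β : Fin 2 → F) (κ : F) (u : G → F), (∀ α : Fin 2 → F,
      Cb w u fun x => ∑ i, α i * a i x) → (∀ x, u x = ∑ j, β j * c j x + κ * (w x - 1)) → β = 0 := by
    intro β κ u hu e
    by_contra hβ
    obtain ⟨α, h⟩ := hU.right β hβ
    obtain ⟨z, z1, z2⟩ := hu α
    refine h ⟨fun x => z x + κ * ∑ i, α i * a i x, ?_, fun x y => ?_⟩
    · simp only [Fin.sum_univ_two]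
      exact z1.comp₂ ((hU.la 0).prodMk (hU.la 1)) fun s v => s + κ * (α 0 * v.1 + α 1 * v.2)
    · simp only [z2, e, hU.ma, Fin.sum_univ_two]
      ring
  let Λ : ((Fin 2 → F) × F) →ₗ[F] G → F :=
    { toFun := fun v x => ∑ j, v.1 j * c j x + v.2 * (w x - 1)
      map_add' := fun u v => funext fun x => by simp [Fin.sum_univ_two]; ring
      map_smul' := fun u v => funext fun x => by simp [Fin.sum_univ_two]; ring }
  have l1 : Function.Injective Λ := (injective_iff_map_eq_zero Λ).2 fun v hv => by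
    have e := cb v.1 v.2 0 (fun α => ⟨0, IsLocallyConstant.const 0, fun x y => by simp⟩)
      fun x => (congrFun hv x).symm
    obtain ⟨x, hx⟩ := h1
    have e1 : ∑ j, v.1 j * c j x + v.2 * (w x - 1) = 0 := congrFun hv x
    simp only [e, Pi.zero_apply, zero_mul, Finset.sum_const_zero, zero_add] at e1
    exact Prod.ext e ((mul_eq_zero.1 e1).resolve_right (sub_ne_zero.2 hx.symm))
  have wl : IsLocallyConstant w := ew ▸ th'_lc ht hr
  have wm : ∀ x y, w (x * y) = w x * w y := ew ▸ map_mul (th' ht)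
  have l2 : LinearMap.range Λ ≤ ZC w := by
    rintro _ ⟨v, rfl⟩
    refine ⟨?_, fun x y => ?_⟩
    · show IsLocallyConstant fun x => ∑ j, v.1 j * c j x + v.2 * (w x - 1)
      simp only [Fin.sum_univ_two]
      exact wl.comp₂ ((hU.lc 0).prodMk (hU.lc 1)) fun s u => v.1 0 * u.1 + v.1 1 * u.2 + v.2 * (s - 1)
    · show ∑ j, v.1 j * c j _ + v.2 * (w _ - 1) = ∑ j, v.1 j * c j _ + v.2 * (w _ - 1) +
        w x * (∑ j, v.1 j * c j _ + v.2 * (w _ - 1))
      simp only [Fin.sum_univ_two, hU.mc, wm]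
      ring
  have l3 : LinearMap.range Λ = ZC w := by
    by_contra hne
    have := rk_lt (n := 2) l2 hne k3
    rw [rank_range_of_injective Λ l1, ← finrank_eq_rank] at this
    simp at this
    exact absurd this (by norm_num)
  have hb : (fun x => r x 0 1 / r x 1 1) ∈ LinearMap.range Λ := l3 ▸
    ⟨hr.comp fun X => X 0 1 / X 1 1, fun x y => by
      have := n11 ht x
      have := n11 ht y
      beta_reduce
      rw [hw, e11 ht, map_mul]
      simp only [Matrix.mul_apply, Fin.sum_univ_two]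
      field_simp
      ring⟩
  obtain ⟨v, hv⟩ := hb
  have e := cb v.1 v.2 (fun x => r x 0 1 / r x 1 1) (fun α => by
    obtain ⟨t, ⟨m1, m2⟩, m3⟩ : (fun x => ∑ i, α i * a i x) ∈ (Za r).map (en r 0 0 0) := c2 ▸ ⟨by
      simp only [Fin.sum_univ_two]
      exact (hU.la 0).comp₂ (hU.la 1) fun s u => α 0 * s + α 1 * u, fun x y => by
      simp only [Fin.sum_univ_two, hU.ma, MonoidHom.one_apply]; ring⟩
    have ml : IsLocallyConstant (en r 0 0 0 t) := en_lc hr m1.lc _ _ _
    rw [← m3]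
    refine ⟨fun x => (t x 0 0 / r x 0 0 * (r x 0 1 / r x 1 1) - t x 0 1 / r x 1 1) / 2,
      m1.lc.comp₂ hr fun X Y => (X 0 0 / Y 0 0 * (Y 0 1 / Y 1 1) - X 0 1 / Y 1 1) / 2, fun x y => ?_⟩
    have := n00 ht x
    have := n00 ht y
    have := n11 ht x
    have := n11 ht y
    have a3 : t y 1 1 = -(r y 1 1 * t y 0 0 / r y 0 0) := by
      have := (ent ht m1 y y).2.2.2
      rw [en0 (n00 ht) m2] at this
      field_simp
      linear_combination this
    show _ = _ + _ * (t y 0 0 / r y 0 0)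
    simp only [(ent ht m1 x y).2.1, (ent ht m1 x y).2.2.1, e00 ht, e11 ht, hw, en0 (n00 ht) m2, a3]
    rw [map_mul]
    simp only [Matrix.mul_apply, Fin.sum_univ_two]
    field_simp
    ring) fun x => (congrFun hv x).symm
  refine ⟨v.2, fun x => ?_⟩
  have e1 : ∑ j, v.1 j * c j x + v.2 * (w x - 1) = r x 0 1 / r x 1 1 := congrFun hv x
  have := n11 ht x
  simp only [e, Pi.zero_apply, zero_mul, Finset.sum_const_zero, zero_add, hw] at e1
  field_simp at e1
  linear_combination -e1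

/-- the dual case -/
theorem cnt3 (h3 : ∀ x, th' ht x = w x) (h4 : ∃ x, th ht x ≠ w x) : Good r := by
  have k1 := (Submodule.rank_mono (le_c ht hr)).trans ((hC _ (th_lc ht hr)).2 h4)
  have k2 := (hC 1 (IsLocallyConstant.const 1)).2 h1
  have k3 := (hC _ (th'_lc ht hr)).1
  by_cases c2 : (Za r).map (en r 0 0 0) = ZC (1 : G →* F)
  swap
  · exact Or.inl (bnd ht hr k1 (rk_lt (n := 1) (le_a ht hr) c2 k2)
      ((Submodule.rank_mono (le_b ht hr)).trans k3))
  have hw : ∀ x, w x = r x 0 0 / r x 1 1 := fun x => (h3 x).symm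
  obtain ⟨κ, eb⟩ := spl3 ht hr hC h1 hU h2 h3 c2
  have hPQ : (!![-κ, 1; 1, 0] : M2 F) * !![0, 1; 1, κ] = 1 := by
    ext i j
    fin_cases i <;> fin_cases j <;> simp [Matrix.mul_apply, Fin.sum_univ_two]
  have hc := cjr r hPQ
  generalize (Vale.Agent.P022D.Loc2.cj _ _ hPQ).comp r = r' at hc
  have er : ∀ x, r' x 1 0 = 0 ∧ r' x 0 0 = r x 1 1 ∧ r' x 1 1 = r x 0 0 := fun x => by
    simp only [hc.2, Matrix.mul_apply, Fin.sum_univ_two, of_apply, cons_val', cons_val_zero,
      cons_val_one, cons_val_fin_one, ht, eb]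
    refine ⟨by ring, by ring, by ring⟩
  refine Good.cj hc (cnt2 (fun x => (er x).1) (hc.lc hr) hC h1 hU h2 (fun x => ?_)
    (h4.imp fun x hx => ?_))
  · show r' x 1 1 / r' x 0 0 = _
    rw [(er x).2.1, (er x).2.2, hw]
  · show r' x 0 0 / r' x 1 1 ≠ _
    rwa [(er x).2.1, (er x).2.2]

end tri

/-- all triangular representations -/
theorem good_tri (hr : IsLocallyConstant r) (ht : Tri r) {w : G → F} (hC : Ct w)
    (h1 : ∃ x, w x ^ 2 ≠ 1) {a c : Fin 2 → G → F} (hU : Cup w a c) (h2 : (2 : F) ≠ 0) : Good r := by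
  obtain ⟨P, Q, r', h, ht⟩ := ht
  obtain ⟨x, hx⟩ := h1
  have h1 : ∃ x, 1 ≠ w x := ⟨x, fun e => hx (by rw [← e, one_pow])⟩
  have e : th ht x * th' ht x = 1 := by
    show r' x 1 1 / r' x 0 0 * (r' x 0 0 / r' x 1 1) = 1
    rw [div_mul_div_cancel₀ (n00 ht x), div_self (n11 ht x)]
  refine Good.cj h ?_
  by_cases c1 : ∀ x, th ht x = w x
  · exact cnt2 ht (h.lc hr) hC h1 hU h2 c1 ⟨x, fun k => hx (by rw [← e, c1, k, pow_two])⟩
  by_cases c2 : ∀ x, th' ht x = w x
  · exact cnt3 ht (h.lc hr) hC h1 hU h2 c2 (not_forall.1 c1)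
  · exact Or.inl (cnt1 ht (h.lc hr) hC h1 (not_forall.1 c1) (not_forall.1 c2))

end Vale.Agent.P022K.RT.L5
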