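import Vale.Agent.P022K.RT.LuA

/-! P022K, block RT: the universal matrices. -/

set_option linter.all false

noncomputable section

namespace Vale.Agent.P022K.RT.Lu

open IsLocalRing MvPowerSeries
open Vale.Agent.P022D.L2b (M2 Z1 Lift pd res mp mp_apply pr nil_pr nil_of_val ker_eq lift_self
  decomp mem_max_iff exists_ev chevalley isAdicCompleteV)
open Vale.Agent.P022D.Loc2 (TnG coG)

variable {G F O τ : Type} [Group G] [TopologicalSpace G] [Field F] [CommRing O] [IsLocalRing O]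
  [Fintype τ] {r : G →* M2 F} {s : F → O} {d : G → O} {g : τ → G} {p q : τ → Fin 2}
  {A A' : Type} [CommRing A] [Algebra O A] [CommRing A'] [Algebra O A'] [Algebra O F]

theorem lift_pr {ρ : G →* M2 A} {ρ' : G →* M2 A'} (h : Lift r s d ρ) (h' : Lift r s d ρ') :
    Lift r s d (pr ρ ρ') := by
  refine ⟨?_, fun a ha => ?_, fun x i j => ?_, fun x => ?_⟩
  · exact h.lc.comp₂ h'.lc fun X Y => Matrix.of fun i j => (X i j, Y i j)
  · exact nil_pr (h.nil a ha) (h'.nil a ha)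
  · exact nil_pr (h.red x i j) (h'.red x i j)
  · have e := h.det x
    have e' := h'.det x
    rw [Matrix.det_fin_two] at e e' ⊢
    exact Prod.ext e e'

/-- a lift is determined by its coordinates -/
theorem uniq [Finite A] (hr : IsLocallyConstant r) (hs : ∀ x, algebraMap O F (s x) = x)
    (hd : ∀ x, algebraMap O F (d x) = (r x).det) (hT : TnG r g p q) {ρ ρ' : G →* M2 A}
    (h : Lift r s d ρ) (h' : Lift r s d ρ')
    (e : ∀ t, coG r s g p q ρ t = coG r s g p q ρ' t) : ρ = ρ' := by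
  have h1 : Algebra.adjoin O (Set.range (coG r s g p q (pr ρ ρ'))) ≤
      AlgHom.equalizer (AlgHom.fst O A A) (AlgHom.snd O A A) := Algebra.adjoin_le (by
    rintro _ ⟨t, rfl⟩
    exact e t)
  exact MonoidHom.ext fun x => Matrix.ext fun i j =>
    h1 (gen hr hs hd hT (lift_pr h h') x i j)

theorem fin_max [Finite F] (hs : ∀ x, algebraMap O F (s x) = x) :
    Finite (MvPowerSeries τ O ⧸ maximalIdeal (MvPowerSeries τ O)) := by
  refine Finite.of_surjective (fun x : F => Ideal.Quotient.mk _ (C (s x))) fun y => ?_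
  obtain ⟨f, rfl⟩ := Ideal.Quotient.mk_surjective y
  refine ⟨algebraMap O F (constantCoeff f), Ideal.Quotient.eq.2 ?_⟩
  rw [mem_max_iff, ← ker_eq hs, RingHom.mem_ker]
  simp [hs]

theorem fin_sup [Finite F] [IsNoetherianRing O] (hs : ∀ x, algebraMap O F (s x) = x)
    (I : Ideal (MvPowerSeries τ O)) (k : ℕ) :
    Finite (MvPowerSeries τ O ⧸ (I ⊔ maximalIdeal (MvPowerSeries τ O) ^ k)) := by
  have := fin_max (τ := τ) hs
  have : Finite (MvPowerSeries τ O ⧸ maximalIdeal (MvPowerSeries τ O) ^ k) :=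
    Ideal.finite_quotient_pow (IsNoetherian.noetherian _) k
  exact Finite.of_surjective _ (Ideal.Quotient.factor_surjective
    (le_sup_right : maximalIdeal (MvPowerSeries τ O) ^ k ≤ I ⊔ _))

theorem nil_mk {R : Type} [CommRing R] {m J : Ideal R} {k : ℕ} (h : m ^ k ≤ J) {a : R}
    (ha : a ∈ m) : IsNilpotent (Ideal.Quotient.mk J a) :=
  ⟨k, by rw [← map_pow]; exact Ideal.Quotient.eq_zero_iff_mem.2 (h (Ideal.pow_mem_pow ha k))⟩

theorem C_max {a : O} (ha : a ∈ maximalIdeal O) :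
    (C a : MvPowerSeries τ O) ∈ maximalIdeal (MvPowerSeries τ O) := by
  rw [mem_max_iff, constantCoeff_C]; exact ha

theorem X_max (t : τ) : (X t : MvPowerSeries τ O) ∈ maximalIdeal (MvPowerSeries τ O) := by
  rw [mem_max_iff, constantCoeff_X]; exact Ideal.zero_mem _

/-- limits modulo an ideal -/
theorem lim_mod {R : Type} [CommRing R] (m I : Ideal R) [IsPrecomplete m R] (a : ℕ → R)
    (ha : ∀ k, a (k + 1) - a k ∈ I ⊔ m ^ k) : ∃ f, ∀ k, f - a k ∈ I ⊔ m ^ k := by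
  have hc := P022D.CA.isPrecomplete_of_surj (Ideal.Quotient.mk I) Ideal.Quotient.mk_surjective m
  have key : ∀ k (u : R), Ideal.Quotient.mk I u ∈ (m.map (Ideal.Quotient.mk I)) ^ k ↔
      u ∈ I ⊔ m ^ k := fun k u => by
    rw [← Ideal.map_pow, ← Ideal.mem_comap,
      Ideal.comap_map_of_surjective _ Ideal.Quotient.mk_surjective, ← RingHom.ker_eq_comap_bot,
      Ideal.mk_ker, sup_comm]
  have h2 : ∀ k l, a k - a (k + l) ∈ I ⊔ m ^ k := fun k l => by
    induction l with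
    | zero => simp
    | succ l ih =>
      have h3 : a (k + l + 1) - a (k + l) ∈ I ⊔ m ^ k :=
        sup_le_sup_left (Ideal.pow_le_pow_right (by omega)) I (ha (k + l))
      have := Ideal.sub_mem _ ih h3
      rwa [show a k - a (k + l) - (a (k + l + 1) - a (k + l)) = a k - a (k + l + 1) by ring]
        at this
  obtain ⟨L, hL⟩ := hc.prec (f := fun k => Ideal.Quotient.mk I (a k)) (fun {k l} hkl => by
    obtain ⟨c, rfl⟩ := Nat.exists_eq_add_of_le hkl
    rw [SModEq.sub_mem, smul_eq_mul, Ideal.mul_top, ← map_sub, key]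
    exact h2 k c)
  obtain ⟨f, rfl⟩ := Ideal.Quotient.mk_surjective L
  refine ⟨f, fun k => ?_⟩
  have := hL k
  rw [SModEq.sub_mem, smul_eq_mul, Ideal.mul_top, ← map_sub, key] at this
  simpa using (I ⊔ m ^ k).neg_mem this

/-- the ideal of the equations is closed -/
theorem mem_inf {u : MvPowerSeries τ O}
    (h : ∀ k, u ∈ sInf (Fam r s d g p q) ⊔ maximalIdeal (MvPowerSeries τ O) ^ k) :
    u ∈ sInf (Fam r s d g p q) := by
  rw [Submodule.mem_sInf]
  rintro J hJ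
  have h1 := sInf_le hJ
  obtain ⟨A', _, _, _, ρ, φ', h2, hφ', rfl⟩ := hJ
  obtain ⟨k, hk⟩ := pow_le_ker h2.nil φ' fun i => hφ' i ▸ h2.red _ _ _
  exact sup_le h1 hk (h k)

theorem lev_ex [Finite F] [IsNoetherianRing O] [IsAdicComplete (maximalIdeal O) O]
    (hr : IsLocallyConstant r) (hs : ∀ x, algebraMap O F (s x) = x)
    (hd : ∀ x, algebraMap O F (d x) = (r x).det) (hT : TnG r g p q)
    (J : Ideal (MvPowerSeries τ O)) [Finite (MvPowerSeries τ O ⧸ J)]
    (h1 : sInf (Fam r s d g p q) ≤ J) {k : ℕ} (h2 : maximalIdeal (MvPowerSeries τ O) ^ k ≤ J) :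
    ∃ ρ : G →* M2 (MvPowerSeries τ O ⧸ J), Lift r s d ρ ∧
      ∀ t, Ideal.Quotient.mk J (X t) = coG r s g p q ρ t := by
  have a1 : ∀ a ∈ maximalIdeal O, IsNilpotent (algebraMap O (MvPowerSeries τ O ⧸ J) a) :=
    fun a ha => nil_mk h2 (C_max ha)
  have a2 : ∀ t, IsNilpotent (Ideal.Quotient.mkₐ O J (X t)) := fun t => nil_mk h2 (X_max t)
  exact lift_of hr hs hd hT a1 (Ideal.Quotient.mkₐ O J) a2
    fun f hf => Ideal.Quotient.eq_zero_iff_mem.2 (h1 hf)

theorem lev_un [Finite A] (hr : IsLocallyConstant r) (hs : ∀ x, algebraMap O F (s x) = x)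
    (hd : ∀ x, algebraMap O F (d x) = (r x).det) (hT : TnG r g p q)
    {J : Ideal (MvPowerSeries τ O)} {ρ : G →* M2 (MvPowerSeries τ O ⧸ J)} (hρ : Lift r s d ρ)
    (hX : ∀ t, Ideal.Quotient.mk J (X t) = coG r s g p q ρ t) {σ : G →* M2 A}
    (hσ : Lift r s d σ) (φ : MvPowerSeries τ O →ₐ[O] A) (hφ : ∀ t, φ (X t) = coG r s g p q σ t)
    (hk : ∀ u ∈ J, φ u = 0) {x : G} {i j : Fin 2} {a : MvPowerSeries τ O}
    (ha : Ideal.Quotient.mk J a = ρ x i j) : φ a = σ x i j := by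
  let ψ := Ideal.Quotient.liftₐ J φ hk
  have hψ : ∀ u, ψ (Ideal.Quotient.mk J u) = φ u := fun u => rfl
  have e := uniq hr hs hd hT (hρ.mp ψ) hσ fun t => by
    rw [coG_mp, ← hX, ← hφ, hψ]
  rw [← e, mp_apply, ← ha, hψ]

/-- **the universal matrices** -/
theorem exists_univ [Finite F] [IsNoetherianRing O] [IsAdicComplete (maximalIdeal O) O]
    (hr : IsLocallyConstant r) (hs : ∀ x, algebraMap O F (s x) = x)
    (hd : ∀ x, algebraMap O F (d x) = (r x).det) (hT : TnG r g p q)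
    (I : Ideal (MvPowerSeries τ O)) (hI : I = sInf (Fam r s d g p q)) :
    ∃ f : G → M2 (MvPowerSeries τ O),
      (∀ k, ∃ ρ : G →* M2 (MvPowerSeries τ O ⧸ (I ⊔ maximalIdeal (MvPowerSeries τ O) ^ k)),
        Lift r s d ρ ∧ (∀ t, Ideal.Quotient.mk _ (X t) = coG r s g p q ρ t) ∧
        ∀ x i j, Ideal.Quotient.mk _ (f x i j) = ρ x i j) ∧
      ∀ (A : Type) [CommRing A] [Algebra O A] [Finite A] (ρ : G →* M2 A), Lift r s d ρ →
        ∀ φ : MvPowerSeries τ O →ₐ[O] A, (∀ t, φ (X t) = coG r s g p q ρ t) →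
          ∀ x i j, φ (f x i j) = ρ x i j := by
  have hc := isAdicCompleteV (σ := τ) (V := O) ‹_›
  have hf := fin_sup hs I
  choose ρ hρ hX using fun k => @lev_ex G F O τ _ _ _ _ _ _ r s d g p q _ _ _ _ hr hs hd hT _
    (hf k) (hI ▸ le_sup_left) k le_sup_right
  have h3 : ∀ x i j, ∃ f, ∀ k, Ideal.Quotient.mk _ f = ρ k x i j := by
    intro x i j
    choose a ha using fun k => Ideal.Quotient.mk_surjective (ρ k x i j)
    obtain ⟨f, hf⟩ := lim_mod (maximalIdeal (MvPowerSeries τ O)) I a fun k => by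
      have := hf k
      have h4 := lev_un hr hs hd hT (hρ (k + 1)) (hX (k + 1)) (hρ k) (Ideal.Quotient.mkₐ O _)
        (hX k) (fun u hu => Ideal.Quotient.eq_zero_iff_mem.2
          (sup_le_sup_left (Ideal.pow_le_pow_right (Nat.le_succ k)) I hu)) (ha (k + 1))
      exact Ideal.Quotient.eq.1 (h4.trans (ha k).symm)
    exact ⟨f, fun k => (Ideal.Quotient.eq.2 (hf k)).trans (ha k)⟩
  choose f hf using h3
  refine ⟨fun x => Matrix.of (f x), fun k => ⟨ρ k, hρ k, hX k, fun x i j => hf x i j k⟩,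
    fun A _ _ _ σ hσ φ hφ x i j => ?_⟩
  obtain ⟨k, hk⟩ := pow_le_ker hσ.nil φ fun i => hφ i ▸ hσ.red _ _ _
  have h5 : I ≤ RingHom.ker φ.toRingHom := hI ▸ sInf_le ⟨A, _, _, ‹_›, σ, φ, hσ, hφ, rfl⟩
  exact lev_un hr hs hd hT (hρ k) (hX k) hσ φ hφ (fun u hu => sup_le h5 hk hu) (hf x i j k)

end Vale.Agent.P022K.RT.Lu
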