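import Vale.Agent.P022K.RT.LuB
import Vale.Agent.P022D.NR.Ev

/-! P022K, block RT: the universal local ring, its points in complete rings. -/

set_option linter.all false

noncomputable section

namespace Vale.Agent.P022K.RT.Lu

open IsLocalRing MvPowerSeries
open Vale.Agent.P022D.L2b (M2 Z1 Lift pd res mp mp_apply pr nil_pr nil_of_val ker_eq lift_self
  decomp mem_max_iff exists_ev chevalley isAdicCompleteV)
open Vale.Agent.P022D.Loc2 (TnG coG)

variable {G F O τ : Type} [Group G] [TopologicalSpace G] [Field F] [CommRing O] [IsLocalRing O]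
  [Fintype τ] {r : G →* M2 F} {s : F → O} {d : G → O} {g : τ → G} {p q : τ → Fin 2}
  {A A' : Type} [CommRing A] [Algebra O A] [CommRing A'] [Algebra O A'] [Algebra O F]

variable (r s d g p q) in
/-- `f` are universal matrices modulo the ideal `I` -/
structure Un (f : G → M2 (MvPowerSeries τ O)) (I : Ideal (MvPowerSeries τ O)) : Prop where
  max : I ≤ maximalIdeal (MvPowerSeries τ O)
  one : ∀ i j, f 1 i j - (1 : M2 (MvPowerSeries τ O)) i j ∈ I
  mul : ∀ x y i j, f (x * y) i j - (f x * f y) i j ∈ I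
  det : ∀ x, (f x).det - C (d x) ∈ I
  crd : ∀ t, f (g t) (p t) (q t) - (C (s (r (g t) (p t) (q t))) + X t) ∈ I
  red : ∀ x i j, f x i j - C (s (r x i j)) ∈ maximalIdeal (MvPowerSeries τ O)
  opn : ∀ k, IsLocallyConstant fun x =>
    (f x).map (Ideal.Quotient.mk (I ⊔ maximalIdeal (MvPowerSeries τ O) ^ k))
  univ : ∀ (A : Type) [CommRing A] [Algebra O A] [Finite A] (ρ : G →* M2 A), Lift r s d ρ →
    ∀ φ : MvPowerSeries τ O →ₐ[O] A, (∀ t, φ (X t) = coG r s g p q ρ t) →
      (∀ u ∈ I, φ u = 0) ∧ ∀ x i j, φ (f x i j) = ρ x i j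

theorem exists_un [Finite F] [IsNoetherianRing O] [IsAdicComplete (maximalIdeal O) O]
    (hr : IsLocallyConstant r) (hs : ∀ x, algebraMap O F (s x) = x)
    (hd : ∀ x, algebraMap O F (d x) = (r x).det) (hT : TnG r g p q) :
    ∃ f I, Un r s d g p q f I := by
  obtain ⟨I, hI⟩ : ∃ I, I = sInf (Fam r s d g p q) := ⟨_, rfl⟩
  obtain ⟨f, h1, h2⟩ := exists_univ hr hs hd hT I hI
  choose ρ hρ hX hf using h1
  have key : ∀ u, (∀ k, Ideal.Quotient.mk (I ⊔ maximalIdeal (MvPowerSeries τ O) ^ k) u = 0) →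
      u ∈ I := fun u hu => by
    subst hI
    exact mem_inf fun k => Ideal.Quotient.eq_zero_iff_mem.1 (hu k)
  have hm : ∀ k x, (f x).map (Ideal.Quotient.mk (I ⊔ maximalIdeal (MvPowerSeries τ O) ^ k)) =
      ρ k x := fun k x => Matrix.ext fun i j => hf k x i j
  have hmax : I ≤ maximalIdeal (MvPowerSeries τ O) := by
    obtain ⟨I0, h3, h4⟩ := fam_ne (g := g) (p := p) (q := q) hr hs hd
    exact hI ▸ (sInf_le h3).trans h4
  refine ⟨f, I, hmax, fun i j => key _ fun k => ?_, fun x y i j => key _ fun k => ?_,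
    fun x => key _ fun k => ?_, fun t => key _ fun k => ?_, fun x i j => ?_, fun k => ?_,
    fun A _ _ _ σ hσ φ hφ => ⟨fun u hu => ?_, h2 A σ hσ φ hφ⟩⟩
  · rw [map_sub, hf, map_one, sub_eq_zero]
    by_cases h : i = j
    · subst h; simp
    · simp [Matrix.one_apply_ne h]
  · rw [map_sub, hf, map_mul, ← hm, ← hm, ← Matrix.map_mul, Matrix.map_apply, sub_self]
  · rw [map_sub, RingHom.map_det, RingHom.mapMatrix_apply, hm, (hρ k).det, sub_eq_zero]
    rfl
  · rw [map_sub, map_add, hf, hX, coG, sub_eq_zero]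
    exact (add_sub_cancel _ _).symm
  · obtain ⟨n, hn⟩ := (hρ 1).red x i j
    rw [← hf] at hn
    have h3 : (f x i j - C (s (r x i j))) ^ n ∈ I ⊔ maximalIdeal (MvPowerSeries τ O) ^ 1 := by
      rw [← Ideal.Quotient.eq_zero_iff_mem, map_pow, map_sub]
      exact hn
    rw [pow_one, sup_eq_right.2 hmax] at h3
    exact (maximalIdeal.isMaximal _).isPrime.mem_of_pow_mem n h3
  · simp only [hm]
    exact (hρ k).lc
  · have h5 : I ≤ RingHom.ker φ.toRingHom := hI ▸ sInf_le ⟨A, _, _, ‹_›, σ, φ, hσ, hφ, rfl⟩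
    exact h5 hu

variable {f : G → M2 (MvPowerSeries τ O)} {I : Ideal (MvPowerSeries τ O)}

/-- the representation of a point -/
def Un.rep (h : Un r s d g p q f I) {B : Type} [CommRing B] (φ : MvPowerSeries τ O →+* B)
    (hφ : ∀ u ∈ I, φ u = 0) : G →* M2 B where
  toFun x := (f x).map φ
  map_one' := Matrix.ext fun i j => by
    have := hφ _ (h.one i j)
    rw [map_sub, sub_eq_zero] at this
    rw [Matrix.map_apply, this]
    by_cases e : i = j
    · subst e; simp
    · simp [Matrix.one_apply_ne e]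
  map_mul' x y := Matrix.ext fun i j => by
    have := hφ _ (h.mul x y i j)
    rw [map_sub, sub_eq_zero] at this
    rw [Matrix.map_apply, this, ← Matrix.map_mul, Matrix.map_apply]

theorem Un.rep_apply (h : Un r s d g p q f I) {B : Type} [CommRing B]
    (φ : MvPowerSeries τ O →+* B) (hφ : ∀ u ∈ I, φ u = 0) (x : G) :
    h.rep φ hφ x = (f x).map φ := rfl

theorem Un.rep_det (h : Un r s d g p q f I) {B : Type} [CommRing B]
    (φ : MvPowerSeries τ O →+* B) (hφ : ∀ u ∈ I, φ u = 0) (x : G) :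
    (h.rep φ hφ x).det = φ (C (d x)) := by
  have := hφ _ (h.det x)
  rw [map_sub, sub_eq_zero, RingHom.map_det] at this
  exact this

theorem Un.rep_crd (h : Un r s d g p q f I) {B : Type} [CommRing B]
    (φ : MvPowerSeries τ O →+* B) (hφ : ∀ u ∈ I, φ u = 0) (t : τ) :
    φ (X t) = h.rep φ hφ (g t) (p t) (q t) - φ (C (s (r (g t) (p t) (q t)))) := by
  have := hφ _ (h.crd t)
  rw [map_sub, sub_eq_zero, map_add] at this
  rw [h.rep_apply, Matrix.map_apply, this, add_sub_cancel_left]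

/-- the representation of a point is locally constant modulo every open ideal -/
theorem Un.rep_lc (h : Un r s d g p q f I) {B : Type} [CommRing B]
    (φ : MvPowerSeries τ O →+* B) (hφ : ∀ u ∈ I, φ u = 0) {k : ℕ}
    (hk : ∀ u ∈ maximalIdeal (MvPowerSeries τ O) ^ k, φ u = 0) :
    IsLocallyConstant (h.rep φ hφ) := by
  have h1 : I ⊔ maximalIdeal (MvPowerSeries τ O) ^ k ≤ RingHom.ker φ := sup_le hφ hk
  exact (h.opn k).comp fun M => M.map (Ideal.Quotient.lift _ φ fun u hu => h1 hu)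

/-- a point with values in a finite ring gives a lift -/
theorem Un.rep_lift (h : Un r s d g p q f I) [Finite A] (φ : MvPowerSeries τ O →ₐ[O] A)
    (hφ : ∀ u ∈ I, φ.toRingHom u = 0)
    (hn : ∀ a ∈ maximalIdeal O, IsNilpotent (algebraMap O A a))
    (hX : ∀ t, IsNilpotent (φ (X t))) :
    Lift r s d (h.rep φ.toRingHom hφ) ∧
      ∀ t, φ (X t) = coG r s g p q (h.rep φ.toRingHom hφ) t := by
  obtain ⟨k, hk⟩ := pow_le_ker hn φ hX
  have hC : ∀ o, φ.toRingHom (C o) = algebraMap O A o := fun o => φ.commutes o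
  refine ⟨⟨h.rep_lc _ hφ fun u hu => hk hu, hn, fun x i j => ⟨k, ?_⟩, fun x => ?_⟩, fun t => ?_⟩
  · rw [h.rep_apply, Matrix.map_apply, ← hC, ← map_sub, ← map_pow]
    exact hk (Ideal.pow_mem_pow (h.red x i j) k)
  · rw [h.rep_det, hC]
  · have := h.rep_crd _ hφ t
    rw [hC] at this
    exact this

/-- **points in complete rings** -/
theorem Un.cpl (h : Un r s d g p q f I) {B : Type} [CommRing B] [Algebra O B] (n : Ideal B)
    [IsAdicComplete n B] (hfin : ∀ k, Finite (B ⧸ n ^ k))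
    (hO : ∀ a ∈ maximalIdeal O, algebraMap O B a ∈ n) (ρ : G →* M2 B)
    (hlc : ∀ k, IsLocallyConstant fun x => (ρ x).map (Ideal.Quotient.mk (n ^ k)))
    (hred : ∀ x i j, ρ x i j - algebraMap O B (s (r x i j)) ∈ n)
    (hdet : ∀ x, (ρ x).det = algebraMap O B (d x)) :
    ∃ φ : MvPowerSeries τ O →ₐ[O] B, (∀ t, φ (X t) = coG r s g p q ρ t) ∧
      (∀ u ∈ maximalIdeal (MvPowerSeries τ O), φ u ∈ n) ∧
      (∀ u ∈ I, φ u = 0) ∧ ∀ x i j, φ (f x i j) = ρ x i j := by
  obtain ⟨φ0, h1, h2⟩ := P022D.NR.exists_ev n (algebraMap O B) (coG r s g p q ρ)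
    fun t => hred _ _ _
  let φ : MvPowerSeries τ O →ₐ[O] B := { φ0 with commutes' := h1 }
  have h3 : ∀ k, (∀ u ∈ I, Ideal.Quotient.mk (n ^ k) (φ u) = 0) ∧
      ∀ x i j, Ideal.Quotient.mk (n ^ k) (φ (f x i j)) = Ideal.Quotient.mk (n ^ k) (ρ x i j) := by
    intro k
    have := hfin k
    have hL : Lift r s d (mp (Ideal.Quotient.mkₐ O (n ^ k)) ρ) :=
      ⟨hlc k, fun a ha => nil_mk le_rfl (hO a ha), fun x i j => nil_mk le_rfl (hred x i j),
        fun x => by
          have e := congrArg (Ideal.Quotient.mk (n ^ k)) (hdet x)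
          rw [RingHom.map_det] at e
          exact e⟩
    exact h.univ _ _ hL ((Ideal.Quotient.mkₐ O (n ^ k)).comp φ) fun t => by
      rw [coG_mp, ← h2]; rfl
  have sep : ∀ b : B, (∀ k, Ideal.Quotient.mk (n ^ k) b = 0) → b = 0 := fun b hb =>
    IsHausdorff.haus' (I := n) b fun k => by
      rw [SModEq.zero, smul_eq_mul, Ideal.mul_top]
      exact Ideal.Quotient.eq_zero_iff_mem.1 (hb k)
  refine ⟨φ, h2, fun u hu => ?_, fun u hu => sep _ fun k => (h3 k).1 u hu,
    fun x i j => sub_eq_zero.1 (sep _ fun k => by rw [map_sub, (h3 k).2, sub_self])⟩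
  obtain ⟨c, e⟩ := decomp u
  rw [mem_max_iff] at hu
  rw [e, map_add, map_sum]
  refine n.add_mem ?_ (n.sum_mem fun t _ => ?_)
  · have : φ (C (constantCoeff u)) = algebraMap O B (constantCoeff u) := h1 _
    rw [this]
    exact hO _ hu
  · rw [map_mul]
    exact n.mul_mem_right _ ((h2 t).symm ▸ hred _ _ _ : φ0 (X t) ∈ n)

end Vale.Agent.P022K.RT.Lu
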