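import Vale.Agent.P022K.RT.FrmC
import Vale.Agent.P022K.RT.Down
import Vale.Agent.P022K.RT.Gal

/-!
# P022K, block RT: one finite level of the patched module, abstract form
-/

set_option linter.all false

noncomputable section

namespace Vale.Agent.P022K.RT.Fm

open IsLocalRing Module
open MonoidAlgebra (single single_mul_single one_def)
open Vale.Agent.P022D.L2b (M2)
open Vale.Agent.P022K.RU (Dat Obj Cl Closed Univ Fam Crd map_one' ev_X)
open Vale.Agent.P022K.RT.Ob (Fd Sd Pn Cq)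

/-! ### removal of the signs -/

theorem dsc_ind {R M : Type} [CommRing R] [AddCommGroup M] [Module R M] {a : ℕ}
    (W : Set (Fin a)) (z ι : Fin a → End R M) (Q : Subring (End R M)) (F : Submodule R M)
    (hz : ∀ w ∈ W, z w ∈ Q ∧ ι w ∈ Q)
    (hF : ∀ w ∈ W, ∀ v ∈ F, z w v ∈ F ∧ ι w v ∈ F ∧ z w (z w v) = v)
    (inj : ∀ w ∈ W, Function.Injective (ι w)) (anti : ∀ w ∈ W, ∀ v, z w (ι w v) = -ι w (z w v))
    (com : ∀ w ∈ W, ∀ w' ∈ W, w' ≠ w → Commute (z w') (z w) ∧ Commute (z w') (ι w)) (k : ℕ) :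
    ∃ π : (Fin k → Bool) → End R M, (∀ i, π i ∈ Q) ∧ ∀ v ∈ F,
      (∀ i, π i v ∈ F ∧ ∀ w ∈ W, w.val < k → z w (π i v) = π i v) ∧
        ((∀ i, π i v = 0) → 2 ^ k • v = 0) := by
  induction k with
  | zero => exact ⟨fun _ => 1, fun _ => one_mem _, fun v hv =>
      ⟨fun _ => ⟨hv, fun _ _ h => absurd h (Nat.not_lt_zero _)⟩, fun h => by simpa using h default⟩⟩
  | succ k ih =>
    obtain ⟨π, h1, h2⟩ := ih
    by_cases c : ∃ w ∈ W, w.val = k
    · obtain ⟨w, hw, e⟩ := c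
      refine ⟨fun i => (if i (Fin.last k) then 1 + z w else ι w * (1 - z w)) * π (Fin.init i),
        fun i => mul_mem ?_ (h1 _), fun v hv => ⟨fun i => ?_, fun h => ?_⟩⟩
      · split_ifs
        exacts [add_mem (one_mem _) (hz w hw).1,
          mul_mem (hz w hw).2 (sub_mem (one_mem _) (hz w hw).1)]
      · obtain ⟨k1, k2⟩ := (h2 v hv).1 (Fin.init i)
        obtain ⟨k3, -, k4⟩ := hF w hw _ k1
        beta_reduce
        rw [End.mul_apply]
        generalize π (Fin.init i) v = u at k1 k2 k3 k4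
        have k5 : ∀ w' ∈ W, w'.val < k + 1 → w' ≠ w → w'.val < k := fun w' _ l ne => by
          have : w'.val ≠ k := fun e' => ne (Fin.ext (e'.trans e.symm))
          omega
        split_ifs
        · refine ⟨add_mem k1 k3, fun w' hw' l => ?_⟩
          by_cases ne : w' = w
          · simp [ne, k4, add_comm]
          · rw [← End.mul_apply, (Commute.one_right _).add_right (com w hw w' hw' ne).1,
              End.mul_apply, k2 w' hw' (k5 w' hw' l ne)]
        · refine ⟨(hF w hw _ (sub_mem k1 k3)).2.1, fun w' hw' l => ?_⟩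
          by_cases ne : w' = w
          · simp [ne, k4, anti w hw, sub_eq_neg_add, add_comm]
          · rw [← End.mul_apply, (com w hw w' hw' ne).2.mul_right
              ((Commute.one_right _).sub_right (com w hw w' hw' ne).1), End.mul_apply,
              k2 w' hw' (k5 w' hw' l ne)]
      · rw [pow_succ, mul_smul]
        refine (h2 _ (nsmul_mem hv 2)).2 fun i => ?_
        have e1 := h (Fin.snoc i true)
        have e2 := h (Fin.snoc i false)
        simp only [Fin.snoc_last, Fin.init_snoc, if_true, End.mul_apply, Bool.false_eq_true,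
          if_false, LinearMap.add_apply, End.one_apply, LinearMap.sub_apply,
          map_eq_zero_iff _ (inj w hw)] at e1 e2
        rw [map_nsmul, two_nsmul, ← add_zero (0 : M)]
        nth_rw 1 [← e1]
        rw [← e2]
        abel
    · refine ⟨fun i => π (Fin.init i), fun i => h1 _, fun v hv => ⟨fun i =>
        ⟨((h2 v hv).1 _).1, fun w hw l => ((h2 v hv).1 _).2 w hw ?_⟩, fun h => ?_⟩⟩
      · have : w.val ≠ k := fun e => c ⟨w, hw, e⟩
        omega
      · rw [pow_succ', mul_smul, (h2 v hv).2 fun i => by simpa using h (Fin.snoc i true),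
          smul_zero]

/-! ### the action of the universal ring -/

variable {O F G T : Type} [CommRing O] [Field F] [Group G] [TopologicalSpace G]
  [IsTopologicalGroup G] {S : Dat O F G T} {τ : Type} {g : ℕ} {C : Cl S} {κ : Crd S τ}
  {Φ : Fam S τ g}

/-- the action of the universal ring on `M` -/
structure Ra {B : Type} [CommRing B] (C : Cl S) (Φ : Fam S τ g) (M : Type) [AddCommGroup M]
    [Module O M] [Module B M] [Module (RU.PS O τ g) M] (ρ : G →* M2 B) (α : T → M2 B) : Prop where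
  zero : ∀ u, (∀ (A : Type) [CommRing A] (X : Obj S A), C A X → Φ A X u = 0) → ∀ v : M, u • v = 0
  cst : ∀ (c : O) (v : M), (MvPowerSeries.C c : RU.PS O τ g) • v = c • v
  rho : ∀ x i j f, (∀ (A : Type) [CommRing A] (X : Obj S A), C A X → Φ A X f = X.ρ x i j) →
    ∀ v : M, f • v = ρ x i j • v
  al : ∀ l i j f, (∀ (A : Type) [CommRing A] (X : Obj S A), C A X → Φ A X f = X.α l i j) →
    ∀ v : M, f • v = α l i j • v
  lin : ∀ θ : End O M, (∀ x i j v, θ (ρ x i j • v) = ρ x i j • θ v) →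
    (∀ l i j v, θ (α l i j • v) = α l i j • θ v) → ∀ (f : RU.PS O τ g) v, θ (f • v) = f • θ v
  pt : ∀ (D : Fd S O) x, (∀ c, D.ι c = c) → Pn D C Φ x → ∀ v : M,
    (∀ s, (ρ s).trace • v = (D.ρ s).trace • v) → (ρ S.g0).det • v = (D.ρ S.g0).det • v →
    (∀ l i j, α l i j • v = D.α l i j • v) → ∀ f, f • v = x f • v

theorem ex_ra {B M : Type} [CommRing B] [Algebra O B] [AddCommGroup M] [Module O M] [Module B M]
    [IsScalarTower O B M] {s : F → O} {ρ : G →* M2 B} {α : T → M2 B} (hS : Sd S)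
    (hs : ∀ x, S.red (s x) = x) (n10 : ∃ g, S.rb g 1 0 ≠ 0) (hC : Closed C) (hΦ : Univ C κ Φ)
    (h : Po S s B M ρ α) (k : Cq M ρ α C) : ∃ _ : Module (RU.PS O τ g) M, Ra C Φ M ρ α := by
  rcases subsingleton_or_nontrivial M with _ | _
  · let _ := Module.compHom M (MvPowerSeries.constantCoeff : RU.PS O τ g →+* O)
    exact ⟨inferInstance, by constructor <;> intros <;> exact Subsingleton.elim _ _⟩
  obtain ⟨B', _, _, j, D, e⟩ := h.obj hS hs
  have m := e.md C k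
  obtain ⟨_, a⟩ := Ob.ex_ac hS hC hΦ m
  have io : ∀ c (v : M), D.ι c • v = c • v := fun c v => by rw [e.io, e.act, algebraMap_smul]
  refine ⟨inferInstance, fun u hu v => a.zero hS m hu v, fun c v => by rw [a.cst hS hΦ m, io],
    fun x i j f hf v => ?_, fun l i j f hf v => ?_, fun θ h1 h2 f v => a.lin1 hS hΦ m θ
      (e.lin e θ.toAddMonoidHom (fun c v => by simp) h1 h2) f v, fun D₁ x h1 h2 v h3 h4 h5 f => ?_⟩
  · rw [a.rep hS m (w := MvPolynomial.X (Sum.inl x, i, j)) fun A _ X hX => by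
      rw [hf A X hX, ev_X]; rfl, D.ev_X, ← e.act]
    exact congrArg (· • v) (congrFun (congrFun (e.rho x) i) j)
  · rw [a.rep hS m (w := MvPolynomial.X (Sum.inr (Sum.inl l), i, j)) fun A _ X hX => by
      rw [hf A X hX, ev_X]; rfl, D.ev_X, ← e.act]
    exact congrArg (· • v) (congrFun (congrFun (e.al l) i) j)
  · refine (Ob.rig hS n10 m a h2 (fun _ _ _ _ _ => rfl) D.ι (fun c => by rw [h1])
      (fun b => by rw [D.alg, ← D₁.alg, h1]) v (fun s => ?_) ?_ (fun l i j => ?_) f).trans (io _ _)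
    · rw [io, ← h3, e.rho, ← e.act, AddMonoidHom.map_trace]
    · rw [io, ← h4, e.rho, ← e.act, RingHom.map_det]
      rfl
    · rw [io, ← h5, e.al, ← e.act]
      rfl

/-- universal matrices -/
theorem ex_mat (hΦ : Univ C κ Φ) : ∃ m : G ⊕ T ⊕ T → M2 (RU.PS O τ g), ∀ x (A : Type) [CommRing A]
    (X : Obj S A), C A X → (m x).map (Φ A X) = X.mat x := by
  choose f hf using fun x i j => hΦ.gen (MvPolynomial.X (x, i, j))
  exact ⟨fun x => Matrix.of (f x), fun x A _ X hX => Matrix.ext fun i j =>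
    (hf x i j A X hX).trans (ev_X X x i j)⟩

/-! ### the data of one level -/

/-- **input**: `Y` is the module of Taylor-Wiles level, `χ` the twist, `φ` the frames, `W` the set
of the twist variables, `m w` the quadratic twists -/
structure In (O G T A Y : Type) [CommRing O] [Group G] [Group A] [AddCommGroup Y] [Module O Y]
    (q r a : ℕ) where
  ρ : A × Zr r →* End O Y
  γ : G →* End O Y
  ε : G →* O
  χ : G →* Dn q a
  φ : T → Fin 2 → Fin 2 → Dn q a
  τ : Fin r → G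
  W : Set (Fin a)
  g : Fin a → G
  m : Fin a → End O Y
  σ : Fin a → Dn q a →* ℤˣ
  E : Set G
  I : Set G

variable {A Y : Type} [Group A] [AddCommGroup Y] [Module O Y] {q r a : ℕ}

/-- the hypotheses -/
structure In.Ok (D : In O G T A Y q r a) (S : Dat O F G T) (s : F → O) (C : Cl S) : Prop where
  gm : Gm S s D.γ D.ε
  opn : ∀ v, {x | D.γ x v = v} ∈ nhds (1 : G)
  com : ∀ y x, Commute (D.ρ y) (D.γ x)
  chi : {x | D.χ x = 1} ∈ nhds (1 : G)
  l0 : D.φ S.l0 0 0 = 1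
  cq : ∀ (A : Type) [CommRing A] (X : Obj S A), (∀ x ∈ D.E, (X.ρ x).det = X.ι (D.ε x)) →
    (∀ x ∈ D.I, X.ρ x = 1) → C A X
  ex : ∃ (A : Type) (_ : CommRing A) (X : Obj S A), C A X
  chE : ∀ x ∈ D.E, D.χ x = 1
  chI : ∀ x ∈ D.I, D.χ x = 1 ∧ D.γ x = 1
  tau : ∀ s, D.ε (D.τ s) = 1 ∧ S.rb (D.τ s) = 1 ∧
    ∀ v, tt D.γ D.ε (D.τ s) v = D.ρ (1, zg s) v + D.ρ (1, zg s)⁻¹ v
  tw : ∀ w ∈ D.W, D.χ (D.g w) = dg q w ∧ D.ε (D.g w) = 1 ∧ S.rb (D.g w) = 1
  fr : ∀ w ∉ D.W, ∃ t i j, D.φ t i j = dg q w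
  inj : ∀ w ∈ D.W, Function.Injective (D.m w)
  ma : ∀ w ∈ D.W, ∀ y, Commute (D.ρ (y, 1)) (D.m w)
  md : ∀ w ∈ D.W, ∀ s v, D.ρ (1, zg s) (D.m w v) = D.σ w (D.χ (D.τ s)) • D.m w (D.ρ (1, zg s) v)
  mt : ∀ w ∈ D.W, ∀ x v, tt D.γ D.ε x (D.m w v) = D.σ w (D.χ x) • D.m w (tt D.γ D.ε x v)
  sg : ∀ w ∈ D.W, D.σ w (dg q w) = -1 ∧ (∀ w', w' ≠ w → D.σ w (dg q w') = 1) ∧
    ∀ t i j, D.σ w (D.φ t i j) = 1

/-- the variables along which one descends first -/
def In.V (D : In O G T A Y q r a) : Set (Fin (r + a)) := {s | ∀ w ∈ D.W, s ≠ Fin.natAdd r w}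

/-- **output** -/
structure In.Out [IsLocalRing O] (D : In O G T A Y q r a) (C : Cl S) (Φ : Fam S τ g) (p : ℕ)
    [Module (RU.PS O τ g) (Dn q a → Y)] [IsScalarTower O (RU.PS O τ g) (Dn q a → Y)]
    (l : Zr r →* Zr a) (b : A × Zr (r + a) →* End (RU.PS O τ g) (Dn q a → Y))
    (E : M2 (RU.PS O τ g) →ₐ[RU.PS O τ g] End (RU.PS O τ g) (Dn q a → Y))
    (u : G ⊕ T ⊕ T → M2 (RU.PS O τ g)) (qa qb : Fin (r + a) → RU.PS O τ g)
    (π : (Fin a → Bool) → End (RU.PS O τ g) (Dn q a → Y)) : Prop where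
  act : ∀ y f, b y f = fr D.ρ l q y f
  rep : ∀ x (A : Type) [CommRing A] (X : Obj S A), C A X → (u x).map (Φ A X) = X.mat x
  res : ∀ x i j, S.red (MvPowerSeries.constantCoeff (u (Sum.inl x) i j)) = S.rb x i j
  res' : ∀ t i j, S.red (MvPowerSeries.constantCoeff (u (Sum.inr t) i j)) = (1 : M2 F) i j
  zero : ∀ c, (∀ (A : Type) [CommRing A] (X : Obj S A), C A X → Φ A X c = 0) →
    ∀ f : Dn q a → Y, c • f = 0
  gal : ∀ x f d, E (u (Sum.inl x)) f d = D.γ x (f (d * D.χ x))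
  tr : ∀ x (f : Dn q a → Y) d, ((u (Sum.inl x)).trace • f) d = tt D.γ D.ε x (f (d * D.χ x))
  com : ∀ m y, Commute (E m) (b y)
  mem : ∀ s, S.red (MvPowerSeries.constantCoeff (qa s)) = 0 ∧
    S.red (MvPowerSeries.constantCoeff (qb s)) = 0
  quad : ∀ s, (b (1, zg s) - 1) ^ 2 - qa s • (b (1, zg s) - 1) + qb s • 1 = 0
  cst : ∀ s ∉ D.V, qa s = MvPowerSeries.C (-2)
  l0 : ∀ (Λ : Type) [CommRing Λ] (x : RU.PS O τ g →+* Λ),
    (∀ s, (u (Sum.inl (D.τ s))).map x = 1) → (∀ w ∈ D.W, (u (Sum.inl (D.g w))).map x = 1) →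
    (∀ t, (u (Sum.inr (Sum.inl t))).map x = 1) → (∀ s ∈ D.V, x (qa s) = 0) ∧ ∀ s, x (qb s) = 0
  pt : ∀ (P : Fd S O) x, (∀ c, P.ι c = c) → Pn P C Φ x → (∀ t, P.α t = 1) →
    (P.ρ S.g0).det = D.ε S.g0 → ∀ y, (∀ s, tt D.γ D.ε s y = (P.ρ s).trace • y) →
      ∀ c, c • (fun _ => y : Dn q a → Y) = x c • fun _ => y
  pa : ∀ i y, Commute (π i) (b (y, 1))
  pl : ∀ (K : Type) [Group K] (ψ : K →* A) (N : ℕ → Subgroup K) i j,
    ∀ f ∈ Lv O (NP N p (r + a)) (b.comp (ψ.prodMap (MonoidHom.id _))) j,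
      π i f ∈ Lv O (NP N p (r + a)) (b.comp (ψ.prodMap (MonoidHom.id _))) j
  dsc : ∀ f, (∀ s ∈ D.V, b (1, zg s) f = f) → (∀ s, qb s • f = 0) →
    (∀ i z, b (1, z) (π i f) = π i f) ∧ ((∀ i, π i f = 0) → (2 : O) ^ a • f = 0)

end Vale.Agent.P022K.RT.Fm
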