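import Vale.Agent.P022K.RT.Lva

/-!
# P022K, block RT: one finite level of the patched module, construction
-/

set_option linter.all false

noncomputable section

namespace Vale.Agent.P022K.RT.Fm

open IsLocalRing Module
open MonoidAlgebra (single single_mul_single one_def)
open Vale.Agent.P022D.L2b (M2)
open Vale.Agent.P022K.RU (Dat Obj Cl Closed Univ Fam Crd map_one' ev_X)
open Vale.Agent.P022K.RT.Ob (Fd Sd Pn Cq)

attribute [local instance] gm

theorem quad_of {R M : Type} [CommRing R] [AddCommGroup M] [Module R M] {U : End R M} {t d : R}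
    (h : ∀ v, U (U v) - t • U v + d • v = 0) :
    (U - 1) ^ 2 - (t - 2) • (U - 1) + (1 - t + d) • (1 : End R M) = 0 := by
  ext v
  simp only [sq, End.mul_apply, LinearMap.sub_apply, End.one_apply, map_sub, LinearMap.add_apply,
    LinearMap.smul_apply, LinearMap.zero_apply]
  rw [← h v]
  module

theorem ex_l {q r a : ℕ} (c : Fin r → Dn q a) :
    ∃ l : Zr r →* Zr a, ∀ s, rd q a (l (zg s)) = c s := by
  choose y hy using fun s => rd_surj q a (c s)
  refine ⟨⟨⟨fun z => ∏ s, y s ^ z.toAdd s, by simp⟩, fun z z' => by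
    simp [zpow_add, Finset.prod_mul_distrib]⟩, fun s => ?_⟩
  rw [← hy]
  congr 1
  show ∏ t, y t ^ (zg s).toAdd t = y s
  rw [Finset.prod_eq_single s (fun t _ e => by simp [zg, e]) (by simp)]
  simp [zg]

/-- operators which commute with the group up to signs keep the levels -/
theorem lv_sgn {O R K M : Type} [CommRing O] [IsLocalRing O] [CommRing R] [Algebra O R] [Group K]
    [AddCommGroup M] [Module O M] [Module R M] [IsScalarTower O R M] {r : ℕ}
    {N : ℕ → Subgroup K} (b : K × Zr r →* End R M) (θ : End R M)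
    (h1 : ∀ k, Commute (b (k, 1)) θ)
    (h2 : ∀ s, ∃ c : ℤˣ, ∀ v, b (1, zg s) (θ v) = c • θ (b (1, zg s) v)) (j : ℕ) :
    ∀ v ∈ Lv O (NP N 2 r) b j, θ v ∈ Lv O (NP N 2 r) b j := fun v hv => by
  refine ⟨fun x hx => ?_, fun o ho => by
    rw [← algebraMap_smul R o, ← map_smul, algebraMap_smul, hv.2 o ho, map_zero]⟩
  rcases j with _ | j
  · have := hv.2 1 (by simp)
    rw [one_smul] at this
    simp [this]
  have m : ∀ z z' v, b (1, z * z') v = b (1, z) (b (1, z') v) := fun z z' v => by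
    rw [← End.mul_apply, ← map_mul, Prod.mk_mul_mk, one_mul]
  have key : ∀ z, ∃ c : ℤˣ, ∀ v, b (1, z) (θ v) = c • θ (b (1, z) v) := zg_gen
    { carrier := {z | ∃ c : ℤˣ, ∀ v, b (1, z) (θ v) = c • θ (b (1, z) v)}
      mul_mem' := by
        rintro z z' ⟨c, hc⟩ ⟨c', hc'⟩
        exact ⟨c' * c, fun v => by
          rw [m, m, hc', Units.smul_def, map_zsmul, hc, mul_smul, Units.smul_def c']⟩
      one_mem' := ⟨1, fun v => by rw [Prod.mk_one_one, map_one, one_smul]; rfl⟩
      inv_mem' := by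
        rintro z ⟨c, hc⟩
        refine ⟨c, fun v => ?_⟩
        have e := congrArg (b (1, z⁻¹)) (hc (b (1, z⁻¹) v))
        rw [← m, ← m, inv_mul_cancel, mul_inv_cancel, Prod.mk_one_one, map_one, End.one_apply,
          End.one_apply, Units.smul_def, map_zsmul, ← Units.smul_def] at e
        rw [e, smul_smul, Int.units_mul_self, one_smul] } h2
  obtain ⟨y, hy⟩ := mem_NZ'.1 hx.2
  obtain ⟨c, hc⟩ := key (y ^ 2 ^ j)
  have e : b x = b (x.1, 1) * b (1, y ^ 2 ^ j * y ^ 2 ^ j) := by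
    rw [← map_mul, ← pow_add, ← mul_two, ← pow_succ, ← hy]
    simp
  have e' := hv.1 x hx
  rw [e, End.mul_apply, m] at e' ⊢
  rw [hc, Units.smul_def, map_zsmul, hc, ← Units.smul_def, smul_smul, Int.units_mul_self, one_smul,
    ← End.mul_apply, h1, End.mul_apply, e']

variable {O F G T : Type} [CommRing O] [Field F] [Group G] [TopologicalSpace G]
  [IsTopologicalGroup G] {S : Dat O F G T} {τ : Type} {g : ℕ} {C : Cl S} {κ : Crd S τ}
  {Φ : Fam S τ g} {A Y : Type} [Group A] [AddCommGroup Y] [Module O Y] {q r a : ℕ} {s : F → O}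
  {D : In O G T A Y q r a} {B : Type} [CommRing B] [Algebra O B] [Module B Y]
  [IsScalarTower O B Y] {ρ : G →* M2 B} {E : M2 B →+* End O Y}

theorem tower_gm : IsScalarTower O (MonoidAlgebra B (Dn q a)) (Dn q a → Y) :=
  ⟨fun o u f => by rw [Algebra.smul_def, mul_smul, alg_smul]⟩

attribute [local instance] tower_gm

theorem In.Ok.tt (h : D.Ok S s C) (y : A × Zr r) (x : G) (v : Y) :
    D.ρ y (tt D.γ D.ε x v) = tt D.γ D.ε x (D.ρ y v) :=
  LinearMap.congr_fun ((h.com y x).add_right ((h.com y x⁻¹).smul_right _)) v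

variable (D) in
/-- the diagonal matrix of the renormalisation -/
def In.x (S : Dat O F G T) : Fin 2 → Dn q a := ![1, (D.χ S.g1)⁻¹]

section

variable (h : D.Ok S s C) (μ : Mu S s D.γ D.ε B ρ E)
include μ

theorem tr_smul (x : G) (f : Dn q a → Y) (d : Dn q a) :
    ((tw D.χ (D.x S) ρ x).trace • f) d = tt D.γ D.ε x (f (d * D.χ x)) := by
  rw [tw_trace, single_smul, μ.tr]

theorem det_smul (x : G) (f : Dn q a → Y) (d : Dn q a) :
    ((tw D.χ (D.x S) ρ x).det • f) d = D.ε x • f (d * (D.χ x * D.χ x)) := by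
  rw [tw_det, single_smul, μ.det, algebraMap_smul]

include h

theorem cq_of : Cq (Dn q a → Y) (tw D.χ (D.x S) ρ) (fa D.φ) C := by
  intro A _ X u e1 e2 e3 e4
  refine h.cq A X (fun x hx => ?_) fun x hx => ?_
  · have := e4 ((tw D.χ (D.x S) ρ x).det - algebraMap O _ (D.ε x)) fun v => by
      rw [sub_smul, alg_smul, sub_eq_zero]
      funext d
      rw [det_smul μ, h.chE x hx, mul_one, mul_one]
      rfl
    rw [map_sub, sub_eq_zero, e1, RingHom.map_det, RingHom.mapMatrix_apply, e2] at this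
    exact this
  · rw [← e2, ← map_one' u]
    ext i j
    refine sub_eq_zero.1 ((map_sub u _ _).symm.trans (e4 ((tw D.χ (D.x S) ρ x - 1) i j) fun v => ?_))
    funext d
    rw [tw_sub_smul _ _ _ (h.chI x hx).1]
    exact μ.triv (fun j k => by rw [(h.chI x hx).2]; rfl) i j

theorem fr_lin (l : Zr r →* Zr a) (y : A × Zr (r + a)) (u : MonoidAlgebra B (Dn q a))
    (f : Dn q a → Y) : fr D.ρ l q y (u • f) = u • fr D.ρ l q y f :=
  gm_com (fr D.ρ l q y).toAddMonoidHom (fun b f => funext fun d => μ.com _ (h.tt _) b _)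
    (fun z f => funext fun d => congrArg (fun e => D.ρ _ (f e)) (mul_right_comm _ _ _)) u f

end

variable (D) in
/-- the involutions -/
def In.io (w : Fin a) : End O (Dn q a → Y) where
  toFun f d := D.σ w d • D.m w (f d)
  map_add' f f' := funext fun d => by simp
  map_smul' c f := funext fun d => by
    simp only [Pi.smul_apply, map_smul, RingHom.id_apply]
    exact smul_comm _ _ _

theorem In.io_apply (w : Fin a) (f : Dn q a → Y) (d : Dn q a) :
    D.io w f d = D.σ w d • D.m w (f d) := rfl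

theorem io_ent (hS : Sd S) (h : D.Ok S s C) (μ : Mu S s D.γ D.ε B ρ E)
    (po : Po S s (MonoidAlgebra B (Dn q a)) (Dn q a → Y) (tw D.χ (D.x S) ρ) (fa D.φ)) {w : Fin a}
    (hw : w ∈ D.W) (x : G) (i j : Fin 2) (f : Dn q a → Y) :
    D.io w (tw D.χ (D.x S) ρ x i j • f) = tw D.χ (D.x S) ρ x i j • D.io w f := by
  have nf : Nf S s (Dn q a → Y) (tw D.χ (D.x S) ρ) :=
    ⟨fun x i j => mem_nl.2 (po.res x i j), po.dg, po.nm⟩
  refine rel_ent (θ := (D.io w).toAddMonoidHom) hS.unit h.gm.sec h.gm.n10 nf nf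
    (fun o f => ?_) (fun x f => funext fun d => ?_) (fun f => funext fun d => ?_) x i j f
  · show D.io w (algebraMap O _ o • f) = algebraMap O _ o • D.io w f
    rw [alg_smul, alg_smul, map_smul]
  · show D.io w ((tw D.χ (D.x S) ρ x).trace • f) d = ((tw D.χ (D.x S) ρ x).trace • D.io w f) d
    rw [In.io_apply, tr_smul μ, tr_smul μ, In.io_apply, Units.smul_def (D.σ w (d * _)), map_zsmul,
      h.mt w hw, ← Units.smul_def, smul_smul, map_mul, mul_assoc, Int.units_mul_self, mul_one]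
  · show D.io w ((tw D.χ (D.x S) ρ _).det • f) d = ((tw D.χ (D.x S) ρ _).det • D.io w f) d
    rw [In.io_apply, det_smul μ, det_smul μ, In.io_apply, map_mul, map_mul, Int.units_mul_self,
      mul_one, map_smul, smul_comm]

theorem fa_smul (φ : T → Fin 2 → Fin 2 → Dn q a) (t : T) (i j : Fin 2) (f : Dn q a → Y) :
    (fa φ t : M2 (MonoidAlgebra B (Dn q a))) i j • f =
      (1 : M2 O) i j • f + (tl O Y (φ t i j) f - f) := by
  rw [fa, Matrix.add_apply, Matrix.of_apply, add_smul, sub_smul, one_smul, z_smul,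
    Matrix.one_apply, Matrix.one_apply]
  split_ifs <;> simp <;> rfl

theorem io_tl (w : Fin a) (z : Dn q a) (f : Dn q a → Y) :
    tl O Y z (D.io w f) = D.σ w z • D.io w (tl O Y z f) := funext fun d => by
  rw [tl_apply, In.io_apply, Pi.smul_apply, In.io_apply, tl_apply, smul_smul, map_mul, mul_comm]

/-- **one level** -/
theorem lva [IsDomain O] [IsDiscreteValuationRing O] {p n : ℕ} (hp : p.Prime)
    (hm : (p : O) ∈ maximalIdeal O) (hS : Sd S) (hk : ∀ c, S.red c = 0 ↔ c ∈ maximalIdeal O)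
    (hC : Closed C) (hΦ : Univ C κ Φ) (D : In O G T A Y (p ^ n) r a) (h : D.Ok S s C)
    (h2 : ∀ w ∈ D.W, p = 2) :
    ∃ (_ : Module (RU.PS O τ g) (Dn (p ^ n) a → Y))
      (_ : IsScalarTower O (RU.PS O τ g) (Dn (p ^ n) a → Y)) (l : _) (b : _) (E : _) (u : _)
      (qa qb : _) (π : _), D.Out C Φ p l b E u qa qb π := by
  classical
  obtain ⟨B, _, _, _, _, ρ, E, μ⟩ := gal O F G T Y S s D.γ D.ε hk h.gm
  have : NeZero (p ^ n) := ⟨pow_ne_zero _ hp.ne_zero⟩
  have po := po_fr hp hm (dn_pow (q := p ^ n) (a := a)) (po_mu μ h.gm h.opn) D.χ (D.x S) D.φ h.chi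
    (by simp [In.x]) h.l0
  obtain ⟨_, ra⟩ := ex_ra hS h.gm.sec h.gm.n10 hC hΦ po (cq_of h μ)
  have tw' : IsScalarTower O (RU.PS O τ g) (Dn (p ^ n) a → Y) :=
    ⟨fun o c f => by rw [Algebra.smul_def, mul_smul]; exact ra.cst o _⟩
  obtain ⟨l, hl⟩ := ex_l fun s => D.χ (D.τ s)
  obtain ⟨u, hu⟩ := ex_mat hΦ
  let up : ∀ θ : End O (Dn (p ^ n) a → Y), (∀ (c : MonoidAlgebra B (Dn (p ^ n) a)) f,
      θ (c • f) = c • θ f) → End (RU.PS O τ g) (Dn (p ^ n) a → Y) := fun θ k =>
    ⟨θ.toAddHom, ra.lin θ (fun _ _ _ => k _) fun _ _ _ => k _⟩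
  let b : A × Zr (r + a) →* End (RU.PS O τ g) (Dn (p ^ n) a → Y) :=
    ⟨⟨fun y => up (fr D.ρ l _ y) (fr_lin h μ l y), LinearMap.ext fun f =>
      LinearMap.congr_fun (map_one (fr D.ρ l (p ^ n))) f⟩, fun y y' => LinearMap.ext fun f =>
      LinearMap.congr_fun (map_mul (fr D.ρ l (p ^ n)) y y') f⟩
  have hb : ∀ y f, b y f = fr D.ρ l (p ^ n) y f := fun _ _ => rfl
  let e : Fin 2 → Fin 2 → End (RU.PS O τ g) (Dn (p ^ n) a → Y) := fun i j =>
    up ((eu (D.x S) μ.e i j).restrictScalars O) (eu (D.x S) μ.e i j).map_smul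
  have he0 := μ.eu.eu (D.x S)
  have he : Eu e := ⟨fun i j k => LinearMap.ext fun f => LinearMap.congr_fun (he0.mul i j k) f,
    fun i j k l c => LinearMap.ext fun f => LinearMap.congr_fun (he0.zero i j k l c) f,
    LinearMap.ext fun f => by
      have := LinearMap.congr_fun he0.one f
      rw [Fin.sum_univ_two] at this ⊢
      exact this⟩
  have r1 : ∀ x i j, (u (Sum.inl x) i j, tw D.χ (D.x S) ρ x i j) ∈
      rel _ _ (AddMonoidHom.id (Dn (p ^ n) a → Y)) := fun x i j =>
    ra.rho x i j _ fun A _ X hX => congrFun (congrFun (hu (Sum.inl x) A X hX) i) j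
  have r2 : ∀ t i j (f : Dn (p ^ n) a → Y), u (Sum.inr (Sum.inl t)) i j • f =
      (1 : M2 O) i j • f + (tl O Y (D.φ t i j) f - f) := fun t i j f =>
    (ra.al t i j _ (fun A _ X hX => congrFun (congrFun (hu (Sum.inr (Sum.inl t)) A X hX) i) j)
      f).trans (fa_smul _ t i j f)
  have r3 : ∀ x (f : Dn (p ^ n) a → Y) d, ((u (Sum.inl x)).trace • f) d =
      tt D.γ D.ε x (f (d * D.χ x)) := fun x f d => by
    rw [← tr_smul μ, Matrix.trace_fin_two, Matrix.trace_fin_two]
    exact congrFun (add_mem (r1 x 0 0) (r1 x 1 1) f) d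
  have r4 : ∀ x (f : Dn (p ^ n) a → Y) d, ((u (Sum.inl x)).det • f) d =
      D.ε x • f (d * (D.χ x * D.χ x)) := fun x f d => by
    rw [← det_smul μ, Matrix.det_fin_two, Matrix.det_fin_two]
    exact congrFun (sub_mem (mul_mem (r1 x 0 0) (r1 x 1 1)) (mul_mem (r1 x 0 1) (r1 x 1 0)) f) d
  obtain ⟨A₀, _, X₀, hX₀⟩ := h.ex
  let π₀ := S.red.comp (MvPowerSeries.constantCoeff : RU.PS O τ g →+* O)
  have res : ∀ x, (u x).map π₀ = (X₀.mat x).map X₀.π := fun x => by
    rw [← hu x A₀ X₀ hX₀, Matrix.map_map]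
    exact Matrix.ext fun i j => (hΦ.res A₀ X₀ hX₀ _).symm
  have res1 : ∀ x, (u (Sum.inl x)).map π₀ = S.rb x := fun x => (res _).trans (X₀.res x)
  have res2 : ∀ t, (u (Sum.inr t)).map π₀ = 1 := fun t => (res _).trans (by
    rcases t with t | t
    exacts [X₀.one t, X₀.oneβ t])
  have : Nonempty T := ⟨S.l0⟩
  choose! ft fi fj hf using h.fr
  let qa : Fin (r + a) → RU.PS O τ g := Fin.addCases (fun s => (u (Sum.inl (D.τ s))).trace - 2)
    fun w => if w ∈ D.W then MvPowerSeries.C (-2) else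
      (u (Sum.inr (Sum.inl (ft w))) - 1) (fi w) (fj w)
  let qb : Fin (r + a) → RU.PS O τ g :=
    Fin.addCases (fun s => 1 - (u (Sum.inl (D.τ s))).trace + (u (Sum.inl (D.τ s))).det)
      fun w => if w ∈ D.W then 1 - (u (Sum.inl (D.g w))).det else 0
  have l0 : ∀ (Λ : Type) [CommRing Λ] (x : RU.PS O τ g →+* Λ),
      (∀ s, (u (Sum.inl (D.τ s))).map x = 1) → (∀ w ∈ D.W, (u (Sum.inl (D.g w))).map x = 1) →
      (∀ t, (u (Sum.inr (Sum.inl t))).map x = 1) →
        (∀ s ∈ D.V, x (qa s) = 0) ∧ ∀ s, x (qb s) = 0 := fun Λ _ x k1 k2 k3 => by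
    have t1 : ∀ s, x (u (Sum.inl (D.τ s))).trace = 2 := fun s => by
      rw [AddMonoidHom.map_trace, k1]
      simp
    have t2 : ∀ y, (u y).map x = 1 → x (u y).det = 1 := fun y e => by
      rw [RingHom.map_det, RingHom.mapMatrix_apply, e, Matrix.det_one]
    refine ⟨fun s => Fin.addCases (fun s _ => ?_) (fun w hw => ?_) s,
      fun s => Fin.addCases (fun s => ?_) (fun w => ?_) s⟩
    · simp only [qa, Fin.addCases_left, map_sub, t1, map_ofNat, sub_self]
    · simp only [qa, Fin.addCases_right, if_neg fun c => hw w c rfl, Matrix.sub_apply, map_sub]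
      rw [← Matrix.map_apply (f := x), k3, ← Matrix.map_apply (f := x), map_one', sub_self]
    · simp only [qb, Fin.addCases_left, map_add, map_sub, t1, t2 _ (k1 s), map_one]
      norm_num
    · simp only [qb, Fin.addCases_right]
      split_ifs with c
      · rw [map_sub, t2 _ (k2 w c), map_one, sub_self]
      · exact map_zero x
  have bl : ∀ s f d, b (1, zg (Fin.castAdd a s)) f d = D.ρ (1, zg s) (f (d * D.χ (D.τ s))) :=
    fun s f d => by rw [hb, fr_l, hl]; rfl
  have br : ∀ w f, b (1, zg (Fin.natAdd r w)) f = tl O Y (dg _ w) f := fun w f => by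
    rw [hb, fr_r]
  have bk : ∀ y f d, b (y, 1) f d = D.ρ (y, 1) (f d) := fun y f d => by rw [hb, fr_k]; rfl
  have sq : ∀ w ∈ D.W, ∀ f, b (1, zg (Fin.natAdd r w)) (b (1, zg (Fin.natAdd r w)) f) =
      (u (Sum.inl (D.g w))).det • f := fun w hw f => funext fun d => by
    rw [r4, br, br, (h.tw w hw).1, (h.tw w hw).2.1, one_smul, tl_apply, tl_apply, mul_assoc]
  have bc : ∀ y z, Commute (b y) (b (1, z)) := fun y z =>
    (Commute.prod (Commute.one_right _) (Commute.all _ _) : Commute y (1, z)).map b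
  let io : Fin a → End (RU.PS O τ g) (Dn (p ^ n) a → Y) := fun w => if hw : w ∈ D.W then
    ⟨(D.io w).toAddHom, ra.lin _ (io_ent hS h μ po hw) fun t i j f => by
      rw [fa_smul (O := O), fa_smul (O := O), map_add, map_smul, map_sub, io_tl,
        (h.sg w hw).2.2, one_smul]⟩ else 1
  have hio : ∀ w ∈ D.W, ∀ f, io w f = D.io w f := fun w hw f => by
    simp only [io, dif_pos hw]
    rfl
  have i1 : ∀ w ∈ D.W, ∀ y, Commute (b (y, 1)) (io w) := fun w hw y =>
    LinearMap.ext fun f => funext fun d => by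
      rw [End.mul_apply, End.mul_apply, bk, hio w hw, hio w hw, In.io_apply, In.io_apply, bk,
        Units.smul_def, map_zsmul, ← End.mul_apply, h.ma w hw, End.mul_apply, Units.smul_def]
  have i2 : ∀ w ∈ D.W, ∀ s f, b (1, zg (Fin.castAdd a s)) (io w f) =
      io w (b (1, zg (Fin.castAdd a s)) f) := fun w hw s f => funext fun d => by
    rw [bl, hio w hw, hio w hw, In.io_apply, In.io_apply, bl, Units.smul_def, map_zsmul,
      h.md w hw, ← Units.smul_def, smul_smul, map_mul, mul_assoc, Int.units_mul_self, mul_one]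
  have i3 : ∀ w ∈ D.W, ∀ s f, b (1, zg (Fin.natAdd r s)) (io w f) =
      D.σ w (dg _ s) • io w (b (1, zg (Fin.natAdd r s)) f) := fun w hw s f => by
    rw [br, br, hio w hw, hio w hw, io_tl]
  let Q : Subring (End (RU.PS O τ g) (Dn (p ^ n) a → Y)) :=
    { carrier := {θ | (∀ y, Commute θ (b (y, 1))) ∧ ∀ (K : Type) [Group K] (ψ : K →* A)
        (N : ℕ → Subgroup K) j,
        ∀ f ∈ Lv O (NP N p (r + a)) (b.comp (ψ.prodMap (MonoidHom.id _))) j,
          θ f ∈ Lv O (NP N p (r + a)) (b.comp (ψ.prodMap (MonoidHom.id _))) j}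
      mul_mem' := fun x y => ⟨fun z => (x.1 z).mul_left (y.1 z),
        fun K _ ψ N j f hf => x.2 K ψ N j _ (y.2 K ψ N j f hf)⟩
      one_mem' := ⟨fun _ => Commute.one_left _, fun _ _ _ _ _ _ hf => hf⟩
      add_mem' := fun x y => ⟨fun z => (x.1 z).add_left (y.1 z),
        fun K _ ψ N j f hf => add_mem (x.2 K ψ N j f hf) (y.2 K ψ N j f hf)⟩
      zero_mem' := ⟨fun _ => Commute.zero_left _, fun _ _ _ _ _ _ _ => zero_mem _⟩
      neg_mem' := fun x => ⟨fun z => (x.1 z).neg_left,
        fun K _ ψ N j f hf => neg_mem (x.2 K ψ N j f hf)⟩ }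
  let F₀ : Submodule (RU.PS O τ g) (Dn (p ^ n) a → Y) :=
    { carrier := {f | (∀ s ∈ D.V, b (1, zg s) f = f) ∧ ∀ s, qb s • f = 0}
      add_mem' := fun x y => ⟨fun s hs => by rw [map_add, x.1 s hs, y.1 s hs],
        fun s => by rw [smul_add, x.2, y.2, add_zero]⟩
      zero_mem' := ⟨fun _ _ => map_zero _, fun _ => smul_zero _⟩
      smul_mem' := fun c f x => ⟨fun s hs => by rw [map_smul, x.1 s hs],
        fun s => by rw [smul_comm, x.2, smul_zero]⟩ }
  obtain ⟨π, p1, p2⟩ := dsc_ind D.W (fun w => b (1, zg (Fin.natAdd r w))) io Q F₀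
    (fun w hw => by
      obtain rfl := h2 w hw
      exact ⟨⟨fun y => (bc _ _).symm, fun K _ ψ N j =>
          lv_sgn (b.comp (ψ.prodMap (MonoidHom.id _))) _ (fun k => bc _ _) (fun s => ⟨1, fun f => by
            rw [one_smul]; exact LinearMap.congr_fun (bc (ψ 1, zg s) _) f⟩) j⟩,
        fun y => (i1 w hw y).symm, fun K _ ψ N j =>
          lv_sgn (b.comp (ψ.prodMap (MonoidHom.id _))) _ (fun k => i1 w hw (ψ k)) (fun s => by
          show ∃ c : ℤˣ, ∀ v, b (ψ 1, zg s) (io w v) = c • io w (b (ψ 1, zg s) v)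
          rw [map_one]
          exact Fin.addCases (fun s => ⟨1, fun f => (i2 w hw s f).trans (one_smul _ _).symm⟩)
            (fun s => ⟨_, i3 w hw s⟩) s) j⟩)
    (fun w hw f x => ⟨⟨fun s hs => by rw [← End.mul_apply, bc, End.mul_apply, x.1 s hs],
        fun s => by rw [← map_smul, x.2, map_zero]⟩,
      ⟨fun s => Fin.addCases (motive := fun s => s ∈ D.V → b (1, zg s) (io w f) = io w f)
        (fun s hs => by rw [i2 w hw, x.1 _ hs]) (fun s hs => by
          rw [i3 w hw, x.1 _ hs, (h.sg w hw).2.1 s fun c => hs w hw (c ▸ rfl), one_smul]) s,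
        fun s => by rw [← map_smul, x.2, map_zero]⟩, by
      have := x.2 (Fin.natAdd r w)
      simp only [qb, Fin.addCases_right, if_pos hw, sub_smul, one_smul] at this
      rw [sq w hw, ← sub_eq_zero.1 this]⟩)
    (fun w hw f f' c => funext fun d => h.inj w hw (smul_left_cancel (D.σ w d)
      (by simpa only [hio w hw, In.io_apply] using congrFun c d)))
    (fun w hw f => by rw [i3 w hw, (h.sg w hw).1, Units.neg_smul, one_smul])
    (fun w hw w' _ c => ⟨bc _ _, LinearMap.ext fun f => by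
      rw [End.mul_apply, End.mul_apply, i3 w hw, (h.sg w hw).2.1 w' c, one_smul]⟩) a
  refine ⟨_, tw', l, b, he.hom, u, qa, qb, π, hb, hu, fun x i j => congrFun (congrFun (res1 x) i) j,
    fun t i j => congrFun (congrFun (res2 t) i) j, ra.zero, fun x f d => ?_, r3, fun m y => ?_,
    fun s => ?_, fun s => ?_, fun s hs => ?_, l0, fun P x k1 k2 k3 k4 y k5 c => ?_,
    fun i => (p1 i).1, fun K _ ψ N i => (p1 i).2 K ψ N, fun f k1 k2 => ⟨fun i z => ?_, fun k => ?_⟩⟩
  · rw [← μ.act, ← μ.eu.hom_tw D.χ (D.x S)]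
    simp only [Eu.hom_apply, LinearMap.sum_apply, LinearMap.smul_apply]
    exact congrFun (Finset.sum_congr rfl fun i _ => Finset.sum_congr rfl fun j _ => r1 x i j _) d
  · refine Commute.sum_left _ _ _ fun i _ => Commute.sum_left _ _ _ fun j _ =>
      Commute.smul_left (LinearMap.ext fun f => funext fun d => ?_) _
    show eu (D.x S) μ.e i j (fr D.ρ l _ y f) d = D.ρ _ (eu (D.x S) μ.e i j f _)
    rw [eu_apply, eu_apply, mul_right_comm]
    exact (μ.comE _ (fun x => LinearMap.congr_fun (h.com _ x)) _ _).symm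
  · obtain ⟨k1, k2⟩ := l0 F π₀ (fun s => (res1 _).trans (h.tau s).2.1)
      (fun w hw => (res1 _).trans (h.tw w hw).2.2) fun t => res2 _
    refine ⟨?_, k2 s⟩
    by_cases c : s ∈ D.V
    · exact k1 s c
    · simp only [In.V, Set.mem_setOf_eq, not_forall, not_not] at c
      obtain ⟨w, hw, rfl⟩ := c
      obtain rfl := h2 w hw
      simp only [qa, Fin.addCases_right, if_pos hw, MvPowerSeries.constantCoeff_C]
      exact (hk _).2 (neg_mem hm)
  · refine Fin.addCases (fun s => ?_) (fun w => ?_) s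
    · simp only [qa, qb, Fin.addCases_left]
      refine quad_of fun f => funext fun d => ?_
      rw [Pi.add_apply, Pi.sub_apply, r3, r4, bl, bl, (h.tau s).2.2, (h.tau s).1, one_smul,
        mul_assoc, ← End.mul_apply (D.ρ (1, zg s)⁻¹), ← map_mul D.ρ, inv_mul_cancel, map_one,
        End.one_apply, Pi.zero_apply]
      abel
    · simp only [qa, qb, Fin.addCases_right]
      split_ifs with hw
      · have := quad_of (t := 0) (d := -(u (Sum.inl (D.g w))).det) fun f => by
          rw [sq w hw, zero_smul, sub_zero, neg_smul, add_neg_cancel]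
        rw [map_neg, map_ofNat]
        simpa only [zero_sub, sub_zero, ← sub_eq_add_neg] using this
      · rw [zero_smul, add_zero, pow_two, sub_eq_zero]
        refine LinearMap.ext fun f => ?_
        rw [End.mul_apply, LinearMap.smul_apply, Matrix.sub_apply, sub_smul, r2, hf w hw,
          LinearMap.sub_apply, br, End.one_apply, Matrix.one_apply, Matrix.one_apply]
        split_ifs <;> simp
  · simp only [In.V, Set.mem_setOf_eq, not_forall, not_not] at hs
    obtain ⟨w, hw, rfl⟩ := hs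
    simp only [qa, Fin.addCases_right, if_pos hw]
  · refine ra.pt P x k1 k2 _ (fun s => funext fun d => ?_) (funext fun d => ?_)
      (fun t i j => ?_) c
    · rw [tr_smul μ, k5]
      rfl
    · rw [det_smul μ, k4]
      rfl
    · rw [fa_smul (O := O), k3]
      exact add_eq_left.2 (sub_self _)
  · obtain ⟨k3, k4⟩ := (p2 f ⟨k1, k2⟩).1 i
    refine zg_gen ((MulAction.stabilizer (End (RU.PS O τ g) (Dn (p ^ n) a → Y))ˣ (π i f)).comap
      ((b.comp (MonoidHom.inr _ _)).toHomUnits)) (fun s => ?_) z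
    by_cases c : s ∈ D.V
    · exact k3.1 s c
    · simp only [In.V, Set.mem_setOf_eq, not_forall, not_not] at c
      obtain ⟨w, hw, rfl⟩ := c
      exact k4 w hw w.2
  · rw [← (p2 f ⟨k1, k2⟩).2 k, ← Nat.cast_smul_eq_nsmul O, Nat.cast_pow, Nat.cast_ofNat]

end Vale.Agent.P022K.RT.Fm
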