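import Vale.Agent.P022K.RT.Lvs

/-!
# P022K, block RT, row LVL: level zero inside a finite level, freeness
-/

set_option linter.all false

noncomputable section

namespace Vale.Agent.P022K.RT.Tl

open IsLocalRing Module Fm
open Vale.Agent.P022 Vale.Agent.P022.C
open Vale.Agent.P022K.Top (Si cy Bad)
open Vale.Agent.P022K.Sh (Fv)
open Vale.Agent.P022K.WB (G2 Kn)

variable {p : ℕ} [Fact p.Prime] {O : Type} [CommRing O] [IsDomain O] [IsDiscreteValuationRing O]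
  [Algebra ℤ_[p] O] {Z : Si p O}

/-- the groups at `p` inside `Gr` -/
def ps (h : Z.Ok) : (Z.J → G2 p) →* Gr Z := (xp h).codRestrict _ fun y => xp_mem h fun k =>
  Subgroup.subset_closure (.inr (Set.mem_iUnion.2 ⟨k, y k, rfl⟩))

theorem ps_single (h : Z.Ok) (k : Z.J) (g : G2 p) :
    (ps h (Pi.mulSingle k g) : Z.G) = (Z.x k).ι g := xp_single h k g

theorem nt_tg (h : Z.Ok) {Q : Set Z.I} (hQ : Q.Finite) (s : Z.H) : Nt Q (Z.tg s) :=
  ⟨fun _ hv => h.ok1.tg_mem hv s, fun s' _ hv => h.ok1.tg_tg hQ hv s s', fun i _ => cm_tg h i s⟩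

namespace TW

variable {t : Z.H → O} {r n : ℕ} (D : TW Z t r n) (hp : (p : O) ∈ maximalIdeal O)
  (p0 : (p : O) ≠ 0)

/-- the comparison of the levels -/
def eE : D.Yd ≃ₗ[O] Ym Z t :=
  LinearEquiv.ofBijective (D.E.restrict (p := D.Yd) (q := Ym Z t) (D.bij hp p0).mapsTo)
    ⟨fun v w e => Subtype.ext ((D.bij hp p0).injOn v.2 w.2 (congrArg Subtype.val e)), fun z =>
      let ⟨v, h1, h2⟩ := (D.bij hp p0).surjOn z.2
      ⟨⟨v, h1⟩, Subtype.ext h2⟩⟩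

/-- level zero inside the Taylor-Wiles level -/
def ie : Ym Z t →ₗ[O] D.Y :=
  (Submodule.inclusion (inf_le_left : D.Yd ≤ D.Y)).comp (D.eE hp p0).symm.toLinearMap

theorem ie_mem (z : Ym Z t) : (D.ie hp p0 z).1 ∈ D.Yd := ((D.eE hp p0).symm z).2

theorem E_ie (z : Ym Z t) : D.E (D.ie hp p0 z) = z :=
  congrArg Subtype.val ((D.eE hp p0).apply_symm_apply z)

theorem ie_E {v : Z.M} (hv : v ∈ D.Yd) : ∃ z : Ym Z t, z.1 = D.E v ∧ (D.ie hp p0 z).1 = v :=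
  ⟨D.eE hp p0 ⟨v, hv⟩, rfl, congrArg Subtype.val ((D.eE hp p0).symm_apply_apply ⟨v, hv⟩)⟩

theorem ie_nat {θ : End O Z.M} (h : Nt (Set.range D.Q) θ) (z : Ym Z t) :
    ∃ z' : Ym Z t, z'.1 = θ z ∧ (D.ie hp p0 z').1 = θ (D.ie hp p0 z) := by
  obtain ⟨h1, h2⟩ := D.mem_Yd.1 (D.ie_mem hp p0 z)
  obtain ⟨z', e1, e2⟩ := D.ie_E hp p0 (D.mem_Yd.2 ⟨D.nat_Y h h1, fun s =>
    (LinearMap.congr_fun (h.cm _ ⟨s, rfl⟩ _).eq _).symm.trans (congrArg θ (h2 s))⟩)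
  refine ⟨z', e1.trans ?_, e2⟩
  rw [← D.E_ie hp p0 z]
  exact (LinearMap.congr_fun (D.com_E fun s => h.cm _ ⟨s, rfl⟩).eq _).symm

theorem ie_a (y : Gr Z) (z : Ym Z t) :
    ∃ z' : Ym Z t, z'.1 = Z.a y z ∧ D.ie hp p0 z' = D.ro (y, 1) (D.ie hp p0 z) :=
  (D.ie_nat hp p0 (nt_gr D.ok _ y.2) z).imp fun _ e =>
    ⟨e.1, Subtype.ext (by rw [ro_apply, ka_l, e.2])⟩

theorem ie_g (s : Z.H) (z : Ym Z t) :
    ∃ z' : Ym Z t, z'.1 = Z.g s z ∧ D.ie hp p0 z' = D.ga s (D.ie hp p0 z) :=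
  (D.ie_nat hp p0 ((nts D.ok (Set.finite_range _)).gal s) z).imp fun _ e => ⟨e.1, Subtype.ext e.2⟩

theorem ie_tg (s : Z.H) (z : Ym Z t) :
    ∃ z' : Ym Z t, z'.1 = Z.tg s z ∧ D.ie hp p0 z' = tt D.ga (cyH Z) s (D.ie hp p0 z) :=
  (D.ie_nat hp p0 (nt_tg D.ok (Set.finite_range _) s) z).imp fun _ e => ⟨e.1, Subtype.ext e.2⟩

theorem ie_eg {t' : Z.H → O} {z : Ym Z t} (hz : z.1 ∈ Z.Eg t') (s : Z.H) :
    tt D.ga (cyH Z) s (D.ie hp p0 z) = t' s • D.ie hp p0 z := by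
  obtain ⟨z', e1, e2⟩ := D.ie_tg hp p0 s z
  rw [← e2, ← map_smul]
  exact congrArg _ (Subtype.ext (e1.trans (Top.Si.mem_Eg.1 hz s)))

theorem ro_ie (w : Zr r) (z : Ym Z t) : D.ro (1, w) (D.ie hp p0 z) = D.ie hp p0 z :=
  Subtype.ext (zg_gen ((stb Z.a (D.ie hp p0 z).1).comap (D.ka.comp (MonoidHom.inr _ _)))
    (fun s => (congrArg (Z.a · _) (D.ka_zg s)).trans ((D.mem_Yd.1 (D.ie_mem hp p0 z)).2 s)) w)

/-- constant functions -/
def kc (X : Type) : Ym Z t →ₗ[O] X → D.Y := LinearMap.pi fun _ => D.ie hp p0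

theorem kc_apply (X : Type) (z : Ym Z t) : D.kc hp p0 X z = fun _ => D.ie hp p0 z := rfl

/-- evaluation -/
def ev (X : Type) : (X → D.Y) →ₗ[O] X → Z.M := D.Y.subtype.compLeft X

theorem ev_apply {X : Type} (f : X → D.Y) (x : X) : D.ev X f x = f x := rfl

theorem ev_inj (X : Type) : Function.Injective (D.ev X) := fun _ _ e =>
  funext fun x => Subtype.ext (congrFun e x)

/-- lowering -/
def lw {X : Type} (x : X) : (X → D.Y) →ₗ[O] Z.M :=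
  D.E ∘ₗ D.Y.subtype ∘ₗ LinearMap.proj x

theorem lw_apply {X : Type} (x : X) (f : X → D.Y) : D.lw x f = D.E (f x) := rfl

theorem lw_kc {X : Type} (x : X) (z : Ym Z t) : D.lw x (D.kc hp p0 X z) = z := D.E_ie hp p0 z

theorem lw_nat {X : Type} (x : X) {θ : End O Z.M} (h : Nt (Set.range D.Q) θ) {f f' : X → D.Y}
    (e : (f' x).1 = θ (f x)) : D.lw x f' = θ (D.lw x f) := by
  rw [lw_apply, e]
  exact (LinearMap.congr_fun (D.com_E fun s => h.cm _ ⟨s, rfl⟩).eq _).symm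

variable {D} {q a : ℕ} {R : Type} [CommRing R] [Module R (Dn q a → D.Y)] {l : Zr r →* Zr a}
  {b : Gr Z × Zr (r + a) →* End R (Dn q a → D.Y)} (act : ∀ y f, b y f = Fm.fr D.ro l q y f)
include act

theorem b_l (y : Gr Z) (f : Dn q a → D.Y) (d : Dn q a) : b (y, 1) f d = D.ro (y, 1) (f d) := by
  rw [act, fr_k, pw_apply]

theorem b_l' (y : Gr Z) (f : Dn q a → D.Y) (d : Dn q a) : (b (y, 1) f d).1 = Z.a y (f d) := by
  rw [b_l act, ro_apply, ka_l]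

theorem lwa (y : Gr Z) (f : Dn q a → D.Y) : D.lw 1 (b (y, 1) f) = Z.a y (D.lw 1 f) :=
  D.lw_nat 1 (nt_gr D.ok _ y.2) (b_l' act y f 1)

theorem ka' (y : Gr Z) (z : Ym Z t) :
    ∃ z' : Ym Z t, z'.1 = Z.a y z ∧ D.kc hp p0 _ z' = b (y, 1) (D.kc hp p0 _ z) :=
  (D.ie_a hp p0 y z).imp fun _ e => ⟨e.1, funext fun d => e.2.trans (b_l act y (fun _ => _) d).symm⟩

theorem b_tl (d : Dn q a) : ∃ z, ∀ f x, b (1, z) f x = f (x * d) := by
  obtain ⟨z, rfl⟩ := rd_surj q a d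
  obtain ⟨⟨y, w⟩, e⟩ := sp_surj (K := Gr Z) l (1, z)
  obtain rfl : y = 1 := congrArg (·.1.1) e
  exact ⟨w, fun f x => by rw [act, Fm.fr, MonoidHom.comp_apply, e, co_apply, map_one]; rfl⟩

theorem krg (f : Dn q a → D.Y) : (∃ z, D.kc hp p0 _ z = f) ↔ ∀ z, b (1, z) f = f := by
  constructor
  · rintro ⟨z, rfl⟩ w
    rw [act]
    exact funext fun _ => D.ro_ie hp p0 _ z
  · intro h
    have c := const_of (R := O) (f := f) fun s => by rw [← fr_r D.ro l, ← act, h]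
    obtain ⟨z, -, e⟩ := D.ie_E hp p0 (D.mem_Yd.2 ⟨(f 1).2, fun s => by
      have := congrFun (h (zg (Fin.castAdd a s))) 1
      rw [act, fr_l, End.mul_apply, pw_apply, tl_apply, c] at this
      rw [← D.ka_zg]
      exact congrArg Subtype.val this⟩)
    exact ⟨z, funext fun d => (Subtype.ext e).trans (c d).symm⟩

end TW

namespace TW

variable {t : Z.H → O} {r n : ℕ} {D : TW Z t r n} {a : ℕ} {R : Type} [CommRing R] [Algebra O R]
  [Module R (Dn (p ^ n) a → D.Y)] [IsScalarTower O R (Dn (p ^ n) a → D.Y)] {l : Zr r →* Zr a}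
  {b : Gr Z × Zr (r + a) →* End R (Dn (p ^ n) a → D.Y)}
  (act : ∀ y f, b y f = Fm.fr D.ro l (p ^ n) y f) (hZ : Z.Ok) {b0 : ℕ} (o : D.Out 0 b0)
include act o

theorem fre_b {j : ℕ} (hj : j ≤ n) : Fre O (NP (NG p 0 Z.J) p (r + a)) (b.comp
    (((ps hZ).comp ((Kn p (0 + 2)).subtype.compLeft Z.J)).prodMap (MonoidHom.id _))) b0 j := by
  refine fre_equiv (ρ := Fm.fr (D.ro.comp (((ps hZ).comp
    ((Kn p (0 + 2)).subtype.compLeft Z.J)).prodMap (MonoidHom.id _))) l (p ^ n))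
    (LinearEquiv.refl O _) (fun g v => ?_)
    (fre_fr l (Fact.out : p.Prime).ne_zero hj ((o.fre O D.Y _ D.Y.subtype
      ⟨D.Y.injective_subtype, fun v => ⟨fun ⟨y, e⟩ => e ▸ y.2, fun hv => ⟨⟨v, hv⟩, rfl⟩⟩,
        fun _ _ => rfl⟩).1 j hj))
  exact (act (_, g.2) v).symm

theorem sm_b (f : Dn (p ^ n) a → D.Y) : ∃ j, f ∈ Lv O (NP (NG p 0 Z.J) p (r + a)) (b.comp
    (((ps hZ).comp ((Kn p (0 + 2)).subtype.compLeft Z.J)).prodMap (MonoidHom.id _))) j := by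
  have : NeZero (p ^ n) := ⟨pow_ne_zero _ (Fact.out : p.Prime).ne_zero⟩
  choose j hj using (o.fre O D.Y (D.ro.comp (((ps hZ).comp ((Kn p (0 + 2)).subtype.compLeft
    Z.J)).prodMap (MonoidHom.id _))) D.Y.subtype ⟨D.Y.injective_subtype,
      fun v => ⟨fun ⟨y, e⟩ => e ▸ y.2, fun hv => ⟨⟨v, hv⟩, rfl⟩⟩, fun _ _ => rfl⟩).2
  obtain ⟨k, hk⟩ := (Set.finite_range fun d => j (f d)).bddAbove
  have le : ∀ d, j (f d) ≤ max n k := fun d => (hk ⟨d, rfl⟩).trans (le_max_right _ _)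
  have := (mem_lv_fr (O := O) l (p ^ n) (j := max n k) (f := f)).2 ⟨fun d => ⟨fun g hg =>
    (hj (f d)).1 g ((unf_GP (Fintype.equivFin (Z.J × Fin 3)).symm r).anti (le d) hg),
      fun c hc => (hj (f d)).2 c (Ideal.pow_le_pow_right (le d) hc)⟩, fun z hz d => by
        rw [rd_eq_one.2 (NZ_anti p a (le_max_left _ _) hz), mul_one]⟩
  exact ⟨_, fun g hg => (act (_, g.2) f).trans (this.1 g hg), this.2⟩

end TW

end Vale.Agent.P022K.RT.Tl
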