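import Vale.Agent.P022K.RT.St3

/-!
# P022K, block RT: the modules of finite level from which the patched module is built
-/

set_option linter.all false

noncomputable section

namespace Vale.Agent.P022K.RT

open IsLocalRing Filter
open Vale.Agent.P022 Vale.Agent.P022.C
open Vale.Agent.P022D.L2b (M2)
open Vale.Agent.P022D.Core (PS)
open Vale.Agent.P022D.PA (Base)
open Vale.Agent.P022K.WB (G2 Kn)
open Vale.Agent.P022K.Top (Si cy)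
open Vale.Agent.P022K.Sh (Fv)

variable {p : ℕ} [Fact p.Prime] {O : Type} [CommRing O] [IsLocalRing O] [Algebra ℤ_[p] O]
  {Z : Si p O} {F : Type} [Field F] (C : Fr Z F)

/-- **the finite levels**: data -/
structure Pf : Type 1 where
  σ : Type
  [fσ : Fintype σ]
  e : (Σ t, C.τ t) ↪ σ
  J1 : Ideal (PS O σ)
  n1 : ℕ
  r : ℕ
  b : ℕ
  ψ : (Z.J → G2 p) →* Gr Z
  Y : ℕ → Mo O (PS O σ) (Gr Z) C.T r
  X : ℕ → Type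
  ev : ∀ n, (Y n).Y →ₗ[O] X n → Z.M
  lw : ∀ n, (Y n).Y →ₗ[O] Z.M
  qa : ℕ → Fin r → PS O σ
  qb : ℕ → Fin r → PS O σ
  S : Set (Fin r)
  κ : ∀ n, Ym Z C.t →ₗ[O] (Y n).Y
  tr : ℕ → Z.H → PS O σ

attribute [instance] Pf.fσ

namespace Pf

variable {C} (D : Pf C)

/-- the data with a module `M` in the place of the limit -/
@[reducible] def mk' (M : Mo O (PS O D.σ) (Gr Z) C.T D.r) (U : Ultrafilter ℕ)
    (Rp : M.Y → (∀ n, (D.Y n).Y) → Prop) (qa qb : Fin D.r → PS O D.σ) (κ : Ym Z C.t →ₗ[O] M.Y)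
    (tr : Z.H → PS O D.σ) : Pd C :=
  { σ := D.σ, e := D.e, J1 := D.J1, n1 := D.n1, r := D.r, b := D.b, ψ := D.ψ, M := M, Y := D.Y,
    U := U, Rp := Rp, X := D.X, ev := D.ev, lw := D.lw, qa := qa, qb := qb, S := D.S, κ := κ,
    tr := tr }

/-- the level `n` -/
@[reducible] def lv (n : ℕ) : Pd C :=
  D.mk' (D.Y n) (pure 0) (fun _ _ => True) (D.qa n) (D.qb n) (D.κ n) (D.tr n)

/-- **the finite levels**: properties -/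
structure Ok [Algebra O F] : Prop where
  aux : Aux D.e D.J1 D.n1
  num : 3 * Fintype.card C.T + Fintype.card Z.J + D.n1 ≤ D.r
  psi : ∀ k g, (D.ψ (Pi.mulSingle k g) : Z.G) = (Z.x k).ι g
  fre : ∀ j, ∀ᶠ n in atTop, Fre O (D.lv n).N ((D.lv n).rho (D.Y n)) D.b j
  sm : ∀ n v, ∃ j, v ∈ Lv O (D.lv n).N ((D.lv n).rho (D.Y n)) j
  mem : ∀ n s, D.qa n s ∈ maximalIdeal (PS O D.σ) ∧ D.qb n s ∈ maximalIdeal (PS O D.σ)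
  quad : ∀ n s, ((D.Y n).a (1, zg s) - 1) ^ 2 - D.qa n s • ((D.Y n).a (1, zg s) - 1) +
    D.qb n s • 1 = 0
  cst : ∀ s ∉ D.S, ∃ c, ∀ n, D.qa n s = MvPowerSeries.C c
  kil : ∀ n v, v ∈ Kl (D.Y n).Y (D.lv n).I0
  inj : ∀ n, Function.Injective (D.ev n)
  eva : ∀ n (y : Gr Z) v ξ, D.ev n ((D.Y n).a (y, 1) v) ξ = Z.a y (D.ev n v ξ)
  evg : ∀ n t s v ξ, D.ev n ((D.Y n).E t ((D.lv n).fm t s) v) ξ = Z.g (C.j t s) (D.ev n v ξ)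
  evl : ∀ n t (s : Z.H), ∃ (m : M2 (PS O D.σ)) (z : Zr D.r), (D.lv n).Lf s m ∧
    ∀ v ξ, D.ev n ((D.Y n).E t m ((D.Y n).a (1, z) v)) ξ = Z.g s (D.ev n v ξ)
  lev : ∀ n, ∃ (Q : Set Z.I) (U' : Subgroup Z.G), Q.Finite ∧ Z.Sl U' ∧ Z.aw Q ≤ U' ∧
    ∀ v ξ, D.ev n v ξ ∈ Fv Z.a (U' ⊓ ⨅ k, (Z.x k).π.ker) ⊓ Mt Z C.t
  lwa : ∀ n (y : Gr Z) v, D.lw n ((D.Y n).a (y, 1) v) = Z.a y (D.lw n v)
  lwg : ∀ n t s v, D.lw n ((D.Y n).E t ((D.lv n).fm t s) v) = Z.g (C.j t s) (D.lw n v)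
  lwk : ∀ n z, D.lw n (D.κ n z) = z
  krg : ∀ n v, (∃ z, D.κ n z = v) ↔ ∀ z, (D.Y n).a (1, z) v = v
  ka : ∀ n (y : Gr Z) z, ∃ z' : Ym Z C.t, z'.1 = Z.a y z.1 ∧
    D.κ n z' = (D.Y n).a (y, 1) (D.κ n z)
  kg : ∀ n t s z, ∃ z' : Ym Z C.t, z'.1 = Z.g (C.j t s) z.1 ∧
    D.κ n z' = (D.Y n).E t ((D.lv n).fm t s) (D.κ n z)
  kl : ∀ n t (s : Z.H), ∃ m : M2 (PS O D.σ), (D.lv n).Lf s m ∧
    ∀ z, ∃ z' : Ym Z C.t, z'.1 = Z.g s z.1 ∧ D.κ n z' = (D.Y n).E t m (D.κ n z)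
  kt : ∀ n s z, ∃ z' : Ym Z C.t, z'.1 = Z.tg s z.1 ∧ D.κ n z' = D.tr n s • D.κ n z
  trm : ∀ n s, algebraMap O F (MvPowerSeries.constantCoeff (D.tr n s)) = (C.r s).trace
  dsc : ∃ (Λ : Type) (_ : Finite Λ) (π : ∀ n, Λ → Module.End (PS O D.σ) (D.Y n).Y) (c : O),
    c ≠ 0 ∧ (∀ n i y, Commute (π n i) ((D.Y n).a (y, 1))) ∧
    (∀ j, ∃ j', ∀ n i, ∀ v ∈ Lv O (D.lv n).N ((D.lv n).rho (D.Y n)) j,
      π n i v ∈ Lv O (D.lv n).N ((D.lv n).rho (D.Y n)) j') ∧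
    ∀ n, ∀ v ∈ (D.lv n).FS, (∀ s, D.qb n s • v = 0) →
      (∀ i z, (D.Y n).a (1, z) (π n i v) = π n i v) ∧ ((∀ i, π n i v = 0) → c • v = 0)
  gpt : ∀ (Λ : Type) [CommRing Λ] [Base Λ] [Algebra O Λ] (ρ : Z.H →* M2 Λ),
    LiftC C.r C.s (fun s => cy p O s.1) ρ → Ub Z ρ → ∀ n, ∃ φ, (D.lv n).Gp φ ρ
  gps : ∀ ρ : Z.H →* M2 O, LiftC C.r C.s (fun s => cy p O s.1) ρ → Ub Z ρ → ∀ n, ∃ φ,
    (D.lv n).Gp φ ρ ∧ ∀ z : Ym Z C.t, z.1 ∈ Z.Eg (fun s => (ρ s).trace) →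
      D.κ n z ∈ Kl (D.Y n).Y (RingHom.ker φ)

end Pf

end Vale.Agent.P022K.RT
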