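import Vale.Agent.P022K.RT.UltA
import Vale.Agent.P022K.RT.UltD
import Vale.Agent.P022K.WB.Sw1

/-!
# P022K, block RT: the patched module is the limit of the modules of finite level
-/

set_option linter.all false

noncomputable section

namespace Vale.Agent.P022K.RT

open IsLocalRing Filter Ul
open Vale.Agent.P022 Vale.Agent.P022.C
open Vale.Agent.P022D.L2b (M2)
open Vale.Agent.P022D.Core (PS)
open Vale.Agent.P022D.PA (Base Cv)
open Vale.Agent.P022K.PL (Cf)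
open Vale.Agent.P022K.WB (G2 Kn dd)
open Vale.Agent.P022K.Top (Si cy)

namespace Ul

theorem zg_all {r : ℕ} (A : Subgroup (Zr r)) (h : ∀ s, zg s ∈ A) (z : Zr r) : z ∈ A := by
  have h1 : ∑ s, Pi.single s (z.toAdd s) ∈ A.toAddSubgroup' := sum_mem fun s _ => by
    have := zsmul_mem (show Pi.single s 1 ∈ A.toAddSubgroup' from h s) (z.toAdd s)
    rwa [← Pi.single_smul, smul_eq_mul, mul_one] at this
  rwa [Finset.univ_sum_single] at h1

theorem fix_all {r : ℕ} {A R M : Type} [Group A] [CommRing R] [AddCommGroup M] [Module R M]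
    (a : A × Zr r →* Module.End R M) {v : M} (h : ∀ s, a (1, zg s) v = v) (z : Zr r) :
    a (1, z) v = v :=
  zg_all
    { carrier := {z | a (1, z) v = v}
      mul_mem' := fun {x y} hx hy => by
        have e : ((1, x * y) : A × Zr r) = (1, x) * (1, y) := by simp
        show a (1, x * y) v = v
        rw [e, map_mul, Module.End.mul_apply, hy, hx]
      one_mem' := LinearMap.congr_fun (map_one a) v
      inv_mem' := fun {x} hx => by
        have e : ((1, x⁻¹) * (1, x) : A × Zr r) = 1 := by simp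
        have := LinearMap.congr_fun (map_mul a (1, x⁻¹) (1, x)) v
        rw [e, map_one, Module.End.mul_apply, hx] at this
        exact this.symm } h z

/-- the elements which act on the image of `ψ` through inner automorphisms -/
def inn {A G : Type} [Group A] [Group G] (ψ : A →* G) : Subgroup G where
  carrier := {y | ∃ g, ∀ x, ψ x * y = y * ψ (g⁻¹ * x * g)}
  mul_mem' := by
    rintro a b ⟨g, hg⟩ ⟨g', hg'⟩
    refine ⟨g * g', fun x => ?_⟩
    rw [← mul_assoc, hg, mul_assoc, hg', mul_assoc]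
    simp only [mul_inv_rev, mul_assoc]
  one_mem' := ⟨1, fun x => by simp⟩
  inv_mem' := by
    rintro a ⟨g, hg⟩
    refine ⟨g⁻¹, fun x => ?_⟩
    have := hg (g⁻¹⁻¹ * x * g⁻¹)
    rw [eq_inv_mul_iff_mul_eq, ← mul_assoc, mul_inv_eq_iff_eq_mul, this]
    simp [mul_assoc]

theorem res_cv {O σ F : Type} [CommRing O] [IsLocalRing O] [Field F] [Algebra O F] {s : F → O}
    (sec : ∀ x, algebraMap O F (s x) = x) {U : Ultrafilter ℕ} {z : ℕ → PS O σ} {a : PS O σ}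
    (h : Cv (U : Filter ℕ) z a) {c : F}
    (e : ∀ n, algebraMap O F (MvPowerSeries.constantCoeff (z n)) = c) :
    algebraMap O F (MvPowerSeries.constantCoeff a) = c := by
  obtain ⟨n, hn⟩ := (h 1).exists
  rw [pow_one, P022D.CA.Cpl.mem_max_iff, ← eq_maximalIdeal
    (RingHom.ker_isMaximal_of_surjective (algebraMap O F) fun x => ⟨_, sec x⟩), RingHom.mem_ker,
    map_sub, map_sub, e, sub_eq_zero] at hn
  exact hn.symm

end Ul

variable {p : ℕ} [Fact p.Prime] {O : Type} [CommRing O] [IsDomain O] [IsDiscreteValuationRing O]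
  [Algebra ℤ_[p] O] {Z : Si p O} {F : Type} [Field F] [Algebra O F] {C : Fr Z F} {D : Pf C}

namespace Pf

theorem Ok.inn (h : D.Ok) (y : Gr Z) : ∃ g, ∀ x, D.ψ x * y = y * D.ψ (g⁻¹ * x * g) := by
  have h1 : Gr Z ≤ Ul.inn ((Gr Z).subtype.comp D.ψ) := by
    refine (Subgroup.closure_le _).2 ?_
    rintro y (hy | hy)
    · have e : (Gr Z).subtype.comp D.ψ =
          (MulAut.conj y).toMonoidHom.comp ((Gr Z).subtype.comp D.ψ) :=
        MonoidHom.pi_ext fun k g => by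
          show (D.ψ _ : Z.G) = y * D.ψ _ * y⁻¹
          rw [h.psi, ← ((Z.x k).com g y (hy.x k)).eq, mul_inv_cancel_right]
      refine ⟨1, fun x => ?_⟩
      rw [inv_one, one_mul, mul_one]
      exact eq_mul_inv_iff_mul_eq.1 (DFunLike.congr_fun e x)
    · obtain ⟨k, g, rfl⟩ := Set.mem_iUnion.1 hy
      refine ⟨Pi.mulSingle k g, fun x => ?_⟩
      rw [← h.psi]
      exact (map_mul ((Gr Z).subtype.comp D.ψ) _ _).symm.trans
        ((congrArg _ (by simp [mul_assoc])).trans (map_mul ((Gr Z).subtype.comp D.ψ) _ _))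
  exact (h1 y.2).imp fun g hg x => Subtype.ext (hg x)

theorem Ok.bnd (h : D.Ok) (y : Gr Z × Zr D.r) (j : ℕ) :
    ∃ j', ∀ n, ∀ v ∈ Lv O (D.lv 0).N ((D.lv 0).rho (D.Y n)) j,
      (D.Y n).a y v ∈ Lv O (D.lv 0).N ((D.lv 0).rho (D.Y n)) j' := by
  obtain ⟨g, hg⟩ := h.inn y.1
  choose m hm using fun k => WB.Kn_conj' (g k) (j + (0 + 2))
  obtain ⟨c, hc⟩ := (Set.finite_range m).bddAbove
  refine ⟨j + c, fun n v hv => ⟨fun x hx => ?_, fun o ho => ?_⟩⟩
  · choose z k' h1 h2 using mem_NG.1 hx.1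
    have h3 : ∀ k, (g k)⁻¹ * k' k * g k ∈ Kn p (j + (0 + 2)) := fun k =>
      hm k _ (WB.Kn_anti ((hc ⟨k, rfl⟩).trans (by omega)) (h1 k))
    have h4 : ∀ k, (g k)⁻¹ * (x.1 k).1 * g k = dd (z k) (z k) * ((g k)⁻¹ * k' k * g k) :=
      fun k => by rw [h2, ← mul_assoc, ← WB.dd_comm]; simp only [mul_assoc]
    have h5 : ∀ k, (g k)⁻¹ * (x.1 k).1 * g k ∈ Kn p (0 + 2) := fun k => by
      rw [h4]
      refine mul_mem ?_ (WB.Kn_anti (by omega) (h3 k))
      rw [← mul_inv_eq_iff_eq_mul.2 (h2 k)]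
      exact mul_mem (x.1 k).2 (inv_mem (WB.Kn_anti (by omega) (h1 k)))
    have h6 := hv.1 (fun k => ⟨_, h5 k⟩, x.2)
      ⟨mem_NG.2 fun k => ⟨_, _, h3 k, h4 k⟩, Up.anti_Z p _ (Nat.le_add_right j c) hx.2⟩
    refine Eq.trans ?_ (congrArg ((D.Y n).a y) h6)
    exact (LinearMap.congr_fun (map_mul (D.Y n).a _ _) v).symm.trans ((congrArg
      (fun g => (D.Y n).a g v) (Prod.ext (hg _) (mul_comm _ _))).trans
      (LinearMap.congr_fun (map_mul (D.Y n).a _ _) v))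
  · rw [← LinearMap.map_smul_of_tower, hv.2 o (Ideal.pow_le_pow_right (Nat.le_add_right j c) ho),
      map_zero]

theorem Ok.kinj (h : D.Ok) (n : ℕ) : Function.Injective (D.κ n) := fun z z' e =>
  Subtype.ext ((h.lwk n z).symm.trans ((congrArg _ e).trans (h.lwk n z')))

theorem Ok.lvk (h : D.Ok) {n j : ℕ} {z : Ym Z C.t}
    (hz : D.κ n z ∈ Lv O (D.lv 0).N ((D.lv 0).rho (D.Y n)) j) (n' : ℕ) :
    D.κ n' z ∈ Lv O (D.lv 0).N ((D.lv 0).rho (D.Y n')) j := by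
  refine ⟨fun x hx => ?_, fun o ho => ?_⟩
  · have e : ∀ n, ∃ z' : Ym Z C.t, z'.1 = Z.a ((D.lv 0).ψ fun k => x.1 k) z.1 ∧
        D.κ n z' = (D.lv 0).rho (D.Y n) x (D.κ n z) := fun n => by
      obtain ⟨z', h1, h2⟩ := h.ka n (D.ψ fun k => x.1 k) z
      refine ⟨z', h1, h2.trans ?_⟩
      rw [← congrArg ((D.Y n).a _) ((h.krg n _).1 ⟨z, rfl⟩ x.2), ← Module.End.mul_apply,
        ← map_mul, Prod.mk_mul_mk, mul_one, one_mul]
      rfl
    obtain ⟨z1, h1, h2⟩ := e n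
    obtain ⟨z2, h3, h4⟩ := e n'
    rw [← h4, Subtype.ext (h3.trans h1.symm), h.kinj n (h2.trans (hz.1 x hx))]
  · rw [← map_smul, h.kinj n ((map_smul _ o z).trans ((hz.2 o ho).trans (map_zero _).symm)),
      map_zero]

omit [Algebra O F] in
theorem gp_lim [Cf O] {M : Mo O (PS O D.σ) (Gr Z) C.T D.r} {U : Ultrafilter ℕ}
    {Rp : M.Y → (∀ n, (D.Y n).Y) → Prop} {qa qb : Fin D.r → PS O D.σ} {κ : Ym Z C.t →ₗ[O] M.Y}
    {tr : Z.H → PS O D.σ} (ha : ∀ s, Cv (U : Filter ℕ) (fun n => D.qa n s) (qa s))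
    (hb : ∀ s, Cv (U : Filter ℕ) (fun n => D.qb n s) (qb s))
    (ht : ∀ s, Cv (U : Filter ℕ) (fun n => D.tr n s) (tr s)) {Λ : Type} [CommRing Λ] [Base Λ]
    [Algebra O Λ] {ρ : Z.H →* M2 Λ}
    (hl : ∀ o ∈ maximalIdeal O, algebraMap O Λ o ∈ maximalIdeal Λ) {φ : ℕ → PS O D.σ →ₐ[O] Λ}
    (h : ∀ n, (D.lv n).Gp (φ n) ρ) : ∃ ψ, (D.mk' M U Rp qa qb κ tr).Gp ψ ρ ∧
      ∀ u, Cv (U : Filter ℕ) (fun n => φ n u) (ψ u) := by
  obtain ⟨ψ, hψ⟩ := hom_ex U φ
  have e : ∀ {z a c}, Cv (U : Filter ℕ) z a → (∀ n, φ n (z n) = c) → ψ a = c := fun hz e =>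
    cv_eq (cv_hom hψ hl (fun n => (h n).loc) hz) (cv_const _) e
  choose g g' h1 h2 h3 using fun n => (h n).cj
  obtain ⟨a, h4⟩ := cm_ex U g
  obtain ⟨a', h5⟩ := cm_ex U g'
  exact ⟨ψ, ⟨fun i => cv_mem (hψ _) fun n => (h n).loc i,
    fun u hu => e (cv_const u) fun n => (h n).ker u hu,
    ⟨fun s hs => e (ha s) fun n => (h n).l0.1 s hs, fun s => e (hb s) fun n => (h n).l0.2 s⟩,
    fun s => e (ht s) fun n => (h n).tr s, a, a', (h4.mul h5).eq (cm_const 1) h1,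
    fun i j => by
      simpa only [← sub_eq_add_neg] using cv_mem (cv_add (h4 i j) (cv_const (-(1 : M2 Λ) i j)))
        fun n => by simpa only [← sub_eq_add_neg] using h2 n i j,
    fun t s => Cm.eq (fun i j => hψ _) ((h4.mul (cm_const _)).mul h5) fun n => h3 n t s⟩, hψ⟩

/-- **the limit** -/
theorem Ok.lim [hO : Cf O] (sec : ∀ x, algebraMap O F (C.s x) = x) (h : D.Ok) :
    ∃ D' : Pd C, D'.Ok := by
  let U := hyperfilter ℕ
  have hU : (U : Filter ℕ) ≤ atTop := Nat.hyperfilter_le_atTop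
  have := PL.base_ps O D.σ
  have := hO.fin
  have hK := unf_GP (p := p) (q := 0) (Fintype.equivFin (Z.J × Fin 3)).symm D.r
  have hi := Hf.idx (Fact.out : p.Prime).ne_zero hK
  obtain ⟨M, _, _, _, _, ρ', Rp, hu, hf⟩ := upa O (PS O D.σ) _ (D.lv 0).N U (fun n => (D.Y n).Y)
    (fun n => (D.lv 0).rho (D.Y n)) hK.anti hK.nor hi
  obtain ⟨a, ha⟩ := hom_lt hu (fun n => (D.Y n).a) h.bnd
  choose E hE using fun t => alg_lt hu (fun n => (D.Y n).E t) fun n m g => (D.Y n).com t m _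
  let M' : Mo O (PS O D.σ) (Gr Z) C.T D.r :=
    { Y := M, a := a, E := E
      com := fun t m x => Lt.com hu (hE t m) (ha x) fun n => (D.Y n).com t m x }
  have e0 : ρ' = (D.lv 0).rho M' :=
    MonoidHom.ext fun g => Lt.eq hu (hu.act g) (ha _) fun _ => rfl
  have cd := fun j => lv_card (O := O) (R := PS O D.σ) (hi j) D.b
  have un : ∀ j, ∃ c, ∀ᶠ n in (U : Filter ℕ), ∀ u ∈ maximalIdeal (PS O D.σ) ^ c,
      ∀ y ∈ Lv O (D.lv 0).N ((D.lv 0).rho (D.Y n)) j, u • y = 0 := fun j =>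
    (cd j).imp fun c hc => ((h.fre j).filter_mono hU).mono fun n hn u hu y hy =>
      (nil_card c _ (hc _ _ hn).1 (hc _ _ hn).2).le (Submodule.smul_mem_smul hu hy)
  choose qa hqa using fun s => P022D.PA.lim _ U fun n => D.qa n s
  choose qb hqb using fun s => P022D.PA.lim _ U fun n => D.qb n s
  choose tr htr using fun s => P022D.PA.lim _ U fun n => D.tr n s
  have lk : ∀ z, ∃ j, ∀ n, D.κ n z ∈ Lv O (D.lv 0).N ((D.lv 0).rho (D.Y n)) j := fun z =>
    (h.sm 0 (D.κ 0 z)).imp fun j hj => h.lvk hj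
  choose k0 hk using fun z => (lk z).elim fun j hj =>
    hu.sur (fun n => D.κ n z) j (.of_forall hj)
  let κ : Ym Z C.t →ₗ[O] M :=
    { toFun := k0
      map_add' := fun x y => eq' hu (hk _) (hu.add _ _ _ _ (hk x) (hk y)) fun n => map_add _ _ _
      map_smul' := fun o x => eq' hu (hk _) (osm hu o (hk x)) fun n => map_smul _ _ _ }
  have kk : ∀ {θ : ∀ n, Module.End (PS O D.σ) (D.Y n).Y} {θ' : Module.End (PS O D.σ) M}
      {f : Z.M → Z.M}, Lt Rp θ θ' → ∀ z : Ym Z C.t,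
      (∀ n, ∃ z' : Ym Z C.t, z'.1 = f z.1 ∧ D.κ n z' = θ n (D.κ n z)) →
      ∃ z' : Ym Z C.t, z'.1 = f z.1 ∧ κ z' = θ' (κ z) := fun hθ z e => by
    choose z' h1 h2 using e
    exact ⟨z' 0, h1 0, eq' hu (hk _) (hθ _ _ (hk z)) fun n => by
      rw [← h2, Subtype.ext ((h1 0).trans (h1 n).symm)]⟩
  have fx : ∀ {v x y}, Rp v x → (a y v = v ↔ ∀ᶠ n in (U : Filter ℕ), (D.Y n).a y (x n) = x n) :=
    fun e => hu.eq _ _ _ _ (ha _ _ _ e) e
  refine ⟨D.mk' M' U Rp qa qb κ tr, h.aux, h.num, h.psi, e0 ▸ hu, ha, hE,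
    (e0 ▸ ⟨hu.sm, fun j => hf _ j (hU (h.fre j))⟩ : Cof O _ ((D.lv 0).rho M') D.b),
    fun s => ⟨cv_mem (hqa s) fun n => (h.mem n s).1, cv_mem (hqb s) fun n => (h.mem n s).2⟩,
    fun s => ?_, fun s hs => (h.cst s hs).imp fun c hc => cv_eq (hqa s) (cv_const _) hc,
    fun v u hu' => ?_, h.inj, h.eva, h.evg, h.evl, h.lev, h.lwa, h.lwg, fun z x e => ?_,
    fun v => ⟨?_, fun hv => ?_⟩, fun y z => kk (ha _) z fun n => h.ka n y z,
    fun t s z => kk (hE t _) z fun n => h.kg n t s z, fun t s => ?_,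
    fun s z => kk (Lt.cv hu un (htr s) lt_one) z fun n => h.kt n s z,
    fun s => res_cv sec (htr s) fun n => h.trm n s, ?_, fun Λ _ _ _ ρ h1 h2 => ?_,
    fun ρ h1 h2 => ?_⟩
  · have h1 := (ha (1, zg s)).sub hu lt_one
    rw [pow_two]
    exact Lt.eq hu (((h1.mul h1).sub hu (h1.cv hu un (hqa s))).add hu
      (Lt.cv hu un (hqb s) lt_one)) (θ' := _) (η := fun _ => 0) (fun _ _ _ => zero hu)
      fun n => by simpa only [pow_two] using h.quad n s
  · obtain ⟨x, hx⟩ := hu.ex v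
    exact (eq0 hu (hu.smul u v x hx)).2 (.of_forall fun n => h.kil n _ u hu')
  · exact ((hu.eq _ _ _ _ e (hk z)).1 rfl).mono fun n hn => (congrArg _ hn).trans (h.lwk n z)
  · rintro ⟨z, rfl⟩ y
    exact (fx (hk z)).2 (.of_forall fun n => (h.krg n _).1 ⟨z, rfl⟩ y)
  · obtain ⟨x, hx⟩ := hu.ex v
    obtain ⟨j, hj⟩ := bd hu hx
    obtain ⟨c, hc⟩ := cd j
    obtain ⟨m, hm⟩ := (h.fre j).exists
    obtain ⟨z, -, hz⟩ := (Ultrafilter.eventually_exists_mem_iff (f := U)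
      (P := fun z n => D.κ n z = x n) ((hc _ _ hm).1.preimage (h.kinj m).injOn)).1 (by
        filter_upwards [hj, eventually_all.2 fun s => (fx hx).1 (hv (zg s))] with n h1 h2
        obtain ⟨z, rfl'⟩ := (h.krg n (x n)).2 (fix_all _ h2)
        exact ⟨z, h.lvk (rfl'.symm ▸ h1) m, rfl'⟩)
    exact ⟨z, (hu.eq _ _ _ _ (hk z) hx).2 hz⟩
  · choose m h1 h2 using fun n => h.kl n t s
    obtain ⟨m', hm⟩ := cm_ex U m
    exact ⟨m', fun i j => res_cv sec (hm i j) fun n => h1 n i j,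
      fun z => kk (lt_cm hu un (hE t) hm) z fun n => h2 n z⟩
  · obtain ⟨Λ, _, π, c, h1, h2, h3, h4⟩ := h.dsc
    choose π' hπ using fun i => lt_ex hu (fun n => π n i) fun j =>
      (h3 j).imp fun j' e n => e n i
    refine ⟨Λ, inferInstance, π', c, h1, fun i y => Lt.com hu (hπ i) (ha _) fun n => h2 n i y,
      fun v hv hb => ?_⟩
    obtain ⟨x, hx⟩ := hu.ex v
    have h5 : ∀ᶠ n in (U : Filter ℕ), (∀ i z, (D.Y n).a (1, z) (π n i (x n)) = π n i (x n)) ∧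
        ((∀ i, π n i (x n) = 0) → c • x n = 0) := by
      filter_upwards [eventually_all.2 fun s : D.S => (fx hx).1 (hv s s.2),
        eventually_all.2 fun s => cvs hu un (hqb s) hx,
        eventually_all.2 fun s => (eq0 hu (hu.smul _ v x hx)).1 (hb s)] with n e1 e2 e3
      exact h4 n _ (fun s hs => e1 ⟨s, hs⟩) fun s => (e2 s).trans (e3 s)
    refine ⟨fun i z => (fx (hπ i v x hx)).2 (h5.mono fun n e => e.1 i z), fun e => ?_⟩
    exact (eq0 hu (osm hu c hx)).2 ((h5.and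
      (eventually_all.2 fun i => (eq0 hu (hπ i v x hx)).1 (e i))).mono fun n e => e.1.2 e.2)
  · choose φ hφ using h.gpt Λ ρ h1 h2
    exact (gp_lim hqa hqb htr h1.loc hφ).imp fun ψ e => e.1
  · choose φ hφ h3 using h.gps ρ h1 h2
    haveI : Base O := { cpl := hO.cpl, fin := hO.fin }
    obtain ⟨ψ, h4, h5⟩ := gp_lim (M := M') (Rp := Rp) (κ := κ) hqa hqb htr h1.loc hφ
    refine ⟨ψ, h4, fun z hz u hu' => (eq0 hu (hu.smul u _ _ (hk z))).2 ?_⟩
    obtain ⟨j, hj⟩ := lk z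
    refine (h5 u j).mono fun n e => ?_
    have e1 := h3 n z hz (u - algebraMap O _ (φ n u)) (by simp [RingHom.mem_ker])
    rw [show ψ u = 0 from hu', sub_zero] at e
    rw [sub_smul, algebraMap_smul, (hj n).2 _ e, sub_zero] at e1
    exact e1

end Pf

end Vale.Agent.P022K.RT
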