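import Vale.Agent.P022K.RT.Lva
import Vale.Agent.P022K.RT.Ult

/-!
# P022K, block RT: consequences of the output of one finite level
-/

set_option linter.all false

noncomputable section

namespace Vale.Agent.P022K.RT.Fm

open IsLocalRing Module
open Vale.Agent.P022D.L2b (M2)
open Vale.Agent.P022K.RU (Dat Obj Cl Closed Univ Fam Crd map_one')

/-- change of the frame -/
def cjE {R M : Type} [CommRing R] [AddCommGroup M] [Module R M] (E : M2 R →ₐ[R] End R M)
    (P Q : M2 R) (h : E (P * Q) = 1) (h' : E (Q * P) = 1) : M2 R →ₐ[R] End R M where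
  toFun m := E (P * m * Q)
  map_one' := by rw [mul_one, h]
  map_mul' m m' := by
    have e : E (P * m * (Q * P) * (m' * Q)) = E (P * m * (m' * Q)) := by
      rw [map_mul, map_mul, h', mul_one, ← map_mul]
    rw [← map_mul]
    simpa only [mul_assoc] using e.symm
  map_zero' := by simp
  map_add' m m' := by rw [mul_add, add_mul, map_add]
  commutes' c := by
    rw [← Algebra.commutes, mul_assoc, map_mul, h, mul_one, E.commutes]

theorem cjE_apply {R M : Type} [CommRing R] [AddCommGroup M] [Module R M] (E : M2 R →ₐ[R] End R M)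
    (P Q : M2 R) (h : E (P * Q) = 1) (h' : E (Q * P) = 1) (m : M2 R) :
    cjE E P Q h h' m = E (P * m * Q) := rfl

theorem cjE_cj {R M : Type} [CommRing R] [AddCommGroup M] [Module R M] (E : M2 R →ₐ[R] End R M)
    (P Q : M2 R) (h : E (P * Q) = 1) (h' : E (Q * P) = 1) (m : M2 R) :
    cjE E P Q h h' (Q * m * P) = E m := by
  rw [cjE_apply, show P * (Q * m * P) * Q = P * Q * m * (P * Q) by noncomm_ring, map_mul,
    map_mul _ (P * Q), h, mul_one, one_mul]

variable {O F G T : Type} [CommRing O] [IsLocalRing O] [Field F] [Group G] [TopologicalSpace G]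
  {S : Dat O F G T} {τ : Type} {g : ℕ} {C : Cl S} {Φ : Fam S τ g} {A Y : Type} [Group A]
  [AddCommGroup Y] [Module O Y] {q r a p : ℕ} {D : In O G T A Y q r a}
  [Module (RU.PS O τ g) (Dn q a → Y)] [IsScalarTower O (RU.PS O τ g) (Dn q a → Y)]
  {l : Zr r →* Zr a} {b : A × Zr (r + a) →* End (RU.PS O τ g) (Dn q a → Y)}
  {E : M2 (RU.PS O τ g) →ₐ[RU.PS O τ g] End (RU.PS O τ g) (Dn q a → Y)}
  {u : G ⊕ T ⊕ T → M2 (RU.PS O τ g)} {qa qb : Fin (r + a) → RU.PS O τ g}
  {π : (Fin a → Bool) → End (RU.PS O τ g) (Dn q a → Y)} (o : D.Out C Φ p l b E u qa qb π)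

/-- the left frame -/
def fP (u : G ⊕ T ⊕ T → M2 (RU.PS O τ g)) (c : M2 O) (t : T) : M2 (RU.PS O τ g) :=
  u (Sum.inr (Sum.inl t)) * c.map MvPowerSeries.C

/-- the right frame -/
def fQ (u : G ⊕ T ⊕ T → M2 (RU.PS O τ g)) (c' : M2 O) (t : T) : M2 (RU.PS O τ g) :=
  c'.map MvPowerSeries.C * u (Sum.inr (Sum.inr t))

include o

namespace In.Out

theorem cg {m m' : M2 (RU.PS O τ g)} (h : ∀ (A : Type) [CommRing A] (X : Obj S A), C A X →
    m.map (Φ A X) = m'.map (Φ A X)) : E m = E m' := by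
  rw [← sub_eq_zero, ← map_sub, Matrix.matrix_eq_sum_single (m - m')]
  refine LinearMap.ext fun f => ?_
  simp only [map_sum, LinearMap.sum_apply]
  refine Finset.sum_eq_zero fun i _ => Finset.sum_eq_zero fun j _ => ?_
  rw [← mul_one ((m - m') i j), ← smul_eq_mul, ← Matrix.smul_single, map_smul]
  exact o.zero _ (fun A _ X hX => by
    rw [Matrix.sub_apply, map_sub, sub_eq_zero]; exact congrFun (congrFun (h A X hX) i) j) _

variable {κ : Crd S τ} (hΦ : Univ C κ Φ) {c c' : M2 O} (hc : c * c' = 1)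

include hΦ

theorem mP (c : M2 O) (t : T) (A : Type) [CommRing A] (X : Obj S A) (hX : C A X) :
    (fP u c t).map (Φ A X) = X.α t * c.map X.ι := by
  rw [fP, Matrix.map_mul, o.rep _ A X hX, Matrix.map_map]
  exact congrArg _ (Matrix.ext fun i j => hΦ.cst A X hX _)

theorem mQ (c : M2 O) (t : T) (A : Type) [CommRing A] (X : Obj S A) (hX : C A X) :
    (fQ u c t).map (Φ A X) = c.map X.ι * X.β t := by
  rw [fQ, Matrix.map_mul, o.rep _ A X hX, Matrix.map_map]
  exact congrArg (· * _) (Matrix.ext fun i j => hΦ.cst A X hX _)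

include hc

theorem PQ (t : T) : E (fP u c t * fQ u c' t) = 1 :=
  (o.cg fun A _ X hX => by
    rw [Matrix.map_mul, o.mP hΦ c t A X hX, o.mQ hΦ c' t A X hX, mul_assoc, ← mul_assoc (c.map _),
      ← Matrix.map_mul, hc, map_one', one_mul, X.inv, map_one']).trans (map_one E)

theorem QP (t : T) : E (fQ u c' t * fP u c t) = 1 :=
  (o.cg fun A _ X hX => by
    rw [Matrix.map_mul, o.mP hΦ c t A X hX, o.mQ hΦ c' t A X hX, mul_assoc, ← mul_assoc (X.β _),
      mul_eq_one_comm.1 (X.inv t), one_mul, ← Matrix.map_mul, mul_eq_one_comm.1 hc, map_one', map_one']).trans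
    (map_one E)

/-- the matrix units in the frame `t` -/
def Et (t : T) : M2 (RU.PS O τ g) →ₐ[RU.PS O τ g] End (RU.PS O τ g) (Dn q a → Y) :=
  cjE E _ _ (o.PQ hΦ hc t) (o.QP hΦ hc t)

theorem Et_loc (t : T) (x : G) {m : M2 (RU.PS O τ g)}
    (h : ∀ (A : Type) [CommRing A] (X : Obj S A), C A X → ∀ i j, Φ A X (m i j) =
      (c'.map X.ι * (X.β t * X.ρ x * X.α t) * c.map X.ι) i j) :
    o.Et hΦ hc t m = E (u (Sum.inl x)) :=
  (o.cg (m := _ * m * _) (m' := _ * (fQ u c' t * u (Sum.inl x) * fP u c t) * _) fun A _ X hX => by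
    simp only [Matrix.map_mul, o.mP hΦ c t A X hX, o.mQ hΦ c' t A X hX, o.rep _ A X hX]
    rw [show m.map (Φ A X) = _ from Matrix.ext (h A X hX)]
    simp only [mul_assoc]
    rfl).trans (cjE_cj E _ _ (o.PQ hΦ hc t) (o.QP hΦ hc t) _)

omit hΦ hc in
theorem res_cj (c c' : M2 O) (t : T) (x : G) (i j : Fin 2) :
    S.red (MvPowerSeries.constantCoeff ((fQ u c' t * u (Sum.inl x) * fP u c t) i j)) =
      (c'.map S.red * S.rb x * c.map S.red) i j := by
  let ϱ : RU.PS O τ g →+* F := S.red.comp MvPowerSeries.constantCoeff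
  have e1 : ∀ y, (u (Sum.inr y)).map ϱ = 1 := fun y => Matrix.ext (o.res' y)
  have e2 : (u (Sum.inl x)).map ϱ = S.rb x := Matrix.ext (o.res x)
  have e3 : ∀ c : M2 O, (c.map MvPowerSeries.C).map ϱ = c.map S.red := fun c =>
    Matrix.ext fun i j => by simp [ϱ]
  show ((fQ u c' t * u (Sum.inl x) * fP u c t).map ϱ) i j = _
  simp only [fP, fQ, Matrix.map_mul, e1, e2, e3, mul_one, one_mul]

omit hΦ hc

theorem b_k (y : A) (f : Dn q a → Y) (d : Dn q a) : b (y, 1) f d = D.ρ (y, 1) (f d) := by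
  rw [o.act, fr_k]
  rfl

theorem ex_z (x : Dn q a) : ∃ z, ∀ f d, b (1, z) f d = f (d * x) := by
  obtain ⟨y, rfl⟩ := rd_surj q a x
  obtain ⟨⟨k, z⟩, e⟩ := sp_surj (K := A) l ((1, 1), y)
  obtain rfl : k = 1 := congrArg (·.1.1) e
  refine ⟨z, fun f d => ?_⟩
  rw [o.act, fr, MonoidHom.comp_apply, e, co_apply, Prod.mk_one_one, map_one]
  rfl

theorem fix_iff (f : Dn q a → Y) : (∀ z, b (1, z) f = f) ↔
    ∃ v, (∀ s, D.ρ (1, zg s) v = v) ∧ f = fun _ => v := by
  refine ⟨fun h => ?_, ?_⟩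
  · have h1 := const_of (R := O) fun s => (fr_r D.ρ l q s ▸ o.act _ f).symm.trans (h _)
    refine ⟨f 1, fun s => ?_, funext h1⟩
    have h2 := congrFun ((fr_l D.ρ l q s ▸ o.act _ f).symm.trans (h _)) 1
    rwa [End.mul_apply, pw_apply, tl_apply, h1] at h2
  · rintro ⟨v, hv, rfl⟩ z
    rw [o.act, fr_apply]
    exact funext fun d => Ul.fix_all D.ρ hv _

variable {K : Type} [Group K] (ψ : K →* A) {N : ℕ → Subgroup K}

theorem fre (hp : p ≠ 0) {n j b' : ℕ} (hq : q = p ^ n) (hj : j ≤ n)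
    (h : Fre O (NP N p r) (D.ρ.comp (ψ.prodMap (MonoidHom.id _))) b' j) :
    Fre O (NP N p (r + a)) (b.comp (ψ.prodMap (MonoidHom.id _))) b' j := by
  subst hq
  exact fre_equiv (LinearEquiv.refl O _) (fun g f => (o.act (ψ g.1, g.2) f).symm) (fre_fr l hp hj h)

theorem sm (hp : p ≠ 0) {n : ℕ} (hq : q = p ^ n) (hN : Antitone (NP N p r))
    (h : ∀ v, ∃ j, v ∈ Lv O (NP N p r) (D.ρ.comp (ψ.prodMap (MonoidHom.id _))) j)
    (f : Dn q a → Y) : ∃ j, f ∈ Lv O (NP N p (r + a)) (b.comp (ψ.prodMap (MonoidHom.id _))) j := by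
  subst hq
  have : NeZero (p ^ n) := ⟨pow_ne_zero _ hp⟩
  choose j hj using fun d => h (f d)
  obtain ⟨c, hc⟩ := (Set.finite_range j).bddAbove
  have h1 := (mem_lv_fr l (p ^ n) (j := max c n) (f := f)).2
    ⟨fun d => Up.lv_mono hN ((hc ⟨d, rfl⟩).trans (le_max_left _ _)) (hj d), fun z hz d => by
      rw [rd_eq_one.2 (NZ_anti p a (le_max_right _ _) hz), mul_one]⟩
  exact ⟨_, fun g hg => (o.act _ f).trans (h1.1 g hg), h1.2⟩

end In.Out

end Vale.Agent.P022K.RT.Fm
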