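import Vale.Agent.P022K.RT.Lvk
import Vale.Agent.P022K.RT.Gpt

/-!
# P022K, block RT, row LVL: the points at a finite level
-/

set_option linter.all false

noncomputable section

namespace Vale.Agent.P022K.RT.Gda

open IsLocalRing Module MvPowerSeries Fm Tl
open Vale.Agent.P022 Vale.Agent.P022.C
open Vale.Agent.P022D.L2b (M2)
open Vale.Agent.P022D.CA (emb)
open Vale.Agent.P022D.PA (Base)
open Vale.Agent.P022K.PL (Cf)
open Vale.Agent.P022K.Top (Si cy Bad)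

variable {p : ℕ} [Fact p.Prime] {O : Type} [CommRing O] [IsDomain O] [IsDiscreteValuationRing O]
  [Algebra ℤ_[p] O] {Z : Si p O} {F : Type} [Field F] {C : Fr Z F} (Γ : Gda C)

/-- `φ` is a point of level zero which belongs to `ρ` -/
def Gp {k : ℕ} (V : Set (Fin k)) (qa qb : Fin k → RU.PS O Γ.τ Γ.g) (tr : Z.H → RU.PS O Γ.τ Γ.g)
    {Λ : Type} [CommRing Λ] [IsLocalRing Λ] [Algebra O Λ] (φ : RU.PS O Γ.τ Γ.g →ₐ[O] Λ)
    (ρ : Z.H →* M2 Λ) : Prop :=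
  (∀ i, φ (X i) ∈ maximalIdeal Λ) ∧ (∀ u ∈ sumI Γ.e C.I ⊔ Γ.J1, φ u = 0) ∧
    ((∀ s ∈ V, qa s ∈ RingHom.ker φ) ∧ ∀ s, qb s ∈ RingHom.ker φ) ∧
    (∀ s, φ (tr s) = (ρ s).trace) ∧ ∃ h h' : M2 Λ, h * h' = 1 ∧ Cg (maximalIdeal Λ) h 1 ∧
      ∀ t s, ((C.f t s).map (rename (R := O) (emb Γ.e t))).map φ = h * ρ (C.j t s) * h'

variable {Γ} [Algebra O F] [CharP F p] [Finite F] (h : Γ.Ok) (hC : C.Ok) {n : ℕ}
  {g : Fin Γ.a → Z.H} {m : Fin Γ.a → End O (Γ.D n).Y} {σ : Fin Γ.a → Dn (p ^ (n + 1)) Γ.a →* ℤˣ}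
  (hg : ∀ k, g k ∈ Inq Z ∅)
  [Module (RU.PS O Γ.τ Γ.g) (Dn (p ^ (n + 1)) (Γ.a + Γ.f) → (Γ.D n).Y)]
  [IsScalarTower O (RU.PS O Γ.τ Γ.g) (Dn (p ^ (n + 1)) (Γ.a + Γ.f) → (Γ.D n).Y)]
  {l : _} {b : _} {E : _} {u : _} {qa qb : _} {π : _}
  (o : (Γ.inp n g m σ).Out (Γ.Cn n) (Γ.Φ n) p l b E u qa qb π)
include h hC hg o

theorem Ok.gp0 {A Λ : Type} [CommRing A] [Algebra O A] [CommRing Λ] [IsLocalRing Λ] [Algebra O Λ]
    {P : Ob.Fd Γ.S A} {j : A →ₐ[O] Λ} {ρ : Z.H →* M2 Λ} (N : Ob.Nr P j Γ.c Γ.c' ρ)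
    (hd : ∀ x, (ρ x).det = algebraMap O Λ (cy p O x.1)) (hu : Ub Z ρ) :
    ∃ x φ, Ob.Pn P (Γ.Cn n) (Γ.Φ n) x ∧ (∀ f, φ f = j (x f)) ∧ Γ.Gp (Γ.inp n g m σ).V qa qb
      (fun s => (u (Sum.inl s)).trace) φ ρ := by
  have h0 : ∀ x ∈ Inq Z ∅, ρ x = 1 := fun x ⟨l, P, h1, h2, _, h3⟩ => hu l P h1 h2 x h3
  obtain ⟨x, φ, hx, e, loc, key⟩ := N.pt (h.sd hC) (h.clo.ty _) (h.un n)
    (N.ty (fun x _ => hd x) fun x hx => h0 x (inq_le hx))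
  have k1 : ∀ s, (u (Sum.inl s)).map φ = (P.ρ s).map j := fun s => Matrix.ext fun a b =>
    key _ _ fun A' _ Y w im hY => congrFun (congrFun
      ((o.rep (Sum.inl s) A' Y hY).trans (im.ρ s).symm) a) b
  have k2 : ∀ t, (u (Sum.inr (Sum.inl t))).map φ = (P.α t).map j := fun s => Matrix.ext fun a b =>
    key _ _ fun A' _ Y w im hY => congrFun (congrFun
      ((o.rep (Sum.inr (Sum.inl s)) A' Y hY).trans (im.α s).symm) a) b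
  have k3 : ∀ s ∈ Inq Z ∅, (u (Sum.inl s)).map φ = 1 := fun s hs => by
    rw [k1, N.one s (h0 s hs)]
    exact RU.map_one' j.toRingHom
  obtain ⟨c, c', c1, c2, c3⟩ := N.cj
  refine ⟨x, φ, hx, e, loc, fun v hv => (key v 0 fun A' _ Y w _ hY => (h.hI n A' Y hY v hv).trans
    (map_zero w).symm).trans (map_zero j), o.l0 Λ φ.toRingHom (fun s => k3 _ (h.tin n s)) ?_
      fun t => (k2 t).trans ?_, fun s => ?_, c, c', c1, c2, fun t s => ?_⟩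
  · rintro _ ⟨k, rfl⟩
    exact k3 _ (by rw [show (Γ.inp n g m σ).g _ = g k from Fin.append_left _ _ k]; exact hg k)
  · rw [N.al]
    exact RU.map_one' j.toRingHom
  · rw [← N.tr, AddMonoidHom.map_trace φ, AddMonoidHom.map_trace j, k1]
  · have k4 : ∀ M : M2 O, (M.map P.ι).map j = M.map (algebraMap O Λ) := fun M =>
      Matrix.ext fun a b => (congrArg j (N.io _)).trans (j.commutes _)
    rw [← c3, ← k4, ← k4, ← Matrix.map_mul, ← Matrix.map_mul]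
    refine Matrix.ext fun a b => key _ _ fun A' _ Y w im hY => (h.hf n A' Y hY t s a b).trans ?_
    have k5 : ∀ M : M2 O, M.map Y.ι = (M.map P.ι).map w := fun M =>
      Matrix.ext fun a b => (im.ι _).symm
    rw [← im.β, ← im.α, ← im.ρ, N.al, N.be, RU.map_one', one_mul, mul_one, k5, k5,
      ← Matrix.map_mul, ← Matrix.map_mul]
    rfl

/-- **points** -/
theorem Ok.gpt (Λ : Type) [CommRing Λ] [Base Λ] [Algebra O Λ] (ρ : Z.H →* M2 Λ)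
    (hρ : LiftC C.r C.s (fun s => cy p O s.1) ρ) (hu : Ub Z ρ) :
    ∃ φ, Γ.Gp (Γ.inp n g m σ).V qa qb (fun s => (u (Sum.inl s)).trace) φ ρ := by
  obtain ⟨A, _, _, P, j, N⟩ := Ob.ex_nr (fun x => by rw [h.red]; exact hC.sec x) h.inv h.res h.lam hρ
  obtain ⟨-, φ, -, -, k⟩ := h.gp0 hC hg o N hρ.det hu
  exact ⟨φ, k⟩

/-- **points over `O`** -/
theorem Ok.gps [Cf O] (p0 : (p : O) ≠ 0) (ρ : Z.H →* M2 O)
    (hρ : LiftC C.r C.s (fun s => cy p O s.1) ρ) (hu : Ub Z ρ) :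
    ∃ φ, Γ.Gp (Γ.inp n g m σ).V qa qb (fun s => (u (Sum.inl s)).trace) φ ρ ∧
      ∀ z : Ym Z C.t, z.1 ∈ Z.Eg (fun s => (ρ s).trace) → (Γ.D n).kc h.hp p0 _ z ∈
        Kl (Dn (p ^ (n + 1)) (Γ.a + Γ.f) → (Γ.D n).Y) (RingHom.ker φ) := by
  obtain ⟨P, N⟩ := Ob.ex_nrO (fun x => by rw [h.red]; exact hC.sec x) h.inv h.res h.lam hρ
  obtain ⟨x, φ, hx, e, k⟩ := h.gp0 hC hg o N hρ.det hu
  refine ⟨φ, k, fun z hz c hc => (o.pt P x N.io hx N.al ((N.det _).trans (hρ.det _)) _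
    (fun s => ((Γ.D n).ie_eg h.hp p0 hz s).trans (congrArg (· • _) (N.tr s).symm)) c).trans ?_⟩
  rw [show x c = 0 from (e c).symm.trans hc, zero_smul]

end Vale.Agent.P022K.RT.Gda
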