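import Vale.Agent.P022K.RT.Inv

/-!
# P022K, block RT: the prime at `p` which is cut out by the support of a patched module
-/

set_option linter.all false

noncomputable section

namespace Vale.Agent.P022K.RT

open IsLocalRing MvPowerSeries
open Vale.Agent.P022D.L2b (M2)
open Vale.Agent.P022D.Core (PS)
open Vale.Agent.P022D.CA (emb)
open Vale.Agent.P022D.PA (Base)
open Vale.Agent.P022K.PL (Cf)
open Vale.Agent.P022D

namespace Mp

theorem dim_le {R : Type} [CommRing R] {I K : Ideal R} (h : K ≤ I.radical) :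
    ringKrullDim (R ⧸ I) ≤ ringKrullDim (R ⧸ K) := by
  rw [ringKrullDim_quotient, ringKrullDim_quotient]
  exact Order.krullDim_le_of_strictMono
    (fun x => ⟨x.1, h.trans (x.1.2.isRadical.radical_le_iff.2 x.2)⟩) fun _ _ e => e

theorem ex_min {R : Type} [CommRing R] {I : Ideal R} {n : ℕ}
    (h : (n : WithBot ℕ∞) ≤ ringKrullDim (R ⧸ I)) :
    ∃ J ∈ I.minimalPrimes, (n : WithBot ℕ∞) ≤ ringKrullDim (R ⧸ J) := by
  rw [ringKrullDim_quotient, Order.le_krullDim_iff] at h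
  obtain ⟨l, hl⟩ := h
  have := l.head.1.2
  obtain ⟨J, h1, h2⟩ := Ideal.exists_minimalPrimes_le (I := I) (J := l.head.1.asIdeal) l.head.2
  refine ⟨J, h1, ?_⟩
  rw [ringKrullDim_quotient, Order.le_krullDim_iff]
  exact ⟨⟨l.length, fun i => ⟨(l i).1, h2.trans (l.monotone (Fin.zero_le i))⟩, l.step⟩, hl⟩

variable {O : Type} [CommRing O] {A B : Type} [CommRing A] [CommRing B] [Algebra O A] [Algebra O B]

/-- the isomorphism of the quotients -/
def qe (δ : A →ₐ[O] B) (c : Ideal B) (h : ∀ v, ∃ u, δ u - v ∈ c) :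
    (A ⧸ c.comap δ) ≃ₐ[O] B ⧸ c :=
  AlgEquiv.ofBijective (Ideal.quotientMapₐ c δ le_rfl) ⟨Ideal.quotientMap_injective, fun v => by
    obtain ⟨v, rfl⟩ := Ideal.Quotient.mk_surjective v
    obtain ⟨u, hu⟩ := h v
    exact ⟨Ideal.Quotient.mk _ u, Ideal.Quotient.eq.2 hu⟩⟩

theorem fac (δ : A →ₐ[O] B) (c : Ideal B) (h : ∀ v, ∃ u, δ u - v ∈ c) {Ω : Type} [CommRing Ω]
    [Algebra O Ω] (x : A →ₐ[O] Ω) (hx : ∀ u, δ u ∈ c → x u = 0) :
    ∃ y : B →ₐ[O] Ω, (∀ v ∈ c, y v = 0) ∧ x = y.comp δ ∧ ∀ v, ∃ u, y v = x u := by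
  let y := (Ideal.Quotient.liftₐ (c.comap δ) x hx).comp
    ((qe δ c h).symm.toAlgHom.comp (Ideal.Quotient.mkₐ O c))
  have k : ∀ v ∈ c, y v = 0 := fun v hv => by
    simp only [y, AlgHom.comp_apply, Ideal.Quotient.mkₐ_eq_mk, Ideal.Quotient.eq_zero_iff_mem.2 hv,
      map_zero]
  have e : ∀ u, y (δ u) = x u := fun u =>
    congrArg (Ideal.Quotient.liftₐ (c.comap δ) x hx)
      ((qe δ c h).symm_apply_apply (Ideal.Quotient.mk _ u))
  refine ⟨y, k, AlgHom.ext fun u => (e u).symm, fun v => ?_⟩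
  obtain ⟨u, hu⟩ := h v
  have := k _ hu
  rw [map_sub, e, sub_eq_zero] at this
  exact ⟨u, this.symm⟩

end Mp

open Mp

variable {G F O τ₀ : Type} [Group G] [TopologicalSpace G] [IsTopologicalGroup G]
  [Field F] [Finite F] [CommRing O] [IsDomain O] [IsDiscreteValuationRing O] [Cf O] [Algebra O F]
  [Fintype τ₀] {ρ : G →* M2 F} {s : F → O} {d : G → O} {g : τ₀ → G} {p q : τ₀ → Fin 2}
  {I₀ : Ideal (PS O τ₀)} {f : G → M2 (PS O τ₀)}

theorem lc_pt {τ : Type} (x : PS O τ →ₐ[O] O) : Lc x := fun u hu => by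
  rwa [← eq_maximalIdeal (Ideal.comap_isMaximal_of_surjective x.toRingHom
    (fun o => ⟨C o, x.commutes o⟩) (K := maximalIdeal O))] at hu

/-- gluing of local maps on the blocks -/
theorem ex_glue {T A : Type} {τ : T → Type} [Fintype T] [∀ t, Fintype (τ t)] [CommRing A] [Base A]
    [Algebra O A] (h : ∀ a ∈ maximalIdeal O, algebraMap O A a ∈ maximalIdeal A)
    (x : ∀ t, PS O (τ t) →ₐ[O] A) (hx : ∀ t i, x t (X i) ∈ maximalIdeal A) :
    ∃ χ : PS O (Σ t, τ t) →ₐ[O] A,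
      ∀ t u, χ (rename (emb (Function.Embedding.refl _) t) u) = x t u := by
  obtain ⟨χ, k⟩ := ex_ev (σ := Σ t, τ t) h (fun a => x a.1 (X a.2)) fun a => hx a.1 a.2
  refine ⟨χ, fun t u => (DFunLike.congr_fun (Lc.ext (φ := x t)
    (φ' := χ.comp (rename (emb (Function.Embedding.refl _) t))) (hx t) fun i => ?_) u).symm⟩
  rw [AlgHom.comp_apply, rename_X]
  exact (k ⟨t, i⟩).symm

/-- **MINP** -/
theorem minp {T σ Ω : Type} {τ : T → Type} [Fintype T] [Fintype σ] [∀ t, Fintype (τ t)]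
    [Field Ω] [IsAlgClosed Ω] [Algebra O Ω] [FaithfulSMul O Ω]
    (hU : Uni ρ s d g p q I₀ f) (hs : ∀ x, algebraMap O F (s x) = x)
    (e : (Σ t, τ t) ↪ σ) {J1 b : Ideal (PS O σ)} {n1 r : ℕ}
    (sat : ∀ J₀ : Ideal (PS O (Σ t, τ t)), Sat J₀ → Sat (J₀.map (rename (R := O) e) ⊔ J1))
    (dim : ∀ (J₀ : Ideal (PS O (Σ t, τ t))) (k : ℕ), Sat J₀ →
      ringKrullDim (PS O (Σ t, τ t) ⧸ J₀) ≤ (k + 1 : ℕ) →
      ringKrullDim (PS O σ ⧸ (J₀.map (rename (R := O) e) ⊔ J1)) ≤ (k + n1 + 1 : ℕ))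
    (pt : ∃ π : PS O σ →ₐ[O] PS O (Σ t, τ t), (∀ u, π (rename e u) = u) ∧ ∀ u ∈ J1, π u = 0)
    (num : 3 * Fintype.card T + n1 < r) {P : T → Prop} (hP : ∃ t, P t)
    (δ : ∀ t, P t → (PS O (τ t) →ₐ[O] PS O τ₀))
    (lc : ∀ t h i, δ t h (X i) ∈ maximalIdeal (PS O τ₀))
    (sur : ∀ t h v, ∃ u, δ t h u - v ∈ I₀) (I J : ∀ t, Ideal (PS O (τ t)))
    (hw : ∀ t, ¬ P t → Sat (J t) ∧ ringKrullDim (PS O (τ t) ⧸ J t) ≤ (3 + 1 : ℕ) ∧
      ∃ (x : PS O (τ t) →ₐ[O] O) (h : PS O (τ t)), (∀ u ∈ J t, x u = 0) ∧ x h ≠ 0 ∧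
        ∀ u ∈ J t, h * u ∈ I t)
    (hI : sumI e I ⊔ J1 ≤ b)
    (hb : ∀ u ∉ b, ∃ b' : Ideal (PS O σ), (∀ v, u * v ∈ b → v ∈ b') ∧ Sat b' ∧
      ((r + 1 : ℕ) : WithBot ℕ∞) ≤ ringKrullDim (PS O σ ⧸ b'))
    {Y : Set (PS O τ₀ →ₐ[O] Ω)} (ne : Y.Nonempty) (hY : ∀ y ∈ Y, Pt I₀ y)
    (cj : ∀ y ∈ Y, ∀ (y' : PS O τ₀ →ₐ[O] Ω) (c c' : M2 Ω), Pt I₀ y' → c * c' = 1 →
      (∀ z, (f z).map y' = c' * (f z).map y * c) → y' ∈ Y)
    (h1 : ∀ x : PS O σ →ₐ[O] Ω, Pt b x → ∀ t h, ∃ y ∈ Y,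
      x.comp (rename (emb e t)) = y.comp (δ t h))
    (h2 : ∀ x : PS O σ →ₐ[O] Ω, Pt J1 x →
      (∀ t h, ∃ y ∈ Y, x.comp (rename (emb e t)) = y.comp (δ t h)) →
      (∀ t, ¬ P t → ∀ u ∈ J t, x (rename (emb e t) u) = 0) → ∀ u ∈ b, x u = 0) :
    ∃ J₀ : Ideal (PS O τ₀), J₀.IsPrime ∧ Sat J₀ ∧ I₀ ≤ J₀ ∧
      ((4 + 1 : ℕ) : WithBot ℕ∞) ≤ ringKrullDim (PS O τ₀ ⧸ J₀) ∧ Inv I₀ J₀ f ∧
      (∀ y, Pt J₀ y → y ∈ Y) ∧
      ∀ (A : Type) [CommRing A] [IsReduced A] [Algebra O A] (φ : PS O σ →ₐ[O] A),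
        (∀ t h u, δ t h u ∈ J₀ → φ (rename (emb e t) u) = 0) →
        (∀ t, ¬ P t → ∀ u ∈ J t, φ (rename (emb e t) u) = 0) → (∀ u ∈ J1, φ u = 0) →
        ∀ u ∈ b, φ u = 0 := by
  classical
  have := PL.base_ps O τ₀
  have inj := FaithfulSMul.algebraMap_injective O Ω
  choose sw dw x h x1 x2 x3 using hw
  obtain ⟨π, π1, π2⟩ := pt
  let e₀ : (Σ t, τ t) ↪ Σ t, τ t := Function.Embedding.refl _
  have rr : ∀ t (u : PS O (τ t)), rename (emb e t) u = rename e (rename (emb e₀ t) u) :=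
    fun t u => by rw [rename_rename]; rfl
  -- the diagonal
  obtain ⟨χ, hχ⟩ := ex_glue (A := PS O τ₀) (fun a ha => Lu.C_max ha)
    (fun t => if k : P t then δ t k else (Algebra.ofId O _).comp (x t k)) fun t i => by
      split_ifs with k
      · exact lc t k i
      · exact Lu.C_max (lc_pt (x t k) _ (Lu.X_max i))
  have d1 : ∀ t k u, χ (π (rename (emb e t) u)) = δ t k u := fun t k u => by
    rw [rr, π1, hχ, dif_pos k]
  have d2 : ∀ t k u, χ (π (rename (emb e t) u)) = C (x t k u) := fun t k u => by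
    rw [rr, π1, hχ, dif_neg k]; rfl
  have yC : ∀ (y : PS O τ₀ →ₐ[O] Ω) o, y (C o) = algebraMap O Ω o := fun y o => y.commutes o
  have dg : ∀ y ∈ Y, ∀ u ∈ b, y (χ (π u)) = 0 := fun y hy =>
    h2 (y.comp (χ.comp π)) ⟨fun u hu => by simp [π2 u hu], fun u => (hY y hy).int _⟩
      (fun t k => ⟨y, hy, AlgHom.ext fun u => congrArg y (d1 t k u)⟩) fun t k u hu => by
        show y (χ (π _)) = 0
        rw [d2 t k, x1 t k u hu, map_zero, map_zero]
  let a : Ideal (PS O τ₀) := ⨅ y ∈ Y, RingHom.ker y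
  have ma : ∀ u, u ∈ a ↔ ∀ y ∈ Y, y u = 0 := fun u => by
    simp only [a, Ideal.mem_iInf, RingHom.mem_ker]
  have la : I₀ ≤ a := fun u hu => (ma u).2 fun y hy => (hY y hy).ker u hu
  have sa : Sat a := fun o ho u hu => (ma u).2 fun y hy => by
    have := (ma _).1 hu y hy
    rw [map_mul, yC] at this
    exact (mul_eq_zero.1 this).resolve_left fun k => ho (inj (k.trans (map_zero _).symm))
  have clo : ∀ y : PS O τ₀ →ₐ[O] Ω, Pt a y → y ∈ Y := fun y hy => by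
    obtain ⟨t, k⟩ := hP
    obtain ⟨y', a1, a2⟩ := h1 (y.comp (χ.comp π))
      ⟨fun u hu => hy.ker _ ((ma _).2 fun z hz => dg z hz u hu), fun u => hy.int _⟩ t k
    convert a1
    refine AlgHom.ext fun v => ?_
    obtain ⟨u, hu⟩ := sur t k v
    have b1 := hy.ker _ (la hu)
    have b2 := (hY y' a1).ker _ hu
    rw [map_sub, sub_eq_zero] at b1 b2
    rw [← b1, ← b2, ← d1 t k]
    exact (DFunLike.congr_fun a2 u).trans (congrArg y' (d1 t k u).symm)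
  -- the ideals of the blocks
  let B : Ideal (PS O τ₀) → ∀ t, Ideal (PS O (τ t)) := fun c t =>
    if k : P t then c.comap (δ t k) else J t
  let K : Ideal (PS O τ₀) → Ideal (PS O σ) := fun c =>
    (sumI e₀ (B c)).map (rename (R := O) e) ⊔ J1
  have sB : ∀ c, Sat c → ∀ t, Sat (B c t) := fun c hc t => by
    simp only [B]
    split_ifs with k
    · exact fun o ho u hu => hc o ho _ (by
        rwa [Ideal.mem_comap, map_mul, show δ t k (C o) = C o from (δ t k).commutes o] at hu)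
    · exact sw t k
  have kK : ∀ (c : Ideal (PS O τ₀)) (𝔮 : Ideal (PS O σ)), K c ≤ 𝔮 ↔
      (∀ t k u, δ t k u ∈ c → rename (emb e t) u ∈ 𝔮) ∧
      (∀ t, ¬ P t → ∀ u ∈ J t, rename (emb e t) u ∈ 𝔮) ∧ J1 ≤ 𝔮 := fun c 𝔮 => by
    simp only [K, sumI, sup_le_iff, iSup_le_iff, Ideal.map_le_iff_le_comap, ← and_assoc]
    refine and_congr_left' ⟨fun H => ⟨fun t k u hu => ?_, fun t k u hu => ?_⟩, fun H t u hu => ?_⟩
    · exact rr t u ▸ H t (by simpa only [B, dif_pos k, Ideal.mem_comap] using hu)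
    · exact rr t u ▸ H t (by simpa only [B, dif_neg k] using hu)
    · show rename e (rename (emb e₀ t) u) ∈ 𝔮
      rw [← rr]
      by_cases k : P t
      · exact H.1 t k u (by simpa only [B, dif_pos k, Ideal.mem_comap] using hu)
      · exact H.2 t k u (by simpa only [B, dif_neg k] using hu)
  -- the dimension
  have big : ((4 + 1 : ℕ) : WithBot ℕ∞) ≤ ringKrullDim (PS O τ₀ ⧸ a) := by
    by_contra k
    rw [not_le, Nat.cast_add, Nat.cast_one, ENat.WithBot.lt_add_one_iff] at k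
    let w : T → PS O σ := fun t => if k : P t then 1 else rename (emb e t) (h t k)
    obtain ⟨y, hy⟩ := ne
    obtain ⟨b', b1, b2, b3⟩ := hb (∏ t, w t) fun k => by
      have := dg y hy _ k
      simp only [map_prod, Finset.prod_eq_zero_iff, w] at this
      obtain ⟨t, -, c⟩ := this
      split_ifs at c with k
      · simp at c
      · rw [d2 t k, yC] at c
        exact x2 t k (inj (c.trans (map_zero _).symm))
    have b4 : b ≤ b' := fun v hv => b1 v (b.mul_mem_left _ hv)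
    have b5 : K a ≤ b'.radical := (kK _ _).2 ⟨fun t k u hu => jac O _ Ω b' _ b2 fun z hz => ?_,
      fun t k u hu => Ideal.le_radical (b1 _ ?_),
      le_sup_right.trans (hI.trans (b4.trans Ideal.le_radical))⟩
    · have b6 := b3.trans ((dim_le b5).trans (dim _ (3 * Fintype.card T)
        (flat O T _ τ e₀ _ (sB a sa)) (sumd O T _ τ e₀ _ (fun _ => 3) _ (sB a sa) (fun t => ?_)
          (by simp [mul_comm]))))
      · have : r + 1 ≤ 3 * Fintype.card T + n1 + 1 := by exact_mod_cast b6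
        omega
      by_cases k' : P t
      · rw [show B a t = _ from dif_pos k']
        exact (ringKrullDim_eq_of_ringEquiv (qe (δ t k') a fun v =>
          (sur t k' v).imp fun _ c => la c).toRingEquiv).trans_le k
      · rw [show B a t = _ from dif_neg k']
        exact dw t k'
    · obtain ⟨y', c1, c2⟩ := h1 z ⟨fun v hv => hz.ker v (b4 hv), hz.int⟩ t k
      exact (DFunLike.congr_fun c2 u).trans ((ma _).1 hu y' c1)
    · rw [← Finset.mul_prod_erase _ _ (Finset.mem_univ t), mul_right_comm]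
      refine b.mul_mem_right _ (hI (Ideal.mem_sup_left (Ideal.mem_iSup_of_mem t ?_)))
      simp only [w, dif_neg k, ← map_mul]
      exact Ideal.mem_map_of_mem _ (x3 t k u hu)
  obtain ⟨J₀, ⟨⟨j1, j2⟩, j3⟩, j4⟩ := ex_min big
  have j5 : Sat J₀ := fun o ho u hu => (j1.mem_or_mem hu).resolve_left fun k => by
    obtain ⟨v, c1, c2⟩ := Ideal.exists_mul_mem_of_mem_minimalPrimes ⟨⟨j1, j2⟩, j3⟩ k
    exact c1 (sa o ho v c2)
  have j6 : ∀ y : PS O τ₀ →ₐ[O] Ω, Pt J₀ y → y ∈ Y := fun y hy =>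
    clo y ⟨fun u hu => hy.ker u (j2 hu), hy.int⟩
  refine ⟨J₀, j1, j5, la.trans j2, j4, hU.inv_min hs j1 j5 (la.trans j2) Ω (𝔞 := a)
    (fun Q c1 _ c2 c3 => j3 ⟨c1, c2⟩ c3) fun y y' c c' c1 c2 c3 c4 u hu =>
      (ma u).1 hu y' (cj y (j6 y c1) y' c c' c2 c3 c4), j6, fun A _ _ _ φ c1 c2 c3 u hu => ?_⟩
  obtain ⟨n, hn⟩ := jac O _ Ω (K J₀) u (sat _ (flat O T _ τ e₀ _ (sB J₀ j5))) fun z hz => by
    obtain ⟨z1, z2, z3⟩ := (kK J₀ (RingHom.ker z)).1 hz.ker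
    refine h2 z ⟨z3, hz.int⟩ (fun t k => ?_) z2 u hu
    obtain ⟨y, y1, y2, y3⟩ := fac (δ t k) J₀ (fun v => (sur t k v).imp fun _ c => j2 (la c))
      (z.comp (rename (emb e t))) (z1 t k)
    exact ⟨y, j6 y ⟨y1, fun v => (y3 v).elim fun u c => c ▸ hz.int _⟩, y2⟩
  have := (kK J₀ (RingHom.ker φ)).2 ⟨c1, c2, c3⟩ hn
  rw [RingHom.mem_ker, map_pow] at this
  exact IsReduced.eq_zero _ ⟨n, this⟩

end Vale.Agent.P022K.RT
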