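import Vale.Agent.P022K.RT.Tau

/-!
# P022K, block RT: lifts on one component
-/

set_option linter.all false

noncomputable section

namespace Vale.Agent.P022K.RT

open Zl IsLocalRing MvPowerSeries
open Vale.Agent.P022D.L2b (M2 mem_max_iff ker_eq)
open Vale.Agent.P022D.Loc2 (TnG coG)
open Vale.Agent.P022D.Core (PS)
open Vale.Agent.P022D
open Vale.Agent.P022D.PA (Base)
open Vale.Agent.P022K.PL (Cf)
open Vale.Agent.P027M.S (Inert)
open Vale.Agent.P022D.W (dec)
open Vale.Agent.P022E.GW (Ov Fb)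
open Vale.Agent.P022K.GW (Id)

/-- **connected**: two points of one lift over a domain -/
def Cn {G O : Type} [Group G] [TopologicalSpace G] [CommRing O] (V V' : G →* M2 O) : Prop :=
  ∃ (A : Type) (_ : CommRing A) (_ : IsDomain A) (_ : Base A) (_ : Algebra O A) (ρ : G →* M2 A)
    (y y' : A →ₐ[O] O), Ac ρ ∧ (∀ x, (ρ x).det = algebraMap O A (V x).det) ∧
      (∀ x, (ρ x).map y = V x) ∧ ∀ x, (ρ x).map y' = V' x

/-- finite non scalar inertia -/
def Gf {A : Type} [CommRing A] (P : Id) (V : dec P → M2 A) : Prop :=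
  (∃ n : ℕ, 0 < n ∧ ∀ i : dec P, Inert P i → V i ^ n = 1) ∧
    ∃ i : dec P, Inert P i ∧ (V i).trace ^ 2 ≠ 4 * (V i).det

/-- unramified, and the ratio of the eigenvalues of Frobenius is not `l` -/
def Gu {A : Type} [CommRing A] (l : ℕ) (P : Id) (V : dec P → M2 A) : Prop :=
  (∀ i : dec P, Inert P i → V i = 1) ∧
    ∃ φ : dec P, Fb l P φ ∧ l * (V φ).trace ^ 2 ≠ (l + 1) ^ 2 * (V φ).det

/-- **good seeds** -/
def Gs {A : Type} [CommRing A] [IsLocalRing A] (l : ℕ) (P : Id) (V : dec P → M2 A) : Prop :=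
  Ac V ∧ (Gf P V ∨ Gu l P V)

/-- `V'` is **on the component** of the good seed `V` -/
def On {O : Type} [CommRing O] [IsLocalRing O] (l : ℕ) (P : Id) (V V' : dec P →* M2 O) : Prop :=
  Gs l P V ∧ Cn V V'

/-- `J` is the component through the smooth point `x` -/
structure Cm {O τ : Type} [CommRing O] (I : Ideal (PS O τ)) (x : PS O τ →ₐ[O] O)
    (J : Ideal (PS O τ)) (h : PS O τ) : Prop where
  par : Par J 3
  le : I ≤ J
  ker : ∀ u ∈ J, x u = 0
  ne : x h ≠ 0
  mul : ∀ u ∈ J, h * u ∈ I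

namespace Zl

theorem loc_of_int {A B : Type} [CommRing A] [IsLocalRing A] [CommRing B] [IsLocalRing B]
    (u : A →+* B) (hu : u.IsIntegral) : ∀ a ∈ maximalIdeal A, u a ∈ maximalIdeal B :=
  fun a ha => by
    have h := Ideal.isMaximal_comap_of_isIntegral_of_isMaximal' u hu (maximalIdeal B)
    rw [← eq_maximalIdeal h] at ha
    exact ha

theorem mem_of_map {A B : Type} [CommRing A] [IsLocalRing A] [CommRing B] [IsLocalRing B]
    (u : A →+* B) {a : A} (h : u a ∈ maximalIdeal B) : a ∈ maximalIdeal A :=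
  fun ha => h (ha.map u)

theorem alg_loc {O O' A : Type} [CommRing O] [CommRing O'] [IsLocalRing O'] [Algebra O O']
    [Algebra.IsIntegral O O'] [CommRing A] [IsLocalRing A] [Algebra O A] (x : A →ₐ[O] O') :
    ∀ a ∈ maximalIdeal A, x a ∈ maximalIdeal O' :=
  loc_of_int x.toRingHom (RingHom.IsIntegral.tower_top (algebraMap O A) _ (by
    rw [show x.toRingHom.comp (algebraMap O A) = algebraMap O O' from x.comp_algebraMap]
    exact fun b => Algebra.IsIntegral.isIntegral b))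

theorem pm_tr {G A B : Type} [Group G] [CommRing A] [CommRing B] (u : A →+* B) (V : G →* M2 A)
    (x : G) : (pm u V x).trace = u (V x).trace := (AddMonoidHom.map_trace u _).symm

theorem pm_det {G A B : Type} [Group G] [CommRing A] [CommRing B] (u : A →+* B) (V : G →* M2 A)
    (x : G) : (pm u V x).det = u (V x).det := (RingHom.map_det u _).symm

theorem base_quot {A : Type} [CommRing A] [hA : Base A] {J : Ideal A} (hJ : J ≠ ⊤) :
    Base (A ⧸ J) := by
  have := hA.cpl
  have := hA.fin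
  haveI : Nontrivial (A ⧸ J) := Ideal.Quotient.nontrivial_iff.2 hJ
  haveI : IsLocalRing (A ⧸ J) :=
    IsLocalRing.of_surjective' (Ideal.Quotient.mk J) Ideal.Quotient.mk_surjective
  have hl : IsLocalHom (Ideal.Quotient.mk J) :=
    IsLocalHom.of_surjective _ Ideal.Quotient.mk_surjective
  have e : (maximalIdeal A).map (Ideal.Quotient.mk J) = maximalIdeal (A ⧸ J) :=
    map_maximalIdeal_of_surjective _ Ideal.Quotient.mk_surjective
  have h1 := CA.isPrecomplete_of_surj _ Ideal.Quotient.mk_surjective (maximalIdeal A) (B := A ⧸ J)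
  rw [e] at h1
  have h2 := NR.haus_of_le (maximalIdeal.isMaximal (A ⧸ J)).ne_top
  refine { cpl := {}, fin := Finite.of_surjective (ResidueField.map (Ideal.Quotient.mk J)) ?_ }
  intro z
  obtain ⟨z, rfl⟩ := residue_surjective z
  obtain ⟨z, rfl⟩ := Ideal.Quotient.mk_surjective z
  exact ⟨residue _ z, rfl⟩

theorem ch2 {A : Type} [CommRing A] (M : M2 A) : M * M = M.trace • M - M.det • 1 := by
  ext i j
  fin_cases i <;> fin_cases j <;>
    simp [Matrix.mul_apply, Matrix.trace_fin_two, Matrix.det_fin_two] <;> ring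

/-- a unipotent element of finite order is trivial -/
theorem one_of_uni {A : Type} [CommRing A] [IsDomain A] [CharZero A] {M : M2 A} {n : ℕ}
    (hn : 0 < n) (h : M ^ n = 1) (ht : M.trace = 2) (hd : M.det = 1) : M = 1 := by
  have h3 : (M - 1) * (M - 1) = 0 := by
    rw [sub_mul, mul_sub, ch2, ht, hd, two_smul, one_smul, mul_one, one_mul]
    abel
  have h4 := one_add_pow h3 n
  rw [add_sub_cancel, h, left_eq_add, ← Nat.cast_smul_eq_nsmul A] at h4
  refine sub_eq_zero.1 (Matrix.ext fun i j => ?_)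
  exact (mul_eq_zero.1 (congrFun (congrFun h4 i) j)).resolve_left (Nat.cast_ne_zero.2 hn.ne')

theorem nt_of_gu {A : Type} [CommRing A] [IsDomain A] [CharZero A] {l : ℕ} {P : Id} (h : Ov l P)
    {V : dec P →* M2 A} (hV : Gu l P V) : Nt l P V := by
  obtain ⟨-, φ, hφ, hne⟩ := hV
  refine ⟨φ, hφ, fun N _ _ e => ?_⟩
  have hd := (det_unit V φ).ne_zero
  generalize V φ = Φ at *
  have h1 : (l : A) - 1 ≠ 0 := sub_ne_zero.2 (by exact_mod_cast h.1.ne_one)
  let M : M2 A := ((l : A) * Φ.trace) • Φ - (((l : A) + 1) * Φ.det) • 1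
  have h2 : N * (Φ * Φ) = ((l : A) * l) • (Φ * Φ * N) := by
    rw [← mul_assoc, ← e, smul_mul_assoc, mul_assoc, ← e, mul_smul_comm, smul_smul, mul_assoc]
  have h3 : ((l : A) - 1) • (M * N) = 0 := by
    rw [ch2, mul_sub, mul_smul_comm, ← e, sub_mul, smul_mul_assoc] at h2
    simp only [M, sub_mul, smul_mul_assoc, mul_smul_comm, one_mul, mul_one] at h2 ⊢
    linear_combination (norm := module) -h2
  have h4 : M.det = Φ.det * (((l : A) + 1) ^ 2 * Φ.det - l * Φ.trace ^ 2) := by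
    simp [M, Matrix.det_fin_two, Matrix.trace_fin_two]
    ring
  have h5 : (((l : A) - 1) * M.det) • N = 0 := by
    have := congrArg (M.adjugate * ·) h3
    simp only [mul_smul_comm, ← mul_assoc, Matrix.adjugate_mul, smul_mul_assoc, one_mul,
      mul_zero, smul_smul] at this
    exact this
  refine Matrix.ext fun i j => (mul_eq_zero.1 (congrFun (congrFun h5 i) j)).resolve_left ?_
  rw [h4]
  exact mul_ne_zero h1 (mul_ne_zero hd (sub_ne_zero.2 hne.symm))

end Zl

section alg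

variable {O τ : Type} [CommRing O] [IsDomain O] [IsDiscreteValuationRing O] [Fintype τ]

theorem Par.prime {J : Ideal (PS O τ)} {k : ℕ} (h : Par J k) : J.IsPrime := by
  obtain ⟨m, ψ, rfl⟩ := h.ker
  have _ : IsDomain (PS O (Fin m)) := NoZeroDivisors.to_isDomain _
  exact RingHom.ker_isPrime ψ

/-- a parametrised prime of the right dimension through a smooth point is the component -/
theorem sm_h {I J : Ideal (PS O τ)} {x : PS O τ →ₐ[O] O} {k : ℕ} (hJ : Par J k) (h1 : I ≤ J)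
    (h2 : ∀ u ∈ J, x u = 0) (hs : Sm I x k) : ∃ h, x h ≠ 0 ∧ ∀ u ∈ J, h * u ∈ I := by
  obtain ⟨J', j1, -, ⟨a, j3, j4⟩, j5⟩ := hs.comp fun u hu => h2 u (h1 hu)
  have e : J' ≤ J := fun u hu =>
    (hJ.prime.mem_or_mem (h1 (j4 u hu))).resolve_left fun ha => j3 (h2 a ha)
  refine ⟨a, j3, fun u hu => j4 u (by_contra fun hn => ?_)⟩
  have := (CA.dimGE_succ j1 (lt_of_le_of_ne e fun e' => hn (e' ▸ hu)) hJ.dim.ge).trans j5
  exact absurd (by exact_mod_cast this : k + 1 + 1 ≤ k + 1) (by omega)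

theorem pt_cc (x : PS O τ →ₐ[O] O) (u : PS O τ) : x u - constantCoeff u ∈ maximalIdeal O := by
  have := Or.pt_loc x (u - C (constantCoeff u)) (by rw [mem_max_iff]; simp)
  rwa [map_sub, show x (C _) = _ from x.commutes _] at this

variable {O' : Type} [CommRing O'] [IsDomain O'] [IsDiscreteValuationRing O'] [hO' : Cf O']
  [Algebra O O'] [Module.Finite O O']

omit [IsDomain O] [IsDiscreteValuationRing O] in
/-- extension of scalars of a map from a power series ring -/
theorem ex_ext {B : Type} [CommRing B] [hB : Base B] [Algebra O' B] (ψ : PS O τ →+* B)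
    (h1 : ∀ o, ψ (C o) = algebraMap O' B (algebraMap O O' o))
    (h2 : ∀ t, ψ (X t) ∈ maximalIdeal B) :
    ∃ ψ' : PS O' τ →ₐ[O'] B, ∀ u, ψ' (map (algebraMap O O') u) = ψ u := by
  have := hB.cpl
  obtain ⟨e, e1, e2⟩ := NR.exists_ev (maximalIdeal B) (algebraMap O' B) (fun t => ψ (X t)) h2
  have e3 : ψ = e.comp (map (algebraMap O O')) := NR.ev_ext (maximalIdeal B)
    (fun o => by rw [RingHom.comp_apply, map_C, e1, h1])
    (fun t => by rw [RingHom.comp_apply, map_X, e2]) h2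
  exact ⟨{ e with commutes' := e1 }, fun u => (RingHom.congr_fun e3 u).symm⟩

/-- **base change of a parametrised prime** -/
theorem ker_bc [FaithfulSMul O O'] {m : ℕ} (ψ : PS O τ →ₐ[O] PS O (Fin m)) :
    ((RingHom.ker ψ).map (map (algebraMap O O') : PS O τ →+* PS O' τ)).IsPrime := by
  classical
  have _ : IsDomain (PS O' (Fin m)) := NoZeroDivisors.to_isDomain _
  haveI := PL.base_ps O' (Fin m)
  have hl := alg_loc (Algebra.ofId O O')
  obtain ⟨ψ', h1⟩ := ex_ext (O' := O') ((map (algebraMap O O')).comp ψ.toRingHom)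
    (fun o => by
      rw [RingHom.comp_apply, show ψ.toRingHom (C o) = C o from ψ.commutes o, map_C]; rfl)
    fun t => by
      rw [mem_max_iff, RingHom.comp_apply, constantCoeff_map]
      let x : PS O τ →ₐ[O] O :=
        { (constantCoeff : PS O (Fin m) →+* O).comp ψ.toRingHom with
          commutes' := fun o => (congrArg constantCoeff (ψ.commutes o)).trans (constantCoeff_C o) }
      exact hl _ (Or.pt_loc x _ (Lu.X_max t))
  convert RingHom.ker_isPrime ψ' using 1
  refine le_antisymm (Ideal.map_le_iff_le_comap.2 fun u hu => ?_) fun u hu => ?_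
  · show ψ' _ = 0
    rw [h1, RingHom.comp_apply, show ψ.toRingHom u = 0 from hu, map_zero]
  let b := Module.finBasis O O'
  let v : _ → PS O τ := fun i n => b.repr (coeff n u) i
  have e : u = ∑ i, C (b i) * map (algebraMap O O') (v i) := by
    ext n
    rw [map_sum, ← b.sum_repr (coeff n u)]
    exact Finset.sum_congr rfl fun i _ => by
      rw [coeff_C_mul, coeff_map, Algebra.smul_def, mul_comm]; rfl
  have h2 : ∑ i, C (b i) * map (algebraMap O O') (ψ (v i)) = 0 := by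
    refine Eq.trans ?_ ((congrArg ψ' e).symm.trans hu)
    rw [map_sum]
    exact Finset.sum_congr rfl fun i _ => by
      rw [map_mul, h1, show ψ' (C (b i)) = C (b i) from ψ'.commutes _]; rfl
  rw [e]
  refine Ideal.sum_mem _ fun i _ => Ideal.mul_mem_left _ _ (Ideal.mem_map_of_mem _ ?_)
  refine MvPowerSeries.ext fun n => Fintype.linearIndependent_iff.1 b.linearIndependent
    (fun i => coeff n (ψ (v i))) ?_ i
  have := congrArg (coeff n) h2
  rw [map_sum, map_zero] at this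
  refine Eq.trans (Finset.sum_congr rfl fun i _ => ?_) this
  rw [coeff_C_mul, coeff_map, Algebra.smul_def, mul_comm]

theorem Par.bc [FaithfulSMul O O'] {J : Ideal (PS O τ)} {k : ℕ} (h : Par J k) :
    (J.map (map (algebraMap O O') : PS O τ →+* PS O' τ)).IsPrime := by
  obtain ⟨m, ψ, rfl⟩ := h.ker
  exact ker_bc ψ

omit hO' [Fintype τ] in
theorem far {a : O} (ha : a ≠ 0) : ∃ N : ℕ, 0 < N ∧ ∀ (O' : Type) [CommRing O'] [IsLocalRing O']
    [Algebra O O'] [IsDomain O'] [Module.Finite O O'] [FaithfulSMul O O'],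
    algebraMap O O' a ∉ (maximalIdeal O ^ N).map (algebraMap O O') := by
  obtain ⟨ϖ, hϖ⟩ := IsDiscreteValuationRing.exists_irreducible O
  obtain ⟨n, u, rfl⟩ := IsDiscreteValuationRing.eq_unit_mul_pow_irreducible ha hϖ
  refine ⟨n + 1, n.succ_pos, fun O' _ _ _ _ _ _ hm => ?_⟩
  rw [hϖ.maximalIdeal_eq, Ideal.span_singleton_pow, Ideal.map_span, Set.image_singleton,
    Ideal.mem_span_singleton'] at hm
  obtain ⟨c, hc⟩ := hm
  have h0 : algebraMap O O' (ϖ ^ n) ≠ 0 := fun e =>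
    pow_ne_zero n hϖ.ne_zero (FaithfulSMul.algebraMap_injective O O' (e.trans (map_zero _).symm))
  have h1 : c * algebraMap O O' ϖ = algebraMap O O' u := mul_right_cancel₀ h0 (by
    rw [← map_mul, ← hc, pow_succ', map_mul, mul_assoc])
  exact alg_loc (Algebra.ofId O O') ϖ hϖ.not_isUnit
    (isUnit_of_mul_isUnit_right (h1 ▸ u.isUnit.map _))

omit hO' in
/-- points with congruent coordinates are congruent -/
theorem pt_near {x x' : PS O τ →ₐ[O] O'} {n : Ideal O'} (hn : n ≠ ⊤)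
    (h : ∀ t, x (X t) - x' (X t) ∈ n) (u : PS O τ) : x u - x' u ∈ n := by
  haveI : Nontrivial (O' ⧸ n) := Ideal.Quotient.nontrivial_iff.2 hn
  haveI : IsLocalRing (O' ⧸ n) :=
    IsLocalRing.of_surjective' (Ideal.Quotient.mk n) Ideal.Quotient.mk_surjective
  have hH := NR.haus_of_le (maximalIdeal.isMaximal (O' ⧸ n)).ne_top
  exact Ideal.Quotient.eq.1 (RingHom.congr_fun (NR.ev_ext (maximalIdeal (O' ⧸ n))
    (φ := (Ideal.Quotient.mk n).comp x.toRingHom) (ψ := (Ideal.Quotient.mk n).comp x'.toRingHom)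
    (fun o => congrArg (Ideal.Quotient.mk n) ((x.commutes o).trans (x'.commutes o).symm))
    (fun t => Ideal.Quotient.eq.2 (h t))
    fun t => surj_loc _ Ideal.Quotient.mk_surjective _ (alg_loc x _ (Lu.X_max t))) u)

end alg

section chart

variable {G F O τ : Type} [Group G] [TopologicalSpace G] [IsTopologicalGroup G] [Field F]
  [CommRing O] [IsDomain O] [IsDiscreteValuationRing O] [Algebra O F] [Fintype τ]
  {r : G →* M2 F} {s : F → O} {d : G → O} {g : τ → G} {p q : τ → Fin 2} {I : Ideal (PS O τ)}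
  {f : G → M2 (PS O τ)} (hs : ∀ x, algebraMap O F (s x) = x) (hU : Uni r s d g p q I f)

include hs hU

theorem Uni.ac {B : Type} [CommRing B] [IsLocalRing B] (φ : PS O τ →+* B)
    (h1 : ∀ u ∈ I, φ u = 0) (h2 : ∀ u ∈ maximalIdeal (PS O τ), φ u ∈ maximalIdeal B) :
    Ac ((hU.un hs).rep φ h1) := fun n => by
  let π : B →+* B ⧸ maximalIdeal B ^ n := Ideal.Quotient.mk _
  have := (hU.un hs).rep_lc (π.comp φ) (fun u hu => (congrArg π (h1 u hu)).trans (map_zero _))
    fun u hu => Ideal.Quotient.eq_zero_iff_mem.2 (Or.pow_map φ h2 n u hu)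
  simp only [cg_one]
  exact this.isOpen_fiber 1

omit hs [IsTopologicalGroup G] [Fintype τ] in
theorem Uni.pt_det {B : Type} [CommRing B] [Algebra O B] {x : PS O τ →ₐ[O] B}
    (h : ∀ u ∈ I, x u = 0) (y : G) : ((f y).map x).det = algebraMap O B (d y) := by
  have := h _ (hU.det y)
  rw [map_sub, sub_eq_zero, AlgHom.map_det] at this
  exact this.trans (x.commutes _)

omit hs [IsTopologicalGroup G] [Fintype τ] in
theorem Uni.pt_crd {B : Type} [CommRing B] [Algebra O B] {x : PS O τ →ₐ[O] B}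
    (h : ∀ u ∈ I, x u = 0) (t : τ) : x (X t) =
      (f (g t)).map x (p t) (q t) - algebraMap O B (s (r (g t) (p t) (q t))) := by
  have := h _ (hU.crd t)
  rw [map_sub, map_sub, sub_eq_zero, show x (C _) = _ from x.commutes _] at this
  exact this.symm

omit [IsTopologicalGroup G] in
theorem Uni.pt_red (x : PS O τ →ₐ[O] O) (y : G) :
    ((f y).map x).map (algebraMap O F) = r y := Matrix.ext fun i j => by
  have := pt_cc x (f y i j)
  rwa [← ker_eq hs, RingHom.mem_ker, map_sub, sub_eq_zero, hU.red] at this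

omit hs [IsTopologicalGroup G] in
/-- a point is determined by its representation -/
theorem Uni.pt_ext {O' : Type} [CommRing O'] [IsDomain O'] [IsDiscreteValuationRing O']
    [Algebra O O'] [Module.Finite O O'] {x x' : PS O τ →ₐ[O] O'} (h : ∀ u ∈ I, x u = 0)
    (h' : ∀ u ∈ I, x' u = 0)
    (e : ∀ y, (f y).map x = (f y).map x') : x = x' := AlgHom.ext fun u =>
  sub_eq_zero.1 (pt_near (n := ⊥) bot_ne_top
    (fun t => by rw [hU.pt_crd h, hU.pt_crd h', e, sub_self]; rfl) u)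

variable [hO : Cf O] {O' : Type} [CommRing O'] [IsDomain O'] [IsDiscreteValuationRing O']
  [hO' : Cf O'] [Algebra O O'] [Module.Finite O O'] [FaithfulSMul O O']

omit hO in
/-- **two points of a parametrised prime are connected** -/
theorem cn_of_par {J : Ideal (PS O τ)} {k : ℕ} (hJ : Par J k) (hle : I ≤ J)
    {x₁ x₂ : PS O τ →ₐ[O] O'} (h1 : ∀ u ∈ J, x₁ u = 0) (h2 : ∀ u ∈ J, x₂ u = 0)
    {V₁ V₂ : G →* M2 O'} (e1 : ∀ y, (f y).map x₁ = V₁ y) (e2 : ∀ y, (f y).map x₂ = V₂ y) :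
    Cn V₁ V₂ := by
  haveI hP := hJ.bc (O' := O')
  set J' := J.map (map (algebraMap O O') : PS O τ →+* PS O' τ)
  haveI := PL.base_ps O' τ
  haveI := Or.base_cf O'
  haveI := base_quot hP.ne_top
  have key : ∀ x : PS O τ →ₐ[O] O', (∀ u ∈ J, x u = 0) → ∃ y : (PS O' τ ⧸ J') →ₐ[O'] O',
      ∀ u, y (Ideal.Quotient.mk J' (map (algebraMap O O') u)) = x u := fun x hx => by
    obtain ⟨x', hx'⟩ := ex_ext (O' := O') x.toRingHom x.commutes
      fun t => alg_loc x _ (Lu.X_max t)
    exact ⟨Ideal.Quotient.liftₐ J' x' fun u hu => (Ideal.map_le_iff_le_comap.2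
      fun v hv => (hx' v).trans (hx v hv) : J' ≤ RingHom.ker x') hu, hx'⟩
  obtain ⟨y₁, a1⟩ := key x₁ h1
  obtain ⟨y₂, a2⟩ := key x₂ h2
  let φ : PS O τ →+* PS O' τ ⧸ J' := (Ideal.Quotient.mk J').comp (map (algebraMap O O'))
  have k1 : ∀ u ∈ I, φ u = 0 := fun u hu =>
    Ideal.Quotient.eq_zero_iff_mem.2 (Ideal.mem_map_of_mem _ (hle hu))
  refine ⟨_, inferInstance, inferInstance, inferInstance, inferInstance, (hU.un hs).rep φ k1,
    y₁, y₂, hU.ac hs φ k1 fun u hu => mem_of_map y₁.toRingHom ?_, fun y => ?_,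
    fun y => (Matrix.ext fun i j => a1 _).trans (e1 y),
    fun y => (Matrix.ext fun i j => a2 _).trans (e2 y)⟩
  · exact (a1 u).symm ▸ alg_loc x₁ u hu
  · rw [Lu.Un.rep_det, ← e1, hU.pt_det fun u hu => h1 u (hle hu)]
    exact congrArg (Ideal.Quotient.mk J') (map_C _ _)

variable [Finite F]

omit hO' [Module.Finite O O'] [FaithfulSMul O O'] in
/-- the point of a lift -/
theorem Uni.ex_pt {A : Type} [CommRing A] [Base A] [Algebra O A] {ρ : G →* M2 A}
    (h : LiftC r s d ρ) : ∃ x : PS O τ →ₐ[O] A, (∀ u ∈ I, x u = 0) ∧ ∀ y, (f y).map x = ρ y := by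
  obtain ⟨φ, -, h1, h2⟩ := (luc G F O τ r s d g p q I f hs hU A).1 ρ h
  exact ⟨φ, h1, h2⟩

omit hO' in
/-- **a connected point lies on the component** -/
theorem Cm.kill' {x : PS O τ →ₐ[O] O} {x' : PS O τ →ₐ[O] O'} {J : Ideal (PS O τ)} {h : PS O τ}
    (H : Cm I x J h) (h' : ∀ u ∈ I, x' u = 0) {V V' : G →* M2 O'}
    (e : ∀ y, ((f y).map x).map (algebraMap O O') = V y)
    (e' : ∀ y, (f y).map x' = V' y) (c : Cn V V') : ∀ u ∈ J, x' u = 0 := by
  obtain ⟨A, _, _, _, _, ρ, y, y', c1, c2, c3, c4⟩ := c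
  letI : Algebra O A := ((algebraMap O' A).comp (algebraMap O O')).toAlgebra
  haveI : IsScalarTower O O' A := IsScalarTower.of_algebraMap_eq' rfl
  have loc := alg_loc (Algebra.ofId O O')
  let x₁ := (Algebra.ofId O O').comp x
  have h0 : ∀ u ∈ I, x₁ u = 0 := fun u hu =>
    (congrArg (algebraMap O O') (H.ker u (H.le hu))).trans (map_zero _)
  obtain ⟨φ, a1, a2⟩ := hU.ex_pt hs (ρ := ρ) ⟨c1,
    fun a ha => mem_of_map y.toRingHom ((y.commutes (algebraMap O O' a)).symm ▸ loc a ha),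
    fun z i j => mem_of_map y.toRingHom (by
      have := loc (x (f z i j) - s (r z i j)) (by
        rw [← ker_eq hs, RingHom.mem_ker, map_sub, hs, sub_eq_zero]
        exact congrFun (congrFun (hU.pt_red hs x z) i) j)
      rw [map_sub] at this ⊢
      convert this using 2
      · exact congrFun (congrFun ((c3 z).trans (e z).symm) i) j
      · exact y.commutes _),
    fun z => by rw [c2, ← e]; exact congrArg _ (hU.pt_det h0 z)⟩
  have b : ∀ (w : A →ₐ[O'] O') (z : PS O τ →ₐ[O] O'), (∀ u ∈ I, z u = 0) →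
      (∀ a, (ρ a).map w = (f a).map z) → (w.restrictScalars O).comp φ = z := fun w z h1 h2 =>
    hU.pt_ext (fun u hu => (congrArg w (a1 u hu)).trans (map_zero _)) h1
      fun a => by rw [← h2, ← a2]; rfl
  have b1 := b y x₁ h0 fun a => (c3 a).trans (e a).symm
  have b2 := b y' x' h' fun a => (c4 a).trans (e' a).symm
  intro u hu
  have h3 := a1 _ (H.mul u hu)
  rw [map_mul] at h3
  rw [← b2, AlgHom.comp_apply, (mul_eq_zero.1 h3).resolve_left fun h4 =>
    H.ne (FaithfulSMul.algebraMap_injective O O' (by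
      rw [map_zero, show algebraMap O O' (x h) = x₁ h from rfl, ← b1, AlgHom.comp_apply, h4,
        map_zero])), map_zero]

theorem Cm.kill {x x' : PS O τ →ₐ[O] O} {J : Ideal (PS O τ)} {h : PS O τ} (H : Cm I x J h)
    (h' : ∀ u ∈ I, x' u = 0) {V V' : G →* M2 O} (e : ∀ y, (f y).map x = V y)
    (e' : ∀ y, (f y).map x' = V' y) (c : Cn V V') : ∀ u ∈ J, x' u = 0 :=
  H.kill' hs hU h' e e' c

omit hs hO hO' [IsTopologicalGroup G] [Finite F] [FaithfulSMul O O'] in
/-- **neighbours of a smooth point lie on its component** -/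
theorem Cm.near {x : PS O τ →ₐ[O] O} {J : Ideal (PS O τ)} {h : PS O τ} (H : Cm I x J h) :
    ∃ N : ℕ, 0 < N ∧ ∀ (O' : Type) [CommRing O'] [IsDomain O'] [IsDiscreteValuationRing O']
      [Algebra O O'] [Module.Finite O O'] [FaithfulSMul O O'] (y : PS O τ →ₐ[O] O'),
      (∀ u ∈ I, y u = 0) → (∀ z, Cg ((maximalIdeal O ^ N).map (algebraMap O O')) ((f z).map y)
        (((f z).map x).map (algebraMap O O'))) → ∀ u ∈ J, y u = 0 := by
  obtain ⟨N, hN, b⟩ := far H.ne
  refine ⟨N, hN, fun O' _ _ _ _ _ _ y y1 w u hu => ?_⟩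
  let x' := (Algebra.ofId O O').comp x
  have nr := pt_near (x := y) (x' := x') (n := (maximalIdeal O ^ N).map (algebraMap O O'))
    (fun e => (maximalIdeal.isMaximal O').ne_top (top_le_iff.1 (e ▸ Ideal.map_le_iff_le_comap.2
      fun o ho => alg_loc (Algebra.ofId O O') o (Ideal.pow_le_self hN.ne' ho)))) (fun t => by
      rw [hU.pt_crd y1, hU.pt_crd (x := x') fun u hu =>
        (congrArg (algebraMap O O') (H.ker u (H.le hu))).trans (map_zero _),
        sub_sub_sub_cancel_right]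
      exact w _ _ _) h
  have c := y1 _ (H.mul u hu)
  rw [map_mul] at c
  refine (mul_eq_zero.1 c).resolve_left fun c' => b O' ?_
  rwa [c', zero_sub, neg_mem_iff] at nr

end chart

section cn

variable {G O : Type} [Group G] [TopologicalSpace G] [CommRing O] {V V' : G →* M2 O}

theorem Cn.det (c : Cn V V') (x : G) : (V' x).det = (V x).det := by
  obtain ⟨A, _, _, _, _, ρ, y, y', c1, c2, c3, c4⟩ := c
  rw [← c4, ← AlgHom.mapMatrix_apply, ← AlgHom.map_det, c2, y'.commutes]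
  rfl

theorem Cn.symm (c : Cn V V') : Cn V' V := by
  have h := c.det
  obtain ⟨A, _, _, _, _, ρ, y, y', c1, c2, c3, c4⟩ := c
  exact ⟨A, _, ‹_›, ‹_›, _, ρ, y', y, c1, fun x => by rw [h, c2], c4, c3⟩

variable [IsTopologicalGroup G]

/-- conjugation -/
theorem Cn.cj (c : Cn V V') (U U' : M2 O) (h : U * U' = 1) : Cn (cj U U' h V) (cj U U' h V') := by
  obtain ⟨A, _, _, _, _, ρ, y, y', c1, c2, c3, c4⟩ := c
  have h' : U.map (algebraMap O A) * U'.map (algebraMap O A) = 1 := by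
    rw [← Matrix.map_mul, h, Matrix.map_one _ (map_zero _) (map_one _)]
  have e : ∀ (w : A →ₐ[O] O) (x : G), (Zl.cj _ _ h' ρ x).map w = U * (ρ x).map w * U' :=
    fun w x => by
      have e' : ∀ M : M2 O, (M.map (algebraMap O A)).map w = M := fun M =>
        Matrix.ext fun i j => w.commutes _
      rw [cj_apply, Matrix.map_mul, Matrix.map_mul, e', e']
  exact ⟨A, _, ‹_›, ‹_›, _, Zl.cj _ _ h' ρ, y, y', c1.cj _ _ _,
    fun x => by rw [cj_det, cj_det, c2], fun x => by rw [e, c3, cj_apply],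
    fun x => by rw [e, c4, cj_apply]⟩

variable [IsLocalRing O]

theorem Cn.ac (c : Cn V V') : Ac V' := by
  obtain ⟨A, _, _, _, _, ρ, y, y', c1, c2, c3, c4⟩ := c
  rw [← show pm y'.toRingHom ρ = V' from MonoidHom.ext c4]
  exact c1.map _ (alg_loc y')

theorem Cn.cg (c : Cn V V') (x : G) : Cg (maximalIdeal O) (V' x) (V x) := fun i j => by
  obtain ⟨A, _, _, _, _, ρ, y, y', c1, c2, c3, c4⟩ := c
  have h := alg_loc y' (ρ x i j - algebraMap O A (y (ρ x i j))) (mem_of_map y.toRingHom (by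
    show y _ ∈ _
    rw [map_sub, y.commutes]
    simp))
  rw [map_sub, y'.commutes] at h
  rw [← c3, ← c4]
  exact h

end cn

section fm

variable {G O : Type} [Group G] [TopologicalSpace G] [CommRing O] [IsDomain O]
  [IsDiscreteValuationRing O] [Cf O] {V V' : G →* M2 O}

theorem Zl.Fm.cn (h : Fm V V') : Cn V V' := by
  obtain ⟨ρ, ev, h1, h2, h3, h4⟩ := h
  exact ⟨_, _, NoZeroDivisors.to_isDomain _, PL.base_ps O (Fin 1), _, ρ,
    { (constantCoeff : PS O (Fin 1) →+* O) with commutes' := constantCoeff_C }, ev, h1, h2, h3, h4⟩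

theorem Cn.refl (h : Ac V) : Cn V V :=
  ⟨O, _, ‹_›, Or.base_cf O, _, V, AlgHom.id O O, AlgHom.id O O, h, fun _ => rfl, fun _ => rfl,
    fun _ => rfl⟩

/-- conjugation by a residually trivial matrix -/
theorem fm_cj [IsTopologicalGroup G] (hV : Ac V) (U U' : M2 O) (h : U * U' = 1)
    (h1 : Cg (maximalIdeal O) U 1) : Fm V (cj U U' h V) := by
  obtain ⟨ϖ, hϖ⟩ := IsDiscreteValuationRing.exists_irreducible O
  obtain ⟨ev, hev⟩ := ex_ev hϖ
  obtain ⟨Y, hY⟩ := ex_div hϖ h1
  have j1 := Matrix.mul_nonsing_inv _ (ln_unit Y)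
  have evC : ∀ o, ev.toRingHom (C o) = o := fun o => ev.commutes o
  have key : ∀ (e : PS O (Fin 1) →+* O), (∀ o, e (C o) = o) → ∀ W W' : M2 O, (ln Y).map e = W →
      W * W' = 1 → ∀ x, (cj _ _ j1 (pm C V) x).map e = W * V x * W' := fun e he W W' a b x => by
    have : (ln Y)⁻¹.map e = W' := by
      rw [← one_mul ((ln Y)⁻¹.map e), ← mul_eq_one_comm.1 b, mul_assoc, ← a, ← Matrix.map_mul, j1,
        Matrix.map_one _ (map_zero _) (map_one _), mul_one]
    rw [cj_apply, Matrix.map_mul, Matrix.map_mul, this, a,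
      show (pm C V x).map e = V x from Matrix.ext fun i j => he _]
  refine ⟨cj _ _ j1 (pm C V), ev, (hV.map C fun a ha => Lu.C_max ha).cj _ _ _,
    fun x => ?_, fun x => ?_, key ev.toRingHom evC U U' (by rw [ln_map _ evC, hY, ← hev]; rfl) h⟩
  · rw [cj_det]
    exact (RingHom.map_det _ _).symm
  · simpa using key _ constantCoeff_C 1 1 (by rw [ln_map _ constantCoeff_C]; simp) (by simp) x

theorem cn_cj [IsTopologicalGroup G] (hV : Ac V) (U U' : M2 O) (h : U * U' = 1)
    (h1 : Cg (maximalIdeal O) U 1) : Cn V (cj U U' h V) := (fm_cj hV U U' h h1).cn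

end fm

section loc

variable {l : ℕ} {P : Id}

theorem Gs.cj {A : Type} [CommRing A] [IsLocalRing A] {V : dec P →* M2 A} (hV : Gs l P V)
    (U U' : M2 A) (h : U * U' = 1) : Gs l P (cj U U' h V) := by
  have ht : ∀ x, (Zl.cj U U' h V x).trace = (V x).trace := fun x => by
    rw [cj_apply, Matrix.trace_mul_cycle, mul_eq_one_comm.1 h, one_mul]
  refine ⟨hV.1.cj _ _ _, hV.2.imp (fun ⟨⟨n, hn, a⟩, i, hi, b⟩ => ⟨⟨n, hn, fun i hi => ?_⟩, i, hi, ?_⟩)
    fun ⟨a, φ, hφ, b⟩ => ⟨fun i hi => ?_, φ, hφ, ?_⟩⟩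
  · rw [← map_pow, cj_apply, map_pow, a i hi, mul_one, h]
  · rwa [ht, cj_det]
  · rw [cj_apply, a i hi, mul_one, h]
  · rwa [ht, cj_det]

theorem Gf.map {A B : Type} [CommRing A] [CommRing B] {V : dec P →* M2 A} (hV : Gf P V)
    (u : A →+* B) (hu : Function.Injective u) : Gf P (pm u V) := by
  obtain ⟨⟨n, hn, a⟩, i, hi, b⟩ := hV
  refine ⟨⟨n, hn, fun i hi => ?_⟩, i, hi, fun e => b (hu ?_)⟩
  · rw [← map_pow, pm_apply, map_pow, a i hi, Matrix.map_one _ (map_zero _) (map_one _)]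
  · rw [pm_tr, pm_det] at e
    rw [map_pow, e, map_mul, map_ofNat]

theorem Gu.map {A B : Type} [CommRing A] [CommRing B] {V : dec P →* M2 A} (hV : Gu l P V)
    (u : A →+* B) (hu : Function.Injective u) : Gu l P (pm u V) := by
  obtain ⟨a, φ, hφ, b⟩ := hV
  refine ⟨fun i hi => ?_, φ, hφ, fun e => b (hu ?_)⟩
  · rw [pm_apply, a i hi, Matrix.map_one _ (map_zero _) (map_one _)]
  · rw [pm_tr, pm_det] at e
    simpa using e

theorem Gs.map {A B : Type} [CommRing A] [IsLocalRing A] [CommRing B] [IsLocalRing B]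
    {V : dec P →* M2 A} (hV : Gs l P V) (u : A →+* B) (hu : Function.Injective u)
    (hl : ∀ a ∈ maximalIdeal A, u a ∈ maximalIdeal B) : Gs l P (pm u V) :=
  ⟨hV.1.map u hl, hV.2.imp (·.map u hu) (·.map u hu)⟩

variable {O : Type} [CommRing O] [IsDomain O] [IsDiscreteValuationRing O] [hO : Cf O]

section

variable [CharZero O] {F τ : Type} [Field F] [Finite F] [Algebra O F] [Fintype τ]
  {r : dec P →* M2 F} {s : F → O} {d : dec P → O} {g : τ → dec P} {p q : τ → Fin 2}
  {I : Ideal (PS O τ)} {f : dec P → M2 (PS O τ)} (h : Ov l P) (hl : (l : F) ≠ 0)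
  (hs : ∀ x, algebraMap O F (s x) = x) (hU : Uni r s d g p q I f)

include h hl hs hU

/-- **the component of a good seed**, and the inertial type on it -/
theorem gs_cm {x : PS O τ →ₐ[O] O} (hx : ∀ u ∈ I, x u = 0) {V : dec P →* M2 O}
    (e : ∀ y, (f y).map x = V y) (hV : Gs l P V) : ∃ (J : Ideal (PS O τ)) (k : PS O τ) (n : ℕ),
      Cm I x J k ∧ 0 < n ∧ ∀ i : dec P, Inert P i →
        (f i).trace - C (V i).trace ∈ J ∧ Cg J (f i ^ n) 1 := by
  rcases hV.2 with ⟨a, b⟩ | hu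
  · obtain ⟨J, k, n, a1, a2, a3, a4, a5, a6, a7⟩ := orb F O τ l P r s d g p q I f x h hl hs hU hx
      (by simpa only [e] using a) (by simpa only [e] using b)
    exact ⟨J, k, n, ⟨a1, a2, a3, a4, a5⟩, a6, by simpa only [e] using a7⟩
  have hd : d = (Matrix.detMonoidHom.comp V : dec P →* O) :=
    funext fun y => ((hU.pt_det hx y).symm.trans (congrArg _ (e y)))
  have hr : ∀ y, r y = pm (algebraMap O F) V y := fun y => by rw [pm_apply, ← e, hU.pt_red hs]
  subst hd
  have hJ := unrb F O τ l P r s _ g p q I f h (by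
      rw [show r = pm (algebraMap O F) V from MonoidHom.ext hr]
      refine lc_of_open _ (open_of_le (hV.1.one 1) fun y hy => Matrix.ext fun i j => ?_)
      have := cg_one.2 hy i j
      rw [pow_one, ← ker_eq hs, RingHom.mem_ker, map_sub, sub_eq_zero] at this
      exact this.trans (congrFun (congrFun
        (Matrix.map_one (algebraMap O F) (map_zero _) (map_one _)) i) j))
    hs (fun y => by rw [hr, pm_det]; rfl) (cd_det hV.1) hU fun i hi =>
      ⟨by rw [hr, pm_apply, hu.1 i hi, Matrix.map_one _ (map_zero _) (map_one _)],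
        (congrArg Matrix.det (hu.1 i hi)).trans Matrix.det_one⟩
  set J := I ⊔ Ideal.span {u | ∃ (i : dec P) (a b : Fin 2), Inert P i ∧ u = (f i - 1) a b}
  have h1 : ∀ u ∈ J, x u = 0 := fun u hu' => (sup_le hx (Ideal.span_le.2 (by
    rintro _ ⟨i, a, b, hi, rfl⟩
    show x ((f i - 1) a b) = 0
    rw [← Matrix.map_apply (f := x), Matrix.map_sub _ (map_sub x), e, hu.1 i hi,
      Matrix.map_one _ (map_zero x) (map_one x), sub_self]
    rfl)) : J ≤ RingHom.ker x) hu'
  obtain ⟨k, k1, k2⟩ := sm_h hJ le_sup_left h1 (smo F O τ l P r s _ g p q I f x h hl hs hU hx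
    (by simpa only [e] using nt_of_gu h hu))
  have h2 : ∀ i : dec P, Inert P i → Cg J (f i) 1 := fun i hi a b =>
    Ideal.mem_sup_right (Ideal.subset_span ⟨i, a, b, hi, rfl⟩)
  refine ⟨J, k, 1, ⟨hJ, le_sup_left, h1, k1, k2⟩, one_pos, fun i hi => ⟨?_, by
    rw [pow_one]; exact h2 i hi⟩⟩
  convert J.add_mem (h2 i hi 0 0) (h2 i hi 1 1) using 1
  simp [hu.1 i hi, Matrix.trace_fin_two, map_ofNat]
  ring

/-- **what the patching argument uses** -/
theorem on_chart {x x' : PS O τ →ₐ[O] O} (hx : ∀ u ∈ I, x u = 0) (hx' : ∀ u ∈ I, x' u = 0)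
    {V V' : dec P →* M2 O} (e : ∀ y, (f y).map x = V y) (e' : ∀ y, (f y).map x' = V' y)
    (H : On l P V V') : ∃ J k, Cm I x J k ∧ ∀ u ∈ J, x' u = 0 := by
  obtain ⟨J, k, -, a, -⟩ := gs_cm h hl hs hU hx e H.1
  exact ⟨J, k, a, a.kill hs hU hx' e e' H.2⟩

end

/-- a chart at a lift -/
theorem ex_chart (h : Ov l P) (hl : IsUnit (l : O)) {V : dec P →* M2 O} (hV : Ac V) :
    ∃ (s : ResidueField O → O) (n : ℕ) (g : Fin n → dec P) (p q : Fin n → Fin 2)
      (I : Ideal (PS O (Fin n))) (f : dec P → M2 (PS O (Fin n))),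
      ((l : ResidueField O) ≠ 0 ∧ ∀ c, algebraMap O _ (s c) = c) ∧
      Uni (pm (residue O) V) s (fun y => (V y).det) g p q I f ∧
      ∀ (A : Type) [CommRing A] [Base A] [Algebra O A] (W : dec P →* M2 A),
        (∀ a ∈ maximalIdeal O, algebraMap O A a ∈ maximalIdeal A) → Ac W →
        (∀ y, (W y).det = algebraMap O A (V y).det) →
        (∀ y, Cg (maximalIdeal A) (W y) ((V y).map (algebraMap O A))) →
          ∃ x : PS O (Fin n) →ₐ[O] A, (∀ u ∈ I, x u = 0) ∧ ∀ y, (f y).map x = W y := by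
  have := hO.fin
  choose s hs using (residue_surjective (R := O))
  have h1 : (l : ResidueField O) ≠ 0 := by simpa using (hl.map (residue O)).ne_zero
  have h2 : IsLocallyConstant (pm (residue O) V) := lc_of_cg V _ (by simpa using hV 1)
  obtain ⟨n, g, p, q, hT⟩ := (z1l _ l P _ h h1 h2).1
  obtain ⟨I, f, hU⟩ := (lu _ _ O _ _ s (fun y => (V y).det) g p q h2 hs
    (fun y => RingHom.map_det _ _) hT).1
  refine ⟨s, n, g, p, q, I, f, ⟨h1, hs⟩, hU, fun A _ _ _ W a b c e =>
    hU.ex_pt hs ⟨b, a, fun y i j => ?_, c⟩⟩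
  have := a (V y i j - s (residue O (V y i j))) (by
    rw [← residue_eq_zero_iff, map_sub, hs, sub_self])
  convert Ideal.add_mem _ (e y i j) this using 1
  rw [map_sub]
  exact (sub_add_sub_cancel _ _ _).symm

variable [CharZero O] (h : Ov l P) (hl : IsUnit (l : O)) {V V' V'' : dec P →* M2 O}
  {O' : Type} [CommRing O'] [IsDomain O'] [IsDiscreteValuationRing O'] [hO' : Cf O'] [Algebra O O']
  [Module.Finite O O'] [FaithfulSMul O O']

include h hl

/-- transitivity through a good seed, with extension of the coefficients -/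
theorem cnt_bc (hV : Gs l P V) (c' : Cn V V') (c'' : Cn V V'') :
    Cn (pm (algebraMap O O') V') (pm (algebraMap O O') V'') := by
  have := hO.fin
  haveI := Or.base_cf O
  obtain ⟨s, n, g, p, q, I, f, ⟨h1, hs⟩, hU, H⟩ := ex_chart h hl hV.1
  obtain ⟨x, x1, x2⟩ := H O V (fun a ha => ha) hV.1 (fun _ => rfl) (Cn.refl hV.1).cg
  obtain ⟨y, y1, y2⟩ := H O V' (fun a ha => ha) c'.ac c'.det c'.cg
  obtain ⟨z, z1, z2⟩ := H O V'' (fun a ha => ha) c''.ac c''.det c''.cg
  obtain ⟨J, k, -, a, -⟩ := gs_cm h h1 hs hU x1 x2 hV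
  exact cn_of_par hs hU a.par a.le (x₁ := (Algebra.ofId O O').comp y)
    (x₂ := (Algebra.ofId O O').comp z)
    (fun u hu => (congrArg (algebraMap O O') (a.kill hs hU y1 x2 y2 c' u hu)).trans (map_zero _))
    (fun u hu => (congrArg (algebraMap O O') (a.kill hs hU z1 x2 z2 c'' u hu)).trans (map_zero _))
    (fun w => by rw [pm_apply, ← y2]; rfl) fun w => by rw [pm_apply, ← z2]; rfl

/-- **CNT** -/
theorem cnt (hV : Gs l P V) (c' : Cn V V') (c'' : Cn V V'') : Cn V' V'' :=
  cnt_bc (O' := O) h hl hV c' c''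

theorem On.trans (H : On l P V V') (H' : On l P V' V'') : On l P V V'' :=
  ⟨H.1, cnt h hl H'.1 H.2.symm H'.2⟩

/-- **base change** -/
theorem On.bc (H : On l P V V') : On l P (pm (algebraMap O O') V) (pm (algebraMap O O') V') :=
  ⟨H.1.map _ (FaithfulSMul.algebraMap_injective O O') (alg_loc (Algebra.ofId O O')),
    cnt_bc h hl H.1 (Cn.refl H.1.1) H.2⟩

/-- independent changes of the frames -/
theorem On.cj (H : On l P V V') {U U' W W' : M2 O} (hU : U * U' = 1) (hW : W * W' = 1)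
    (h1 : Cg (maximalIdeal O) U 1) (h2 : Cg (maximalIdeal O) W 1) :
    On l P (cj U U' hU V) (cj W W' hW V') := by
  have a := H.1.cj W W' hW
  exact ⟨H.1.cj U U' hU, cnt h hl a
    (cnt h hl H.1 (cn_cj H.1.1 W W' hW h2) (cn_cj H.1.1 U U' hU h1)) (H.2.cj W W' hW)⟩

/-- **CNK**: the inertial type is constant on the component -/
theorem On.ine (H : On l P V V') : ∃ n : ℕ, 0 < n ∧ ∀ i : dec P, Inert P i →
    (V' i).trace = (V i).trace ∧ V i ^ n = 1 ∧ V' i ^ n = 1 ∧ (V i = 1 ↔ V' i = 1) := by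
  have := hO.fin
  haveI := Or.base_cf O
  obtain ⟨s, n, g, p, q, I, f, ⟨h1, hs⟩, hU, H'⟩ := ex_chart h hl H.1.1
  obtain ⟨x, x1, x2⟩ := H' O V (fun a ha => ha) H.1.1 (fun _ => rfl) (Cn.refl H.1.1).cg
  obtain ⟨y, y1, y2⟩ := H' O V' (fun a ha => ha) H.2.ac H.2.det H.2.cg
  obtain ⟨J, k, m, a, hm, b⟩ := gs_cm h h1 hs hU x1 x2 H.1
  have c := a.kill hs hU y1 x2 y2 H.2
  have key : ∀ (z : PS O (Fin n) →ₐ[O] O), (∀ u ∈ J, z u = 0) → ∀ i : dec P, Inert P i →
      (f i).map z ^ m = 1 := fun z hz i hi => by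
    rw [← AlgHom.mapMatrix_apply, ← map_pow, ← map_one z.mapMatrix]
    exact Matrix.ext fun a' b' => sub_eq_zero.1 ((map_sub z _ _).symm.trans (hz _ ((b i hi).2 a' b')))
  refine ⟨m, hm, fun i hi => ?_⟩
  have t : (V' i).trace = (V i).trace := by
    have := c _ (b i hi).1
    rw [map_sub, sub_eq_zero, show y (C _) = _ from y.commutes _] at this
    rw [← y2]
    exact (AddMonoidHom.map_trace y _).symm.trans this
  have p1 := x2 i ▸ key x a.ker i hi
  have p2 := y2 i ▸ key y c i hi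
  refine ⟨t, p1, p2, fun e => one_of_uni hm p2 ?_ ?_, fun e => one_of_uni hm p1 ?_ ?_⟩
  · simp [t, e]
  · simp [H.2.det, e]
  · simp [← t, e]
  · simp [← H.2.det, e]

theorem On.gf (H : On l P V V') (hV : Gf P V) : On l P V' V := by
  obtain ⟨n, hn, a⟩ := H.ine h hl
  obtain ⟨-, i, hi, b⟩ := hV
  exact ⟨⟨H.2.ac, Or.inl ⟨⟨n, hn, fun i hi => (a i hi).2.2.1⟩, i, hi,
    by rwa [(a i hi).1, H.2.det]⟩⟩, H.2.symm⟩

end loc

/-- **NEAR** -/
theorem near {l : ℕ} {P : Id} {O : Type} [CommRing O] [IsDomain O] [IsDiscreteValuationRing O]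
    [hO : Cf O] [CharZero O] (h : Ov l P) (hl : IsUnit (l : O)) {V : dec P →* M2 O}
    (hV : Gs l P V) : ∃ N : ℕ, ∀ (O' : Type) [CommRing O'] [IsDomain O']
      [IsDiscreteValuationRing O'] [Cf O'] [Algebra O O'] [Module.Finite O O'] [FaithfulSMul O O']
      (W : dec P →* M2 O'), Ac W → (∀ y, (W y).det = algebraMap O O' (V y).det) →
      (∀ y, Cg ((maximalIdeal O ^ N).map (algebraMap O O')) (W y) ((V y).map (algebraMap O O'))) →
        On l P W (pm (algebraMap O O') V) := by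
  have := hO.fin
  haveI := Or.base_cf O
  obtain ⟨s, n, g, p, q, I, f, ⟨h1, hs⟩, hU, H⟩ := ex_chart h hl hV.1
  obtain ⟨x, x1, x2⟩ := H O V (fun a ha => ha) hV.1 (fun _ => rfl) (Cn.refl hV.1).cg
  obtain ⟨J, k, -, a, -⟩ := gs_cm h h1 hs hU x1 x2 hV
  obtain ⟨e, e0, e1⟩ : ∃ e : O, e ≠ 0 ∧ (Gf P V ∨ ((∀ i : dec P, Inert P i → V i = 1) ∧
      ∃ φ : dec P, Fb l P φ ∧ e = l * (V φ).trace ^ 2 - (l + 1) ^ 2 * (V φ).det)) := by
    rcases hV.2 with b | ⟨b, φ, hφ, c⟩
    · exact ⟨1, one_ne_zero, Or.inl b⟩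
    · exact ⟨_, sub_ne_zero.2 c, Or.inr ⟨b, φ, hφ, rfl⟩⟩
  obtain ⟨N, hN, b⟩ := far (mul_ne_zero a.ne e0)
  refine ⟨N, fun O' _ _ _ _ _ _ _ W w1 w2 w3 => ?_⟩
  haveI := Or.base_cf O'
  have inj := FaithfulSMul.algebraMap_injective O O'
  haveI : CharZero O' := charZero_of_injective_algebraMap inj
  have loc := alg_loc (Algebra.ofId O O')
  set m := (maximalIdeal O ^ N).map (algebraMap O O')
  have hm : m ≤ maximalIdeal O' :=
    Ideal.map_le_iff_le_comap.2 fun o ho => loc o (Ideal.pow_le_self hN.ne' ho)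
  obtain ⟨y, y1, y2⟩ := H O' W loc w1 w2 fun z i j => hm (w3 z i j)
  let x' := (Algebra.ofId O O').comp x
  have x3 : ∀ u ∈ J, x' u = 0 := fun u hu =>
    (congrArg (algebraMap O O') (a.ker u hu)).trans (map_zero _)
  have x4 : ∀ z, (f z).map x' = pm (algebraMap O O') V z := fun z => by rw [pm_apply, ← x2]; rfl
  have nr := pt_near (x := y) (x' := x') (n := m)
    (fun e => (maximalIdeal.isMaximal O').ne_top (top_le_iff.1 (e ▸ hm))) fun t => by
      rw [hU.pt_crd y1, hU.pt_crd fun u hu => x3 u (a.le hu), sub_sub_sub_cancel_right, y2, x4]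
      exact w3 _ _ _
  have y3 : ∀ u ∈ J, y u = 0 := fun u hu => by
    have c := y1 _ (a.mul u hu)
    rw [map_mul] at c
    refine (mul_eq_zero.1 c).resolve_left fun c' => b O' ?_
    have := nr k
    rw [c', zero_sub, neg_mem_iff] at this
    rw [map_mul]
    exact m.mul_mem_right _ this
  have H1 : On l P (pm (algebraMap O O') V) W :=
    ⟨hV.map _ inj loc, cn_of_par hs hU a.par a.le x3 y3 x4 y2⟩
  have hl' : IsUnit (l : O') := by simpa using hl.map (algebraMap O O')
  rcases e1 with c | ⟨c, φ, hφ, rfl⟩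
  · exact H1.gf h hl' (c.map _ inj)
  obtain ⟨n', -, c1⟩ := H1.ine h hl'
  refine ⟨⟨w1, Or.inr ⟨fun i hi => (c1 i hi).2.2.2.1 ?_, φ, hφ, fun c2 => b O' ?_⟩⟩, H1.2.symm⟩
  · rw [pm_apply, c i hi, Matrix.map_one _ (map_zero _) (map_one _)]
  · rw [map_mul]
    refine m.mul_mem_left _ ?_
    have t : (W φ).trace - algebraMap O O' (V φ).trace ∈ m := by
      convert m.add_mem (w3 φ 0 0) (w3 φ 1 1) using 1
      simp [Matrix.trace_fin_two]
      ring
    convert m.mul_mem_left (-l * ((W φ).trace + algebraMap O O' (V φ).trace)) t using 1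
    simp only [map_sub, map_mul, map_pow, map_add, map_natCast, map_one, ← w2]
    linear_combination c2

section tau

variable {l : ℕ} {P : Id} {O : Type} [CommRing O] [IsDomain O] [IsDiscreteValuationRing O]
  [Cf O] (h : Ov l P) {V V' : dec P →* M2 O} (h0 : Ac V) (h1 : Ac V')
  (hr : ∀ x, Cg (maximalIdeal O) (V' x) (V x)) (hd : ∀ x, (V' x).det = (V x).det)

include h h0 h1 hr hd

/-- **TAU** -/
theorem cn_tau (h2 : IsUnit (2 : O))
    (hn : ∀ i : dec P, Inert P i → ∃ n : ℕ, IsUnit (n : O) ∧ V i ^ n = 1)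
    (hk : ∀ i : dec P, Inert P i → V i = 1 → V' i = 1) : Cn V V' :=
  (fm_odd h h2 h0 h1 hr hd hn hk).cn

/-- **UNR** -/
theorem cn_unr (u0 : ∀ i : dec P, Inert P i → V i = 1) (u1 : ∀ i : dec P, Inert P i → V' i = 1) :
    Cn V V' := (fm_unr h h0 h1 hr hd u0 u1).cn

end tau

end Vale.Agent.P022K.RT
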