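import Vale.Agent.P022K.RT.St3
import Vale.Agent.P022K.RT.On
import Vale.Agent.P022K.WB.Top
import Vale.Agent.P022K.WB.Pat
import Vale.Agent.P022K.Top.Twi

/-!
# P022K, block RT: modularity lifting on a site (statement)
-/

set_option linter.all false

noncomputable section

namespace Vale.Agent.P022K.RT

open IsLocalRing
open Vale.Agent.P022 Vale.Agent.P022.C
open Vale.Agent.P022D.L2b (M2)
open Vale.Agent.P022D.Core (PS)
open Vale.Agent.P022D.W (dec)
open Vale.Agent.P022E.GW (Ov)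
open Vale.Agent.P022K.PL (Cf)
open Vale.Agent.P022K.GW (Id Cy up Adq)
open Vale.Agent.P022K.Top (Si cy Bad Uu)
open Vale.Agent.P022K.WB (LocR ok0)

/-- the matrices of a representation -/
abbrev mr {G A : Type} [Group G] [CommRing A] (ρ : G →* GL (Fin 2) A) : G →* M2 A :=
  (Units.coeHom _).comp ρ

/-- restriction to a subgroup -/
abbrev rsg {H D : Subgroup GQ} {A : Type} [Monoid A] (le : D ≤ H) (ρ : H →* A) : D →* A :=
  ρ.comp (Subgroup.inclusion le)

/-- `x` is the point of a strict conjugate of `V` -/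
def Sc {G O R : Type} [CommRing O] [IsLocalRing O] [CommRing R] [Algebra O R] (x : R →ₐ[O] O)
    (f : G → M2 R) (V : G → M2 O) : Prop :=
  ∃ h h' : M2 O, h * h' = 1 ∧ Cg (maximalIdeal O) h 1 ∧ ∀ y, (f y).map x = h * V y * h'

/-- in every chart `V'` lies on the component through the smooth point `V` -/
def Oc {G O F : Type} [Group G] [TopologicalSpace G] [CommRing O] [IsLocalRing O] [Field F]
    [Algebra O F] (r : G →* M2 F) (s : F → O) (d : G → O) (V V' : G → M2 O) : Prop :=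
  ∀ (τ : Type) [Fintype τ] (g : τ → G) (a b : τ → Fin 2) (I : Ideal (PS O τ))
    (f : G → M2 (PS O τ)), Uni r s d g a b I f → ∀ x x' : PS O τ →ₐ[O] O, (∀ u ∈ I, x u = 0) →
    (∀ u ∈ I, x' u = 0) → Sc x f V → Sc x' f V' → ∃ J h, Cm I x J h ∧ ∀ u ∈ J, x' u = 0

section

variable {p : ℕ} [Fact p.Prime] {O F : Type} [CommRing O] [IsLocalRing O] [Algebra ℤ_[p] O]
  [Field F] [Algebra O F] (Z : Si p O) (rb : Z.H →* GL (Fin 2) F) (s : F → O)

/-- the residual representation -/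
structure Rb [CharP F p] : Prop where
  sec : ∀ x, algebraMap O F (s x) = x
  opn : IsOpen {g | rb g = 1}
  det : ∀ g, (mr rb g).det = algebraMap O F (cy p O g.1)
  spl : Spl (mr rb)
  odd : p ≠ 2 → ∃ ω : Z.H →* (ZMod p)ˣ, Cy Z.H.subtype p ω ∧ Adq rb (up ω)
  two : p = 2 → ¬ IsSolvable rb.range
  unr : Ub Z rb

/-- a lift which is not ramified outside the bad primes -/
structure Lt (r : Z.H →* M2 O) : Prop where
  lift : LiftC (mr rb) s (fun g => cy p O g.1) r
  unr : Ub Z r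

/-- the local conditions at the bad primes away from `p`: `r₀` is the seed -/
def Oa (r₀ r : Z.H →* M2 O) : Prop := ∀ P (le : dec P ≤ Z.H), Bad Z.H Z.S P → ¬ Ov p P →
  Oc (rsg le (mr rb)) s (fun g => cy p O g.1) (rsg le r₀) (rsg le r)

end

/-- **MLS: modularity lifting on a site** -/
def MLS : Prop := ∀ (p : ℕ) [Fact p.Prime] (O F : Type) [CommRing O] [IsDomain O]
  [IsDiscreteValuationRing O] [Cf O] [CharZero O] [Algebra ℤ_[p] O] [Field F] [Finite F]
  [CharP F p] [Algebra O F] (Z : Si p O) (η : MonoidAlgebra O Z.G) (rb : Z.H →* GL (Fin 2) F)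
  (s : F → O) (r₀ r : Z.H →* M2 O) (m : ℕ) (c : Option (GL (Fin 2) (ZMod p) → O)),
  Z.Ok → Z.Ty η → (p = 2 → Z.Twi) → Z.Wn → Rb Z rb s → (p = 2 → ∀ P, Ov p P → ¬ Uu P rb) →
  Lt Z rb s r₀ → Lt Z rb s r → Oa Z rb s r₀ r →
  (∀ k (D : Z.Pl k), LocR (ok0 p) (r.comp D.d) m c) →
  Z.Pro η (fun g => (r₀ g).trace) → Z.Alg η (fun g => (r g).trace) m c

end Vale.Agent.P022K.RT
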