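import Vale.Agent.P022K.RT.Near
import Vale.Agent.P022K.RT.On
import Vale.Agent.P022K.RT.GirS
import Vale.Agent.P022K.O2.Dvr0
import Vale.Agent.P022K.WB.Trq

/-!
# P022K, block RT: points with values in finite extensions; one block of variables is moved
-/

set_option linter.all false

noncomputable section

namespace Vale.Agent.P022K.RT.Mv

open IsLocalRing MvPowerSeries Function TensorProduct
open Vale.Agent.P022D
open Vale.Agent.P022D.Core (PS)
open Vale.Agent.P022D.PA (Base)
open Vale.Agent.P022K.PL (Cf)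
open Vale.Agent.P022K.WB (Fb Nr)

/-- a functional which does not vanish on a given element that is not torsion -/
theorem ex_fun {D M : Type} [CommRing D] [IsDomain D] [AddCommGroup M] [Module D M]
    [Module.Finite D M] {m : M} (hm : ∀ d : D, d • m = 0 → d = 0) : ∃ l : M →ₗ[D] D, l m ≠ 0 := by
  let K := FractionRing D
  have h0 : (1 : K) ⊗ₜ[D] m ≠ 0 := fun e => by
    obtain ⟨s, hs⟩ := (IsLocalizedModule.eq_zero_iff (nonZeroDivisors D)
      (TensorProduct.mk D K M 1)).1 e
    exact nonZeroDivisors.coe_ne_zero s (hm s hs)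
  obtain ⟨l, hl⟩ := not_forall.1 ((Module.forall_dual_apply_eq_zero_iff K _).not.2 h0)
  let f : M →ₗ[D] K := (l.restrictScalars D).comp (TensorProduct.mk D K M 1)
  obtain ⟨a, ha, h⟩ := FractionalIdeal.isFractional_of_fg (S := nonZeroDivisors D)
    (I := LinearMap.range f) (Module.Finite.iff_fg.1 inferInstance)
  have inj : Injective (Algebra.linearMap D K) := IsFractionRing.injective D K
  refine ⟨(LinearEquiv.ofInjective _ inj).symm.toLinearMap.comp ((a • f).codRestrict _
    fun x => h _ ⟨x, rfl⟩), fun e => hl ?_⟩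
  have := congrArg Subtype.val ((LinearEquiv.ofInjective _ inj).symm.map_eq_zero_iff.1 e)
  exact (smul_eq_zero.1 this).resolve_left (nonZeroDivisors.ne_zero ha)

variable {O : Type} [CommRing O] [IsDomain O] [IsDiscreteValuationRing O] {p : ℕ}

theorem dvd_pow {B : Type} [CommRing B] [IsDomain B] [Algebra O B] [Module.Finite O B]
    (hp : (p : O) ∈ maximalIdeal O) {b : B} (hb : b ≠ 0) : ∃ a : ℕ, b ∣ (p : B) ^ a := by
  obtain ⟨o, ho, h3⟩ := Submodule.exists_mem_ne_zero_of_ne_bot
    (Ideal.comap_ne_bot_of_integral_mem (R := O) hb (Ideal.mem_span_singleton_self _)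
      (Algebra.IsIntegral.isIntegral _))
  obtain ⟨ϖ, hϖ⟩ := IsDiscreteValuationRing.exists_irreducible O
  obtain ⟨n, u, rfl⟩ := IsDiscreteValuationRing.eq_unit_mul_pow_irreducible h3 hϖ
  refine ⟨n, (Ideal.mem_span_singleton.1 (Ideal.mem_comap.1 ho)).trans ?_⟩
  rw [← map_natCast (algebraMap O B), ← map_pow]
  refine map_dvd _ (u.isUnit.mul_left_dvd.2 (pow_dvd_pow_of_dvd ?_ n))
  rwa [← Ideal.mem_span_singleton, ← hϖ.maximalIdeal_eq]

/-- two rings of values of one point are comparable -/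
theorem ex_lin (hp : (p : O) ∈ maximalIdeal O) {D B V : Type} [CommRing D] [CommRing B] [IsDomain B]
    [CommRing V] [Algebra O D] [Algebra O B] [Module.Finite O B] (g : D →ₐ[O] B) (g' : D →+* V)
    (h : ∀ d, g d = 0 → g' d = 0) :
    ∃ (μ : B →+ V) (k : ℕ), (∀ d b, μ (g d * b) = g' d * μ b) ∧ μ 1 = (p : V) ^ k := by
  have : Module.Finite g.range B := .of_restrictScalars_finite O _ _
  have : Module.Finite O g.range := .of_injective g.range.val.toLinearMap Subtype.val_injective
  obtain ⟨l, hl⟩ := ex_fun (D := g.range) (m := (1 : B)) fun d hd =>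
    Subtype.ext ((mul_one _).symm.trans hd)
  obtain ⟨k, w, hw⟩ := dvd_pow (O := O) hp hl
  let t : g.range →+* V := RingHom.liftOfSurjective g.rangeRestrict.toRingHom
    g.rangeRestrict_surjective ⟨g', fun d hd => h d (congrArg Subtype.val hd)⟩
  have ht : ∀ d, t (g.rangeRestrict d) = g' d :=
    RingHom.liftOfSurjective_comp_apply _ g.rangeRestrict_surjective _
  refine ⟨t.toAddMonoidHom.comp (w • l).toAddMonoidHom, k, fun d b => ?_, ?_⟩
  · show t ((w • l) (g.rangeRestrict d • b)) = g' d * t ((w • l) b)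
    rw [map_smul, smul_eq_mul, map_mul, ht]
  · show t (w * l 1) = _
    rw [mul_comm, ← hw, map_pow, map_natCast]

/-- near points have near primes -/
theorem nr_of (hp : (p : O) ∈ maximalIdeal O) {R A : Type} [CommRing R] [CommRing A] [IsDomain A]
    [Algebra O R] [Algebra O A] [Module.Finite O A] (h0 : (p : A) ≠ 0) (x y : R →ₐ[O] A) {c : R}
    (hc : y c ≠ 0) {N : ℕ} (h : ∀ u, (p : A) ^ (N + 1) ∣ y u - x u) :
    Nr p (RingHom.ker x) c (RingHom.ker y) N := by
  have pr : (RingHom.ker y).IsPrime := RingHom.ker_isPrime _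
  have fin : Module.Finite O (R ⧸ RingHom.ker y) :=
    .of_injective (Ideal.kerLiftAlg y).toLinearMap (Ideal.kerLiftAlg_injective y)
  obtain ⟨a, u, hu⟩ := dvd_pow (O := O) hp (b := Ideal.Quotient.mk (RingHom.ker y) c)
    fun e => hc (Ideal.Quotient.eq_zero_iff_mem.1 e)
  obtain ⟨u, rfl⟩ := Ideal.Quotient.mk_surjective u
  obtain ⟨μ, k, m1, m2⟩ := ex_lin hp y (Ideal.Quotient.mk (RingHom.ker y))
    fun d hd => Ideal.Quotient.eq_zero_iff_mem.2 hd
  refine ⟨a, ⟨u, Ideal.Quotient.eq.1 (by rw [map_pow, map_natCast, hu, map_mul, mul_comm])⟩,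
    k + (a + 1), fun z hz => ?_⟩
  have h4 : y z ∈ Ideal.span {(p : A) ^ (N + 1)} ^ (k + (a + 1)) :=
    Ideal.pow_right_mono (I := (RingHom.ker x).map y) (Ideal.map_le_iff_le_comap.2 fun w hw =>
      Ideal.mem_comap.2 (Ideal.mem_span_singleton.2 (by
        simpa only [show x w = 0 from hw, sub_zero] using h w))) _
      (Ideal.map_pow y _ _ ▸ Ideal.mem_map_of_mem y hz)
  rw [Ideal.span_singleton_pow, ← pow_mul, Ideal.mem_span_singleton] at h4
  obtain ⟨t, ht⟩ := h4
  obtain ⟨w, hw⟩ := Ideal.Quotient.mk_surjective (μ t)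
  have h5 := m1 z 1
  rw [mul_one, ht, ← map_natCast y, ← map_pow, m1, m2, ← hw, ← map_natCast
    (Ideal.Quotient.mk (RingHom.ker y)), ← map_pow, ← map_mul, ← map_mul, Ideal.Quotient.eq] at h5
  have h6 : (p : R) ^ k * (z - (p : R) ^ (N * (k + (a + 1)) + a + 1) * w) ∈ RingHom.ker y := by
    convert neg_mem h5 using 1
    ring
  have h0 : (p : R) ^ k ∉ RingHom.ker y := fun e =>
    pow_ne_zero k h0 (by rw [← map_natCast y, ← map_pow]; exact e)
  rw [← sub_add_cancel z ((p : R) ^ (N * (k + (a + 1)) + a + 1) * w)]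
  exact Submodule.add_mem_sup ((pr.mem_or_mem h6).resolve_left h0)
    (Ideal.mul_mem_right _ _ (Ideal.mem_span_singleton_self _))

variable [hO : Cf O]

/-- a finite domain lies in a finite discrete valuation ring -/
theorem dvr_of [CharZero O] (A : Type) [CommRing A] [IsDomain A] [Algebra O A] [Module.Finite O A]
    [FaithfulSMul O A] : ∃ (V : Type) (_ : CommRing V) (_ : IsDomain V)
      (_ : IsDiscreteValuationRing V) (_ : Cf V) (_ : Algebra O V) (j : A →ₐ[O] V),
      Module.Finite O V ∧ Injective j := by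
  let K := FractionRing O
  let L := FractionRing A
  letI : Algebra K L := FractionRing.liftAlgebra O L
  haveI : IsScalarTower O K L := FractionRing.isScalarTower_liftAlgebra O L
  haveI : CharZero K := charZero_of_injective_algebraMap (IsFractionRing.injective O K)
  haveI : FiniteDimensional K L := .of_isLocalization O A (nonZeroDivisors O)
  obtain ⟨_, h1, h2⟩ := O2.cf_clo (O := O) K L
  exact ⟨integralClosure O L, _, inferInstance, inferInstance, h1, inferInstance,
    (IsScalarTower.toAlgHom O A L).codRestrict _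
      fun a => (Algebra.IsIntegral.isIntegral a).map (IsScalarTower.toAlgHom O A L),
    h2, fun a b e => IsFractionRing.injective A L (congrArg Subtype.val e)⟩

theorem fb_of [CharZero O] (hp : (p : O) ∈ maximalIdeal O) (h0 : p ≠ 0) (B : Type) [CommRing B]
    [IsDomain B] [Algebra O B] [Module.Finite O B] [FaithfulSMul O B] : Fb p B := by
  obtain ⟨V, _, _, _, _, _, j, _, hj⟩ := dvr_of (O := O) B
  obtain ⟨μ, k, m1, m2⟩ := ex_lin hp j (RingHom.id B) fun d hd => hj (hd.trans (map_zero j).symm)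
  refine ⟨V, _, inferInstance, inferInstance, j, μ, k, fun e => h0 ?_, m1, m2⟩
  rw [← map_natCast j, map_eq_zero_iff j hj, ← map_natCast (algebraMap O B),
    FaithfulSMul.algebraMap_eq_zero_iff] at e
  exact Nat.cast_eq_zero.1 e

/-- **NEAR** for points with values in a finite extension -/
theorem near_pt [CharZero O] {R A : Type} [CommRing R] [IsNoetherianRing R] [Algebra O R]
    [CommRing A] [IsDomain A] [Algebra O A] [Module.Finite O A] [FaithfulSMul O A]
    (x : R →ₐ[O] A) {J : Ideal R} (hJ : ∀ u ∈ J, x u = 0) {c : R} (hc : ∀ u, c * u ∈ J → u ∈ J)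
    {q : A} (hq : q ≠ 0) : ∃ (T : Type) (_ : CommRing T) (_ : IsDomain T) (_ : Algebra O T)
      (j : A →ₐ[O] T) (y : R →ₐ[O] T), Module.Finite O T ∧ Injective j ∧ (∀ u ∈ J, y u = 0) ∧
        y c ≠ 0 ∧ ∀ u, j q ∣ y u - j (x u) := by
  obtain ⟨V, _, _, _, hV, _, j, _, hj⟩ := dvr_of (O := O) A
  have := hV.cpl
  have : FaithfulSMul O V := (faithfulSMul_iff_algebraMap_injective O V).2 (by
    rw [← j.comp_algebraMap]
    exact hj.comp (FaithfulSMul.algebraMap_injective O A))
  have : IsNoetherianRing ((R ⧸ J) ⊗[O] V) := .of_finite (R ⧸ J) _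
  have : IsNoetherianRing (V ⊗[O] (R ⧸ J)) :=
    isNoetherianRing_of_ringEquiv _ (Algebra.TensorProduct.comm O (R ⧸ J) V).toRingEquiv
  let x' : V ⊗[O] (R ⧸ J) →ₐ[V] V := Algebra.TensorProduct.lift (AlgHom.id V V)
    (j.comp (Ideal.Quotient.liftₐ J x hJ)) fun _ _ => Commute.all _ _
  have nz : Injective fun u : V ⊗[O] (R ⧸ J) => u * 1 ⊗ₜ Ideal.Quotient.mk J c := by
    have := Module.Flat.lTensor_preserves_injective_linearMap (M := V)
      (LinearMap.mulRight O (Ideal.Quotient.mk J c)) ((injective_iff_map_eq_zero _).2 fun u hu => by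
        obtain ⟨u, rfl⟩ := Ideal.Quotient.mk_surjective u
        exact Ideal.Quotient.eq_zero_iff_mem.2 (hc u
          (Ideal.Quotient.eq_zero_iff_mem.1 ((mul_comm _ _).trans hu))))
    convert this using 1
    funext u
    induction u with
    | zero => simp
    | tmul a b => simp
    | add a b ha hb => rw [add_mul, map_add, ha, hb]
  obtain ⟨T, _, _, _, _, f, -, f2, f3, f4⟩ := Near.ex_T x' ⊥ (1 ⊗ₜ Ideal.Quotient.mk J c)
    (fun e u h => by
      induction e with
      | zero => rw [show u = 0 by simpa using h, map_zero]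
      | succ e ih => exact ih (nz ((mul_assoc _ _ _).trans (((congrArg _ (pow_succ _ e).symm).trans h).trans
        (zero_mul _).symm))))
    (j q) ((map_ne_zero_iff j hj).2 hq)
  letI : Algebra O T := ((algebraMap V T).comp (algebraMap O V)).toAlgebra
  haveI : IsScalarTower O V T := .of_algebraMap_eq fun _ => rfl
  refine ⟨T, _, inferInstance, _, (IsScalarTower.toAlgHom O V T).comp j,
    (f.restrictScalars O).comp (Algebra.TensorProduct.includeRight.comp (Ideal.Quotient.mkₐ O J)),
    .trans V T, ((injective_iff_map_eq_zero _).2 f3).comp hj, fun u hu => ?_, f2, fun u => ?_⟩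
  · show f (1 ⊗ₜ Ideal.Quotient.mk J u) = 0
    rw [Ideal.Quotient.eq_zero_iff_mem.2 hu, tmul_zero, map_zero]
  · have := f4 (1 ⊗ₜ Ideal.Quotient.mk J u - algebraMap V _ (j (x u))) (by
      rw [map_sub, x'.commutes, Algebra.TensorProduct.lift_tmul, map_one, one_mul]
      exact sub_self _)
    rwa [map_sub, f.commutes] at this

theorem base_of (A : Type) [CommRing A] [IsDomain A] [Algebra O A] [Module.Finite O A] : Base A :=
  haveI := Or.base_cf O
  Gi.base_fin O A

/-- two points with the same coordinates -/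
theorem pt_ext {σ A : Type} [Fintype σ] [CommRing A] [IsDomain A] [Algebra O A] [Module.Finite O A]
    {x y : PS O σ →ₐ[O] A} (h : ∀ i, x (X i) = y (X i)) : x = y := by
  have hA := base_of (O := O) A
  have := hA.cpl
  exact AlgHom.coe_ringHom_injective (NR.ev_ext (maximalIdeal A)
    (fun o => (x.commutes o).trans (y.commutes o).symm) h fun i => Zl.alg_loc x _ (Lu.X_max i))

theorem pt_nr {σ A : Type} [Fintype σ] [CommRing A] [IsDomain A] [Algebra O A] [Module.Finite O A]
    {x x' : PS O σ →ₐ[O] A} {n : Ideal A} (hn : n ≠ ⊤) (h : ∀ t, x (X t) - x' (X t) ∈ n)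
    (u : PS O σ) : x u - x' u ∈ n := by
  have hA := base_of (O := O) A
  haveI : Nontrivial (A ⧸ n) := Ideal.Quotient.nontrivial_iff.2 hn
  haveI : IsLocalRing (A ⧸ n) :=
    IsLocalRing.of_surjective' (Ideal.Quotient.mk n) Ideal.Quotient.mk_surjective
  have hH := NR.haus_of_le (maximalIdeal.isMaximal (A ⧸ n)).ne_top
  exact Ideal.Quotient.eq.1 (RingHom.congr_fun (NR.ev_ext (maximalIdeal (A ⧸ n))
    (φ := (Ideal.Quotient.mk n).comp x.toRingHom) (ψ := (Ideal.Quotient.mk n).comp x'.toRingHom)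
    (fun o => congrArg (Ideal.Quotient.mk n) ((x.commutes o).trans (x'.commutes o).symm))
    (fun t => Ideal.Quotient.eq.2 (h t)) fun t => Zl.surj_loc _ Ideal.Quotient.mk_surjective _
      (Zl.alg_loc x _ (Lu.X_max t))) u)

/-- **one block of variables is moved** -/
theorem mov [CharZero O] {σ τ A : Type} [Fintype σ] [Fintype τ] (e : τ ↪ σ) [CommRing A]
    [IsDomain A] [Algebra O A] [Module.Finite O A] [FaithfulSMul O A] (x : PS O σ →ₐ[O] A)
    {J : Ideal (PS O τ)} (hJ : ∀ u ∈ J, x (rename e u) = 0) {c : PS O τ}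
    (hc : ∀ u, c * u ∈ J → u ∈ J) {q : O} (hq : q ≠ 0) (hm : q ∈ maximalIdeal O) :
    ∃ (T : Type) (_ : CommRing T) (_ : IsDomain T) (_ : Algebra O T) (j : A →ₐ[O] T)
      (y : PS O σ →ₐ[O] T), Module.Finite O T ∧ Injective j ∧ (∀ u ∈ J, y (rename e u) = 0) ∧
        y (rename e c) ≠ 0 ∧ (∀ i ∉ Set.range e, y (X i) = j (x (X i))) ∧
        ∀ u, algebraMap O T q ∣ y u - j (x u) := by
  classical
  have hB := PL.base_ps O τ
  obtain ⟨T, _, _, _, j, y, _, hj, h1, h2, h3⟩ := near_pt (x.comp (rename e)) hJ hc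
    ((FaithfulSMul.algebraMap_eq_zero_iff O A).not.2 hq)
  have hT := base_of (O := O) T
  have := hT.cpl
  obtain ⟨z, z1, z2⟩ := NR.exists_ev (maximalIdeal T) (algebraMap O T)
    (fun i => if h : ∃ t, e t = i then y (X h.choose) else j (x (X i))) fun i => by
      split_ifs
      exacts [Zl.alg_loc y _ (Lu.X_max _), Zl.alg_loc (j.comp x) _ (Lu.X_max _)]
  let z' : PS O σ →ₐ[O] T := { z with commutes' := z1 }
  have z3 : ∀ t, z' (X (e t)) = y (X t) := fun t => by
    have h : ∃ t', e t' = e t := ⟨t, rfl⟩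
    exact (z2 _).trans ((dif_pos h).trans (congrArg (fun t => y (X t)) (e.injective h.choose_spec)))
  have z4 : ∀ u, z' (rename e u) = y u := AlgHom.congr_fun (pt_ext (x := z'.comp (rename e))
    fun t => (congrArg z' (rename_X _ t)).trans (z3 t))
  have z5 : ∀ i ∉ Set.range e, z' (X i) = j (x (X i)) := fun i hi => (z2 i).trans (dif_neg hi)
  rw [j.commutes] at h3
  refine ⟨T, _, inferInstance, _, j, z', inferInstance, hj, fun u hu => (z4 u).trans (h1 u hu),
    z4 c ▸ h2, z5, fun u => Ideal.mem_span_singleton.1 (pt_nr (x := z') (x' := j.comp x)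
      (fun e => hm ?_) (fun i => ?_) u)⟩
  · by_contra hu
    exact Zl.alg_loc (Algebra.ofId O T) q hu (Ideal.span_singleton_eq_top.1 e)
  · by_cases hi : i ∈ Set.range e
    · obtain ⟨t, rfl⟩ := hi
      rw [z3, ← rename_X e t]
      exact Ideal.mem_span_singleton.2 (h3 _)
    · exact sub_eq_zero.2 (z5 i hi) ▸ zero_mem _

end Vale.Agent.P022K.RT.Mv
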