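import Vale.Agent.P022K.RT.GeoA
import Vale.Agent.P022K.RT.St

/-!
# P022K, block RT: points of the generic fibre near a given point
-/

set_option linter.all false

noncomputable section

namespace Vale.Agent.P022K.RT

open IsLocalRing
open Vale.Agent.P022D.Core (PS)

namespace Near

variable {O V R : Type} [CommRing O] [IsDomain O] [IsDiscreteValuationRing O]
  [IsPrecomplete (maximalIdeal O) O] [CommRing R] [IsNoetherianRing R] [Algebra O R]
  [CommRing V] [IsDomain V] [Algebra O V] [Module.Finite O V] [FaithfulSMul O V]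

/-- a point of the affine blow up -/
theorem ex_T' (i : V →ₐ[O] R) (x : R →ₐ[O] V) (hx : ∀ v, x (i v) = v) (J : Ideal R) (c : R)
    (hc : ∀ (e : ℕ) (u : R), u * c ^ e ∈ J → x u = 0) (q : O) (hq : q ≠ 0) :
    ∃ (T : Type) (_ : CommRing T) (_ : IsDomain T) (_ : Algebra O T) (_ : Module.Finite O T)
      (f : R →ₐ[O] T), (∀ u ∈ J, f u = 0) ∧ f c ≠ 0 ∧ (∀ o, algebraMap O T o = 0 → o = 0) ∧
      ∀ y, x y = 0 → algebraMap O T q ∣ f y := by
  obtain ⟨ϖ, hϖ⟩ := IsDiscreteValuationRing.exists_irreducible O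
  obtain ⟨s, hs⟩ := IsNoetherian.noetherian (RingHom.ker x)
  obtain ⟨n, hn⟩ := Ideal.exists_maximal V
  have hn' : ∀ a ∈ maximalIdeal O, algebraMap O V a ∈ n := fun a ha =>
    Ideal.mem_comap.1 (eq_maximalIdeal (Ideal.isMaximal_comap_of_isIntegral_of_isMaximal
      (R := O) n) ▸ ha)
  have hy : ∀ y : s, x y = 0 := fun y =>
    RingHom.mem_ker.1 (hs ▸ Submodule.subset_span y.2 : (y : R) ∈ RingHom.ker x)
  let S0 := MvPolynomial s R
  let x0 : S0 →+* V := MvPolynomial.eval₂Hom (x : R →+* V) 0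
  have x0C : ∀ r, x0 (MvPolynomial.C r) = x r := fun r => MvPolynomial.eval₂Hom_C _ _ r
  have x0X : ∀ y, x0 (MvPolynomial.X y) = 0 := fun y => MvPolynomial.eval₂Hom_X' _ _ y
  let m : Ideal S0 := n.comap x0
  let _ := Ideal.Quotient.field n
  have hm : ∀ u : m.primeCompl, IsUnit ((Ideal.Quotient.mk n).comp x0 u) := fun u =>
    IsUnit.mk0 _ fun h => u.2 ((Ideal.Quotient.eq_zero_iff_mem (I := n)).1 h)
  let S := Localization.AtPrime m
  let x1 : S →+* V ⧸ n := IsLocalization.lift (M := m.primeCompl) hm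
  have x1a : ∀ u : S0, x1 (algebraMap S0 S u) = Ideal.Quotient.mk n (x0 u) :=
    fun u => IsLocalization.lift_eq hm u
  have aO : ∀ o : O, algebraMap O S o = algebraMap S0 S (MvPolynomial.C (algebraMap O R o)) :=
    fun o => IsScalarTower.algebraMap_apply O S0 S o
  have hmax : ∀ z : S, x1 z = 0 → z ∈ maximalIdeal S := fun z h hu => (hu.map x1).ne_zero h
  have hmO : ∀ a ∈ maximalIdeal O, algebraMap O S a ∈ maximalIdeal S := fun a ha => hmax _ (by
    rw [aO, x1a, x0C, x.commutes]; exact Ideal.Quotient.eq_zero_iff_mem.2 (hn' a ha))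
  let J0 : Ideal S0 := J.map MvPolynomial.C ⊔ Ideal.span (Set.range fun y : s =>
    MvPolynomial.C (y : R) - MvPolynomial.C (algebraMap O R q) * MvPolynomial.X y)
  let a0 : S0 := MvPolynomial.C (algebraMap O R ϖ * c)
  have h1 : algebraMap S0 S a0 ∉ (J0.map (algebraMap S0 S)).radical := by
    rintro ⟨e, he⟩
    rw [← map_pow, IsLocalization.algebraMap_mem_map_algebraMap_iff m.primeCompl] at he
    obtain ⟨u, hu, he⟩ := he
    have : (RingHom.ker x).IsPrime := RingHom.ker_isPrime _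
    let L := Localization.AtPrime (RingHom.ker x)
    have un' : ∀ r : R, x r ≠ 0 → IsUnit (algebraMap R L r) := fun r hr =>
      IsLocalization.map_units L (⟨r, hr⟩ : (RingHom.ker x).primeCompl)
    have un : ∀ o : O, o ≠ 0 → IsUnit (algebraMap R L (algebraMap O R o)) := fun o ho =>
      un' _ (by simpa using ho)
    have mx : ∀ r, x r = 0 → residue L (algebraMap R L r) = 0 := fun r hr =>
      (residue_eq_zero_iff _).2
        ((IsLocalization.AtPrime.to_map_mem_maximal_iff L (RingHom.ker x) r).2 hr)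
    obtain ⟨w, hw⟩ := (un q hq).exists_right_inv
    let ev : S0 →+* L := MvPolynomial.eval₂Hom (algebraMap R L) fun y => algebraMap R L y * w
    have evC : ∀ r, ev (MvPolynomial.C r) = algebraMap R L r :=
      fun r => MvPolynomial.eval₂Hom_C _ _ r
    have evX : ∀ y, ev (MvPolynomial.X y) = algebraMap R L y * w :=
      fun y => MvPolynomial.eval₂Hom_X' _ _ y
    have h2 : (residue L).comp ev =
        ((residue L).comp ((algebraMap R L).comp (i : V →+* R))).comp x0 := by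
      refine MvPolynomial.ringHom_ext (fun r => ?_) fun y => ?_
      · simp only [RingHom.comp_apply, evC, x0C]
        rw [← sub_eq_zero, ← map_sub, ← map_sub]
        exact mx _ (by simp [hx])
      · simp only [RingHom.comp_apply, evX, x0X, map_mul, map_zero, mx _ (hy y), zero_mul]
    have h3 : IsUnit (ev u) := by
      rw [← isUnit_map_iff (residue L), ← RingHom.comp_apply, h2]
      exact (un' (i (x0 u)) fun h => hu (by
        rw [hx] at h
        show x0 u ∈ n
        rw [h]; exact zero_mem _)).map (residue L)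
    have h4 : J0 ≤ (J.map (algebraMap R L)).comap ev := by
      refine sup_le (Ideal.map_le_iff_le_comap.2 fun r hr => ?_) (Ideal.span_le.2 ?_)
      · rw [Ideal.mem_comap, Ideal.mem_comap, evC]; exact Ideal.mem_map_of_mem _ hr
      · rintro _ ⟨y, rfl⟩
        rw [SetLike.mem_coe, Ideal.mem_comap, map_sub, map_mul, evC, evC, evX, mul_left_comm, hw,
          mul_one, sub_self]
        exact zero_mem _
    have h5 := h4 he
    rw [Ideal.mem_comap, map_mul, Ideal.unit_mul_mem_iff_mem _ h3, map_pow, evC, map_mul, mul_pow,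
      Ideal.unit_mul_mem_iff_mem _ ((un ϖ hϖ.ne_zero).pow e), ← map_pow,
      IsLocalization.algebraMap_mem_map_algebraMap_iff (RingHom.ker x).primeCompl] at h5
    obtain ⟨v, hv, h5⟩ := h5
    exact hv (hc e v h5)
  rw [Ideal.radical_eq_sInf, Submodule.mem_sInf] at h1
  push Not at h1
  obtain ⟨Q, ⟨q1, q2⟩, q3⟩ := h1
  have a1 : algebraMap S0 S a0 = algebraMap O S ϖ * algebraMap S0 S (MvPolynomial.C c) := by
    rw [aO, ← map_mul, ← map_mul]
  obtain ⟨P, p1, p2, p3, p4⟩ := Geo.exists_pt q2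
    (a1 ▸ Ideal.mul_mem_right _ _ (hmO ϖ hϖ.not_isUnit)) q3
  have p5 : algebraMap O S ϖ ∉ P := fun h => p3 (a1 ▸ P.mul_mem_right _ h)
  have _ : IsLocalRing (S ⧸ P) :=
    IsLocalRing.of_surjective' (Ideal.Quotient.mk P) Ideal.Quotient.mk_surjective
  have lm : ∀ z ∈ maximalIdeal S, Ideal.Quotient.mk P z ∈ maximalIdeal (S ⧸ P) :=
    fun z hz h => hz (((IsLocalHom.of_surjective (Ideal.Quotient.mk P)
      Ideal.Quotient.mk_surjective).map_nonunit z) h)
  let f : R →ₐ[O] S ⧸ P := (Ideal.Quotient.mkₐ O P).comp (IsScalarTower.toAlgHom O R S)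
  have hf : ∀ r, f r = Ideal.Quotient.mk P (algebraMap S0 S (MvPolynomial.C r)) := fun r =>
    congrArg (Ideal.Quotient.mk P) (IsScalarTower.algebraMap_apply R S0 S r)
  have _ : Module.Finite O ((S ⧸ P) ⧸ maximalIdeal (S ⧸ P)) := by
    refine Module.Finite.of_surjective
      ((Ideal.Quotient.mkₐ O _).comp (f.comp i)).toLinearMap fun z => ?_
    obtain ⟨z, rfl⟩ := Ideal.Quotient.mk_surjective z
    obtain ⟨z, rfl⟩ := Ideal.Quotient.mk_surjective z
    obtain ⟨v, hv⟩ := Ideal.Quotient.mk_surjective (x1 z)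
    refine ⟨v, Ideal.Quotient.eq.2 ?_⟩
    show f (i v) - _ ∈ _
    rw [hf, ← map_sub]
    exact lm _ (hmax _ (by rw [map_sub, x1a, x0C, hx, hv, sub_self]))
  have fin : Module.Finite O (S ⧸ P) := by
    refine FinR.fin_of_prime (Ideal.map_le_iff_le_comap.2 fun a ha =>
      lm (algebraMap O S a) (hmO a ha)) fun p hp k z hz => ?_
    obtain ⟨z, rfl⟩ := Ideal.Quotient.mk_surjective z
    refine p4 (p.comap (Ideal.Quotient.mk P)) inferInstance (lt_of_le_of_ne (fun y hy => ?_)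
      fun e => p5 (e ▸ ?_)) fun hu => hz (hu.map _)
    · rw [Ideal.mem_comap, Ideal.Quotient.eq_zero_iff_mem.2 hy]
      exact p.zero_mem
    · exact k (Ideal.mem_map_of_mem (algebraMap O _) hϖ.not_isUnit)
  have hJ : ∀ z ∈ J0, Ideal.Quotient.mk P (algebraMap S0 S z) = 0 := fun z hz =>
    Ideal.Quotient.eq_zero_iff_mem.2 (p2 (q1 (Ideal.mem_map_of_mem _ hz)))
  refine ⟨S ⧸ P, inferInstance, inferInstance, inferInstance, fin, f, fun u hu => ?_, fun h => ?_,
    fun o ho => by_contra fun h0 => ?_, fun y h => ?_⟩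
  · rw [hf]; exact hJ _ (Ideal.mem_sup_left (Ideal.mem_map_of_mem _ hu))
  · rw [hf, Ideal.Quotient.eq_zero_iff_mem] at h
    exact p3 (a1 ▸ P.mul_mem_left _ h)
  · obtain ⟨n, u, rfl⟩ := IsDiscreteValuationRing.eq_unit_mul_pow_irreducible h0 hϖ
    rw [map_mul, map_pow, (u.isUnit.map _).mul_right_eq_zero] at ho
    exact p5 (Ideal.Quotient.eq_zero_iff_mem.1 (pow_eq_zero_iff'.1 ho).1)
  · have h6 : y ∈ Submodule.span R (s : Set R) := hs.symm ▸ h
    clear h
    induction h6 using Submodule.span_induction with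
    | mem y hy =>
      have h7 := hJ _ (Ideal.mem_sup_right (Ideal.subset_span ⟨⟨y, hy⟩, rfl⟩))
      rw [map_sub, map_sub, map_mul, map_mul, ← hf, ← hf, f.commutes, sub_eq_zero] at h7
      exact ⟨_, h7⟩
    | zero => simp
    | add _ _ _ _ ha hb => rw [map_add]; exact dvd_add ha hb
    | smul r _ _ ha => rw [smul_eq_mul, map_mul]; exact ha.mul_left _

theorem ex_T (x : R →ₐ[O] O) (J : Ideal R) (c : R)
    (hc : ∀ (e : ℕ) (u : R), u * c ^ e ∈ J → x u = 0) (q : O) (hq : q ≠ 0) :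
    ∃ (T : Type) (_ : CommRing T) (_ : IsDomain T) (_ : Algebra O T) (_ : Module.Finite O T)
      (f : R →ₐ[O] T), (∀ u ∈ J, f u = 0) ∧ f c ≠ 0 ∧ (∀ o, algebraMap O T o = 0 → o = 0) ∧
      ∀ y, x y = 0 → algebraMap O T q ∣ f y :=
  ex_T' (Algebra.ofId O R) x x.commutes J c hc q hq

theorem mem_iff {A M ι : Type} [CommRing A] [AddCommGroup M] [Module A M] [Fintype ι]
    (b : Module.Basis ι A M) (J : Ideal A) (w : M) :
    w ∈ J • (⊤ : Submodule A M) ↔ ∀ k, b.repr w k ∈ J := by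
  refine ⟨fun h k => Submodule.smul_induction_on h (fun a ha w _ => ?_) fun u v hu hv => ?_,
    fun h => b.sum_repr w ▸ sum_mem fun k _ => Submodule.smul_mem_smul (h k) trivial⟩
  · rw [map_smul, Finsupp.smul_apply]; exact J.mul_mem_right _ ha
  · rw [map_add, Finsupp.add_apply]; exact add_mem hu hv

end Near

open TensorProduct in
/-- **NEAR, point form** -/
theorem near_pt {O V R : Type} [CommRing O] [IsDomain O] [IsDiscreteValuationRing O]
    [IsPrecomplete (maximalIdeal O) O] [CommRing R] [IsNoetherianRing R] [Algebra O R]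
    [CommRing V] [IsDomain V] [Algebra O V] [Module.Finite O V] [FaithfulSMul O V]
    (x : R →ₐ[O] V) (J : Ideal R) (hJ : ∀ u ∈ J, x u = 0) (c : R) (hc : ∀ u, c * u ∈ J → u ∈ J)
    (o : O) (ho : o ≠ 0) :
    ∃ (V' : Type) (_ : CommRing V') (_ : IsDomain V') (_ : Algebra O V') (_ : Module.Finite O V')
      (j : V →ₐ[O] V') (y : R →ₐ[O] V'), Function.Injective j ∧ (∀ u ∈ J, y u = 0) ∧ y c ≠ 0 ∧
      ∀ u, y u - j (x u) ∈ Ideal.span {algebraMap O V' o} := by
  have : IsNoetherianRing (R ⊗[O] V) := IsNoetherianRing.of_finite R _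
  let x' : R ⊗[O] V →ₐ[O] V := Algebra.TensorProduct.lift x (AlgHom.id O V) fun _ _ => .all _ _
  have e1 : ∀ v, x' (Algebra.TensorProduct.includeRight v) = v := fun v => by simp [x']
  have e2 : ∀ u, x' (algebraMap R _ u) = x u := fun u => by simp [x']
  let b := Algebra.TensorProduct.basis R (Module.Free.chooseBasis O V)
  have h1 : ∀ (e : ℕ) (u : R ⊗[O] V), u * algebraMap R _ c ^ e ∈ J.map (algebraMap R _) →
      u ∈ J.map (algebraMap R _) := fun e u h => by
    induction e with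
    | zero => simpa using h
    | succ e ih =>
      refine ih ?_
      rw [pow_succ', mul_left_comm, ← Algebra.smul_def] at h
      rw [← Submodule.restrictScalars_mem R, ← Ideal.smul_top_eq_map, Near.mem_iff b] at h ⊢
      exact fun k => hc _ (by simpa using h k)
  obtain ⟨T, _, _, _, _, f, f1, f2, f3, f4⟩ := Near.ex_T' Algebra.TensorProduct.includeRight x' e1
    (J.map (algebraMap R _)) (algebraMap R _ c) (fun e u h =>
      (Ideal.map_le_iff_le_comap.2 fun r hr => (e2 r).trans (hJ r hr) :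
        J.map (algebraMap R _) ≤ RingHom.ker x') (h1 e u h)) o ho
  refine ⟨T, inferInstance, inferInstance, inferInstance, inferInstance,
    f.comp Algebra.TensorProduct.includeRight, f.comp (IsScalarTower.toAlgHom O R _), ?_,
    fun u hu => f1 _ (Ideal.mem_map_of_mem _ hu), f2, fun u => Ideal.mem_span_singleton.2 ?_⟩
  · refine (RingHom.injective_iff_ker_eq_bot _).2 (Ideal.eq_bot_of_comap_eq_bot (R := O)
      (eq_bot_iff.2 fun a ha => f3 a ?_))
    rwa [Ideal.mem_comap, RingHom.mem_ker, AlgHom.commutes] at ha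
  · rw [AlgHom.comp_apply, AlgHom.comp_apply, ← map_sub]
    exact f4 _ (by rw [map_sub, e1, IsScalarTower.toAlgHom_apply, e2, sub_self])

/-- **NEAR** for any Noetherian algebra; `hc` holds if `J ≤ ker x` and `c` is regular mod `J` -/
theorem near_alg {O R : Type} [CommRing O] [IsDomain O] [IsDiscreteValuationRing O]
    [IsPrecomplete (maximalIdeal O) O] [CommRing R] [IsNoetherianRing R] [Algebra O R]
    (x : R →ₐ[O] O) (J : Ideal R) (c : R) (hc : ∀ (e : ℕ) (u : R), u * c ^ e ∈ J → x u = 0)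
    {π : O} (h0 : π ≠ 0) (h1 : ¬ IsUnit π) (N : ℕ) :
    ∃ 𝔮 : Ideal R, 𝔮.IsPrime ∧ J ≤ 𝔮 ∧ c ∉ 𝔮 ∧ (∀ o : O, o ≠ 0 → algebraMap O R o ∉ 𝔮) ∧
      Module.Finite O (R ⧸ 𝔮) ∧ ∃ a : ℕ, (∃ u, u * c - algebraMap O R π ^ a ∈ 𝔮) ∧
        ∀ b : ℕ, ∃ i : ℕ, RingHom.ker x ^ i ≤ 𝔮 ⊔ Ideal.span {algebraMap O R π ^ (N * i + b)} := by
  obtain ⟨T, _, _, _, _, f, f1, f2, f3, f4⟩ :=
    Near.ex_T x J c hc (π ^ (N + 1)) (pow_ne_zero _ h0)
  have pr : (RingHom.ker f).IsPrime := RingHom.ker_isPrime _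
  have fin : Module.Finite O (R ⧸ RingHom.ker f) :=
    Module.Finite.of_injective (Ideal.kerLiftAlg f).toLinearMap (Ideal.kerLiftAlg_injective f)
  have h2 : ∀ o : O, o ≠ 0 → algebraMap O R o ∉ RingHom.ker f := fun o ho h =>
    ho (f3 o ((f.commutes o).symm.trans h))
  obtain ⟨o, ho, h3⟩ := Submodule.exists_mem_ne_zero_of_ne_bot
    (Ideal.comap_ne_bot_of_integral_mem (R := O) (x := Ideal.Quotient.mk (RingHom.ker f) c)
      (fun h => f2 (Ideal.Quotient.eq_zero_iff_mem.1 h)) (Ideal.mem_span_singleton_self _)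
      (Algebra.IsIntegral.isIntegral _))
  obtain ⟨a, d, hd⟩ : ∃ a : ℕ, o ∣ π ^ a := by
    obtain ⟨ϖ, hϖ⟩ := IsDiscreteValuationRing.exists_irreducible O
    obtain ⟨n, u, rfl⟩ := IsDiscreteValuationRing.eq_unit_mul_pow_irreducible h3 hϖ
    refine ⟨n, u.isUnit.mul_left_dvd.2 (pow_dvd_pow_of_dvd ?_ n)⟩
    rw [← Ideal.mem_span_singleton, ← hϖ.maximalIdeal_eq]; exact h1
  refine ⟨_, pr, f1, f2, h2, fin, a, ?_, fun b => ?_⟩
  · obtain ⟨u, hu⟩ := Ideal.mem_span_singleton'.1 (Ideal.mem_comap.1 ho)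
    obtain ⟨u, rfl⟩ := Ideal.Quotient.mk_surjective u
    refine ⟨algebraMap O R d * u, ?_⟩
    rw [← map_pow, hd, mul_comm o, map_mul, mul_assoc, ← mul_sub]
    exact Ideal.mul_mem_left _ _ (Ideal.Quotient.eq.1 hu)
  · obtain ⟨k, hk⟩ := (Ideal.span {π}).exists_pow_inf_eq_pow_smul (LinearMap.range f.toLinearMap)
    refine ⟨k + b, fun z hz => ?_⟩
    have h4 : f z ∈ Ideal.span {algebraMap O T (π ^ (N + 1))} ^ (k + b) :=
      Ideal.pow_right_mono (I := (RingHom.ker x).map f) (Ideal.map_le_iff_le_comap.2 fun y hy =>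
        Ideal.mem_comap.2 (Ideal.mem_span_singleton.2 (f4 y hy))) _
        (Ideal.map_pow f _ _ ▸ Ideal.mem_map_of_mem f hz)
    rw [Ideal.span_singleton_pow, ← map_pow, ← pow_mul, Ideal.mem_span_singleton'] at h4
    obtain ⟨t, ht⟩ := h4
    have h5 : f z ∈ Ideal.span {π} ^ ((N + 1) * (k + b)) • ⊤ ⊓ LinearMap.range f.toLinearMap := by
      refine ⟨?_, z, rfl⟩
      rw [← ht, mul_comm t, ← Algebra.smul_def]
      exact Submodule.smul_mem_smul (Ideal.pow_mem_pow (Ideal.mem_span_singleton_self π) _) trivial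
    rw [hk _ (by nlinarith), show (N + 1) * (k + b) - k = N * (k + b) + b by
      rw [add_mul, one_mul]; omega, Ideal.span_singleton_pow, Submodule.ideal_span_singleton_smul,
      Submodule.mem_smul_pointwise_iff_exists] at h5
    obtain ⟨_, ⟨-, w, rfl⟩, h5⟩ := h5
    rw [← sub_add_cancel z (algebraMap O R π ^ (N * (k + b) + b) * w)]
    refine Submodule.add_mem_sup ?_ (Ideal.mul_mem_right _ _ (Ideal.mem_span_singleton_self _))
    rw [RingHom.mem_ker, map_sub, ← h5, ← map_pow, ← Algebra.smul_def, map_smul]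
    exact sub_self _

/-- **NEAR** for power series rings, `c` regular modulo `J` -/
theorem near_ps {O τ : Type} [CommRing O] [IsDomain O] [IsDiscreteValuationRing O] [hO : PL.Cf O]
    [Finite τ] (x : PS O τ →ₐ[O] O) (J : Ideal (PS O τ)) (hJ : ∀ u ∈ J, x u = 0) (c : PS O τ)
    (hc : ∀ u, c * u ∈ J → u ∈ J) {p : ℕ} (h0 : (p : O) ≠ 0) (h1 : ¬ IsUnit (p : O)) (N : ℕ) :
    ∃ 𝔮 : Ideal (PS O τ), 𝔮.IsPrime ∧ J ≤ 𝔮 ∧ c ∉ 𝔮 ∧
      (∀ o : O, o ≠ 0 → MvPowerSeries.C o ∉ 𝔮) ∧ Module.Finite O (PS O τ ⧸ 𝔮) ∧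
      ∃ a : ℕ, (∃ u, u * c - (p : PS O τ) ^ a ∈ 𝔮) ∧
        ∃ i : ℕ, RingHom.ker x ^ i ≤ 𝔮 ⊔ Ideal.span {(p : PS O τ) ^ (N * i + a + 1)} := by
  have _ := hO.cpl
  obtain ⟨q, q1, q2, q3, q4, q5, a, q6, q7⟩ := near_alg x J c (fun e u h => hJ u (by
    induction e with
    | zero => simpa using h
    | succ e ih => exact ih (hc _ (by rwa [pow_succ', mul_left_comm] at h)))) h0 h1 N
  rw [map_natCast] at q6 q7
  exact ⟨q, q1, q2, q3, q4, q5, a, q6, q7 (a + 1)⟩

end Vale.Agent.P022K.RT
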