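import Vale.Agent.P022K.RT.On

/-!
# P022K, block RT: the component of a smooth point with finite inertia (scalar inertia allowed)
-/

set_option linter.all false

noncomputable section

namespace Vale.Agent.P022K.RT

open Zl IsLocalRing MvPowerSeries
open Vale.Agent.P022D.L2b (M2 mem_max_iff ker_eq)
open Vale.Agent.P022D.Core (PS)
open Vale.Agent.P022D
open Vale.Agent.P022D.PA (Base)
open Vale.Agent.P022K.PL (Cf)
open Vale.Agent.P027M.S (Inert)
open Vale.Agent.P022D.W (dec)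
open Vale.Agent.P022E.GW (Ov Fb)
open Vale.Agent.P022K.GW (Id)

/-- finite inertia, smooth -/
def Gw {A : Type} [CommRing A] (l : ℕ) (P : Id) (V : dec P → M2 A) : Prop :=
  (∃ n : ℕ, 0 < n ∧ ∀ i : dec P, Inert P i → V i ^ n = 1) ∧ Nt l P V

/-- an element of finite order with a double eigenvalue is a scalar -/
theorem Zl.sc_of_fin {A : Type} [CommRing A] [IsDomain A] [CharZero A] {M : M2 A} {n : ℕ}
    (hn : 0 < n) (h : M ^ n = 1) (hd : M.trace ^ 2 = 4 * M.det) : M = M 0 0 • 1 := by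
  obtain ⟨n, rfl⟩ := Nat.exists_eq_add_one_of_ne_zero hn.ne'
  set t := M.trace
  let N : M2 A := (2 : A) • M - t • 1
  have h0 : N * N = 0 := by
    simp only [N, sub_mul, mul_sub, smul_mul_assoc, mul_smul_comm, one_mul, mul_one, ch2]
    linear_combination (norm := module) hd • (1 : M2 A)
  have h1 : ∀ k : ℕ, ((2 : A) • M) ^ (k + 1) = t ^ (k + 1) • 1 + ((k + 1 : ℕ) * t ^ k) • N := by
    intro k
    induction k with
    | zero => simp [N]
    | succ k ih =>
      have e : (2 : A) • M = t • 1 + N := by simp [N]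
      rw [pow_succ, ih, e]
      simp only [add_mul, mul_add, smul_mul_assoc, mul_smul_comm, one_mul, mul_one, h0, smul_zero]
      push_cast
      module
  have ht : t ≠ 0 := fun e => by
    have h2 : M.det = 0 := by
      rw [e] at hd
      exact (mul_eq_zero.1 (hd.symm.trans (by simp))).resolve_left (by norm_num)
    have := congrArg Matrix.det h
    rw [Matrix.det_pow, h2, Matrix.det_one] at this
    simp at this
  have hc : ((n + 1 : ℕ) * t ^ n : A) ≠ 0 :=
    mul_ne_zero (Nat.cast_ne_zero.2 hn.ne') (pow_ne_zero _ ht)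
  have h2 := h1 n
  rw [smul_pow, h] at h2
  have a := fun i j => congrFun (congrFun h2 i) j
  have a01 := a 0 1
  have a10 := a 1 0
  have a00 := a 0 0
  have a11 := a 1 1
  simp only [N, Matrix.add_apply, Matrix.smul_apply, Matrix.sub_apply, smul_eq_mul,
    Matrix.one_apply_eq, Matrix.one_apply_ne (zero_ne_one' (Fin 2)),
    Matrix.one_apply_ne (zero_ne_one' (Fin 2)).symm] at a01 a10 a00 a11
  have hc2 := mul_ne_zero hc (two_ne_zero' A)
  have b01 : M 0 1 = 0 := mul_left_cancel₀ hc2 (by linear_combination -a01)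
  have b10 : M 1 0 = 0 := mul_left_cancel₀ hc2 (by linear_combination -a10)
  have b11 : M 1 1 = M 0 0 := mul_left_cancel₀ hc2 (by linear_combination a00 - a11)
  ext i j
  fin_cases i <;> fin_cases j <;> simp [b01, b10, b11]

variable {l : ℕ} {P : Id} {O : Type} [CommRing O] [IsDomain O] [IsDiscreteValuationRing O]
  [hO : Cf O] {F τ : Type} [Field F] [Finite F] [Algebra O F] [Fintype τ]
  {r : dec P →* M2 F} {s : F → O} {d : dec P → O} {g : τ → dec P} {p q : τ → Fin 2}
  {I : Ideal (PS O τ)} {f : dec P → M2 (PS O τ)} (h : Ov l P)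
  (hs : ∀ x, algebraMap O F (s x) = x) (hU : Uni r s d g p q I f)

include h hs hU

/-- the family of the lifts with the same scalar inertia -/
theorem sc_par {x : PS O τ →ₐ[O] O} (hx : ∀ u ∈ I, x u = 0)
    (hc : ∀ i : dec P, Inert P i → ∃ c : O, (f i).map x = c • 1) :
    ∃ J : Ideal (PS O τ), Par J 3 ∧ I ≤ J ∧ (∀ u ∈ J, x u = 0) ∧
      ∀ i : dec P, Inert P i → Cg J (f i) (((f i).map x).map C) := by
  obtain ⟨t, T⟩ := wd h
  obtain ⟨φ, hφ⟩ := ex_phi h
  replace T := T φ hφ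
  haveI hA := PL.base_ps O (Fin 3)
  haveI hB := PL.base_ps O τ
  have c2 := hB.cpl
  let V := (hU.un hs).rep x.toRingHom hx
  have e : ∀ y, (f y).map x = V y := fun y => rfl
  have hV : Ac V := hU.ac hs _ hx (Or.pt_loc x)
  have hd : ∀ y, (V y).det = d y := hU.pt_det hx
  obtain ⟨a, b, h0, hex, hrig⟩ := piv (r φ) (det_unit r φ).ne_zero
  have u0 : IsUnit (V φ (a 0) (b 0)) := by
    by_contra hn
    have h1 : V φ (a 0) (b 0) ∈ maximalIdeal O := hn
    rw [← ker_eq hs] at h1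
    exact h0 ((congrFun (congrFun (hU.pt_red hs x φ) _) _).symm.trans h1)
  let z : Fin 3 → PS O (Fin 3) := fun k => C (V φ (a k) (b k)) + X k
  have hz0 : IsUnit (z 0) := by
    rw [isUnit_iff_constantCoeff]
    simpa [z] using u0
  obtain ⟨γ, g1, g2⟩ := hex _ z (C (V φ).det) hz0
  have hC : ∀ a ∈ maximalIdeal O, (C a : PS O (Fin 3)) ∈ maximalIdeal _ := fun a ha => Lu.C_max ha
  obtain ⟨σ, s1, s2, s3⟩ := tw_rep h hφ (hV.map C hC) (γ := γ * pm C V φ⁻¹)
    (((Matrix.isUnit_iff_isUnit_det γ).2 (g2 ▸ (det_unit V φ).map C)).mul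
      ((Group.isUnit _).map (pm (C : O →+* PS O (Fin 3)) V))) fun i hi => by
      obtain ⟨c, hc⟩ := hc i hi
      have : pm (C : O →+* PS O (Fin 3)) V i = (C c : PS O (Fin 3)) • 1 := by
        rw [pm_apply, ← e, hc]
        ext i j : 2
        fin_cases i <;> fin_cases j <;> simp
      rw [this]
      exact (Commute.one_right _).smul_right _
  rw [mul_assoc, inv_r, mul_one] at s2
  have sp : pm constantCoeff σ = V := T.ext_adic (s1.map _ fun u hu => (mem_max_iff u).1 hu) hV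
    (by
      rw [pm_apply, s2]
      refine (hrig O _ _ u0 (fun k => ?_) ?_).symm
      · simp [g1, z]
      · rw [← RingHom.mapMatrix_apply, ← RingHom.map_det, g2, constantCoeff_C])
    fun i hi => by
      rw [pm_apply, s3 i hi]
      exact Matrix.ext fun a b => constantCoeff_C (σ := Fin 3) (V i a b)
  obtain ⟨ψ, b2, b3⟩ := hU.ex_pt hs (ρ := σ) ⟨s1, hC, fun y i j => by
      rw [mem_max_iff, ← ker_eq hs, RingHom.mem_ker, map_sub, map_sub, sub_eq_zero]
      exact ((congrArg _ (congrFun (congrFun (DFunLike.congr_fun sp y) i) j)).trans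
        (congrFun (congrFun (hU.pt_red hs x y) i) j)).trans
        ((hs _).symm.trans (congrArg _ (constantCoeff_C _).symm)),
    fun y => hd y ▸ T.det_eq C hC (cd_det hV) s1 (by rw [s2, g2]; rfl)
      (fun i hi => by rw [s3 i hi, pm_det]; rfl) y⟩
  have ψC : ∀ o, ψ (C o) = C o := fun o => ψ.commutes o
  let c0 : PS O (Fin 3) →ₐ[O] O :=
    { (constantCoeff : PS O (Fin 3) →+* O) with commutes' := constantCoeff_C }
  have e0 : c0.comp ψ = x := hU.pt_ext (fun u hu => (congrArg c0 (b2 u hu)).trans (map_zero _)) hx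
    fun y => by rw [e, ← sp, pm_apply, ← b3]; rfl
  obtain ⟨θ, t1, t2⟩ := NR.exists_ev (maximalIdeal (PS O τ)) (C : O →+* PS O τ)
    (fun k => f φ (a k) (b k) - C (V φ (a k) (b k))) fun k => by
      rw [mem_max_iff, map_sub, constantCoeff_C, ← neg_mem_iff, neg_sub]
      exact pt_cc x _
  have c1 := hA.cpl
  have e1 : RingHom.id _ = ψ.toRingHom.comp θ := NR.ev_ext (maximalIdeal (PS O (Fin 3)))
    (fun o => by
      show C o = ψ (θ (C o))
      rw [t1, ψC]) (fun k => by
      show X k = ψ (θ (X k))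
      rw [t2, map_sub, ψC, ← Matrix.map_apply (f := ψ), b3, s2, g1, add_sub_cancel_left])
    fun k => Lu.X_max k
  have hsurj : Function.Surjective ψ := fun u => ⟨θ u, (RingHom.congr_fun e1 u).symm⟩
  refine ⟨RingHom.ker ψ, ⟨⟨3, ψ, rfl⟩, ?_⟩, b2, fun u hu => ?_, fun i hi a b => ?_⟩
  · obtain ⟨ϖ, hϖ⟩ := IsDiscreteValuationRing.exists_irreducible O
    refine (ringKrullDim_eq_of_ringEquiv
      (RingHom.quotientKerEquivOfSurjective (f := ψ.toRingHom) hsurj)).trans ?_
    rw [(P022D.Rl.Ch0.reg (σ := Fin 3) hϖ.maximalIdeal_eq).2, Fintype.card_fin]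
  · rw [← e0, AlgHom.comp_apply, show ψ u = 0 from hu, map_zero]
  · show ψ _ = 0
    rw [map_sub, ← Matrix.map_apply (f := ψ), b3, s3 i hi, Matrix.map_apply, ψC]
    exact sub_self _

/-- **the component of a smooth point with finite inertia**, and the inertial type on it -/
theorem gw_cm [CharZero O] (hl : (l : F) ≠ 0) {x : PS O τ →ₐ[O] O} (hx : ∀ u ∈ I, x u = 0)
    (hV : Gw l P fun y => (f y).map x) : ∃ (J : Ideal (PS O τ)) (k : PS O τ) (n : ℕ),
      Cm I x J k ∧ 0 < n ∧ ∀ i : dec P, Inert P i →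
        (f i).trace - C ((f i).map x).trace ∈ J ∧ Cg J (f i ^ n) 1 := by
  by_cases hb : ∃ i : dec P, Inert P i ∧ ((f i).map x).trace ^ 2 ≠ 4 * ((f i).map x).det
  · obtain ⟨J, k, n, a1, a2, a3, a4, a5, a6, a7⟩ :=
      orb F O τ l P r s d g p q I f x h hl hs hU hx hV.1 hb
    exact ⟨J, k, n, ⟨a1, a2, a3, a4, a5⟩, a6, a7⟩
  push Not at hb
  obtain ⟨⟨n, hn, h1⟩, h2⟩ := hV
  obtain ⟨J, j1, j2, j3, j4⟩ := sc_par h hs hU hx fun i hi =>
    ⟨_, sc_of_fin hn (h1 i hi) (hb i hi)⟩
  obtain ⟨k, k1, k2⟩ := sm_h j1 j2 j3 (smo F O τ l P r s d g p q I f x h hl hs hU hx h2)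
  refine ⟨J, k, n, ⟨j1, j2, j3, k1, k2⟩, hn, fun i hi => ⟨?_, cg_one.2 ?_⟩⟩
  · convert J.add_mem (j4 i hi 0 0) (j4 i hi 1 1) using 1
    simp [Matrix.trace_fin_two]
    ring
  · rw [← RingHom.mapMatrix_apply, map_pow, RingHom.mapMatrix_apply, cg_iff.1 (j4 i hi),
      ← RingHom.mapMatrix_apply, ← RingHom.mapMatrix_apply, ← map_pow, ← map_pow, h1 i hi, map_one,
      map_one]

omit h hs hO [Finite F] [Fintype τ] in
/-- the kernel on inertia is constant on the component -/
theorem ine_of {B : Type} [CommRing B] [IsDomain B] [CharZero B] {J : Ideal (PS O τ)} {n : ℕ}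
    (hn : 0 < n) (hle : I ≤ J) {i : dec P} {c : O} (h1 : (f i).trace - C c ∈ J)
    (h2 : Cg J (f i ^ n) 1) {y y' : PS O τ →+* B} (e : ∀ o, y (C o) = y' (C o))
    (hy : ∀ u ∈ J, y u = 0) (hy' : ∀ u ∈ J, y' u = 0) (h3 : (f i).map y = 1) :
    (f i).map y' = 1 := by
  have t : ∀ z : PS O τ →+* B, (∀ u ∈ J, z u = 0) →
      ((f i).map z).trace = z (C c) ∧ ((f i).map z).det = z (C (d i)) := fun z hz =>
    ⟨(AddMonoidHom.map_trace z _).symm.trans (sub_eq_zero.1 ((map_sub z _ _).symm.trans (hz _ h1))),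
      (RingHom.map_det z _).symm.trans
        (sub_eq_zero.1 ((map_sub z _ _).symm.trans (hz _ (hle (hU.det i)))))⟩
  refine one_of_uni hn ?_ ?_ ?_
  · rw [← RingHom.mapMatrix_apply, ← map_pow, ← map_one y'.mapMatrix]
    exact Matrix.ext fun a b => sub_eq_zero.1 ((map_sub y' _ _).symm.trans (hy' _ (h2 a b)))
  · rw [(t y' hy').1, ← e, ← (t y hy).1, h3]
    simp
  · rw [(t y' hy').2, ← e, ← (t y hy).2, h3, Matrix.det_one]

end Vale.Agent.P022K.RT
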