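import Vale.Agent.P022K.PL.Final

/-!
# P022K, block RT, rows PATD, PATE: tools. Actions of power series rings on discrete modules,
characters, the lemma of Nakayama, operators which respect the filtration.
-/

set_option linter.all false

noncomputable section

namespace Vale.Agent.P022K.RT.Pd

open IsLocalRing MvPowerSeries
open Vale.Agent.P022D.Core (PS io y1)
open Vale.Agent.P022K.PL (Cf Fl Op)

section ps

variable {O τ : Type} [CommRing O] [Fintype τ]

variable (O τ) in
/-- the ideal of the variables -/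
def xx : Ideal (PS O τ) := Ideal.span (Set.range X)

omit [Fintype τ] in
theorem X_mem (t : τ) : (X t : PS O τ) ∈ xx O τ := Ideal.subset_span ⟨t, rfl⟩

theorem dec (f : PS O τ) : ∃ g : τ → PS O τ, f = C (constantCoeff f) + ∑ s, X s * g s := by
  obtain ⟨g, hg, -⟩ := P022D.CA.Cpl.exists_decompV (f - C (constantCoeff f)) (by simp)
  exact ⟨g, by rw [← hg]; ring⟩

theorem apx (n : ℕ) (f : PS O τ) : ∃ q : MvPolynomial τ O, f - q ∈ xx O τ ^ n := by
  induction n generalizing f with
  | zero => exact ⟨0, by simp⟩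
  | succ n ih =>
    obtain ⟨g, hg⟩ := dec f
    choose q hq using fun s => ih (g s)
    refine ⟨MvPolynomial.C (constantCoeff f) + ∑ s, MvPolynomial.X s * q s, ?_⟩
    have e : ((MvPolynomial.C (constantCoeff f) + ∑ s, MvPolynomial.X s * q s :
        MvPolynomial τ O) : PS O τ) = C (constantCoeff f) + ∑ s, X s * (q s : PS O τ) := by
      rw [← MvPolynomial.coeToMvPowerSeries.ringHom_apply, map_add, map_sum]
      simp
    have e2 : f - (C (constantCoeff f) + ∑ s, X s * (q s : PS O τ)) =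
        ∑ s, X s * (g s - (q s : PS O τ)) := by
      simp only [mul_sub, Finset.sum_sub_distrib]
      linear_combination hg
    rw [e, e2, pow_succ']
    exact Ideal.sum_mem _ fun s _ => Ideal.mul_mem_mul (X_mem s) (hq s)

/-- approximation by the elements of a subring -/
theorem apx' (Q : Subring (PS O τ)) (hc : ∀ o, C o ∈ Q) (hx : ∀ t, X t ∈ Q) (n : ℕ)
    (f : PS O τ) : ∃ q ∈ Q, f - q ∈ xx O τ ^ n := by
  obtain ⟨q, hq⟩ := apx n f
  refine ⟨q, ?_, hq⟩
  clear hq
  induction q using MvPolynomial.induction_on with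
  | C a => simpa using hc a
  | add p q hp hq => rw [MvPolynomial.coe_add]; exact add_mem hp hq
  | mul_X p t hp => rw [MvPolynomial.coe_mul, MvPolynomial.coe_X]; exact mul_mem hp (hx t)

theorem exists_ev {A : Type} [CommRing A] [Algebra O A] (x : τ → A)
    (hx : ∀ i, IsNilpotent (x i)) : ∃ φ : PS O τ →ₐ[O] A, ∀ i, φ (X i) = x i := by
  have h : HasSubst (fun i => (C (x i) : MvPowerSeries Unit A)) :=
    hasSubst_of_constantCoeff_nilpotent fun i => by simpa using hx i
  let c : MvPowerSeries Unit A →ₐ[O] A :=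
    { (constantCoeff : MvPowerSeries Unit A →+* A) with
      commutes' := fun r => by
        show constantCoeff (algebraMap O (MvPowerSeries Unit A) r) = _
        rw [MvPowerSeries.algebraMap_apply, constantCoeff_C] }
  refine ⟨c.comp (substAlgHom h), fun i => ?_⟩
  rw [AlgHom.comp_apply, substAlgHom_X]
  exact constantCoeff_C _

section act

variable {A M : Type} [CommRing A] [Algebra O A] [AddCommGroup M] [Module O M] [Module A M]
  [IsScalarTower O A M] (x : τ → A)

/-- the `n`-th power of the ideal of the `x t` kills `m` -/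
def Kn (n : ℕ) (m : M) : Prop := ∀ a ∈ Ideal.span (Set.range x) ^ n, a • m = 0

variable {x}

theorem Kn.mono {n n' : ℕ} {m : M} (h : Kn x n m) (e : n ≤ n') : Kn x n' m :=
  fun a ha => h a (Ideal.pow_le_pow_right e ha)

theorem kn_ex {m : M} (h : ∀ t, ∃ n : ℕ, x t ^ n • m = 0) : ∃ n, Kn x n m := by
  obtain ⟨n, hn⟩ := Ideal.exists_pow_le_of_le_radical_of_fg
    (I := Ideal.span (Set.range x)) (J := Ideal.torsionOf A M m)
    (Ideal.span_le.2 (by rintro _ ⟨t, rfl⟩; exact h t))
    (Submodule.fg_span (Set.finite_range x))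
  exact ⟨n, fun a ha => hn ha⟩

theorem Kn.pol {n : ℕ} {m : M} (h : Kn x n m) {q : MvPolynomial τ O}
    (hq : (q : PS O τ) ∈ xx O τ ^ n) : MvPolynomial.aeval x q • m = 0 := by
  let I := Ideal.torsionOf A M m
  obtain ⟨φ, hφ⟩ := exists_ev (O := O) (fun t => Ideal.Quotient.mk I (x t)) fun t =>
    ⟨n, by
      rw [← map_pow, Ideal.Quotient.eq_zero_iff_mem]
      exact h _ (Ideal.pow_mem_pow (Ideal.subset_span (Set.mem_range_self t)) n)⟩
  have e : φ.comp (MvPolynomial.coeToMvPowerSeries.algHom O) =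
      (Ideal.Quotient.mkₐ O I).comp (MvPolynomial.aeval x) :=
    MvPolynomial.algHom_ext fun t => by simp [hφ]
  have e1 : φ q = Ideal.Quotient.mk I (MvPolynomial.aeval x q) := by
    simpa using AlgHom.congr_fun e q
  have e2 : (xx O τ).map φ ≤ (Ideal.span (Set.range x)).map (Ideal.Quotient.mk I) := by
    rw [xx, Ideal.map_span, Ideal.span_le]
    rintro _ ⟨_, ⟨t, rfl⟩, rfl⟩
    rw [hφ]
    exact Ideal.mem_map_of_mem _ (Ideal.subset_span ⟨t, rfl⟩)
  have e3 := Ideal.mem_map_of_mem φ hq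
  rw [Ideal.map_pow] at e3
  have e4 := Ideal.pow_right_mono e2 n e3
  rw [← Ideal.map_pow, (Ideal.map_eq_bot_iff_le_ker _).2 (by rw [Ideal.mk_ker]; exact h), e1,
    Ideal.mem_bot, Ideal.Quotient.eq_zero_iff_mem] at e4
  exact e4

/-- **the action of the power series ring** -/
theorem act_ex (h : ∀ t (m : M), ∃ n : ℕ, x t ^ n • m = 0) : ∃ _ : Module (PS O τ) M,
    (∀ t (m : M), (X t : PS O τ) • m = x t • m) ∧ (∀ (o : O) (m : M), (C o : PS O τ) • m = o • m) ∧
    ∀ m : M, ∃ n, ∀ f ∈ xx O τ ^ n, f • m = 0 := by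
  choose n hn using fun m : M => kn_ex fun t => h t m
  choose q hq using apx (O := O) (τ := τ)
  let ac (f : PS O τ) (m : M) : M := MvPolynomial.aeval x (q (n m) f) • m
  have S : ∀ (f : PS O τ) (m : M) k (p : MvPolynomial τ O), Kn x k m → f - p ∈ xx O τ ^ k →
      ac f m = MvPolynomial.aeval x p • m := fun f m k p hk hp => by
    have h1 : Kn x (min k (n m)) m := by
      rcases min_choice k (n m) with e | e <;> rw [e]
      exacts [hk, hn m]
    have h2 := h1.pol (q := q (n m) f - p) (by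
      have := sub_mem (Ideal.pow_le_pow_right (min_le_left k (n m)) hp)
        (Ideal.pow_le_pow_right (min_le_right k (n m)) (hq (n m) f))
      rw [sub_sub_sub_cancel_left] at this
      rwa [← MvPolynomial.coeToMvPowerSeries.ringHom_apply, map_sub])
    rwa [map_sub, sub_smul, sub_eq_zero] at h2
  have K : ∀ (a : A) (m : M), Kn x (n m) (a • m) := fun a m b hb => by
    rw [smul_comm, hn m b hb, smul_zero]
  letI : SMul (PS O τ) M := ⟨ac⟩
  have d : ∀ (f : PS O τ) (m : M), f • m = ac f m := fun _ _ => rfl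
  refine ⟨Module.ofMinimalAxioms (fun f m m' => ?_) (fun f g m => ?_) (fun f g m => ?_)
    fun m => ?_, fun t m => ?_, fun o m => ?_, fun m => ⟨n m, fun f hf => ?_⟩⟩
  · have h1 := (hn m).mono (le_max_left (n m) (n m'))
    have h2 := (hn m').mono (le_max_right (n m) (n m'))
    rw [d, d, d, S f m _ _ h1 (hq _ f), S f m' _ _ h2 (hq _ f), S f (m + m') _ _
      (fun a ha => by rw [smul_add, h1 a ha, h2 a ha, add_zero]) (hq _ f), smul_add]
  · rw [d, d, d, S (f + g) m _ (q (n m) f + q (n m) g) (hn m) (by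
      rw [MvPolynomial.coe_add, add_sub_add_comm]
      exact add_mem (hq _ f) (hq _ g)), map_add, add_smul]
  · rw [d, d, d, S (f * g) m _ (q (n m) f * q (n m) g) (hn m) (by
      rw [MvPolynomial.coe_mul]
      convert add_mem (Ideal.mul_mem_right g _ (hq (n m) f))
        (Ideal.mul_mem_left _ (q (n m) f : PS O τ) (hq (n m) g)) using 1
      ring), S f _ _ _ (K _ m) (hq _ f), map_mul, mul_smul]
  · rw [d, S 1 m _ 1 (hn m) (by simp), map_one, one_smul]
  · exact (S _ m _ (MvPolynomial.X t) (hn m) (by simp)).trans (by simp)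
  · exact (S _ m _ (MvPolynomial.C o) (hn m) (by simp)).trans (by simp)
  · exact (S _ m _ 0 (hn m) (by simpa using hf)).trans (by simp)

end act

/-- the same for commuting endomorphisms -/
theorem act_end {R M : Type} [CommRing R] [Algebra O R] [AddCommGroup M] [Module O M] [Module R M]
    [IsScalarTower O R M] (T : τ → Module.End R M)
    (hc : ∀ s t, Commute (T s) (T t)) (h : ∀ t (m : M), ∃ n : ℕ, (T t ^ n) m = 0) :
    ∃ _ : Module (PS O τ) M, (∀ t (m : M), (X t : PS O τ) • m = T t m) ∧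
      (∀ (o : O) (m : M), (C o : PS O τ) • m = o • m) ∧
      ∀ m : M, ∃ n, ∀ f ∈ xx O τ ^ n, f • m = 0 := by
  letI : CommRing (Algebra.adjoin O (Set.range T)) := Algebra.adjoinCommRingOfComm O (by
    rintro _ ⟨s, rfl⟩ _ ⟨t, rfl⟩; exact hc s t)
  exact act_ex (A := Algebra.adjoin O (Set.range T))
    (x := fun t => ⟨T t, Algebra.subset_adjoin ⟨t, rfl⟩⟩) h

omit [Fintype τ] in
theorem xx_map {σ : Type} (φ : PS O σ →+* PS O τ) (h : ∀ t, φ (X t) ∈ xx O τ) {n : ℕ}
    {f : PS O σ} (hf : f ∈ xx O σ ^ n) : φ f ∈ xx O τ ^ n := by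
  have e := Ideal.mem_map_of_mem φ hf
  rw [Ideal.map_pow] at e
  refine Ideal.pow_right_mono ?_ n e
  rw [xx, Ideal.map_span, Ideal.span_le]
  rintro _ ⟨_, ⟨t, rfl⟩, rfl⟩
  exact h t

/-- continuous equivariant maps are linear -/
theorem lin {σ M M' : Type} [Fintype σ] [AddCommGroup M] [AddCommGroup M'] [Module (PS O σ) M]
    [Module (PS O τ) M'] (φ : PS O σ →+* PS O τ) (g : M →+ M')
    (hx : ∀ t m, g ((X t : PS O σ) • m) = φ (X t) • g m)
    (hc : ∀ (o : O) m, g ((C o : PS O σ) • m) = φ (C o) • g m)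
    (h : ∀ m : M, ∃ n, ∀ f ∈ xx O σ ^ n, f • m = 0)
    (h' : ∀ m : M', ∃ n, ∀ f ∈ xx O σ ^ n, φ f • m = 0) (f : PS O σ) (m : M) :
    g (f • m) = φ f • g m := by
  let Q : Subring (PS O σ) :=
    { carrier := {f | ∀ m, g (f • m) = φ f • g m}
      mul_mem' := fun {a b} ha hb m => by rw [mul_smul, ha, hb, map_mul, mul_smul]
      one_mem' := fun m => by simp
      add_mem' := fun {a b} ha hb m => by rw [add_smul, map_add, ha, hb, map_add, add_smul]
      zero_mem' := fun m => by simp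
      neg_mem' := fun {a} ha m => by rw [neg_smul, map_neg, ha, map_neg, neg_smul] }
  obtain ⟨n, hn⟩ := h m
  obtain ⟨n', hn'⟩ := h' (g m)
  obtain ⟨q, hq, e⟩ := apx' Q hc hx (max n n') f
  have e1 := hn _ (Ideal.pow_le_pow_right (le_max_left _ _) e)
  have e2 := hn' _ (Ideal.pow_le_pow_right (le_max_right _ _) e)
  rw [map_sub] at e2
  rw [sub_smul, sub_eq_zero] at e1 e2
  rw [e1, e2, hq]

end ps

section ch

variable {R V M : Type} [CommRing R] [AddCommGroup V] [AddCommGroup M] [Module R V] [Module R M]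
  {P : V →+ CharacterModule M}

omit [CommRing R] [Module R V] [Module R M] in
theorem sep (hP : Function.Surjective P) {m : M} (h : ∀ v, P v m = 0) : m = 0 :=
  CharacterModule.eq_zero_of_character_apply fun c => by
    obtain ⟨v, rfl⟩ := hP c
    exact h v

/-- **duality** -/
theorem dua (hP : Function.Bijective P) (ha : ∀ (a : R) v m, P (a • v) m = P v (a • m))
    {𝔞 : Ideal R} (hf : 𝔞.FG) {v : V} (hv : ∀ m, (∀ a ∈ 𝔞, a • m = 0) → P v m = 0) :
    v ∈ 𝔞 • (⊤ : Submodule R V) := by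
  classical
  obtain ⟨n, a, rfl⟩ := Submodule.fg_iff_exists_fin_generating_family.1 hf
  let g : M →ₗ[R] Fin n → M := LinearMap.pi fun i => a i • LinearMap.id
  have hk : ∀ m ∈ (LinearMap.ker g).toAddSubgroup, P v m = 0 := fun m hm => hv m fun u hu =>
    (Submodule.span_le.2 (by rintro _ ⟨i, rfl⟩; exact congrFun hm i) :
      _ ≤ Ideal.torsionOf R M m) hu
  obtain ⟨c, hc⟩ := CharacterModule.dual_surjective_of_injective
    ((LinearMap.ker g).liftQ g le_rfl)
    (LinearMap.ker_eq_bot.1 (Submodule.ker_liftQ_eq_bot _ _ _ le_rfl))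
    (QuotientAddGroup.lift (LinearMap.ker g).toAddSubgroup (P v) hk)
  choose w hw using fun i => hP.2 (AddMonoidHom.comp c (AddMonoidHom.single (fun _ => M) i))
  have e : v = ∑ i, a i • w i := hP.1 (CharacterModule.ext _ fun m => by
    have e1 : c (g m) = P v m := DFunLike.congr_fun hc (Submodule.Quotient.mk m)
    rw [← e1, map_sum, ← Finset.univ_sum_single (g m), map_sum]
    refine Eq.trans ?_ (AddMonoidHom.finset_sum_apply _ _ m).symm
    refine Finset.sum_congr rfl fun i _ => ?_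
    refine Eq.trans ?_ (ha _ _ _).symm
    rw [hw]
    rfl)
  rw [e]
  exact Submodule.sum_mem _ fun i _ =>
    Submodule.smul_mem_smul (Submodule.subset_span ⟨i, rfl⟩) trivial

omit [CommRing R] [Module R V] [Module R M] in
theorem fin_pair (P : V →+ CharacterModule M) (F : AddSubgroup M) (hF : (F : Set M).Finite) :
    ∃ s : Set V, s.Finite ∧ ∀ v, ∃ w ∈ s, ∀ m ∈ F, P (v - w) m = 0 := by
  have : Finite F := hF
  let g : V → F → AddCircle (1 : ℚ) := fun v m => P v m
  have h1 : (Set.range g).Finite := by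
    refine (Set.Finite.pi' fun _ : F =>
      AddCircle.finite_torsion (1 : ℚ) (Nat.card_pos (α := F))).subset ?_
    rintro _ ⟨v, rfl⟩ m
    have e : Nat.card F • (m : M) = 0 := congrArg Subtype.val (card_nsmul_eq_zero' (x := m))
    show Nat.card F • P v m = 0
    rw [← map_nsmul, e, map_zero]
  have : Finite (Set.range g) := h1
  refine ⟨_, Set.finite_range (Set.rangeSplitting g), fun v =>
    ⟨_, ⟨⟨g v, v, rfl⟩, rfl⟩, fun m hm => ?_⟩⟩
  rw [map_sub]
  exact sub_eq_zero.2 (congrFun (Set.apply_rangeSplitting g ⟨g v, v, rfl⟩) ⟨m, hm⟩).symm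

theorem fg_of (I : Ideal R) [IsPrecomplete I R]
    (h : ∀ v : V, (∀ n : ℕ, v ∈ I ^ n • (⊤ : Submodule R V)) → v = 0) {s : Set V} (hs : s.Finite)
    (e : ∀ v, ∃ w ∈ s, v - w ∈ I • (⊤ : Submodule R V)) : Module.Finite R V := by
  classical
  have := hs.fintype
  have : IsHausdorff I V := ⟨fun v hv => h v fun n => by simpa [SModEq.sub_mem] using hv n⟩
  have : IsPrecomplete I (s → R) := P022D.As.CovAux.prec_free I
  refine .of_surjective (Fintype.linearCombination R (Subtype.val : s → V))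
    (surjective_of_mkQ_comp_surjective (I := I) fun q => ?_)
  obtain ⟨v, rfl⟩ := Submodule.Quotient.mk_surjective _ q
  obtain ⟨w, hw, h1⟩ := e v
  refine ⟨Pi.single ⟨w, hw⟩ 1, ?_⟩
  rw [LinearMap.comp_apply, Fintype.linearCombination_apply_single, one_smul]
  exact ((Submodule.Quotient.eq _).2 h1).symm

/-- the lemma of Nakayama at a prime -/
theorem nak {L : Submodule R V} (hL : L.FG) {𝔭 : Ideal R} (hp : 𝔭.IsPrime)
    (ha : L.annihilator ≤ 𝔭) {h : R} (e : ∀ v ∈ L, h • v ∈ 𝔭 • L) : h ∈ 𝔭 := by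
  have : Module.Finite R L := Module.Finite.iff_fg.2 hL
  have h1 : (⟨𝔭, hp⟩ : PrimeSpectrum R) ∈
      Module.support R (L ⧸ (𝔭 • ⊤ : Submodule R L)) := by
    rw [Module.support_quotient, Module.support_eq_zeroLocus]
    exact ⟨ha, fun _ h => h⟩
  rw [Module.support_eq_zeroLocus] at h1
  refine h1 (Module.mem_annihilator.2 fun q => ?_)
  obtain ⟨v, rfl⟩ := Submodule.Quotient.mk_surjective _ q
  rw [← Submodule.Quotient.mk_smul, Submodule.Quotient.mk_eq_zero, Submodule.mem_smul_top_iff]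
  exact e v v.2

/-- the theorem of Krull at a prime -/
theorem kru [IsNoetherianRing R] [Module.Finite R V] {L : Submodule R V} {𝔭 : Ideal R}
    (hp : 𝔭.IsPrime) (ha : L.annihilator ≤ 𝔭) {h : R}
    (e : ∀ k : ℕ, ∀ v ∈ L, h ^ k • v ∈ 𝔭 ^ k • (⊤ : Submodule R V)) : h ∈ 𝔭 := by
  obtain ⟨k, hk⟩ := 𝔭.exists_pow_inf_eq_pow_smul L
  refine hp.mem_of_pow_mem (k + 1) (nak (IsNoetherian.noetherian L) hp ha fun v hv => ?_)
  have h1 : h ^ (k + 1) • v ∈ 𝔭 ^ (k + 1) • (⊤ : Submodule R V) ⊓ L :=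
    ⟨e _ v hv, L.smul_mem _ hv⟩
  rw [hk (k + 1) (Nat.le_succ k), Nat.add_sub_cancel_left, pow_one] at h1
  exact Submodule.smul_mono le_rfl inf_le_right h1

/-- the maximal ideal acts nilpotently on finite modules -/
theorem nil [IsLocalRing R] {L : Submodule R M} (hL : (L : Set M).Finite) {x : R}
    (hx : x ∈ maximalIdeal R) {m : M} (hm : m ∈ L) : ∃ n : ℕ, x ^ n • m = 0 := by
  obtain ⟨a, b, hab, e⟩ := Set.Finite.exists_lt_map_eq_of_forall_mem
    (f := fun n : ℕ => x ^ n • m) (fun n => L.smul_mem _ hm) hL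
  obtain ⟨c, rfl⟩ := Nat.exists_eq_add_of_lt hab
  have hu : IsUnit (1 - x ^ (c + 1)) := isUnit_one_sub_self_of_mem_nonunits _
    (Ideal.pow_mem_of_mem _ hx _ (Nat.succ_pos c))
  refine ⟨a, hu.smul_eq_zero.1 ?_⟩
  rw [sub_smul, one_smul, smul_smul, ← pow_add, e, sub_eq_zero]
  congr 2
  omega

end ch

section fil

variable {O κ : Type} [CommRing O] [IsLocalRing O] [Fintype κ] {r : ℕ} {V : Type} [AddCommGroup V]
  [Module (PS O (κ ⊕ Fin r)) V] {B : κ → V →+ V}

omit [Fintype κ] in
theorem Fl_up {a : PS O (κ ⊕ Fin r)} (ha : constantCoeff a ∈ maximalIdeal O) {j : ℕ} {v : V}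
    (hv : v ∈ Fl O κ r V j) : a • v ∈ Fl O κ r V (j + 1) := by
  rw [Fl, pow_succ', Submodule.mul_smul]
  exact Submodule.smul_mem_smul ((P022D.CA.Cpl.mem_max_iff a).2 ha) hv

/-- continuous operators which commute with the Iwasawa algebra respect the filtration -/
theorem shift (hB : Op O κ r B) (T : V →+ V)
    (hc : ∀ (o : O) v, T ((C o : PS O (κ ⊕ Fin r)) • v) = (C o : PS O (κ ⊕ Fin r)) • T v)
    (hy : ∀ (s : Fin r) v, T (y1 O κ s • v) = y1 O κ s • T v) (hb : ∀ i v, T (B i v) = B i (T v))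
    (ct : ∀ j, ∃ j', ∀ v ∈ Fl O κ r V j', T v ∈ Fl O κ r V j) {a : ℕ}
    (h0 : ∀ v, T v ∈ Fl O κ r V a) (j : ℕ) : ∀ v ∈ Fl O κ r V j, T v ∈ Fl O κ r V (j + a) := by
  induction j with
  | zero => exact fun v _ => by simpa using h0 v
  | succ j ih =>
    let W : AddSubgroup V := (Fl O κ r V (j + a + 1)).toAddSubgroup.comap T
    have h1 : ∀ n, j ≤ n → ∀ v ∈ Fl O κ r V (n + 1),
        v ∈ W ⊔ (Fl O κ r V (n + 2)).toAddSubgroup := fun n hn v hv => by
      rw [Fl, pow_succ', Submodule.mul_smul] at hv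
      refine Submodule.smul_induction_on hv (fun c hc' w hw => ?_) fun x y => add_mem
      obtain ⟨g, hg⟩ := dec c
      rw [hg, add_smul, Finset.sum_smul]
      refine add_mem (AddSubgroup.mem_sup_left ?_) (sum_mem fun t _ => ?_)
      · show T _ ∈ Fl O κ r V _
        rw [hc]
        exact Fl_up (by simpa using (P022D.CA.Cpl.mem_max_iff c).1 hc') (ih w (PL.Fl_anti hn hw))
      · have hw' : g t • w ∈ Fl O κ r V n := Submodule.smul_mem _ _ hw
        have h2 := ih _ (PL.Fl_anti hn hw')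
        rw [mul_smul]
        rcases t with i | s
        · rw [← sub_sub_cancel (B i (g (Sum.inl i) • w)) (X (Sum.inl i) • _)]
          refine sub_mem (AddSubgroup.mem_sup_left ?_) (AddSubgroup.mem_sup_right (hB.ap i n _ hw'))
          show T _ ∈ Fl O κ r V _
          have h3 := add_mem (PL.Fl_anti (Nat.le_succ _) (hB.ap i _ _ h2))
            (Fl_up (a := X (Sum.inl i)) (by simp) h2)
          rwa [sub_add_cancel, ← hb] at h3
        · refine AddSubgroup.mem_sup_left ?_
          show T (y1 O κ s • _) ∈ Fl O κ r V _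
          rw [hy]
          exact Fl_up (by simp [y1]) h2
    have h2 : ∀ n, ∀ v ∈ Fl O κ r V (j + 1),
        v ∈ W ⊔ (Fl O κ r V (j + n + 1)).toAddSubgroup := fun n v hv => by
      induction n with
      | zero => exact AddSubgroup.mem_sup_right hv
      | succ n ih2 =>
        obtain ⟨x, hx, y, hy', rfl⟩ := AddSubgroup.mem_sup.1 ih2
        exact add_mem (AddSubgroup.mem_sup_left hx) (h1 (j + n) (Nat.le_add_right _ _) y hy')
    intro v hv
    obtain ⟨j', hj⟩ := ct (j + a + 1)
    obtain ⟨x, hx, y, hy', rfl⟩ := AddSubgroup.mem_sup.1 (h2 j' v hv)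
    rw [map_add, Nat.add_right_comm]
    exact add_mem hx (hj y (PL.Fl_anti (by omega) hy'))

end fil

end Vale.Agent.P022K.RT.Pd
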