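import Vale.Agent.P022K.RT.PatdA
import Vale.Agent.P022K.RT.Homf

/-!
# P022K, block RT, rows PATD, PATE: the module of characters over the big ring
-/

set_option linter.all false

noncomputable section

namespace Vale.Agent.P022K.RT.Pd

open IsLocalRing MvPowerSeries
open Vale.Agent.P022D.Core (PS io y1)
open Vale.Agent.P022K.PL (Cf Fl Op Act)

variable {O σ σ' β K M V : Type} [CommRing O] [IsDomain O] [IsDiscreteValuationRing O]
  [Group K] [AddCommGroup M] [Module O M] [Module (PS O σ) M] [IsScalarTower O (PS O σ) M]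
  {p e r b : ℕ} [AddCommGroup V] [Module (PS O (Fin e ⊕ Fin r)) V]

section defs

variable (ε : σ ⊕ β ≃ σ') (k : Fin e ⊕ Fin r → K) (N : ℕ → Subgroup K)
  (ρ : K →* Module.End (PS O σ) M) (γ : β → K) (qa qb : Fin r → PS O σ)

/-- the old variables -/
def em : σ ↪ σ' := Function.Embedding.inl.trans ε.toEmbedding

variable (O) in
/-- the inclusion of the small ring -/
def ph : PS O σ →+* PS O σ' := (rename (R := O) (em ε) : PS O σ →ₐ[O] PS O σ')

variable (O r) in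
/-- the inclusion of the small ring into the big ring -/
def ip : PS O σ →+* PS O (σ' ⊕ Fin r) := (io O σ' r).comp (ph O ε)

theorem ip_C (o : O) : ip O r ε (C o) = C o :=
  (congrArg (io O σ' r) (rename_C _ o)).trans (rename_C _ o)

theorem ip_X (s : σ) : ip O r ε (X s) = X (Sum.inl (ε (Sum.inl s))) :=
  (congrArg (io O σ' r) (rename_X _ s)).trans (rename_X _ _)

theorem cc_ph (u : PS O σ) : constantCoeff (ph O ε u) = constantCoeff u :=
  constantCoeff_rename (em ε) u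

theorem cc_ip (u : PS O σ) : constantCoeff (ip O r ε u) = constantCoeff u :=
  (constantCoeff_rename (Function.Embedding.inl : σ' ↪ σ' ⊕ Fin r) _).trans (cc_ph ε u)

theorem cases3 {Q : σ' ⊕ Fin r → Prop} (h1 : ∀ s, Q (Sum.inl (ε (Sum.inl s))))
    (h2 : ∀ i, Q (Sum.inl (ε (Sum.inr i)))) (h3 : ∀ s, Q (Sum.inr s)) (t : σ' ⊕ Fin r) : Q t := by
  rcases t with t | s
  · obtain ⟨a | i, rfl⟩ := ε.surjective t
    exacts [h1 a, h2 i]
  · exact h3 s

/-- the compact side -/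
structure Cp (L : K → V →+ V) (P : V →+ CharacterModule M) : Prop where
  bij : Function.Bijective P
  c : ∀ (o : O) v m, P ((C o : PS O (Fin e ⊕ Fin r)) • v) m = P v (o • m)
  act : ∀ g v m, P (L g v) m = P v (ρ g⁻¹ m)
  fl : ∀ j, ∃ j', ∀ v ∈ Fl O (Fin e) r V j', ∀ m ∈ Lv O N ρ j, P v m = 0
  lf : ∀ j', ∃ j, ∀ v, (∀ m ∈ Lv O N ρ j, P v m = 0) → v ∈ Fl O (Fin e) r V j'
  op : Op O (Fin e) r fun i => L (k (Sum.inl i)) - AddMonoidHom.id V
  cen : ∀ s v, L (k (Sum.inr s)) v - v = y1 O (Fin e) s • v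
  up : ∀ g j v, v ∈ Fl O (Fin e) r V j → L g v - v ∈ Fl O (Fin e) r V (j + 1)

/-- the discrete side over the big ring -/
structure Ds [Module (PS O (σ' ⊕ Fin r)) M] : Prop where
  sc : ∀ u (m : M), ip O r ε u • m = u • m
  g : ∀ i (m : M), (X (Sum.inl (ε (Sum.inr i))) : PS O (σ' ⊕ Fin r)) • m = ρ (γ i) m - m
  y : ∀ s (m : M), y1 O σ' s • m = ρ (k (Sum.inr s))⁻¹ m - m
  ct : ∀ m : M, ∃ n, ∀ f ∈ xx O (σ' ⊕ Fin r) ^ n, f • m = 0

/-- **the package** -/
structure Pk [Module (PS O (σ' ⊕ Fin r)) M] [Module (PS O (σ' ⊕ Fin r)) V] (B : Fin e → V →+ V)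
    (P : V →+ CharacterModule M) (a b : Fin r → PS O σ') : Prop where
  bij : Function.Bijective P
  pr : ∀ (f : PS O (σ' ⊕ Fin r)) v m, P (f • v) m = P v (f • m)
  sc : ∀ u (m : M), ip O r ε u • m = u • m
  y : ∀ s (m : M), y1 O σ' s • m = 0 → ρ (k (Sum.inr s)) m = m
  op : Op O (Fin e) r B
  act : Act O (Fin e) r V C (y1 O σ')
  fg : Module.Finite (PS O (σ' ⊕ Fin r)) V
  nu : ∀ s, ¬ IsUnit (a s) ∧ ¬ IsUnit (b s)
  rel : ∀ s (v : V), (y1 O σ' s ^ 2 - io O σ' r (a s) * y1 O σ' s + io O σ' r (b s)) • v = 0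
  ab : ∀ s (𝔞 : Ideal (PS O σ')), ph O ε (qa s) ∈ 𝔞 → ph O ε (qb s) ∈ 𝔞 → a s ∈ 𝔞 ∧ b s ∈ 𝔞
  tr : ∀ θ : Module.End (PS O σ) M, (∀ g, Commute θ (ρ g)) →
    ∃ t : V →ₗ[PS O (σ' ⊕ Fin r)] V, (∀ v m, P (t v) m = P v (θ m)) ∧ ∀ i v, t (B i v) = B i (t v)

end defs

variable {ε : σ ⊕ β ≃ σ'} {k : Fin e ⊕ Fin r → K} {N : ℕ → Subgroup K}
  {ρ : K →* Module.End (PS O σ) M} {γ : β → K} {qa qb : Fin r → PS O σ} {L : K → V →+ V}
  {P : V →+ CharacterModule M}

theorem mem_pi {j : ℕ} {v : Fin b → PS O (Fin e ⊕ Fin r)} :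
    v ∈ Fl O (Fin e) r (Fin b → PS O (Fin e ⊕ Fin r)) j ↔
      ∀ i, v i ∈ Fl O (Fin e) r (PS O (Fin e ⊕ Fin r)) j := by
  refine ⟨fun h i => Submodule.smul_induction_on h
    (fun a ha w _ => Submodule.smul_mem_smul ha trivial) fun x y hx hy => add_mem hx hy,
    fun h => ?_⟩
  rw [← Finset.univ_sum_single v]
  refine Submodule.sum_mem _ fun i _ => ?_
  have e1 : (Pi.single i (v i) : Fin b → PS O (Fin e ⊕ Fin r)) = v i • Pi.single i 1 := by
    rw [← Pi.single_smul, smul_eq_mul, mul_one]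
  have h1 := h i
  rw [Fl, smul_eq_mul, Ideal.mul_top] at h1
  rw [e1]
  exact Submodule.smul_mem_smul h1 trivial

theorem cp_of {lam : K →* Module.End O (PS O (Fin e ⊕ Fin r))}
    {B : (Fin b → PS O (Fin e ⊕ Fin r)) →+ CharacterModule M} (hR : Reg k N lam)
    (hD : Du N ρ lam B) : Cp k N ρ (fun g => ((lam g).compLeft (Fin b)).toAddMonoidHom) B where
  bij := hD.bij
  c := hD.c
  act g v m := by
    rw [← hD.act g v, ← Module.End.mul_apply, ← map_mul, mul_inv_cancel, map_one]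
    rfl
  fl := hD.fl
  lf := hD.lf
  op := ⟨fun i s v => funext fun a => hR.op.y i s (v a), fun i j v hv =>
    mem_pi.2 fun a => hR.op.ap i j (v a) (mem_pi.1 hv a)⟩
  cen s v := funext fun a => by
    show lam _ (v a) - v a = _ * v a
    rw [hR.cen]
    ring
  up g j v hv := mem_pi.2 fun a => hR.up g j (v a) (mem_pi.1 hv a)

theorem Cp.ext (h : Cp k N ρ L P) {v w : V} (e : ∀ m, P v m = P w m) : v = w :=
  h.bij.1 (CharacterModule.ext _ e)

theorem Cp.nil (h : Cp k N ρ L P) (sm : ∀ m, ∃ j, m ∈ Lv O N ρ j) (g : K) (m : M) :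
    ∃ n : ℕ, ((ρ g - 1) ^ n) m = 0 := by
  have h1 : ∀ (n : ℕ) v, ∃ w ∈ Fl O (Fin e) r V n, ∀ m, P w m = P v (((ρ g - 1) ^ n) m) := by
    intro n v
    induction n with
    | zero => exact ⟨v, PL.Fl_zero v, fun m => rfl⟩
    | succ n ih =>
      obtain ⟨w, hw, e1⟩ := ih
      refine ⟨_, h.up g⁻¹ n w hw, fun m => ?_⟩
      rw [pow_succ, Module.End.mul_apply, ← e1, map_sub, LinearMap.sub_apply, map_sub, ← inv_inv g,
        ← h.act, inv_inv]
      rfl
  obtain ⟨j, hj⟩ := sm m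
  obtain ⟨n, hn⟩ := h.fl j
  refine ⟨n, sep h.bij.2 fun v => ?_⟩
  obtain ⟨w, hw, e1⟩ := h1 n v
  rw [← e1, hn w hw m hj]

theorem lv_fin [hO : Cf O] [hp : Fact p.Prime] (hU : Unf p k N) (h : Cof O N ρ b) (j : ℕ) :
    (Lv O N ρ j : Set M).Finite := by
  have : Finite (K ⧸ N j) := Nat.finite_of_card_ne_zero (Hf.idx hp.out.ne_zero hU j)
  have := Fintype.ofFinite (K ⧸ N j)
  have : Finite (O ⧸ maximalIdeal O) := hO.fin
  have := Ideal.finite_quotient_pow (IsNoetherian.noetherian (maximalIdeal O)) j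
  obtain ⟨x, h1, h2, -⟩ := h.fre j
  refine (Set.finite_range fun c : (K ⧸ N j) × Fin b → O ⧸ maximalIdeal O ^ j =>
    ∑ q, (c q).out • ρ q.1.out (x q.2)).subset fun v hv => ?_
  obtain ⟨c, hc⟩ := Up.span_fin h1 (h2 v hv)
  exact ⟨c, hc.symm⟩

variable [Fintype σ] [Fintype σ']

theorem disc (ε : σ ⊕ β ≃ σ') (hU : Unf p k N) (hD : Dm O k N ρ b γ qa qb) (h : Cp k N ρ L P)
    (hf : ∀ j, (Lv O N ρ j : Set M).Finite) :
    ∃ _ : Module (PS O (σ' ⊕ Fin r)) M, Ds ε k ρ γ := by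
  let T : σ' ⊕ Fin r → Module.End (PS O σ) M := Sum.elim (fun t => Sum.elim
    (fun s => algebraMap (PS O σ) _ (X s)) (fun i => ρ (γ i) - 1) (ε.symm t))
    fun s => ρ (k (Sum.inr s))⁻¹ - 1
  have T1 : ∀ s, T (Sum.inl (ε (Sum.inl s))) = algebraMap (PS O σ) _ (X s) := fun s => by simp [T]
  have T2 : ∀ i, T (Sum.inl (ε (Sum.inr i))) = ρ (γ i) - 1 := fun s => by simp [T]
  have T3 : ∀ s, T (Sum.inr s) = ρ (k (Sum.inr s))⁻¹ - 1 := fun s => rfl
  have hz : ∀ s g, Commute (ρ (k (Sum.inr s))⁻¹) (ρ g) := fun s g =>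
    Commute.map (Subgroup.mem_center_iff.1 (inv_mem (hU.cen s)) g).symm ρ
  have c1 : ∀ {x y : Module.End (PS O σ) M}, Commute x y → Commute (x - 1) (y - 1) :=
    fun h => (h.sub_left (.one_left _)).sub_right (.one_right _)
  have n1 : ∀ s (m : M), ∃ n : ℕ, (X s : PS O σ) ^ n • m = 0 := fun s m => by
    obtain ⟨j, hj⟩ := hD.cof.sm m
    exact nil (hf j) ((P022D.CA.Cpl.mem_max_iff _).2 (by simp)) hj
  obtain ⟨i, h1, h2, h3⟩ := act_end (O := O) T
    (cases3 ε (fun s t => T1 s ▸ Algebra.commutes _ _)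
      (fun i => cases3 ε (fun s => T1 s ▸ (Algebra.commutes _ _).symm)
        (fun j => T2 i ▸ T2 j ▸ c1 (hD.com i j)) fun s => T2 i ▸ c1 (hz s _).symm)
      fun s => cases3 ε (fun s => T1 s ▸ (Algebra.commutes _ _).symm)
        (fun j => T2 j ▸ c1 (hz s _)) fun s' => c1 (hz s _))
    (cases3 ε (fun s m => by simp only [T1, ← map_pow]; exact n1 s m)
      (fun i => T2 i ▸ h.nil hD.cof.sm _) fun s => h.nil hD.cof.sm _)
  refine ⟨i, fun u m => (lin (ip O r ε) (AddMonoidHom.id M) (fun s m => ?_) (fun o m => ?_)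
    (fun m => kn_ex fun s => n1 s m) (fun m => ?_) u m).symm, fun i m => by rw [h1, T2]; rfl,
    fun s m => h1 _ m, h3⟩
  · rw [ip_X, h1, T1]
    rfl
  · rw [ip_C, h2]
    exact algebraMap_smul (PS O σ) o m
  · obtain ⟨n, hn⟩ := h3 m
    exact ⟨n, fun f hf => hn _ (xx_map _ (fun s => ip_X (O := O) ε s ▸ X_mem _) hf)⟩

section big

variable [Module (PS O (σ' ⊕ Fin r)) M] [Module (PS O (σ' ⊕ Fin r)) V] (h : Cp k N ρ L P)
  (hd : Ds ε k ρ γ) (hp : ∀ (f : PS O (σ' ⊕ Fin r)) v m, P (f • v) m = P v (f • m))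

include hd

omit [Fintype σ] [Fintype σ'] in
theorem Ds.c (o : O) (m : M) : (C o : PS O (σ' ⊕ Fin r)) • m = o • m := by
  rw [← ip_C ε, hd.sc]
  exact algebraMap_smul (PS O σ) o m

omit [Fintype σ] in
theorem Ds.lin {θ : Module.End (PS O σ) M} (hθ : ∀ g, Commute θ (ρ g)) (f : PS O (σ' ⊕ Fin r))
    (m : M) : θ (f • m) = f • θ m :=
  Pd.lin (RingHom.id _) θ.toAddMonoidHom
    (cases3 ε (fun s m => by
        show θ _ = X _ • θ m
        rw [← ip_X, hd.sc, hd.sc, map_smul])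
      (fun i m => by
        show θ _ = X _ • θ m
        rw [hd.g, hd.g, map_sub]
        exact congrArg (· - θ m) (LinearMap.congr_fun (hθ _) m))
      fun s m => by
        show θ (y1 O σ' s • m) = y1 O σ' s • θ m
        rw [hd.y, hd.y, map_sub]
        exact congrArg (· - θ m) (LinearMap.congr_fun (hθ _) m))
    (fun o m => by
      show θ _ = C o • θ m
      rw [hd.c, hd.c, LinearMap.map_smul_of_tower]) hd.ct hd.ct f m

include h hp

omit [Fintype σ] [Fintype σ'] in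
theorem Cp.c' (o : O) (v : V) :
    (C o : PS O (σ' ⊕ Fin r)) • v = (C o : PS O (Fin e ⊕ Fin r)) • v :=
  h.ext fun m => by rw [hp, hd.c, h.c]

omit [Fintype σ] [Fintype σ'] in
theorem Cp.y' (s : Fin r) (v : V) : y1 O σ' s • v = y1 O (Fin e) s • v :=
  h.ext fun m => by
    rw [hp, hd.y, ← h.cen, map_sub, map_sub, ← h.act]
    rfl

omit [Fintype σ] [Fintype σ'] in
theorem Cp.g' (i : β) (v : V) :
    (X (Sum.inl (ε (Sum.inr i))) : PS O (σ' ⊕ Fin r)) • v = L (γ i)⁻¹ v - v :=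
  h.ext fun m => by
    rw [hp, hd.g, map_sub, map_sub, ← inv_inv (γ i), ← h.act, inv_inv]
    rfl

omit [Fintype σ] in
theorem Cp.tr {θ : Module.End (PS O σ) M} (hθ : ∀ g, Commute θ (ρ g)) :
    ∃ t : V →ₗ[PS O (σ' ⊕ Fin r)] V, (∀ v m, P (t v) m = P v (θ m)) ∧
      ∀ g v, t (L g v) = L g (t v) := by
  choose t ht using fun v => h.bij.2 (AddMonoidHom.comp (P v) θ.toAddMonoidHom)
  have e1 : ∀ v m, P (t v) m = P v (θ m) := fun v m => by rw [ht]; rfl
  refine ⟨⟨⟨t, fun v w => h.ext fun m => ?_⟩, fun f v => h.ext fun m => ?_⟩, e1,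
    fun g v => h.ext fun m => ?_⟩
  · rw [e1, map_add, map_add]
    exact congrArg₂ (· + ·) (e1 v m).symm (e1 w m).symm
  · show P (t _) m = P (f • t v) m
    rw [e1, hp, hp, e1, hd.lin hθ]
  · show P (t _) m = P (L g (t v)) m
    rw [e1, h.act, h.act, e1]
    exact congrArg (P v) (LinearMap.congr_fun (hθ _) m).symm

omit [Fintype σ] [Fintype σ'] in
theorem Cp.sh (u : PS O σ) {a : ℕ} (h0 : ∀ v : V, ip O r ε u • v ∈ Fl O (Fin e) r V a) (j : ℕ) :
    ∀ v ∈ Fl O (Fin e) r V j, ip O r ε u • v ∈ Fl O (Fin e) r V (j + a) := by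
  refine shift h.op (DistribSMul.toAddMonoidHom V (ip O r ε u)) (fun o v => ?_) (fun s v => ?_)
    (fun i v => ?_) (fun j => ?_) h0 j
  · rw [← h.c' hd hp, ← h.c' hd hp]
    exact smul_comm _ _ _
  · rw [← h.y' hd hp, ← h.y' hd hp]
    exact smul_comm _ _ _
  · show ip O r ε u • (L _ v - v) = L _ (ip O r ε u • v) - ip O r ε u • v
    rw [smul_sub]
    refine congrArg (· - _) (h.ext fun m => ?_)
    rw [hp, h.act, h.act, hp, hd.sc, hd.sc, map_smul]
  · obtain ⟨j1, h1⟩ := h.lf j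
    obtain ⟨j2, h2⟩ := h.fl j1
    refine ⟨j2, fun v hv => h1 _ fun m hm => ?_⟩
    show P (ip O r ε u • v) m = 0
    rw [hp, hd.sc]
    exact h2 v hv _ (Submodule.smul_mem _ u hm)

omit [Fintype σ] [Fintype σ'] in
theorem Cp.un (hf : ∀ j, (Lv O N ρ j : Set M).Finite) (j : ℕ) :
    ∃ n, ∀ f ∈ xx O (σ' ⊕ Fin r) ^ n, ∀ v : V, f • v ∈ Fl O (Fin e) r V j := by
  obtain ⟨j1, h1⟩ := h.lf j
  choose n hn using hd.ct
  obtain ⟨c, hc⟩ := ((hf j1).image n).bddAbove
  refine ⟨c, fun f hf v => h1 _ fun m hm => ?_⟩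
  rw [hp, hn m f (Ideal.pow_le_pow_right (hc ⟨m, hm, rfl⟩) hf), map_zero]

omit [Fintype σ] in
theorem Cp.act' (hf : ∀ j, (Lv O N ρ j : Set M).Finite) : Act O (Fin e) r V C (y1 O σ') := by
  have a1 : ∀ (o : O) j v, v ∈ Fl O (Fin e) r V j →
      (C o : PS O (σ' ⊕ Fin r)) • v ∈ Fl O (Fin e) r V j := fun o j v hv => by
    rw [h.c' hd hp]
    exact Submodule.smul_mem _ _ hv
  have a2 : ∀ i j v, v ∈ Fl O (Fin e) r V j → (X (Sum.inl (ε (Sum.inr i))) :
      PS O (σ' ⊕ Fin r)) • v ∈ Fl O (Fin e) r V (j + 1) := fun i j v hv => by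
    rw [h.g' hd hp]
    exact h.up _ j v hv
  have a3 : ∀ s j v, v ∈ Fl O (Fin e) r V j → (X (Sum.inr s) : PS O (σ' ⊕ Fin r)) • v ∈
      Fl O (Fin e) r V (j + 1) := fun s j v hv =>
    (h.y' hd hp s v).symm ▸ Fl_up (by simp [y1]) hv
  let Q : Subring (PS O (σ' ⊕ Fin r)) :=
    { carrier := {f | ∀ j v, v ∈ Fl O (Fin e) r V j → f • v ∈ Fl O (Fin e) r V j}
      mul_mem' := fun ha hb j v hv => by rw [mul_smul]; exact ha j _ (hb j v hv)
      one_mem' := fun j v hv => by rwa [one_smul]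
      add_mem' := fun ha hb j v hv => by rw [add_smul]; exact add_mem (ha j v hv) (hb j v hv)
      zero_mem' := fun j v hv => by rw [zero_smul]; exact zero_mem _
      neg_mem' := fun ha j v hv => by rw [neg_smul]; exact neg_mem (ha j v hv) }
  have fil : ∀ (f : PS O (σ' ⊕ Fin r)) j v, v ∈ Fl O (Fin e) r V j →
      f • v ∈ Fl O (Fin e) r V j := fun f j v hv => by
    obtain ⟨n, hn⟩ := h.un hd hp hf j
    obtain ⟨q, hq, e1⟩ := apx' Q a1 (cases3 ε
      (fun s j v hv => ip_X (O := O) ε s ▸ h.sh hd hp (X s) (fun _ => PL.Fl_zero _) j v hv)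
      (fun i j v hv => PL.Fl_anti (Nat.le_succ j) (a2 i j v hv))
      fun s j v hv => PL.Fl_anti (Nat.le_succ j) (a3 s j v hv)) n f
    rw [← sub_add_cancel f q, add_smul]
    exact add_mem (hn _ e1 v) (hq j v hv)
  let I : Ideal (PS O (σ' ⊕ Fin r)) :=
    { carrier := {f | ∀ j v, v ∈ Fl O (Fin e) r V j → f • v ∈ Fl O (Fin e) r V (j + 1)}
      add_mem' := fun ha hb j v hv => by rw [add_smul]; exact add_mem (ha j v hv) (hb j v hv)
      zero_mem' := fun j v hv => by rw [zero_smul]; exact zero_mem _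
      smul_mem' := fun c f hf j v hv => by
        rw [smul_eq_mul, mul_smul]; exact fil c _ _ (hf j v hv) }
  obtain ⟨a, ha⟩ := Ideal.exists_pow_le_of_le_radical_of_fg (I := maximalIdeal _) (J := I)
    (fun f hf' => by
      obtain ⟨g, hg⟩ := dec f
      rw [hg]
      refine add_mem (Ideal.le_radical fun j v hv => ?_) (Ideal.sum_mem _ fun t _ =>
        Ideal.mul_mem_right _ _ (cases3 ε (Q := fun t => X t ∈ I.radical) (fun s => ?_)
          (fun i => Ideal.le_radical (a2 i)) (fun s => Ideal.le_radical (a3 s)) t))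
      · rw [h.c' hd hp]
        exact Fl_up (by simpa using (P022D.CA.Cpl.mem_max_iff f).1 hf') hv
      · obtain ⟨n, hn⟩ := h.un hd hp hf 1
        refine ⟨n, ?_⟩
        have e1 : ip O r ε (X s ^ n) = X (Sum.inl (ε (Sum.inl s))) ^ n := by rw [map_pow, ip_X]
        exact e1 ▸ h.sh hd hp (X s ^ n) (hn _ (e1 ▸ Ideal.pow_mem_pow (X_mem _) n)))
    (IsNoetherian.noetherian _)
  exact ⟨h.c' hd hp, h.y' hd hp, fil, a, fun f hf => ha hf⟩

omit [Fintype σ] [Fintype σ'] [Module (PS O (σ' ⊕ Fin r)) V] h hp in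
theorem Ds.y' (s : Fin r) (m : M) (e1 : y1 O σ' s • m = 0) : ρ (k (Sum.inr s)) m = m := by
  rw [hd.y, sub_eq_zero] at e1
  rw [← e1, ← Module.End.mul_apply, ← map_mul, mul_inv_cancel, map_one, e1]
  rfl

omit [Fintype σ] in
theorem Cp.fg [Cf O] [Module.Finite (PS O (Fin e ⊕ Fin r)) V] (hD : Dm O k N ρ b γ qa qb)
    (hA : Act O (Fin e) r V C (y1 O σ')) : Module.Finite (PS O (σ' ⊕ Fin r)) V := by
  have := (PL.base_ps O (σ' ⊕ Fin r)).cpl
  let F := Submodule.torsionBySet (PS O (σ' ⊕ Fin r)) M (maximalIdeal (PS O (σ' ⊕ Fin r)))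
  have hF : ∀ m, m ∈ F ↔ ∀ a ∈ maximalIdeal (PS O (σ' ⊕ Fin r)), a • m = 0 := fun m =>
    (Submodule.mem_torsionBySet_iff _ _).trans Subtype.forall
  have hX : ∀ t, X t ∈ maximalIdeal (PS O (σ' ⊕ Fin r)) := fun t =>
    (P022D.CA.Cpl.mem_max_iff _).2 (by simp)
  obtain ⟨s, hs, h1⟩ := fin_pair P F.toAddSubgroup (hD.gk.subset fun m hm => by
    have h2 := (hF m).1 hm
    refine ⟨fun u hu => ?_, fun s => hd.y' s m (h2 _ (hX _)), fun i => ?_⟩
    · rw [← hd.sc]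
      refine h2 _ ((P022D.CA.Cpl.mem_max_iff _).2 ?_)
      rw [cc_ip]
      exact (P022D.CA.Cpl.mem_max_iff _).1 hu
    · rw [← sub_eq_zero, ← hd.g]
      exact h2 _ (hX _))
  refine fg_of (maximalIdeal _) (fun v hv => PL.Fl_sep (O := O) (κ := Fin e) (r := r) fun j => ?_)
    hs fun v => ?_
  · obtain ⟨a, ha⟩ := hA.cont
    have h2 : ∀ j : ℕ, ∀ v ∈ maximalIdeal (PS O (σ' ⊕ Fin r)) ^ (a * j) •
        (⊤ : Submodule (PS O (σ' ⊕ Fin r)) V), v ∈ Fl O (Fin e) r V j := fun j => by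
      induction j with
      | zero => exact fun v _ => PL.Fl_zero v
      | succ j ih =>
        intro v hv
        rw [Nat.mul_succ, Nat.add_comm, pow_add, Submodule.mul_smul] at hv
        exact Submodule.smul_induction_on hv (fun c hc w hw => ha c hc j w (ih w hw))
          fun x y => add_mem
    exact h2 j v (hv _)
  · obtain ⟨w, hw, h2⟩ := h1 v
    exact ⟨w, hw, dua h.bij hp (IsNoetherian.noetherian _) fun m hm => h2 m ((hF m).2 hm)⟩

end big

theorem quad_inv {R M : Type} [CommRing R] [AddCommGroup M] [Module R M] {w a b : R} {m y z : M}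
    (hw : w * (1 + a + b) = 1) (e : m - y - (y - z) - a • (y - z) + b • z = 0) :
    z - y - (y - m) - (-(w * (a + 2 * b))) • (y - m) + (w * b) • m = 0 := by
  linear_combination (norm := module) w • e - hw • (z - (2 : R) • y + m)

/-- **the package exists** -/
theorem pk [Cf O] [Fact p.Prime] [Module.Finite (PS O (Fin e ⊕ Fin r)) V] (ε : σ ⊕ β ≃ σ')
    (hU : Unf p k N) (hD : Dm O k N ρ b γ qa qb) (h : Cp k N ρ L P) :
    ∃ (_ : Module (PS O (σ' ⊕ Fin r)) M) (_ : Module (PS O (σ' ⊕ Fin r)) V) (B : Fin e → V →+ V)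
      (a b : Fin r → PS O σ'), Pk ε k ρ qa qb B P a b := by
  have hf := lv_fin hU hD.cof
  obtain ⟨i, hd⟩ := disc ε hU hD h hf
  letI i' : Module (PS O (σ' ⊕ Fin r)) V := (AddEquiv.ofBijective P h.bij).module _
  have hp : ∀ (f : PS O (σ' ⊕ Fin r)) v m, P (f • v) m = P v (f • m) := fun f v m =>
    congrArg (fun c : CharacterModule M => c m)
      ((AddEquiv.ofBijective P h.bij).apply_symm_apply (f • P v))
  have hA := h.act' hd hp hf
  have hu : ∀ s, ∃ w, w * (1 + qa s + qb s) = 1 := fun s => by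
    have := isUnit_one_sub_self_of_mem_nonunits _
      (neg_mem (add_mem (hD.mem s).1 (hD.mem s).2) : -(qa s + qb s) ∈ maximalIdeal _)
    rw [sub_neg_eq_add, ← add_assoc] at this
    exact this.exists_left_inv
  choose w hw using hu
  have hn : ∀ u ∈ maximalIdeal (PS O σ), ¬ IsUnit (ph O ε u) := fun u hu h1 => by
    rw [isUnit_iff_constantCoeff, cc_ph] at h1
    exact (P022D.CA.Cpl.mem_max_iff u).1 hu h1
  refine ⟨i, i', _, fun s => ph O ε (-(w s * (qa s + 2 * qb s))), fun s => ph O ε (w s * qb s),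
    h.bij, hp, hd.sc, hd.y', h.op, hA, h.fg hd hp hD hA, fun s => ⟨hn _ (neg_mem
      (Ideal.mul_mem_left _ _ (add_mem (hD.mem s).1 (Ideal.mul_mem_left _ _ (hD.mem s).2)))),
      hn _ (Ideal.mul_mem_left _ _ (hD.mem s).2)⟩, fun s v => h.ext fun m => ?_,
    fun s 𝔞 h1 h2 => ?_, fun θ hθ => ?_⟩
  · have e1 : ∀ m, ρ (k (Sum.inr s)) (ρ (k (Sum.inr s))⁻¹ m) = m := fun m => by
      rw [← Module.End.mul_apply, ← map_mul, mul_inv_cancel, map_one]
      rfl
    have e2 := LinearMap.congr_fun (hD.quad s) (ρ (k (Sum.inr s))⁻¹ (ρ (k (Sum.inr s))⁻¹ m))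
    simp only [pow_two, LinearMap.add_apply, LinearMap.sub_apply, LinearMap.smul_apply,
      Module.End.mul_apply, Module.End.one_apply, map_sub, e1, LinearMap.zero_apply] at e2
    rw [hp, map_zero, add_smul, sub_smul, pow_two, mul_smul, mul_smul]
    refine Eq.trans (congrArg (P v) ?_) (map_zero _)
    show _ - ip O r ε _ • _ + ip O r ε _ • _ = _
    rw [hd.sc, hd.sc, hd.y, hd.y, map_sub]
    exact quad_inv (hw s) e2
  · simp only [map_neg, map_mul, map_add]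
    exact ⟨neg_mem (Ideal.mul_mem_left _ _ (add_mem h1 (Ideal.mul_mem_left _ _ h2))),
      Ideal.mul_mem_left _ _ h2⟩
  · obtain ⟨t, h1, h2⟩ := h.tr hd hp hθ
    exact ⟨t, h1, fun i v => (map_sub t _ _).trans (congrArg (· - t v) (h2 _ v))⟩

end Vale.Agent.P022K.RT.Pd
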