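import Vale.Agent.P022K.RT.Unrb

/-!
# P022K, block RT: rows Z1L, UFR, UNRB for open subgroups of a decomposition group
-/

set_option linter.all false

noncomputable section

namespace Vale.Agent.P022K.RT.Zl

open IsLocalRing MvPowerSeries NumberField
open Vale.Agent.P022 Vale.Agent.P022.H443
open Vale.Agent.P022D.L2b (M2 mem_max_iff ker_eq)
open Vale.Agent.P022D.Loc2 (TnG)
open Vale.Agent.P022D.Core (PS)
open Vale.Agent.P022D.PA (Base)
open Vale.Agent.P022D.W (dec conj_inP)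
open Vale.Agent.P022E.GW (Ov Fb)
open Vale.Agent.P022K.GW (Id)
open Vale.Agent.P022K.PL (Cf)
open Vale.Agent.P022K.CH.Loc (chi_data)
open Vale.Agent.P022D

/-- a generator of `H` modulo `K` inside the powers of `a` -/
theorem min_gen {G : Type} [Group G] (H K : Subgroup G) [K.Normal] (a : G)
    (h : ∃ n, 0 < n ∧ a ^ n ∈ H) : ∃ f, 0 < f ∧ ∃ b ∈ H, (∃ s ∈ K, b = a ^ f * s) ∧
      ∀ k, ∀ s ∈ K, a ^ k * s ∈ H → ∃ m, ∃ s' ∈ K, s' ∈ H ∧ a ^ k * s = b ^ m * s' := by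
  classical
  let π := QuotientGroup.mk' K
  have h1 : ∃ n, 0 < n ∧ π a ^ n ∈ H.map π := h.imp fun n hn => ⟨hn.1, a ^ n, hn.2, map_pow _ _ _⟩
  obtain ⟨h2, b, hb, e⟩ := Nat.find_spec h1
  have k1 : ∀ x, π x = 1 ↔ x ∈ K := fun x => QuotientGroup.eq_one_iff x
  refine ⟨_, h2, b, hb, ⟨(a ^ Nat.find h1)⁻¹ * b, (k1 _).1 (by
    rw [map_mul, map_inv, map_pow, e, inv_mul_cancel]), by group⟩, fun k s hs hk => ?_⟩
  have h3 : π a ^ k ∈ H.map π := ⟨_, hk, by rw [map_mul, (k1 s).2 hs, mul_one, map_pow]⟩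
  have h4 : π a ^ (k % Nat.find h1) ∈ H.map π := by
    rw [← Nat.div_add_mod k (Nat.find h1), pow_add, pow_mul, ← e] at h3
    exact (Subgroup.mul_mem_cancel_left _ ((H.map π).pow_mem (Subgroup.mem_map_of_mem π hb) _)).1 h3
  have h5 : k % Nat.find h1 = 0 := by
    by_contra c
    exact Nat.find_min h1 (Nat.mod_lt k h2) ⟨Nat.pos_of_ne_zero c, h4⟩
  refine ⟨k / Nat.find h1, (b ^ (k / Nat.find h1))⁻¹ * (a ^ k * s), (k1 _).1 ?_,
    H.mul_mem (H.inv_mem (H.pow_mem hb _)) hk, by group⟩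
  rw [map_mul, map_inv, map_pow, e, ← pow_mul, Nat.mul_div_cancel' (Nat.dvd_of_mod_eq_zero h5),
    map_mul, (k1 s).2 hs, mul_one, map_pow, inv_mul_cancel]

section

variable {G L : Type} [Group G] [TopologicalSpace G] [Group L] [TopologicalSpace L]

/-- unramified homomorphisms to finite monoids exist -/
def Dg (I : Subgroup G) (φ : G) : Prop := ∀ (M : Type) [Monoid M] [Finite M] (γ : M), IsUnit γ →
  ∃ ρ : G →* M, ρ φ = γ ∧ (∀ i ∈ I, ρ i = 1) ∧ IsOpen {x | ρ x = 1} ∧ ∀ x, ∃ k : ℕ, ρ x = γ ^ k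

variable {l : ℕ} {I W : Subgroup G} {τ φ : G}

/-- the structure passes to open subgroups -/
theorem Wd.sub (T : Wd l I W τ φ) [I.Normal] (hc : ∀ s ∈ I, s * τ * s⁻¹ * τ⁻¹ ∈ W)
    {ι : L →* G} (hι : Topology.IsOpenEmbedding ι) (hp : ∀ g : G, ∃ n, 0 < n ∧ g ^ n ∈ ι.range) :
    ∃ (f : ℕ) (τ' φ' : L), 0 < f ∧ (∃ s ∈ I, ι φ' = φ ^ f * s) ∧
      Wd (l ^ f) (I.comap ι) (W.comap ι) τ' φ' := by
  have := T.nor
  obtain ⟨f, hf, _, ⟨φ', rfl⟩, ⟨s, hs, e1⟩, h1⟩ := min_gen ι.range I φ (hp φ)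
  obtain ⟨e, -, _, ⟨τ', rfl⟩, ⟨w, hw, e2⟩, h2⟩ := min_gen ι.range W τ (hp τ)
  have ho : ∀ U : Subgroup L, IsOpen (U : Set L) → IsOpen (U.map ι : Set G) := fun U hU =>
    hι.isOpenMap _ hU
  refine ⟨f, τ', φ', hf, ⟨s, hs, e1⟩, inferInstance, Subgroup.comap_mono T.WI, ?_,
    fun U hU x hx => ?_, ?_, fun U hU x hx => ?_, fun U hU x => ?_⟩
  · show ι τ' ∈ I
    rw [e2]
    exact I.mul_mem (I.pow_mem T.tau e) (T.WI hw)
  · obtain ⟨n, y, hy, e⟩ := T.wild _ (ho U hU) _ hx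
    rw [← map_pow] at e
    obtain ⟨c, hc⟩ : l ^ n ∣ (l ^ f) ^ n := pow_dvd_pow_of_dvd (dvd_pow_self l hf.ne') n
    exact ⟨n, by rw [hc, pow_mul, ← hι.injective e]; exact U.pow_mem hy c⟩
  · let π := QuotientGroup.mk' W
    have k1 : ∀ x, π x = 1 ↔ x ∈ W := fun x => QuotientGroup.eq_one_iff x
    have a1 : π φ * π τ * (π φ)⁻¹ = π τ ^ l := by
      have := (k1 _).2 T.rel
      rwa [map_mul, map_mul, map_mul, map_inv, map_inv, map_pow, mul_inv_eq_one] at this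
    have a2 : π s * π τ * (π s)⁻¹ = π τ := by
      have := (k1 _).2 (hc s hs)
      rwa [map_mul, map_mul, map_mul, map_inv, map_inv, mul_inv_eq_one] at this
    have a3 : ∀ n, π φ ^ n * π τ * (π φ ^ n)⁻¹ = π τ ^ l ^ n := fun n => by
      induction n with
      | zero => simp
      | succ n ih =>
        rw [pow_succ l, pow_mul, ← ih, conj_pow, ← a1, pow_succ]
        group
    refine (k1 _).1 ?_
    simp only [map_mul, map_inv, map_pow, e1, e2, (k1 w).2 hw, mul_one]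
    rw [mul_inv_eq_one, ← pow_mul, mul_comm e, pow_mul, ← a3, conj_pow]
    conv_rhs => rw [← a2, conj_pow]
    group
  · obtain ⟨k, v, hv, _, ⟨u, hu, rfl⟩, e⟩ := T.cyc _ (ho U hU) _ hx
    obtain ⟨m, _, hv', ⟨v', rfl⟩, e'⟩ := h2 k v hv ⟨x * u⁻¹, by rw [map_mul, e, map_inv]; group⟩
    exact ⟨m, v', hv', u, hu, hι.injective (by rw [e, e', map_mul, map_mul, map_pow])⟩
  · obtain ⟨k, v, hv, _, ⟨u, hu, rfl⟩, e⟩ := T.gen _ (ho U hU) (ι x)
    obtain ⟨m, _, hv', ⟨v', rfl⟩, e'⟩ := h1 k v hv ⟨u⁻¹ * x, by rw [map_mul, e, map_inv]; group⟩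
    exact ⟨m, v', hv', u, hu, hι.injective (by
      rw [e, mul_assoc, e', map_mul, map_mul, map_pow, mul_assoc])⟩

theorem Dg.sub [IsTopologicalGroup L] (D : Dg I φ) {ι : L →* G} (hι : Continuous ι) {f q : ℕ}
    (hf : 0 < f) {W' : Subgroup L} {τ' φ' : L} (hφ : ∃ s ∈ I, ι φ' = φ ^ f * s)
    (T : Wd q (I.comap ι) W' τ' φ') : Dg (I.comap ι) φ' := by
  intro M _ _ γ hγ
  have h0 : orderOf γ ≠ 0 := (isOfFinOrder_iff_isUnit.2 hγ).orderOf_pos.ne'
  haveI : NeZero (f * orderOf γ) := ⟨mul_ne_zero hf.ne' h0⟩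
  obtain ⟨δ, d1, d2, d3, -⟩ := D (Multiplicative (ZMod (f * orderOf γ))) (Multiplicative.ofAdd 1)
    (Group.isUnit _)
  obtain ⟨s, hs, e⟩ := hφ
  have d4 : IsOpen {x | (δ.comp ι) x = 1} := d3.preimage hι
  have d5 : ∀ m, (δ (ι (φ' ^ m))).toAdd.val = f * (m % orderOf γ) := fun m => by
    rw [map_pow, map_pow, e, map_mul, d2 s hs, mul_one, map_pow δ, d1, ← pow_mul, ← ofAdd_nsmul,
      toAdd_ofAdd, nsmul_one, ZMod.val_natCast, Nat.mul_mod_mul_left]
  have d6 : ∀ x, ∃ a, (δ (ι x)).toAdd.val = f * a := fun x => by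
    obtain ⟨k, v, hv, u, hu, rfl⟩ := T.gen (kr (δ.comp ι)) (kr_open d4) x
    refine ⟨k % orderOf γ, ?_⟩
    rw [map_mul ι, map_mul ι, map_mul δ, map_mul δ, d2 _ hv,
      show δ (ι u) = 1 from (mem_kr (ρ := δ.comp ι)).1 hu, one_mul, mul_one, d5]
  let ρ : L →* M :=
    { toFun := fun x => γ ^ ((δ (ι x)).toAdd.val / f)
      map_one' := by simp
      map_mul' := fun x y => by
        obtain ⟨a, ha⟩ := d6 x
        obtain ⟨b, hb⟩ := d6 y
        rw [map_mul, map_mul, toAdd_mul, ZMod.val_add, ha, hb, ← mul_add, Nat.mul_mod_mul_left,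
          Nat.mul_div_cancel_left _ hf, Nat.mul_div_cancel_left _ hf, Nat.mul_div_cancel_left _ hf,
          pow_mod_orderOf, pow_add] }
  have e' : ∀ x, ρ x = γ ^ ((δ (ι x)).toAdd.val / f) := fun x => rfl
  have z : ∀ x, δ (ι x) = 1 → ρ x = 1 := fun x hx => by rw [e', hx]; simp
  refine ⟨ρ, ?_, fun i hi => z i (d2 _ hi), open_of_le d4 z, fun x => ⟨_, e' x⟩⟩
  rw [e', ← pow_one φ', d5, Nat.mul_div_cancel_left _ hf, pow_mod_orderOf, pow_one]

/-- unramified representations -/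
theorem Dg.ufr [IsTopologicalGroup G] (D : Dg I φ) (T : Wd l I W τ φ) (A : Type) [CommRing A]
    [hA : Base A] (γ : M2 A) (hγ : IsUnit γ) : ∃ ρ : G →* M2 A, ρ φ = γ ∧ (∀ i ∈ I, ρ i = 1) ∧
      (∀ n : ℕ, IsOpen {x | Cg (maximalIdeal A ^ n) (ρ x) 1}) ∧
      ∀ (n : ℕ) (x : G), ∃ k : ℕ, Cg (maximalIdeal A ^ n) (ρ x) (γ ^ k) := by
  have := fin_pow A
  choose ρ a1 a2 a3 a4 using fun n => D _ _
    (hγ.map (Ideal.Quotient.mk (maximalIdeal A ^ n)).mapMatrix)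
  obtain ⟨σ, hσ⟩ := lim_rep ρ fun n x => by
    refine DFunLike.congr_fun (T.ext (ρ := pm (Ideal.Quotient.factor
      (Ideal.pow_le_pow_right n.le_succ)) (ρ (n + 1))) ?_ (a3 n) ?_ fun s hs => ?_) x
    · exact ((lc_of_open _ (a3 (n + 1))).comp fun M => M.map _).isOpen_fiber 1
    · rw [pm_apply, a1, a1]
      rfl
    · rw [pm_apply, a2 _ _ hs, a2 _ _ hs, Matrix.map_one _ (map_zero _) (map_one _)]
  refine ⟨σ, Or.cg_pow fun n => cg_iff.2 (by rw [hσ, a1]; rfl),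
    fun i hi => Or.cg_pow fun n => cg_one.2 (by rw [hσ, a2 _ _ hi]), fun n => ?_, fun n x => ?_⟩
  · simp only [cg_one, hσ]
    exact a3 n
  · obtain ⟨k, hk⟩ := a4 n x
    exact ⟨k, cg_iff.2 (by rw [hσ, hk, ← map_pow]; rfl)⟩

end

/-- the unramified component -/
theorem Dg.unrb {G F O τ : Type} [Group G] [TopologicalSpace G] [IsTopologicalGroup G] [Field F]
    [Finite F] [CommRing O] [IsDomain O] [IsDiscreteValuationRing O] [hO : Cf O] [Algebra O F]
    [Fintype τ] {l : ℕ} {In W : Subgroup G} {t φ : G} (D : Dg In φ) (T : Wd l In W t φ)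
    {r : G →* M2 F} {s : F → O} {d : G →* O} {g : τ → G} {p q : τ → Fin 2} {I : Ideal (PS O τ)}
    {f : G → M2 (PS O τ)} (hr : IsLocallyConstant r) (hs : ∀ x, algebraMap O F (s x) = x)
    (hd : ∀ x, algebraMap O F (d x) = (r x).det) (hc : Cd d) (hU : Uni r s d g p q I f)
    (hI : ∀ i ∈ In, r i = 1 ∧ d i = 1) :
    Par (I ⊔ Ideal.span {u | ∃ (i : G) (a b : Fin 2), i ∈ In ∧ u = (f i - 1) a b}) 3 := by
  have h' := hU.un hs
  haveI hA := PL.base_ps O (Fin 3)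
  haveI hB := PL.base_ps O τ
  have c1 := hA.cpl
  have c2 := hB.cpl
  set J := I ⊔ Ideal.span {u | ∃ (i : G) (a b : Fin 2), i ∈ In ∧ u = (f i - 1) a b} with hJ
  obtain ⟨a, b, h0, hex, hrig⟩ := piv (r φ) (det_unit r φ).ne_zero
  let π : PS O (Fin 3) →+* F := (algebraMap O F).comp constantCoeff
  have hπ : ∀ u, u ∈ maximalIdeal (PS O (Fin 3)) ↔ π u = 0 := fun u => by
    rw [mem_max_iff, ← ker_eq hs]; rfl
  let z : Fin 3 → PS O (Fin 3) := fun k => C (s (r φ (a k) (b k))) + X k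
  have hz : ∀ k, π (z k) = r φ (a k) (b k) := fun k => by simp [π, z, hs]
  have hz0 : IsUnit (z 0) := by
    by_contra hn
    exact h0 ((hz 0).symm.trans ((hπ _).1 hn))
  obtain ⟨γ, g1, g2⟩ := hex _ z (C (d φ)) hz0
  obtain ⟨ρ, a1, a2, a3, -⟩ := D.ufr T (PS O (Fin 3)) γ
    ((Matrix.isUnit_iff_isUnit_det _).2 (g2 ▸ ((Group.isUnit φ).map d).map C))
  have hred : pm π ρ = r := T.ext (by
      have := cg_open (n := ⊥) π (fun u hu => (hπ u).1 (by simpa using hu)) (a3 1)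
      convert this using 1
      exact Set.ext fun y => ⟨fun e i j => by rw [show pm π ρ y = 1 from e, sub_self]; rfl,
        fun e => Matrix.ext fun i j => sub_eq_zero.1 (e i j)⟩)
    (hr.isOpen_fiber 1) (by
      rw [pm_apply, a1]
      refine (hrig F _ _ (IsUnit.mk0 _ h0) (fun k => ?_) ?_).symm
      · rw [Matrix.map_apply, g1, hz]
      · rw [← RingHom.mapMatrix_apply, ← RingHom.map_det, g2, ← hd]
        simp [π])
    fun i hi => by
      rw [pm_apply, a2 i hi, (hI i hi).1, Matrix.map_one _ (map_zero _) (map_one _)]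
  have hL : LiftC r s d ρ := ⟨a3, fun o ho => Lu.C_max ho, fun x i j => (hπ _).2 (by
      rw [map_sub, ← Matrix.map_apply (f := π), ← pm_apply, hred, sub_eq_zero]
      exact (hs _).symm.trans (congrArg _ (constantCoeff_C _).symm)),
    T.det_eq (algebraMap O _) (fun o ho => Lu.C_max ho) hc a3 (by rw [a1, g2]; rfl)
      fun i hi => by rw [a2 i hi, (hI i hi).2, Matrix.det_one, map_one]⟩
  obtain ⟨ψ, -, b2, b3⟩ := (luc _ F O τ r s d g p q I f hs hU (PS O (Fin 3))).1 ρ hL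
  obtain ⟨θ, t1, t2⟩ := NR.exists_ev (maximalIdeal (PS O τ)) (C : O →+* PS O τ)
    (fun k => f φ (a k) (b k) - C (s (r φ (a k) (b k)))) fun k => h'.red _ _ _
  have ψC : ∀ o, ψ (C o) = C o := fun o => ψ.commutes o
  have e1 : RingHom.id _ = ψ.toRingHom.comp θ := NR.ev_ext (maximalIdeal (PS O (Fin 3)))
    (fun o => by
      show C o = ψ (θ (C o))
      rw [t1, ψC]) (fun k => by
      show X k = ψ (θ (X k))
      rw [t2, map_sub, ψC, ← Matrix.map_apply (f := ψ), b3, a1, g1, add_sub_cancel_left])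
    fun k => Lu.X_max k
  have hsurj : Function.Surjective ψ := fun u => ⟨θ u, (RingHom.congr_fun e1 u).symm⟩
  have hle : J ≤ RingHom.ker ψ := sup_le b2 (Ideal.span_le.2 (by
    rintro _ ⟨i, x, y, hi, rfl⟩
    show ψ ((f i - 1) x y) = 0
    rw [← Matrix.map_apply (f := ψ), Matrix.map_sub _ (map_sub ψ), b3, a2 i hi,
      Matrix.map_one _ (map_zero ψ) (map_one ψ), sub_self]
    rfl))
  haveI : Nontrivial (PS O τ ⧸ J) := Ideal.Quotient.nontrivial_iff.2 fun e =>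
    RingHom.ker_ne_top ψ (top_le_iff.1 (e ▸ hle))
  haveI : IsLocalRing (PS O τ ⧸ J) :=
    IsLocalRing.of_surjective' (Ideal.Quotient.mk J) Ideal.Quotient.mk_surjective
  let mk := Ideal.Quotient.mk J
  have m1 := surj_loc mk Ideal.Quotient.mk_surjective
  have m2 := map_max θ (fun o ho => t1 o ▸ Lu.C_max ho) fun k => t2 k ▸ h'.red _ _ _
  have k1 : ∀ u ∈ I, mk u = 0 := fun u hu =>
    Ideal.Quotient.eq_zero_iff_mem.2 (Ideal.mem_sup_left hu)
  have k2 : ∀ u ∈ I, ((mk.comp θ).comp ψ.toRingHom) u = 0 := fun u hu =>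
    (congrArg (mk.comp θ) (b2 u hu)).trans (map_zero _)
  have e2 : pm (mk.comp θ) ρ = h'.rep mk k1 := T.ext_adic
    (fun n => cg_open _ (Or.pow_map (mk.comp θ) (fun u hu => m1 _ (m2 u hu)) n) (a3 n))
    (fun n => by
      let π' : (PS O τ ⧸ J) →+* (PS O τ ⧸ J) ⧸ maximalIdeal (PS O τ ⧸ J) ^ n :=
        Ideal.Quotient.mk _
      have n1 : ∀ u ∈ I, (π'.comp mk) u = 0 := fun u hu =>
        (congrArg π' (k1 u hu)).trans (map_zero _)
      have n2 : ∀ u ∈ maximalIdeal (PS O τ) ^ n, (π'.comp mk) u = 0 := fun u hu =>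
        Ideal.Quotient.eq_zero_iff_mem.2 (Or.pow_map mk m1 n u hu)
      have := h'.rep_lc (B := (PS O τ ⧸ J) ⧸ maximalIdeal (PS O τ ⧸ J) ^ n) (π'.comp mk) n1 n2
      simp only [cg_one]
      exact this.isOpen_fiber 1)
    (by
      rw [pm_apply, a1]
      refine hrig _ _ _ ?_ (fun k => ?_) ?_
      · rw [Matrix.map_apply, g1]
        exact hz0.map _
      · rw [Matrix.map_apply, g1, h'.rep_apply, Matrix.map_apply]
        show mk (θ (C _ + X k)) = _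
        rw [map_add, t1, t2, add_sub_cancel]
      · rw [← RingHom.mapMatrix_apply, ← RingHom.map_det, g2, h'.rep_det]
        exact congrArg mk (t1 _))
    fun i hi => by
      rw [pm_apply, a2 i hi, Matrix.map_one _ (map_zero _) (map_one _)]
      refine (cg_one.1 fun x y => Ideal.mem_sup_right (Ideal.subset_span ?_)).symm
      exact ⟨i, x, y, hi, rfl⟩
  have hH := NR.haus_of_le (maximalIdeal.isMaximal (PS O τ ⧸ J)).ne_top
  have e3 : mk = (mk.comp θ).comp ψ.toRingHom := NR.ev_ext (maximalIdeal (PS O τ ⧸ J))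
    (fun o => by
      show mk (C o) = mk (θ (ψ (C o)))
      rw [ψC, t1]) (fun u => by
      rw [h'.rep_crd mk k1 u, h'.rep_crd _ k2 u, ← e2, pm_apply, ← b3]
      show _ - mk (C _) = _ - mk (θ (ψ (C _)))
      rw [ψC, t1]
      rfl) fun u => m1 _ (Lu.X_max u)
  have hker : RingHom.ker ψ = J := le_antisymm (fun u hu => by
    have h1 : ψ u = 0 := hu
    refine Ideal.Quotient.eq_zero_iff_mem.1 ((RingHom.congr_fun e3 u).trans ?_)
    show mk (θ (ψ u)) = 0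
    rw [h1, map_zero, map_zero]) hle
  refine ⟨⟨3, ψ, hker⟩, ?_⟩
  obtain ⟨ϖ, hϖ⟩ := IsDiscreteValuationRing.exists_irreducible O
  rw [← hker]
  refine (ringKrullDim_eq_of_ringEquiv
    (RingHom.quotientKerEquivOfSurjective (f := ψ.toRingHom) hsurj)).trans ?_
  rw [(P022D.Rl.Ch0.reg (σ := Fin 3) hϖ.maximalIdeal_eq).2, Fintype.card_fin]

variable {l : ℕ} {P : Id}

theorem fb_pow {φ s : GQ} (hφ : Fb l P φ) (hs : s ∈ inP P) (f : ℕ) :
    Fb (l ^ f) P (φ ^ f * s) := by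
  have e2 : ∀ (n : ℕ) (x : 𝓞 Qb), φ ^ n • x - x ^ l ^ n ∈ P := fun n => by
    induction n with
    | zero => simp
    | succ n ih =>
      intro x
      have a := Ideal.Quotient.eq.2 (ih (φ • x))
      have b := (Ideal.Quotient.eq.2 (hφ x)).trans (map_pow (Ideal.Quotient.mk P) x l)
      rw [map_pow, b, ← pow_mul, ← pow_succ', ← mul_smul, ← pow_succ, ← map_pow] at a
      exact Ideal.Quotient.eq.1 a
  intro x
  have a := Ideal.Quotient.eq.2 (e2 f (s • x))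
  rw [map_pow, Ideal.Quotient.eq.2 (hs x), ← map_pow, ← mul_smul] at a
  exact Ideal.Quotient.eq.1 a

theorem com_wl (h : Ov l P) {s t : GQ} (hs : s ∈ inP P) (ht : t ∈ inP P) :
    s * t * s⁻¹ * t⁻¹ ∈ wl h := by
  let a : inP P := ⟨s, hs⟩
  let b : inP P := ⟨t, ht⟩
  refine ⟨(a * b * a⁻¹ * b⁻¹).2, fun U hn hU => ?_⟩
  obtain ⟨k, _, _, χ, -, h1, -⟩ := chi_data U hU h
  refine (h1 (a * b * a⁻¹ * b⁻¹)).1 ?_
  rw [map_mul, map_mul, map_mul, mul_right_comm (χ a), ← map_mul χ a, mul_inv_cancel, map_one,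
    one_mul, ← map_mul, mul_inv_cancel, map_one]

/-- **the structure of the decomposition group in an open subgroup `H`** -/
theorem wd_sub (h : Ov l P) {H : Subgroup GQ} (hH : IsOpen (H : Set GQ)) {L : Type} [Group L]
    [TopologicalSpace L] [IsTopologicalGroup L] {ι : L →* GQ} (hι : Topology.IsEmbedding ι)
    (hr : ι.range = H ⊓ dec P) : ∃ (f : ℕ) (W : Subgroup L) (τ φ : L), 0 < f ∧
      Fb (l ^ f) P (ι φ) ∧ Wd (l ^ f) ((inP P).comap ι) W τ φ ∧ Dg ((inP P).comap ι) φ := by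
  have := galQb
  have m : ∀ x, ι x ∈ H ⊓ dec P := fun x => hr.le ⟨x, rfl⟩
  let κ : L →* dec P := ι.codRestrict _ fun x => (m x).2
  have r1 : ∀ y : dec P, y ∈ κ.range ↔ (y : GQ) ∈ H := fun y => by
    refine ⟨?_, fun hy => ?_⟩
    · rintro ⟨x, rfl⟩
      exact (m x).1
    · obtain ⟨x, e⟩ := hr.ge (show (y : GQ) ∈ H ⊓ dec P from ⟨hy, y.2⟩)
      exact ⟨x, Subtype.ext e⟩
  have hκ : Topology.IsOpenEmbedding κ := by
    refine ⟨hι.codRestrict (dec P : Set GQ) fun x => (m x).2, ?_⟩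
    rw [show Set.range κ = Subtype.val ⁻¹' (H : Set GQ) from Set.ext r1]
    exact hH.preimage continuous_subtype_val
  obtain ⟨τ, T⟩ := wd h
  obtain ⟨φ, hφ⟩ := ex_phi h
  haveI : (iD P).Normal := ⟨fun s hs g => conj_inP g.2 hs⟩
  have hp : ∀ g : dec P, ∃ n, 0 < n ∧ g ^ n ∈ κ.range := fun g => by
    haveI : Finite (GQ ⧸ H) := H.quotient_finite_of_isOpen hH
    obtain ⟨n, h1, -, h2⟩ := H.exists_pow_mem_of_index_ne_zero
      Subgroup.index_ne_zero_of_finite (g : GQ)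
    exact ⟨n, h1, (r1 _).2 h2⟩
  obtain ⟨f, τ', φ', hf, e, T'⟩ := (T φ hφ).sub (fun s hs => com_wl h hs (T φ hφ).tau) hκ hp
  have D : Dg (iD P) φ := fun M _ _ γ hγ => unr_fin h hφ hγ
  refine ⟨f, _, τ', φ', hf, ?_, T', D.sub hκ.continuous hf e T'⟩
  obtain ⟨s, hs, e⟩ := e
  rw [show ι φ' = (φ : GQ) ^ f * s from congrArg Subtype.val e]
  exact fb_pow hφ hs f

end Vale.Agent.P022K.RT.Zl

namespace Vale.Agent.P022K.RT

open Zl
open Vale.Agent.P022 Vale.Agent.P022.H443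
open Vale.Agent.P022D.L2b (M2)
open Vale.Agent.P022D.Loc2 (TnG)
open Vale.Agent.P022D.Core (PS)
open Vale.Agent.P022D.W (dec)
open Vale.Agent.P027M.S (Inert)
open Vale.Agent.P022E.GW (Ov)
open Vale.Agent.P022K.GW (Id)
open Vale.Agent.P022K.PL (Cf)

variable {l : ℕ} {P : Id} (h : Ov l P) {H : Subgroup GQ} (hH : IsOpen (H : Set GQ)) {L : Type}
  [Group L] [TopologicalSpace L] [IsTopologicalGroup L] {ι : L →* GQ}
  (hι : Topology.IsEmbedding ι) (hr : ι.range = H ⊓ dec P)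

include h hH hι hr

/-- charts exist at every place prime to the characteristic -/
theorem z1h {F : Type} [Field F] [Finite F] (hl : (l : F) ≠ 0) {r : L →* M2 F}
    (hc : IsLocallyConstant r) : ∃ (g : Fin 6 → L) (p q : Fin 6 → Fin 2), TnG r g p q := by
  obtain ⟨f, W, τ, φ, -, -, T, -⟩ := wd_sub h hH hι hr
  exact tn_of_rank 6 (rank_zs T (by exact_mod_cast pow_ne_zero f hl) hc).1

/-- the unramified component at every place -/
theorem unrh {F O τ : Type} [Field F] [Finite F] [CommRing O] [IsDomain O]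
    [IsDiscreteValuationRing O] [Cf O] [Algebra O F] [Fintype τ] {r : L →* M2 F} {s : F → O}
    {d : L →* O} {g : τ → L} {p q : τ → Fin 2} {I : Ideal (PS O τ)} {f : L → M2 (PS O τ)}
    (hc : IsLocallyConstant r) (hs : ∀ x, algebraMap O F (s x) = x)
    (hd : ∀ x, algebraMap O F (d x) = (r x).det) (hD : Cd d) (hU : Uni r s d g p q I f)
    (hI : ∀ i, Inert P (ι i) → r i = 1 ∧ d i = 1) :
    Par (I ⊔ Ideal.span {u | ∃ (i : L) (a b : Fin 2), Inert P (ι i) ∧ u = (f i - 1) a b}) 3 := by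
  obtain ⟨f, W, τ, φ, -, -, T, D⟩ := wd_sub h hH hι hr
  exact D.unrb T hc hs hd hD hU hI

end Vale.Agent.P022K.RT
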