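import Vale.Agent.P022K.RT.Pre
import Vale.Agent.P022K.RT.Unh
import Vale.Agent.P022K.RT.Infp
import Vale.Agent.P022K.RT.Sys1
import Vale.Agent.P022K.G2.App

/-!
# P022K, block RT: the auxiliary framed places in residue characteristic two
-/

set_option linter.all false

noncomputable section

namespace Vale.Agent.P022K.RT

open IsLocalRing MvPowerSeries NumberField
open Vale.Agent.P022 Vale.Agent.P022.C
open Vale.Agent.P022D.L2b (M2)
open Vale.Agent.P022D.Core (PS)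
open Vale.Agent.P022D.W (dec)
open Vale.Agent.P022E.GW (Ov)
open Vale.Agent.P022.H443 (inP)
open Vale.Agent.P022K.GW (Id)
open Vale.Agent.P022K.PL (Cf)
open Vale.Agent.P022K.Top (Si cy Bad)
open Vale.Agent.P022K.G2 (Plc Ab St fp ip pP)
open scoped Pointwise

namespace Plx

/-- the decomposition group of an infinite place -/
theorem ex_c (w : InfinitePlace Qb) : ∃ c : GQ, P022.IsConj c ∧ c * c = 1 ∧
    ∀ g : GQ, g ∈ St (ip w) ↔ g = 1 ∨ g = c := by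
  have := H443.galQb
  obtain ⟨σ, e⟩ := ComplexEmbedding.exists_comp_symm_eq_of_comp_eq (k := ℚ) w.embedding
    (ComplexEmbedding.conjugate w.embedding) (Subsingleton.elim _ _)
  have h : ComplexEmbedding.IsConj w.embedding σ.symm := e.symm
  refine ⟨σ.symm, ⟨_, h.eq⟩, AlgEquiv.ext (ComplexEmbedding.isConj_apply_apply h), fun g => ?_⟩
  rw [G2.st_ip, ← w.mk_embedding, InfinitePlace.mem_stabilizer_mk_iff, ← h.ext_iff,
    eq_comm (b := g)]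

theorem fp_zero (P : Id) : fp P ∉ Ab {0} := by
  rintro (⟨l, hl, Q, o, -⟩ | ⟨-, w, e⟩)
  · exact o.1.ne_zero hl
  · exact Sum.inl_ne_inr e

theorem bad_smul {H : Subgroup GQ} {S : Finset ℕ} {P : Id} (h : Bad H S P) {g : GQ} (hg : g ∈ H) :
    Bad H S (g • P) := by
  obtain ⟨l, h1, h2, h3⟩ := h
  refine ⟨l, h1, GW.ov_smul h2 g, fun s hs => ?_⟩
  have k : g⁻¹ * s * g ∈ H := h3 ((GW.Pl.dec_iff _ _).2 (by
    rw [mul_smul, mul_smul, (GW.Pl.dec_iff _ _).1 hs, inv_smul_smul]))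
  simpa using (H.mul_mem_cancel_left (H.inv_mem hg)).1 ((H.mul_mem_cancel_right hg).1 k)

theorem cy_conj {O : Type} [CommRing O] [Algebra ℤ_[2] O] {c : GQ} (h : P022.IsConj c) :
    cy 2 O c = -1 := by
  have : (CH.ez 2 c : ℤ_[2]) = -1 := CH.zc_inj (by
    rw [← CH.eps_eq, CH.eps_conj h, map_neg, map_one])
  rw [Top.cy_eq, this, map_neg, map_one]

variable {O F : Type} [CommRing O] [IsDomain O] [IsDiscreteValuationRing O] [Cf O] [CharZero O]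
  [Algebra ℤ_[2] O] [Field F] [Finite F] [CharP F 2] [Algebra O F] {Z : Si 2 O} {C : Fr Z F}

open Classical in
/-- the chart at one auxiliary place -/
theorem one (hZ : Z.Ok) (hC : C.Ok) {T : Finset ℕ} {y : Plc} (hy : y ∈ Ab T)
    (hb : ¬ ∃ P, Bad Z.H Z.S P ∧ y = fp P) : ∃ (x : Lch O Z.H) (J : Ideal (PS O x.τ)) (k : ℕ),
    (x.Ok C.r C.s fun s => cy 2 O s.1) ∧ Par J k ∧ J ≤ x.I ⊔ Ideal.span {u | ∃ i a c,
      (∀ Q : Set Z.I, (∀ q ∈ Q, (Z.l q : ℕ) ∉ T) → x.j i ∈ Inq Z Q) ∧ u = (x.f i - 1) a c} ∧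
    k + (if y ∈ Ab {0} then Z.H.relIndex (St y) else 0) = 3 ∧
    ∀ s : Z.H, s ∈ Set.range x.j ↔ s.1 ∈ St y := by
  let L : Subgroup Z.H := (St y).comap Z.H.subtype
  have hL : ∀ s : Z.H, s ∈ Set.range L.subtype ↔ s.1 ∈ St y := fun s =>
    ⟨fun ⟨a, e⟩ => e ▸ a.2, fun h => ⟨⟨s, h⟩, rfl⟩⟩
  have hr : IsLocallyConstant (C.r.comp L.subtype) :=
    (Sy.lc_r hC.opn).comp_continuous continuous_subtype_val
  rcases hy with ⟨l, hl, P, o, rfl⟩ | ⟨-, w, rfl⟩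
  · have nb : ¬ Bad Z.H Z.S P := fun h => hb ⟨P, h, rfl⟩
    have l2 : l ≠ 2 := fun e => nb (Glu.bad_p hZ (e ▸ o))
    let ι : L →* GQ := Z.H.subtype.comp L.subtype
    have hι : Topology.IsEmbedding ι :=
      Topology.IsEmbedding.subtypeVal.comp Topology.IsEmbedding.subtypeVal
    have rg : ι.range = Z.H ⊓ dec P := by
      rw [← G2.st_fp]
      exact le_antisymm (fun _ ⟨a, e⟩ => e ▸ ⟨a.1.2, a.2⟩) fun g hg => ⟨⟨⟨g, hg.1⟩, hg.2⟩, rfl⟩
    have hH := H916.isOpen_GK Z.j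
    have lF : (l : F) ≠ 0 := fun e => l2
      ((Nat.prime_dvd_prime_iff_eq Nat.prime_two o.1).1 ((CharP.cast_eq_zero_iff F 2 l).1 e)).symm
    obtain ⟨g, a, b, tn⟩ := z1h o hH hι rg lF hr
    have hd : ∀ x : L, algebraMap O F (((Sy.co 2 O).comp ι) x) = ((C.r.comp L.subtype) x).det :=
      fun x => (hC.det x.1).symm
    obtain ⟨⟨I, f, hU⟩, -⟩ := lu L F O (Fin 6) _ C.s ((Sy.co 2 O).comp ι) g a b hr hC.sec hd tn
    have hp := unrh o hH hι rg hr hC.sec hd (Sy.Cd.comp hC.cd hι.continuous) hU fun i hi =>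
      ⟨congrArg Units.val (hC.unr l P o nb i.1 hi), Top.cy_inert o l2 hi⟩
    refine ⟨⟨L, Fin 6, L.subtype, g, a, b, I, f⟩, _, 3, ⟨continuous_subtype_val, tn, hU⟩, hp,
      sup_le_sup_left (Ideal.span_mono ?_) _, by rw [if_neg (fp_zero P)], hL⟩
    rintro _ ⟨i, a, c, hi, rfl⟩
    refine ⟨i, a, c, fun Q hQ => ⟨l, P, o, nb, fun q hq e => hQ q hq ?_, hi⟩, rfl⟩
    rwa [Sy.ov_eq ((hZ.vl q).2 P o.2.1 e).1 o]
  · obtain ⟨c, c1, c2, c3⟩ := ex_c w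
    let c' : L := ⟨⟨c, hZ.real c c1⟩, (c3 c).2 (Or.inr rfl)⟩
    have hG : ∀ x : L, x = 1 ∨ x = c' := fun x => ((c3 _).1 x.2).imp
      (fun e => Subtype.ext (Subtype.ext e)) fun e => Subtype.ext (Subtype.ext e)
    have : Finite L := Finite.of_surjective (fun b : Bool => if b then 1 else c') fun x =>
      (hG x).elim (fun e => ⟨true, e.symm⟩) fun e => ⟨false, e.symm⟩
    obtain ⟨g, a, b, I, f, tn, hU, hp⟩ := infp (C.r.comp L.subtype) C.s (fun x => cy 2 O x.1.1) c'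
      hG (Subtype.ext (Subtype.ext c2)) ((hC.det _).trans (Sy.co_two c)) Top.cy_one (cy_conj c1)
      hC.sec
    refine ⟨⟨L, Fin 3, L.subtype, g, a, b, I, f⟩, I, 2, ⟨continuous_subtype_val, tn, hU⟩, hp,
      le_sup_left, ?_, hL⟩
    rw [if_pos (show ip w ∈ Ab {0} from Or.inr ⟨rfl, w, rfl⟩), Subgroup.relIndex_eq_one.2 fun g hg => ?_]
    rcases (c3 g).1 hg with rfl | rfl
    exacts [one_mem _, hZ.real _ c1]

end Plx

open Plx in
/-- **the auxiliary places**: charts, parametrised primes, the count, representatives -/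
theorem ex_xa {O F : Type} [CommRing O] [IsDomain O] [IsDiscreteValuationRing O] [Cf O]
    [CharZero O] [Algebra ℤ_[2] O] [Field F] [Finite F] [CharP F 2] [Algebra O F] {Z : Si 2 O}
    {C : Fr Z F} (hZ : Z.Ok) (hC : C.Ok) {T : Finset ℕ} (hS : Z.S ⊆ T) (h0 : 0 ∈ T) :
    ∃ (A : Type) (_ : Fintype A) (x : A → Lch O Z.H) (J : ∀ b, Ideal (PS O (x b).τ)) (k : A → ℕ)
      (y : C.T ⊕ A → Ab T), (∀ b, (x b).Ok C.r C.s fun s => cy 2 O s.1) ∧ (∀ b, Par (J b) (k b)) ∧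
      (∀ b, J b ≤ (x b).I ⊔ Ideal.span {u | ∃ i a c, (∀ Q : Set Z.I, (∀ q ∈ Q, (Z.l q : ℕ) ∉ T) →
        (x b).j i ∈ Inq Z Q) ∧ u = ((x b).f i - 1) a c}) ∧
      ∑ b, k b + Z.H.index = 3 * Fintype.card A ∧
      Rp (pP Z.H.subtype T) y
        (Sum.elim (fun t => Set.range (C.j t)) fun b => Set.range (x b).j) ∧
      ∀ t, ∀ s ∈ Sum.elim (fun t => Set.range (C.j t)) (fun b => Set.range (x b).j) t,
        (∃ l ∈ T, ∃ P, Ov l P ∧ s.1 ∈ dec P) ∨ s = 1 ∨ P022.IsConj s.1 := by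
  classical
  have hH := H916.isOpen_GK Z.j
  obtain ⟨ι, _, x0, hx⟩ := G2.plc Z.H T hH
  have m : ∀ i, x0 i ∈ Ab T := fun i => one_smul GQ (x0 i) ▸ hx.mem i 1 (one_mem _)
  let A := {i // ¬ ∃ P, Bad Z.H Z.S P ∧ x0 i = fp P}
  choose x J k h1 h2 h3 h4 h5 using fun b : A => one hZ hC (m b.1) b.2
  have mb : ∀ t, fp (C.P t) ∈ Ab T := fun t =>
    let ⟨l, a, b, _⟩ := hC.bad t
    Or.inl ⟨l, hS a, _, b, rfl⟩
  have pr : ∀ {P}, Bad Z.H Z.S P → P.IsPrime := fun ⟨_, _, o, _⟩ => o.2.1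
  let y : C.T ⊕ A → Ab T := Sum.elim (fun t => ⟨_, mb t⟩) fun b => ⟨_, m b.1⟩
  have st : ∀ t (s : Z.H), s ∈ Sum.elim (fun t => Set.range (C.j t))
      (fun b => Set.range (x b).j) t ↔ s.1 ∈ St (y t).1 := by
    rintro (t | b) s
    · refine Iff.trans ?_ (SetLike.ext_iff.1 (G2.st_fp (C.P t)) s.1).symm
      exact ⟨fun ⟨a, e⟩ => e ▸ a.2, fun h => ⟨⟨s.1, h⟩, rfl⟩⟩
    · exact h5 b s
  refine ⟨A, inferInstance, x, J, k, y, h1, h2, h3, ?_, ⟨fun z => ?_, ?_, fun t g => ?_⟩,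
    fun t s hs => ?_⟩
  · have e0 : ∑ i : {i // ∃ P, Bad Z.H Z.S P ∧ x0 i = fp P},
        (if x0 i ∈ Ab {0} then Z.H.relIndex (St (x0 i)) else 0) = 0 :=
      Finset.sum_eq_zero fun i _ => by
        obtain ⟨P, -, e⟩ := i.2
        rw [e, if_neg (fp_zero P)]
    rw [← G2.deg Z.H T ι x0 0 hH hx h0 (Or.inl rfl), ← Fintype.sum_subtype_add_sum_subtype
      fun i => ∃ P, Bad Z.H Z.S P ∧ x0 i = fp P, e0, zero_add,
      ← Finset.sum_add_distrib, Finset.sum_congr rfl fun b _ => h4 b, Finset.sum_const,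
      smul_eq_mul, mul_comm, Finset.card_univ]
  · obtain ⟨i, g, hg, e⟩ := hx.ex z.1 z.2
    by_cases hb : ∃ P, Bad Z.H Z.S P ∧ x0 i = fp P
    · obtain ⟨P, hP, e1⟩ := hb
      obtain ⟨t, e2⟩ := hC.all P hP
      obtain ⟨g', e3⟩ := H916.exists_smul Z.j (pr (hC.bad t)) (pr hP) e2.symm
      refine ⟨Sum.inl t, ⟨g, hg⟩ * g', Subtype.ext ?_⟩
      rw [e, e1, e3]
      exact mul_smul g g'.1 (fp (C.P t))
    · exact ⟨Sum.inr ⟨i, hb⟩, ⟨g, hg⟩, Subtype.ext e.symm⟩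
  · rintro (t | b) (t' | b') g e <;> have e1 := congrArg Subtype.val e
    · exact congrArg _ (hC.inj _ _ ((GW.Pl.below_smul Z.j g.2 _).symm.trans
        (congrArg _ (Sum.inl.inj e1))))
    · exact (b'.2 ⟨_, bad_smul (hC.bad t) g.2, e1.symm⟩).elim
    · exact (b.2 ⟨_, bad_smul (hC.bad t') g⁻¹.2, eq_inv_smul_iff.2 e1⟩).elim
    · exact congrArg _ (Subtype.ext (hx.un _ _ _ g.2 e1.symm))
  · exact Subtype.ext_iff.trans (st t g).symm
  · have k1 := (st t s).1 hs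
    rcases (y t).2 with ⟨l, hl, P, o, e⟩ | ⟨-, w, e⟩
    · rw [e, G2.st_fp] at k1
      exact Or.inl ⟨l, hl, P, o, k1⟩
    · obtain ⟨c, c1, -, c3⟩ := ex_c w
      rw [e, c3] at k1
      exact Or.inr (k1.imp (fun a => Subtype.ext a) fun a => by rwa [a])

end Vale.Agent.P022K.RT
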