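import Vale.Agent.P022K.RT.Lu
import Vale.Agent.P022K.RU.Obj

/-!
# P022K, block RT: normal forms and points of the universal ring
-/

set_option linter.all false

noncomputable section

namespace Vale.Agent.P022K.RT.Pn

open IsLocalRing Polynomial
open Vale.Agent.P022D.L2b (M2)
open Vale.Agent.P022D.PA (Base)

section nf

variable {G A : Type} [Group G] [CommRing A]

/-- uniqueness of the normal form -/
theorem nf_uniq {ρ ρ' : G →* M2 A} {g0 g1 g2 : G} (d : ρ g0 0 1 = 0 ∧ ρ g0 1 0 = 0)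
    (d' : ρ' g0 0 1 = 0 ∧ ρ' g0 1 0 = 0) (hu : IsUnit (ρ g0 0 0 - ρ' g0 1 1))
    (hd : (ρ g0).det = (ρ' g0).det) (n : ρ g1 0 1 = ρ' g1 0 1) (hn : IsUnit (ρ g1 0 1))
    (h2 : IsUnit (ρ' g2 1 0)) (t : ∀ g, (ρ g).trace = (ρ' g).trace) : ρ = ρ' := by
  have t0 := t g0
  simp only [Matrix.trace_fin_two, Matrix.det_fin_two, d.1, d'.1, zero_mul, sub_zero] at t0 hd
  have e0 : ρ g0 0 0 = ρ' g0 0 0 := by
    rw [← sub_eq_zero, ← hu.mul_left_eq_zero]
    linear_combination ρ g0 0 0 * t0 - hd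
  have e1 : ρ g0 1 1 = ρ' g0 1 1 := by linear_combination t0 - e0
  have ad : ∀ g, ρ g 0 0 = ρ' g 0 0 ∧ ρ g 1 1 = ρ' g 1 1 := fun g => by
    have a := t g
    have b := t (g0 * g)
    simp only [map_mul, Matrix.trace_fin_two, Matrix.mul_apply, Fin.sum_univ_two, d.1, d.2, d'.1,
      d'.2, zero_mul, add_zero, zero_add] at a b
    have c : ρ g 0 0 = ρ' g 0 0 := by
      rw [← sub_eq_zero, ← hu.mul_left_eq_zero]
      linear_combination b - ρ' g0 1 1 * a - ρ' g 0 0 * e0 - ρ g 1 1 * e1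
    exact ⟨c, by linear_combination a - c⟩
  have bc : ∀ g h, ρ g 0 1 * ρ h 1 0 = ρ' g 0 1 * ρ' h 1 0 := fun g h => by
    have a := (ad (g * h)).1
    simp only [map_mul, Matrix.mul_apply, Fin.sum_univ_two, (ad g).1, (ad h).1] at a
    linear_combination a
  have c : ∀ h, ρ h 1 0 = ρ' h 1 0 := fun h => hn.mul_left_cancel (by rw [bc, n])
  have b : ∀ g, ρ g 0 1 = ρ' g 0 1 := fun g => h2.mul_right_cancel (by rw [← bc, c])
  ext g i j
  fin_cases i <;> fin_cases j
  exacts [(ad g).1, b g, c g, (ad g).2]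

/-- conjugation -/
def cj (c c' : M2 A) (h : c * c' = 1) (ρ : G →* M2 A) : G →* M2 A where
  toFun g := c' * ρ g * c
  map_one' := by rw [map_one, mul_one, mul_eq_one_comm.1 h]
  map_mul' g g' := by
    rw [map_mul]
    calc c' * (ρ g * ρ g') * c = c' * ρ g * (c * c') * ρ g' * c := by simp only [h, mul_one, mul_assoc]
      _ = _ := by simp only [mul_assoc]

theorem cj_ap (c c' : M2 A) (h : c * c' = 1) (ρ : G →* M2 A) (g : G) :
    cj c c' h ρ g = c' * ρ g * c := rfl

/-- diagonalisation -/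
theorem ex_diag (m : M2 A) {a b : A} (ht : m.trace = a + b) (hd : m.det = a * b) {u : A}
    (hu : u * (a - b) = 1) :
    m * !![u * (m 0 0 - b), -u * m 0 1; u * m 1 0, -u * (m 1 1 - a)] =
      !![u * (m 0 0 - b), -u * m 0 1; u * m 1 0, -u * (m 1 1 - a)] * !![a, 0; 0, b] := by
  rw [Matrix.trace_fin_two] at ht
  rw [Matrix.det_fin_two] at hd
  ext i j
  fin_cases i <;> fin_cases j <;> simp [Matrix.mul_apply, Fin.sum_univ_two]
  · linear_combination (u * (m 0 0)) * ht - u * hd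
  · linear_combination (-u * m 0 1) * ht
  · linear_combination (u * m 1 0) * ht
  · linear_combination (-u * (m 1 1)) * ht + u * hd

end nf

variable {O F G T : Type} [CommRing O] [Field F] [Group G] [TopologicalSpace G]
  [IsTopologicalGroup G] {S : RU.Dat O F G T}

theorem obj_pi {A : Type} [CommRing A] {X X' : RU.Obj S A} (h : X.ι = X'.ι) : X.π = X'.π :=
  RingHom.ext fun a => by
    obtain ⟨c, hc⟩ := S.surj (X.π a)
    obtain ⟨n, hn⟩ := X.nil
    have h1 : a - X.ι c ∈ RingHom.ker X.π := by rw [RingHom.mem_ker, map_sub, X.alg, hc, sub_self]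
    have h2 := Ideal.pow_mem_pow h1 n
    rw [hn, Ideal.mem_bot] at h2
    have h3 : X'.π (a - X.ι c) = 0 := by
      by_contra e
      have := (X'.loc _ e).pow n
      rw [h2] at this
      have := this.map X.π
      rw [map_zero] at this
      exact not_isUnit_zero this
    rw [map_sub, h, X'.alg, hc, sub_eq_zero] at h3
    exact h3.symm

/-- objects with the same traces and determinants have the same representation -/
theorem obj_uniq {A : Type} [CommRing A] {X X' : RU.Obj S A} (h : X.ι = X'.ι)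
    (n10 : ∃ g, S.rb g 1 0 ≠ 0) (hl : S.red S.lam ≠ 0)
    (hd : (X.ρ S.g0).det = (X'.ρ S.g0).det) (t : ∀ g, (X.ρ g).trace = (X'.ρ g).trace) :
    X.ρ = X'.ρ := by
  obtain ⟨g2, h2⟩ := n10
  have r : ∀ (Y : RU.Obj S A) g i j, Y.π (Y.ρ g i j) = S.rb g i j := fun Y g i j =>
    congrFun (congrFun (Y.res g) i) j
  refine nf_uniq (g1 := S.g1) (g2 := g2) X.dg X'.dg (X.loc _ ?_) hd (by rw [X.nm, X'.nm, h])
    (X.loc _ (by rwa [X.nm, X.alg])) (X'.loc _ (by rwa [r])) t
  rw [map_sub, r, obj_pi h, r]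
  exact sub_ne_zero.2 S.dne

variable (S) in
/-- a continuous lift over a local ring with residue map `π` -/
structure Gl {A : Type} [CommRing A] [IsLocalRing A] [Algebra O A] (π : A →+* F)
    (r : G →* M2 A) : Prop where
  alg : ∀ c, π (algebraMap O A c) = S.red c
  res : ∀ g, (r g).map π = S.rb g
  lc : ∀ n : ℕ, IsOpen {x | Cg (maximalIdeal A ^ n) (r x) 1}

variable (S) in
/-- normal form with frames -/
structure Nf {A : Type} [CommRing A] [Algebra O A] (π : A →+* F) (r : G →* M2 A)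
    (α β : T → M2 A) : Prop where
  dg : r S.g0 0 1 = 0 ∧ r S.g0 1 0 = 0
  nm : r S.g1 0 1 = algebraMap O A S.lam
  inv : ∀ l, α l * β l = 1
  one : ∀ l, (α l).map π = 1
  fr : α S.l0 0 0 = 1

variable {A : Type} [CommRing A]

section

variable [IsLocalRing A] [Algebra O A] {π : A →+* F} {r : G →* M2 A}

theorem Gl.surj (h : Gl S π r) : Function.Surjective π := fun a => by
  obtain ⟨c, rfl⟩ := S.surj a
  exact ⟨_, h.alg c⟩

theorem Gl.ker (h : Gl S π r) {a : A} : π a = 0 ↔ a ∈ maximalIdeal A := by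
  rw [← RingHom.mem_ker, eq_maximalIdeal (RingHom.ker_isMaximal_of_surjective _ h.surj)]

theorem Gl.unit (h : Gl S π r) {a : A} (e : π a ≠ 0) : IsUnit a := by
  by_contra k
  exact e (h.ker.2 k)

theorem Gl.ent (h : Gl S π r) (g : G) (i j : Fin 2) : π (r g i j) = S.rb g i j :=
  congrFun (congrFun (h.res g) i) j

theorem cg_cj {I : Ideal A} {c c' m : M2 A} (h : c * c' = 1) (e : Cg I m 1) :
    Cg I (c' * m * c) 1 := fun i j => by
  have : c' * m * c - 1 = c' * (m - 1) * c := by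
    rw [mul_sub, sub_mul, mul_one, mul_eq_one_comm.1 h]
  rw [← Matrix.sub_apply, this]
  simp only [Matrix.mul_apply]
  exact Ideal.sum_mem _ fun k _ => Ideal.mul_mem_right _ _
    (Ideal.sum_mem _ fun l _ => Ideal.mul_mem_left _ _ (e l k))

theorem Gl.conj (h : Gl S π r) {c c' : M2 A} (hc : c * c' = 1) (h1 : c.map π = 1) :
    Gl S π (cj c c' hc r) := by
  have h2 : c'.map π = 1 := by
    have := congrArg (fun m : M2 A => m.map π) hc
    simpa only [Matrix.map_mul, h1, one_mul, RU.map_one'] using this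
  refine ⟨h.alg, fun g => by rw [cj_ap, Matrix.map_mul, Matrix.map_mul, h1, h2, h.res, one_mul,
    mul_one], fun n => ?_⟩
  refine (congrArg IsOpen (Set.ext fun x => ?_)).mpr (h.lc n)
  refine ⟨fun e => ?_, cg_cj hc⟩
  have := cg_cj (mul_eq_one_comm.1 hc) e
  rwa [cj_ap, ← mul_assoc, ← mul_assoc, hc, one_mul, mul_assoc, hc, mul_one] at this

end

/-- **existence of the normal form**; the frames undo the conjugation -/
theorem Gl.ex_nf [IsLocalRing A] [IsAdicComplete (maximalIdeal A) A] [Algebra O A] {π : A →+* F}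
    {r : G →* M2 A} (h : Gl S π r)
    (hl : S.red S.lam = S.rb S.g1 0 1) : ∃ (c c' : M2 A) (hc : c * c' = 1),
      c.map π = 1 ∧ Nf S π (cj c c' hc r) (fun _ => c') fun _ => c := by
  obtain ⟨a0, ha0⟩ := h.surj (S.rb S.g0 0 0)
  have e := h.ent S.g0
  obtain ⟨a, ha, h0⟩ := HenselianRing.is_henselian (I := maximalIdeal A)
    (X ^ 2 - C (r S.g0).trace * X + C (r S.g0).det) (by monicity!) a0 (h.ker.1 (by
      simp [Matrix.trace_fin_two, Matrix.det_fin_two, ha0, e, S.d01]
      ring)) (IsUnit.map _ (h.unit (by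
      have := sub_ne_zero.2 S.dne
      simp [Matrix.trace_fin_two, ha0, e]
      intro k
      exact this (by linear_combination k))))
  have h1 : π a = S.rb S.g0 0 0 := by
    have := h.ker.2 h0
    rwa [map_sub, ha0, sub_eq_zero] at this
  have h2 : a ^ 2 - (r S.g0).trace * a + (r S.g0).det = 0 := by simpa using ha
  set b := (r S.g0).trace - a with hb
  have h3 : π b = S.rb S.g0 1 1 := by simp [hb, Matrix.trace_fin_two, e, h1]
  obtain ⟨u, hu⟩ := (h.unit (a := a - b) (by
    rw [map_sub, h1, h3]; exact sub_ne_zero.2 S.dne)).exists_left_inv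
  have h4 := ex_diag (r S.g0) (a := a) (b := b) (by rw [hb]; ring)
    (by rw [hb]; linear_combination h2) hu
  set c0 : M2 A := !![u * (r S.g0 0 0 - b), -u * r S.g0 0 1; u * r S.g0 1 0,
    -u * (r S.g0 1 1 - a)] with hc0
  have h5 : π u * (S.rb S.g0 0 0 - S.rb S.g0 1 1) = 1 := by
    simpa [h1, h3] using congrArg π hu
  have h6 : c0.map π = 1 := by
    ext i j
    fin_cases i <;> fin_cases j <;> simp [hc0, e, h1, h3, S.d01, S.d10]
    · exact h5
    · linear_combination h5
  obtain ⟨c1, hc1⟩ : ∃ c1, c0 * c1 = 1 := ((Matrix.isUnit_iff_isUnit_det _).2 (h.unit (by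
    rw [RingHom.map_det, RingHom.mapMatrix_apply, h6, Matrix.det_one]
    exact one_ne_zero))).exists_right_inv
  have g1 := h.conj hc1 h6
  have h7 : c1 * r S.g0 * c0 = !![a, 0; 0, b] := by
    rw [mul_assoc, h4, ← mul_assoc, mul_eq_one_comm.1 hc1, one_mul]
  have k1 : c1.map π = 1 := by
    have := congrArg (fun m : M2 A => m.map π) hc1
    simpa only [Matrix.map_mul, h6, one_mul, RU.map_one'] using this
  have k2 : π (c1 0 0) = 1 := by simpa using congrFun (congrFun k1 0) 0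
  obtain ⟨v, hv⟩ := (h.unit (a := c1 0 0) (by rw [k2]; exact one_ne_zero)).exists_left_inv
  have k3 := g1.ent S.g1 0 1
  obtain ⟨w, hw⟩ := (h.unit (a := cj c0 c1 hc1 r S.g1 0 1) (by rw [k3]; exact S.n01)).exists_left_inv
  obtain ⟨y, hy⟩ := (h.unit (a := algebraMap O A S.lam)
    (by rw [h.alg, hl]; exact S.n01)).exists_left_inv
  set B := cj c0 c1 hc1 r S.g1 0 1 with hB
  set L := algebraMap O A S.lam with hL
  have k4 : π w * π L = 1 := by
    have := congrArg π hw
    rwa [map_mul, map_one, k3, ← hl, ← h.alg] at this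
  have D : (!![c1 0 0, 0; 0, c1 0 0 * (w * L)] : M2 A) * !![v, 0; 0, v * (y * B)] = 1 := by
    ext i j
    fin_cases i <;> fin_cases j <;> simp [Matrix.mul_apply, Fin.sum_univ_two]
    · linear_combination hv
    · linear_combination (w * L * y * B) * hv + (w * B) * hy + hw
  refine ⟨c0 * !![c1 0 0, 0; 0, c1 0 0 * (w * L)], !![v, 0; 0, v * (y * B)] * c1, ?_, ?_, ?_, ?_,
    fun _ => ?_, fun _ => ?_, ?_⟩
  · rw [mul_assoc, ← mul_assoc _ _ c1, D, one_mul, hc1]
  · rw [Matrix.map_mul, h6, one_mul]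
    ext i j
    fin_cases i <;> fin_cases j <;> simp [k2, k4]
  · rw [cj_ap, show ∀ d d' : M2 A, d' * c1 * r S.g0 * (c0 * d) = d' * (c1 * r S.g0 * c0) * d from
      fun d d' => by simp only [mul_assoc], h7]
    simp [Matrix.mul_apply, Fin.sum_univ_two]
  · rw [cj_ap, show ∀ d d' : M2 A, d' * c1 * r S.g1 * (c0 * d) = d' * (c1 * r S.g1 * c0) * d from
      fun d d' => by simp only [mul_assoc], ← cj_ap c0 c1 hc1]
    simp [Matrix.mul_apply, Fin.sum_univ_two, Matrix.vecMul, dotProduct, ← hB]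
    linear_combination (B * w * L) * hv + L * hw
  · rw [mul_assoc, ← mul_assoc c1, mul_eq_one_comm.1 hc1, one_mul, mul_eq_one_comm.1 D]
  · have := congrArg π hv
    rw [map_mul, k2, mul_one, map_one] at this
    have k5 : π y * π B = 1 := by
      have := congrArg π hy
      rwa [map_mul, map_one, hL, h.alg, hl, ← k3] at this
    rw [Matrix.map_mul, k1, mul_one]
    ext i j
    fin_cases i <;> fin_cases j <;> simp [this, k5]
  · simp [Matrix.mul_apply, Fin.sum_univ_two, hv]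

variable (S) in
/-- `X` is the image of the lift `r` with the frames `α` under `u` -/
structure Im [Algebra O A] (r : G →* M2 A) (α : T → M2 A) {A' : Type} [CommRing A']
    (X : RU.Obj S A') (u : A →+* A') : Prop where
  ι : ∀ c, u (algebraMap O A c) = X.ι c
  ρ : ∀ g, (r g).map u = X.ρ g
  α : ∀ l, (α l).map u = X.α l

section pt

variable [Base A] [Algebra O A] {π : A →+* F} {r : G →* M2 A} {α β : T → M2 A}

theorem Gl.pow_le (h : Gl S π r) (k : ℕ) : ∀ a ∈ maximalIdeal A ^ (k + 1), π a = 0 :=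
  fun a ha => h.ker.2 (Ideal.pow_le_self k.succ_ne_zero ha)

/-- the object over `A / m ^ (k + 1)` -/
def qo (h : Gl S π r) (n : Nf S π r α β) (k : ℕ) : RU.Obj S (A ⧸ maximalIdeal A ^ (k + 1)) where
  ι := (Ideal.Quotient.mk _).comp (algebraMap O A)
  π := Ideal.Quotient.lift _ π (h.pow_le k)
  ρ := pm (Ideal.Quotient.mk _) r
  α l := (α l).map (Ideal.Quotient.mk _)
  β l := (β l).map (Ideal.Quotient.mk _)
  fin := fin_pow A _
  loc a ha := by
    obtain ⟨a, rfl⟩ := Ideal.Quotient.mk_surjective a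
    exact (h.unit ha).map _
  alg := h.alg
  res g := h.res g
  opn := by
    have := h.lc (k + 1)
    simp only [cg_one] at this
    exact this
  dg := ⟨by show Ideal.Quotient.mk _ (r _ 0 1) = 0; rw [n.dg.1, map_zero],
    by show Ideal.Quotient.mk _ (r _ 1 0) = 0; rw [n.dg.2, map_zero]⟩
  nm := congrArg (Ideal.Quotient.mk _) n.nm
  inv l := by rw [← Matrix.map_mul, n.inv, RU.map_one']
  one l := n.one l
  fr := by show Ideal.Quotient.mk _ (α _ 0 0) = 1; rw [n.fr, map_one]

theorem im_qo (h : Gl S π r) (n : Nf S π r α β) (k : ℕ) :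
    Im S r α (qo h n k) (Ideal.Quotient.mk _) := ⟨fun _ => rfl, fun _ => rfl, fun _ => rfl⟩

theorem eq_of_mk {a b : A} (h : ∀ k : ℕ, Ideal.Quotient.mk (maximalIdeal A ^ (k + 1)) a =
    Ideal.Quotient.mk _ b) : a = b := by
  rw [← sub_eq_zero, ← Ideal.mem_bot,
    ← Ideal.iInf_pow_eq_bot_of_isLocalRing _ (maximalIdeal.isMaximal A).ne_top, Ideal.mem_iInf]
  exact fun k => Ideal.pow_le_pow_right k.le_succ (Ideal.Quotient.eq.1 (h k))

theorem Im.fac {A' : Type} [CommRing A'] {X : RU.Obj S A'} {u : A →+* A'} (i : Im S r α X u)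
    (h : Gl S π r) (n : Nf S π r α β) : ∃ (k : ℕ) (v : A ⧸ maximalIdeal A ^ (k + 1) →+* A'),
      (∀ a, v (Ideal.Quotient.mk _ a) = u a) ∧ RU.Hom (qo h n k) X v := by
  obtain ⟨k, hk⟩ := X.nil
  have e : RingHom.ker (X.π.comp u) = maximalIdeal A :=
    eq_maximalIdeal (RingHom.ker_isMaximal_of_surjective _ fun a => by
      obtain ⟨c, rfl⟩ := S.surj a
      exact ⟨algebraMap O A c, by rw [RingHom.comp_apply, i.ι, X.alg]⟩)
  have z : ∀ a ∈ maximalIdeal A ^ (k + 1), u a = 0 := fun a ha => by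
    have h1 : (maximalIdeal A).map u ≤ RingHom.ker X.π :=
      Ideal.map_le_iff_le_comap.2 fun b hb => by rw [← e] at hb; exact hb
    have h2 := Ideal.mem_map_of_mem u (Ideal.pow_le_pow_right k.le_succ ha)
    rw [Ideal.map_pow] at h2
    have h3 := Ideal.pow_right_mono h1 k h2
    rwa [hk, Ideal.mem_bot] at h3
  exact ⟨k, Ideal.Quotient.lift _ u z, fun _ => rfl, i.ι, i.ρ, i.α⟩

variable {τ : Type} {g : ℕ} {C : RU.Cl S} {κ : RU.Crd S τ} {Φ : RU.Fam S τ g}

variable (C Φ r α) in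
/-- `x` is the point of the lift `r` with the frames `α` -/
def IsPt (x : RU.PS O τ g →ₐ[O] A) : Prop :=
  ∀ (A' : Type) [CommRing A'] (X : RU.Obj S A') (u : A →+* A'), Im S r α X u →
    C A' X ∧ ∀ f, u (x f) = Φ A' X f

/-- **the point of a lift** -/
theorem ex_pt (h : Gl S π r) (n : Nf S π r α β) (hΦ : RU.Univ C κ Φ)
    (hC : ∀ (A' : Type) [CommRing A'] (X : RU.Obj S A') (u : A →+* A'), Im S r α X u → C A' X) :
    ∃ x, IsPt r α C Φ x := by
  have _ : IsAdicComplete (maximalIdeal A) A := Base.cpl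
  have c := fun k => hC _ _ _ (im_qo h n k)
  have ex : ∀ f, ∃ a : A, ∀ k, Ideal.Quotient.mk _ a = Φ _ (qo h n k) f := fun f => by
    choose a ha using fun k => Ideal.Quotient.mk_surjective (Φ _ (qo h n k) f)
    have cp : ∀ {i j : ℕ}, i ≤ j → Ideal.Quotient.mk (maximalIdeal A ^ (i + 1)) (a j) =
        Ideal.Quotient.mk _ (a i) := fun {i j} e => by
      rw [ha, ← hΦ.nat _ _ (qo h n j) (qo h n i) (Ideal.Quotient.factor
        (Ideal.pow_le_pow_right (Nat.succ_le_succ e))) (c j) (c i)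
        ⟨fun _ => rfl, fun _ => rfl, fun _ => rfl⟩, ← ha]
      rfl
    obtain ⟨L, hL⟩ := IsPrecomplete.prec (I := maximalIdeal A) (M := A) inferInstance (f := a)
      fun {i j} e => by
        rw [SModEq.sub_mem, smul_eq_mul, Ideal.mul_top]
        exact Ideal.pow_le_pow_right i.le_succ (Ideal.Quotient.eq.1 (cp e).symm)
    refine ⟨L, fun k => ?_⟩
    have := hL (k + 1)
    rw [SModEq.sub_mem, smul_eq_mul, Ideal.mul_top] at this
    rw [← ha, ← cp k.le_succ]
    exact (Ideal.Quotient.eq.2 this).symm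
  choose x hx using ex
  let x' : RU.PS O τ g →+* A :=
    { toFun := x
      map_one' := eq_of_mk fun k => by rw [hx, map_one, map_one]
      map_mul' := fun a b => eq_of_mk fun k => by rw [map_mul, hx, hx, hx, map_mul]
      map_zero' := eq_of_mk fun k => by rw [hx, map_zero, map_zero]
      map_add' := fun a b => eq_of_mk fun k => by rw [map_add, hx, hx, hx, map_add] }
  have hc : ∀ o, x' (algebraMap O _ o) = algebraMap O A o := fun o => eq_of_mk fun k =>
    (hx _ k).trans (hΦ.cst _ _ (c k) o)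
  refine ⟨⟨x', hc⟩, fun A' _ X u i => ⟨hC _ _ _ i, fun f => ?_⟩⟩
  obtain ⟨k, v, hv, hm⟩ := i.fac h n
  rw [← hΦ.nat _ _ _ _ v (c k) (hC _ _ _ i) hm, ← hx, hv]
  rfl

/-- the value of a point -/
theorem IsPt.eq {x : RU.PS O τ g →ₐ[O] A} (p : IsPt r α C Φ x) (h : Gl S π r) (n : Nf S π r α β)
    {f : RU.PS O τ g} {a : A} (e : ∀ (A' : Type) [CommRing A'] (X : RU.Obj S A') (u : A →+* A'),
      Im S r α X u → C A' X → Φ A' X f = u a) : x f = a :=
  eq_of_mk fun k => ((p _ _ _ (im_qo h n k)).2 f).trans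
    (e _ _ _ (im_qo h n k) (p _ _ _ (im_qo h n k)).1)

theorem Im.bet {A' : Type} [CommRing A'] {X : RU.Obj S A'} {u : A →+* A'} (i : Im S r α X u)
    (n : Nf S π r α β) (l : T) : (β l).map u = X.β l := by
  have h1 : (α l).map u * (β l).map u = 1 := by rw [← Matrix.map_mul, n.inv, RU.map_one']
  rw [← one_mul ((β l).map u), ← X.inv' l, mul_assoc, ← i.α, h1, mul_one]

theorem IsPt.loc {x : RU.PS O τ g →ₐ[O] A} (p : IsPt r α C Φ x) (h : Gl S π r) (n : Nf S π r α β)
    (hΦ : RU.Univ C κ Φ) (f : RU.PS O τ g) :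
    π (x f) = S.red (MvPowerSeries.constantCoeff f) := by
  rw [← hΦ.res _ _ (p _ _ _ (im_qo h n 0)).1, ← (p _ _ _ (im_qo h n 0)).2]
  rfl

end pt

end Vale.Agent.P022K.RT.Pn
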