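import Vale.Agent.P022K.RT.Glu
import Vale.Agent.P022K.RT.Nf
import Vale.Agent.P022K.RT.AuxB
import Vale.Agent.P022K.RT.Sys0
import Vale.Agent.P022K.Top.Eg

/-!
# P022K, block RT: the Galois input of the global data
-/

set_option linter.all false

noncomputable section

namespace Vale.Agent.P022K.RT

open IsLocalRing MvPowerSeries
open Vale.Agent.P022 Vale.Agent.P022.C
open Vale.Agent.P022D.L2b (M2)
open Vale.Agent.P022D.Core (PS)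
open Vale.Agent.P022D.CA (emb)
open Vale.Agent.P022D.W (dec)
open Vale.Agent.P022E.GW (Ov)
open Vale.Agent.P022K.PL (Cf)
open Vale.Agent.P022K.Top (Si cy Bad)

section site

variable {p : ℕ} [Fact p.Prime] {O : Type} [CommRing O] [IsLocalRing O] [Algebra ℤ_[p] O]
  {Z : Si p O} {F : Type} [Field F] (C : Fr Z F)

/-- the chart at a bad place -/
def Fr.lc (t : C.T) : Lch O Z.H :=
  { L := dec (C.P t), τ := C.τ t, j := C.j t, g := C.g t, p := C.a t, q := C.b t, I := C.I t,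
    f := C.f t }

/-- auxiliary framed places, auxiliary primes, twists -/
structure Pre : Type 1 where
  A : Type
  [fA : Fintype A]
  x : A → Lch O Z.H
  J : ∀ b, Ideal (PS O (x b).τ)
  k : A → ℕ
  g : ℕ
  r : ℕ
  a : ℕ
  E : Set Z.H
  D : ∀ n, Tl.TW Z C.t r (n + 1)
  χ : ∀ n, Z.H →* Fm.Dn (p ^ (n + 1)) a

attribute [instance] Pre.fA

variable {C}

/-- all local groups -/
def Pre.loc (Γ : Pre C) : C.T ⊕ Γ.A → Set Z.H :=
  Sum.elim (fun t => Set.range (C.j t)) fun b => Set.range (Γ.x b).j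

/-- the properties -/
structure Pre.Ok [Algebra O F] (Γ : Pre C) : Prop where
  ok : ∀ b, (Γ.x b).Ok C.r C.s fun s => cy p O s.1
  par : ∀ b, Par (Γ.J b) (Γ.k b)
  kil : ∀ b, Γ.J b ≤ (Γ.x b).I ⊔ Ideal.span {u | ∃ i a c,
    (∀ n, (Γ.x b).j i ∈ Inq Z (Set.range (Γ.D n).Q)) ∧ u = ((Γ.x b).f i - 1) a c}
  num : Fintype.card Z.J + ∑ b, Γ.k b + Γ.g + 1 ≤
    Γ.r + Γ.a + Fintype.card C.T + 4 * Fintype.card Γ.A
  sub : ∀ t, Γ.loc t ⊆ Γ.E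
  tan : ∀ n, RU.Tan C.r Γ.loc Γ.E (Inq Z (Set.range (Γ.D n).Q)) (Γ.g + 4)
  tin : ∀ n s, (Γ.D n).τ s ∈ Inq Z ∅
  opn : ∀ n, IsOpen {s | Γ.χ n s = 1}
  cE : ∀ n, ∀ s ∈ Γ.E, Γ.χ n s = 1
  cI : ∀ n, ∀ s ∈ Inq Z (Set.range (Γ.D n).Q), Γ.χ n s = 1
  ont : ∀ n k, ∃ s ∈ Inq Z ∅, Γ.χ n s = Fm.dg _ k
  sgn : ∀ n k, p = 2 ∧ ∃ (k' : Fin Γ.r) (σ : Fm.Dn (p ^ (n + 1)) Γ.a →* ℤˣ) (ν : Z.G →* ℤˣ)
    (m : Module.End O Z.M), σ (Fm.dg _ k) = -1 ∧ (∀ k2, k2 ≠ k → σ (Fm.dg _ k2) = 1) ∧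
      Z.Qc (σ.comp (Γ.χ n)) ((Γ.D n).Q k') ∧ Z.Twd (σ.comp (Γ.χ n)) ((Γ.D n).Q k') ν m

end site

/-- row PREO: odd `p` -/
def PREO : Prop :=
  ∀ (p : ℕ) [Fact p.Prime] (O F : Type) [CommRing O] [IsDomain O] [IsDiscreteValuationRing O]
    [Cf O] [CharZero O] [Algebra ℤ_[p] O] [Field F] [Finite F] [CharP F p] [Algebra O F]
    (Z : Si p O) (C : Fr Z F), Z.Ok → C.Ok → p ≠ 2 → ∃ Γ : Pre C, Γ.Ok

/-- row PRE2: `p = 2` -/
def PRE2 : Prop :=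
  ∀ (O F : Type) [CommRing O] [IsDomain O] [IsDiscreteValuationRing O]
    [Cf O] [CharZero O] [Algebra ℤ_[2] O] [Field F] [Finite F] [CharP F 2] [Algebra O F]
    (Z : Si 2 O) (C : Fr Z F), Z.Ok → C.Ok → Z.Twi → ∃ Γ : Pre C, Γ.Ok

namespace Glu

variable {p : ℕ} [Fact p.Prime] {O : Type} [CommRing O] [Algebra ℤ_[p] O] {Z : Si p O}

theorem cpt (Z : Si p O) : CompactSpace Z.H :=
  isCompact_iff_compactSpace.1 (Subgroup.isClosed_of_isOpen _ (H916.isOpen_GK Z.j)).isCompact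

theorem bad_p (h : Z.Ok) {P : GW.Id} (hP : Ov p P) : Bad Z.H Z.S P :=
  ⟨p, h.mem, hP, h.spl p (Finset.mem_singleton_self p) P hP⟩

theorem cy1 (h : Z.Ok) (s : Z.H) (hs : s ∈ Inq Z ∅) : cy p O s.1 = 1 := by
  obtain ⟨l, P, h1, h2, -, h3⟩ := hs
  refine Top.cy_inert h1 (fun e => h2 (bad_p h ?_)) h3
  rwa [e] at h1

theorem inq_le (Q : Set Z.I) : Inq Z Q ⊆ Inq Z ∅ := fun _ ⟨l, P, h1, h2, _, h3⟩ =>
  ⟨l, P, h1, h2, fun _ h => h.elim, h3⟩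

theorem ne_T [IsLocalRing O] {F : Type} [Field F] [CharP F p] [Algebra O F] {C : Fr Z F}
    (h : Z.Ok) (hC : C.Ok) : Nonempty C.T := by
  obtain ⟨P, hP⟩ := CH.Sy.ex_ov (Fact.out : p.Prime)
  exact (hC.all P (bad_p h hP)).elim fun t _ => ⟨t⟩

end Glu

open Glu in
theorem gda_of (h1 : PREO) (h2 : PRE2) : GDA := by
  intro p _ O F _ _ _ _ _ _ _ _ _ _ Z C hZ hC ht
  obtain ⟨Γ, h⟩ : ∃ Γ : Pre C, Γ.Ok := by
    by_cases e : p = 2
    · subst e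
      exact h2 O F Z C hZ hC (ht rfl)
    · exact h1 p O F Z C hZ hC e
  obtain ⟨t0⟩ := ne_T hZ hC
  have hs : Function.Surjective (algebraMap O F) := fun y => ⟨_, hC.sec y⟩
  have hu : ∀ c, algebraMap O F c ≠ 0 → IsUnit c := fun c e => by
    by_contra k
    exact e ((Sy.ker_eq hC.sec c).2 k)
  obtain ⟨S, c, c', N⟩ : ∃ (S : RU.Dat O F Z.H (C.T ⊕ Γ.A)) (c c' : M2 O), Nf.Nm C.rb S c c' := by
    by_cases e : p = 2
    · subst e
      obtain ⟨S, c, c', N, -⟩ := Nf.nm_ns hs hu (Sum.inl t0 : C.T ⊕ Γ.A) C.rb hC.spl (hC.two rfl)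
        fun g => (hC.det g).trans (Sy.co_two g.1)
      exact ⟨S, c, c', N⟩
    · obtain ⟨ω, -, k⟩ := hC.odd e
      obtain ⟨S, c, c', N, -⟩ := Nf.nm_adq hs hu (Sum.inl t0 : C.T ⊕ Γ.A) C.rb hC.spl k
      exact ⟨S, c, c', N⟩
  let x : C.T ⊕ Γ.A → Lch O Z.H := Sum.elim C.lc Γ.x
  have hx : (fun t => Set.range (x t).j) = Γ.loc := funext fun t => by cases t <;> rfl
  have := cpt Z
  obtain ⟨κ, Φ0, Φ, k1, k2, k3⟩ := fam x S (r := C.r) (s := C.s) (δ := fun s => cy p O s.1)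
    (E := Γ.E) (I0 := Inq Z ∅) (I := fun n => Inq Z (Set.range (Γ.D n).Q)) (g := Γ.g) N.red hC.sec
    N.lam N.inv N.res (fun t => by
      cases t with
      | inl t => exact ⟨Continuous.subtype_mk continuous_subtype_val _, hC.tn t, hC.uni t⟩
      | inr b => exact h.ok b)
    (fun t y => h.sub t (by rw [← hx]; exact ⟨y, rfl⟩)) (fun y => (hC.det y).symm)
    (by simpa only [Units.ext_iff] using! hC.opn)
    (fun y ⟨l, P, h1, h2, _, h3⟩ => congrArg Units.val (hC.unr l P h1 h2 y h3))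
    (fun n => inq_le _) fun n => hx ▸ h.tan n
  let e : (Σ t, C.τ t) ↪ (Σ t, (x t).τ) ⊕ Fin Γ.g :=
    ⟨fun u => Sum.inl ⟨Sum.inl u.1, u.2⟩, by
      rintro ⟨a, u⟩ ⟨b, v⟩ k
      obtain ⟨k1, k2⟩ := Sigma.mk.inj_iff.1 (Sum.inl_injective k)
      obtain rfl := Sum.inl_injective k1
      obtain rfl := eq_of_heq k2
      rfl⟩
  let e1 : (Σ b, (Γ.x b).τ) ↪ (Σ t, (x t).τ) ⊕ Fin Γ.g :=
    ⟨fun u => Sum.inl ⟨Sum.inr u.1, u.2⟩, by
      rintro ⟨a, u⟩ ⟨b, v⟩ k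
      obtain ⟨k1, k2⟩ := Sigma.mk.inj_iff.1 (Sum.inl_injective k)
      obtain rfl := Sum.inr_injective k1
      obtain rfl := eq_of_heq k2
      rfl⟩
  refine ⟨⟨C.T ⊕ Γ.A, Sum.inl, S, c, c', Σ t, (x t).τ, Γ.g, e, sumI e1 Γ.J,
    ∑ b, Γ.k b + Γ.g, Γ.r, Γ.a, Γ.E, κ, Φ0, Φ, Γ.D, Γ.χ⟩, N.red, N.lam, N.n10, N.inv, N.res, k1,
    aux O Γ.A _ _ _ e1 e _ Γ.k _ (fun a b k => ?_) h.par (fun b => (h.par b).par.gd.sat) ?_, ?_, k2,
    fun n => (k3 n).1, fun n => (k3 n).2.1,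
    fun n A _ X hX t => ((k3 n).2.2 A X hX (Sum.inl t)).2, fun n A _ X hX u hu => ?_,
    fun t s => h.sub (Sum.inl t) ⟨s, rfl⟩, cy1 hZ, h.tin, h.opn, h.cE, h.cI, h.ont, h.sgn⟩
  · exact Sum.inr_ne_inl (congrArg Sigma.fst (Sum.inl_injective k))
  · simp only [Fintype.card_sum, Fintype.card_sigma, Fintype.sum_sum_type, Fintype.card_fin]
    have e1 : ∑ a, Fintype.card (x (Sum.inl a)).τ = ∑ a, Fintype.card (C.τ a) := rfl
    have e2 : ∑ a, Fintype.card (x (Sum.inr a)).τ = ∑ a, Fintype.card (Γ.x a).τ := rfl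
    omega
  · have := h.num
    simp only [Fintype.card_sum]
    omega
  · refine (sup_le (iSup_le fun t => ?_) (iSup_le fun b => ?_) : _ ≤ RingHom.ker (Φ n A X)) hu
    · exact Ideal.map_le_iff_le_comap.2 ((k3 n).2.2 A X hX (Sum.inl t)).1
    · obtain ⟨k4, k5⟩ := (k3 n).2.2 A X hX (Sum.inr b)
      refine Ideal.map_le_iff_le_comap.2 ((h.kil b).trans (sup_le k4 (Ideal.span_le.2 ?_)))
      rintro _ ⟨i, a, a', hi, rfl⟩
      have k6 := k5 i a a'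
      rw [show X.ρ ((x (Sum.inr b)).j i) = 1 from hX.2 _ (hi n), mul_one, X.inv', mul_one,
        ← Matrix.map_mul, mul_eq_one_comm.1 N.inv, RU.map_one'] at k6
      show Φ n A X (rename (emb e1 b) _) = 0
      rw [Matrix.sub_apply, map_sub, map_sub, sub_eq_zero]
      refine k6.trans ?_
      simp only [Matrix.one_apply]
      split_ifs <;> simp

end Vale.Agent.P022K.RT
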