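import Vale.Agent.P022K.RT.Pre
import Vale.Agent.P022K.RT.Chi
import Vale.Agent.P022K.RT.Tanb
import Vale.Agent.P022K.RT.Twp
import Vale.Agent.P022K.RT.Cnt
import Vale.Agent.P022K.G2.App

/-!
# P022K, block RT: the Galois input at `p = 2`
-/

set_option linter.all false

noncomputable section

namespace Vale.Agent.P022K.RT

open IsLocalRing MvPowerSeries NumberField
open Vale.Agent.P022 Vale.Agent.P022.C
open Vale.Agent.P022D.L2b (M2)
open Vale.Agent.P022D.Core (PS)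
open Vale.Agent.P022D.W (dec)
open Vale.Agent.P022E.GW (Ov)
open Vale.Agent.P022K.PL (Cf)
open Vale.Agent.P022K.Top (Si cy Bad)
open Vale.Agent.P022K.GW (Id)
open scoped Pointwise

/-- auxiliary places -/
def XA : Prop :=
  ∀ (O F : Type) [CommRing O] [IsDomain O] [IsDiscreteValuationRing O]
    [Cf O] [CharZero O] [Algebra ℤ_[2] O] [Field F] [Finite F] [CharP F 2] [Algebra O F]
    (Z : Si 2 O) (C : Fr Z F) (T : Finset ℕ), Z.Ok → C.Ok → Z.S ⊆ T → 0 ∈ T →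
    (∀ l ∈ T, l = 0 ∨ l.Prime) → ∃ (A : Type) (_ : Fintype A) (x : A → Lch O Z.H)
      (J : ∀ b, Ideal (PS O (x b).τ)) (k : A → ℕ) (y : C.T ⊕ A → G2.Ab T),
      (∀ b, (x b).Ok C.r C.s fun s => cy 2 O s.1) ∧ (∀ b, Par (J b) (k b)) ∧
      (∀ b, J b ≤ (x b).I ⊔ Ideal.span {u | ∃ i a c, (∀ Q : Set Z.I,
        (∀ q ∈ Q, (Z.l q : ℕ) ∉ T) → (x b).j i ∈ Inq Z Q) ∧ u = ((x b).f i - 1) a c}) ∧
      ∑ b, k b + Z.H.index = 3 * Fintype.card A ∧
      Rp (G2.pP Z.H.subtype T) y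
        (Sum.elim (fun t => Set.range (C.j t)) fun b => Set.range (x b).j)

namespace Glu

theorem stab_inf {g : GQ} {w : InfinitePlace Qb} (h : g • w = w) : g = 1 ∨ P022.IsConj g := by
  have := H443.galQb
  obtain ⟨φ, rfl⟩ : ∃ φ, InfinitePlace.mk φ = w := ⟨_, w.mk_embedding⟩
  rcases (InfinitePlace.mem_stabilizer_mk_iff φ g).1 h with e | e
  · exact Or.inl e
  · exact Or.inr ⟨φ, fun x => (ComplexEmbedding.IsConj.eq e x)⟩

end Glu

theorem pre2_of (two : G2.TWO2) (xa : XA) : PRE2 := by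
  intro O F _ _ _ _ _ _ _ _ _ _ Z C hZ hC tw
  classical
  have emb : Topology.IsOpenEmbedding Z.H.subtype := (H916.isOpen_GK Z.j).isOpenEmbedding_subtypeVal
  obtain ⟨T0, h0, h1⟩ := two Z.H F Z.H.subtype C.rb ⟨emb, hC.opn,
    fun g => (hC.det g).trans (Sy.co_two g.1), hC.two rfl⟩
  obtain ⟨T, hT⟩ : ∃ T : Finset ℕ, T = insert 0 (T0 ∪ Z.S) := ⟨_, rfl⟩
  have t1 : Z.S ⊆ T := fun l hl => by simp [hT, hl]
  have t2 : ∀ l ∈ T, l = 0 ∨ l.Prime := fun l hl => by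
    simp only [hT, Finset.mem_insert, Finset.mem_union] at hl
    rcases hl with e | e | e
    exacts [.inl e, h0 l e, .inr (hZ.prm l e)]
  obtain ⟨A, _, x, J, k, y, a1, a2, a3, a4, a5⟩ := xa O F Z C T hZ hC t1 (by simp [hT]) t2
  obtain ⟨r, h2⟩ := h1 T (fun l hl => by simp [hT, hl]) t2 _ y _ a5
  obtain ⟨t0⟩ := Glu.ne_T hZ hC
  have : Nonempty (C.T ⊕ A) := ⟨Sum.inl t0⟩
  let loc : C.T ⊕ A → Set Z.H := Sum.elim (fun t => Set.range (C.j t)) fun b => Set.range (x b).j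
  have key : ∀ n, ∃ (D : Tl.TW Z C.t r (n + 1)) (χ : Z.H →* Fm.Dn (2 ^ (n + 1)) r), Tx T D χ ∧
      (∀ s, (Z.l (D.Q s) : ℕ) ∉ T) ∧ (∀ s, D.τ s ∈ Inq Z ∅) ∧ ∀ E, RU.Tan C.r loc E
        (Inq Z (Set.range D.Q)) (2 * r + 3 + Fintype.card (C.T ⊕ A)) := fun n => by
    obtain ⟨V, T', v1, v2, v3, v4⟩ := chi rfl tw T t1 (n + 1)
    obtain ⟨l, P, φ, b1, b2, b3, b4⟩ := h2 r le_rfl (n + 1) (Z.S ∪ T') V v1 v2 v3
    obtain ⟨D, d1, -, d2⟩ := twp hZ hC n.succ_pos Finset.subset_union_left b1 fun s => (b2 s).1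
    obtain ⟨χ, hχ⟩ := v4 C.t r D φ (fun s e => (b2 s).1.out (Finset.mem_union_right _ (d2 s ▸ e)))
      (fun s => by rw [d1, d2]; exact (b2 s).1.fb) fun s => (b2 s).2.2
    have le := D.in_sub (A := GW.ov T) fun Q ⟨l, h1, h2, _⟩ => ⟨l, t1 h1, h2⟩
    rw [d1] at le
    refine ⟨D, χ, hχ, fun s => d2 s ▸ (b2 s).2.1, D.tin,
      (tanb Z.H F _ _ C.rb _ y loc _ _ _ a5 le fun g hg => ?_).1 b3 b4⟩
    obtain ⟨l, P, h1, h2, -, h3⟩ := le hg
    exact hC.unr l P h1 h2 g h3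
  choose D χ k1 k2 k3 k4 using key
  have pos : 0 < Fintype.card (C.T ⊕ A) := Fintype.card_pos
  refine ⟨⟨A, x, J, k, 2 * r + Fintype.card (C.T ⊕ A) - 1, r, r, ⋃ t, loc t, D, χ⟩, a1, a2,
    fun b => (a3 b).trans (sup_le_sup_left (Ideal.span_mono ?_) _), ?_,
    fun t => Set.subset_iUnion loc t, fun n => Glu.tan_mono (k4 n _) le_rfl (by dsimp only; omega),
    k3, fun n => (k1 n).opn, fun n s hs => ?_, fun n => (k1 n).cI, fun n => (k1 n).ont,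
    fun n k => ⟨rfl, k, (k1 n).sgn k⟩⟩
  · rintro _ ⟨i, a, c, h, rfl⟩
    exact ⟨i, a, c, fun n => h _ (by rintro _ ⟨s, rfl⟩; exact k2 n s), rfl⟩
  · have := Cnt.card_J hZ hC
    simp only [Fintype.card_sum] at pos ⊢
    omega
  · obtain ⟨t, ht⟩ := Set.mem_iUnion.1 hs
    have e : s.1 • (y t).1 = (y t).1 := congrArg Subtype.val ((a5.stb t s).2 ht)
    rcases (y t).2 with ⟨l, hl, P, o, e'⟩ | ⟨-, w, e'⟩
    · rw [e'] at e
      exact (k1 n).spl l hl P o s ((GW.Pl.dec_iff _ _).2 (Sum.inl_injective e))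
    · rw [e'] at e
      rcases Glu.stab_inf (Sum.inr_injective e) with c | c
      · rw [show s = 1 from Subtype.ext c, map_one]
      · exact (k1 n).cnj s c

end Vale.Agent.P022K.RT
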