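import Vale.Agent.P022K.RT.Pre2
import Vale.Agent.P022K.RT.Plx
import Vale.Agent.P022K.G2.All

/-!
# P022K, block RT: the Galois input at `p = 2`, closed
-/

namespace Vale.Agent.P022K.RT

theorem xa : XA := by
  intro O F _ _ _ _ _ _ _ _ _ _ Z C T hZ hC hS h0 _
  obtain ⟨A, i, x, J, k, y, h1, h2, h3, h4, h5, -⟩ := ex_xa hZ hC hS h0
  exact ⟨A, i, x, J, k, y, h1, h2, h3, h4, h5⟩

theorem pre2 : PRE2 := pre2_of G2.two2C xa

end Vale.Agent.P022K.RT
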