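import Vale.Agent.P022K.RT.PresD

/-!
# P022K, block RT: row PRES
-/

set_option linter.all false

noncomputable section

namespace Vale.Agent.P022K.RT

open IsLocalRing MvPowerSeries Module
open Vale.Agent.P022D.L2b (M2 mem_max_iff)
open Vale.Agent.P022K.GW (Ad A1 A2 Zc Z2 H2 ad0 sl ad0_coe)
open Vale.Agent.P022G.Pres (Fn meml memr memadd memsub mem_iff mapz Lam maxfam)
open Vale.Agent.P022K.RU (Obj Dat Hom Unr map_one' Univ Closed Ty)

namespace Pr

/-- small open normal subgroups -/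
theorem ex_W {G T : Type} [Group G] [TopologicalSpace G] [IsTopologicalGroup G] [CompactSpace G]
    [T2Space G] [TotallyDisconnectedSpace G] [Finite T] {L : T → Type} [∀ t, Group (L t)]
    [∀ t, TopologicalSpace (L t)] [∀ t, CompactSpace (L t)] (j : ∀ t, L t →* G)
    (hj : ∀ t, Continuous (j t)) (ij : ∀ t, Function.Injective (j t)) (V : ∀ t, Set (L t))
    (hV : ∀ t, IsOpen (V t)) (h1 : ∀ t, 1 ∈ V t) (U : Subgroup G) (hU : IsOpen (U : Set G)) :
    ∃ W : Subgroup G, W.Normal ∧ IsOpen (W : Set G) ∧ W ≤ U ∧ ∀ t u, j t u ∈ W → u ∈ V t := by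
  obtain ⟨W, hW⟩ := ProfiniteGrp.exist_openNormalSubgroup_sub_open_nhds_of_one
    (U := (U : Set G) ∩ ⋂ t, (j t '' (V t)ᶜ)ᶜ)
    (hU.inter (isOpen_iInter_of_finite fun t =>
      ((hV t).isClosed_compl.isCompact.image (hj t)).isClosed.isOpen_compl))
    ⟨U.one_mem, Set.mem_iInter.2 fun t ⟨y, hy, e⟩ =>
      hy (by rw [ij t (e.trans (map_one _).symm)]; exact h1 t)⟩
  refine ⟨W.toOpenSubgroup, W.isNormal', W.isOpen, fun g hg => (hW hg).1, fun t u hu => ?_⟩
  by_contra k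
  exact Set.mem_iInter.1 (hW hu).2 t ⟨u, k, rfl⟩

/-- linear maps with values in a representation -/
def lm {G k V : Type} [Group G] [Field k] [AddCommGroup V] [Module k V] (Λ : Type)
    [AddCommGroup Λ] [Module k Λ] (σ : Representation k G V) :
    Representation k G (Λ →ₗ[k] V) where
  toFun g := LinearMap.llcomp k Λ V V (σ g)
  map_one' := by ext f l; simp
  map_mul' g h := by ext f l; simp

/-- the value of the linear forms on a matrix -/
def vl {R F : Type} [CommRing R] [Field F] (Λ : Submodule F (R → F)) (M : M2 R) (N : M2 F)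
    (h : ∀ l ∈ Λ, (M.map l * N).trace = 0) : Λ →ₗ[F] sl F where
  toFun l := ⟨M.map l.1 * N, h l.1 l.2⟩
  map_add' x y := Subtype.ext (by
    show _ = M.map x.1 * N + M.map y.1 * N
    rw [← add_mul]; rfl)
  map_smul' c x := Subtype.ext (by
    show _ = c • (M.map x.1 * N)
    rw [← smul_mul_assoc]; rfl)

variable {O F G T : Type} [CommRing O] [IsDomain O] [IsDiscreteValuationRing O] [PL.Cf O]
  [Field F] [Finite F] [Group G] [TopologicalSpace G] [IsTopologicalGroup G] [Algebra O F]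
  [CompactSpace G] [T2Space G] [TotallyDisconnectedSpace G]
  {L τ : T → Type} [∀ t, Group (L t)] [∀ t, TopologicalSpace (L t)]
  [∀ t, IsTopologicalGroup (L t)] [∀ t, CompactSpace (L t)] [Fintype T] [∀ t, Fintype (τ t)]
  {H : Ch O F G T L τ} {S : Dat O F G T} {I : Set G} {n : ℕ}
  {Φ : RU.Fam S (Σ t, τ t) n} {a : Ideal (RU.PS O (Σ t, τ t) n)}
  {X : Obj S (RU.PS O (Σ t, τ t) n ⧸ a)} {s : G → M2 (RU.PS O (Σ t, τ t) n)} {U : Subgroup G}
  {α β : T → M2 (RU.PS O (Σ t, τ t) n)}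

theorem Lf.cnt (h : Lf H S I Φ a X s U α β) {Y : Type} (ρ : G →* GL (Fin 2) F)
    (π : G →* Equiv.Perm Y) (x : T → Y) (ij : ∀ t, Function.Injective (H.j t))
    (hr : ∀ g, S.rb g = (ρ g).1) (hR : Rp π x H.D) (k : ℕ)
    (hk : maximalIdeal (RU.PS O (Σ t, τ t) n) ^ k ≤ a)
    [Module.Finite F (Zc π I (ad0 ρ))] [Module.Finite F (H2 π I (ad0 ρ))] (N : ℕ)
    (e : Fin N → RU.PS O (Σ t, τ t) n) (he : ∀ i, e i ∈ kerU (Ty (H.C S Set.univ) I) Φ)
    (hs : ∀ y : Fin N → F, ∃ l ∈ Lam (p0 S _ n) a (J0 H n ⊔ maximalIdeal _ ^ k),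
      ∀ i, l (e i) = y i) :
    N + finrank F (Zc π I (ad0 ρ)) + Fintype.card T ≤ finrank F (H2 π I (ad0 ρ)) + n + 4 := by
  set Λ := Lam (p0 S _ n) a (J0 H n ⊔ maximalIdeal _ ^ k) with hΛ
  have hb : J0 H n ⊔ maximalIdeal _ ^ k ≤ a := sup_le ((J0_le h.ok h.uni).trans h.ker) hk
  have hK : ∀ l (m : l ∈ Λ), J0 H n ⊔ maximalIdeal _ ^ k ≤ m.1.K := fun l m p hp =>
    ⟨hb hp, m.2 p (hb hp) hp⟩
  obtain ⟨W, hW, w1, w2, w3⟩ := ex_W H.j h.ok.cts ij _ (fun t => (h.ok.uni t).opn k)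
    (fun t i j => Ideal.mem_sup_left ((h.ok.uni t).one i j)) U h.ad.opn
  have u1 : ∀ u ∈ U, ρ u = 1 := fun u hu => Units.ext ((hr u).symm.trans (h.sec.rb1 hu))
  let z : G → G → Λ →ₗ[F] sl F := fun g g' => vl Λ (s g * s g' - s (g * g')) (S.rb (g * g')⁻¹)
    fun l m => h.sec.ztr m.1 g g'
  let c : ∀ t, L t → Λ →ₗ[F] sl F := fun t y => vl Λ (lt H α β t y - s (H.j t y))
    (S.rb (H.j t y)⁻¹) fun l m => (h.sec.tr m.1 _ (h.loc t y)).1 (by
      rw [add_sub_cancel]
      exact hK l m (Ideal.mem_sup_left (lt_det h.ok h.i1 t y)))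
  have sg : ∀ g (v : Λ →ₗ[F] sl F) l, (lm Λ (ad0 ρ) g v l).1 = S.rb g * (v l).1 * S.rb g⁻¹ :=
    fun g v l => by rw [hr, hr]; rfl
  obtain ⟨E, ν, E1, E2, E3⟩ := spread (lm Λ (ad0 ρ)) π x H.j hR W z c
    (fun w hw => LinearMap.ext fun v => LinearMap.ext fun l => Subtype.ext (by
      rw [sg, h.sec.rb1 (w2 hw), h.sec.rb1 (U.inv_mem (w2 hw)), one_mul, mul_one]; rfl))
    (fun g g' g'' => LinearMap.ext fun l => Subtype.ext (by
      rw [LinearMap.add_apply, Submodule.coe_add, sg]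
      exact h.sec.zcoc l.2.1 g g' g''))
    (fun w hw g g' => ⟨LinearMap.ext fun l => Subtype.ext (h.sec.zinv h.ad.nor (w2 hw) g g').1,
      LinearMap.ext fun l => Subtype.ext (h.sec.zinv h.ad.nor (w2 hw) g g').2⟩)
    (fun g => ⟨LinearMap.ext fun l => Subtype.ext (h.sec.zone l.2.1 g).1,
      LinearMap.ext fun l => Subtype.ext (h.sec.zone l.2.1 g).2⟩)
    (fun t y y' => LinearMap.ext fun l => Subtype.ext (by
      rw [LinearMap.add_apply, LinearMap.add_apply, Submodule.coe_add, Submodule.coe_add, sg]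
      have := (h.sec.mul l.2.1 (H.j t y) (H.j t y') (h.loc t y) (h.loc t y')
        (w := lt H α β t (y * y') - s (H.j t y * H.j t y'))
        (map_mul (H.j t) y y' ▸ h.loc t (y * y'))).1 (by
          rw [add_sub_cancel, add_sub_cancel, add_sub_cancel]
          exact fun i j => hK _ l.2 (Ideal.mem_sup_left (lt_mul h.ok h.i1 t y y' i j)))
      rw [← map_mul] at this
      exact this))
    (fun t u hu y => LinearMap.ext fun l => Subtype.ext (by
      have m := fun i j => hK _ l.2 (lt_one h.ok h.i1 t k (w3 t u hu) y i j)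
      show (lt H α β t (y * u) - s (H.j t (y * u))).map l.1 * S.rb (H.j t (y * u))⁻¹ =
        (lt H α β t y - s (H.j t y)).map l.1 * S.rb (H.j t y)⁻¹
      rw [map_mul, h.sec.inv _ (w2 hu), h.sec.rinv (w2 hu),
        ← sub_add_sub_cancel _ (lt H α β t y), l.2.1.addm (fun i j => (m i j).1) (h.loc t y),
        l.2.1.ofK m, zero_add]))
  let E' : Λ →ₗ[F] Z2 π I (ad0 ρ) :=
    { toFun := fun l => ⟨fun g y => E g y l,
        ⟨W, ⟨hW, w1, fun _ m => m.elim⟩, fun w hw g y =>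
          ⟨by beta_reduce; rw [(E2 w hw g y).1], by beta_reduce; rw [(E2 w hw g y).2]⟩⟩,
        fun g g' => z g g' l, ⟨U, h.ad, fun w hw g g' =>
          ⟨Subtype.ext (h.sec.zinv h.ad.nor hw g g').1,
            Subtype.ext (h.sec.zinv h.ad.nor hw g g').2⟩⟩,
        fun g g' y => by beta_reduce; rw [E1]; rfl⟩
      map_add' := fun l l' => Subtype.ext (funext fun g => funext fun y => map_add _ _ _)
      map_smul' := fun r l => Subtype.ext (funext fun g => funext fun y => map_smul _ _ _) }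
  choose fw hfw using h.uni.gen
  let fρ : G → M2 (RU.PS O (Σ t, τ t) n) := fun g =>
    Matrix.of fun i j => fw (MvPolynomial.X (.inl g, i, j))
  let fα : T → M2 (RU.PS O (Σ t, τ t) n) := fun t =>
    Matrix.of fun i j => fw (MvPolynomial.X (.inr (.inl t), i, j))
  choose tt γ hγ using hR.all
  have act : ∀ (g h : G) (y : Y), π (g * h) y = π g (π h y) := fun g h v => by
    rw [map_mul]; rfl
  refine count ρ π x H.D hR I ⟨U, h.ad, u1⟩ E' ((LinearMap.funLeft F F e).comp Λ.subtype)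
    (fun y => (hs y).elim fun l m => ⟨⟨l, m.1⟩, funext m.2⟩) (fun D i => -dl S D (e i))
    (fun l D m y => (E (γ y) y l).1 -
      (((fρ (γ y)).map (dl S D) - (s (γ y) - fρ (γ y)).map l.1) * S.rb (γ y)⁻¹ -
        (m - S.rb (γ y) * m * S.rb (γ y)⁻¹)) +
      S.rb (γ y) * ((α (tt y) - fα (tt y)).map l.1 - (fα (tt y)).map (dl S D) + m +
        (ν (tt y) l).1) * S.rb (γ y)⁻¹) fun l b A hA e1 => ?_
  simp only [← hr] at e1
  replace e1 : ∀ g y, (E g y l).1 = (b g).1 + A y - S.rb g * A (π g⁻¹ y) * S.rb g⁻¹ := e1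
  obtain ⟨D, m, d1, d2, d3⟩ := h.glob l.2.1 (le_sup_left.trans (hK _ l.2)) fρ fα
    (fun A _ Z hZ g i j => (hfw _ A Z hZ).trans (RU.ev_X Z _ i j))
    (fun A _ Z hZ g i j => (hfw _ A Z hZ).trans (RU.ev_X Z _ i j)) (fun g => (b g).1)
    (hA.imp fun V hV => ⟨hV.1, fun w hw g => by beta_reduce; rw [hV.2 w hw]⟩)
    (fun g => tr0 _)
    (fun g g' => by
      have := congrArg (fun v : Λ →ₗ[F] sl F => (v l).1) (E1 g g' (x S.l0))
      simp only [LinearMap.add_apply, Submodule.coe_add, sg, e1, mul_inv_rev, map_mul,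
        Equiv.Perm.mul_apply] at this
      rw [eq_add_of_sub_eq this |> eq_sub_of_add_eq]
      show _ + _ + zz S.rb s l.1 g g' + _ - _ = _
      noncomm_ring)
    (fun t => A (x t) - (ν t l).1)
    fun t y => by
      have := congrArg (fun v : Λ →ₗ[F] sl F => (v l).1) (E3 t y)
      have e2 : π (H.j t y)⁻¹ (x t) = x t := (hR.stb t _).2 ⟨y⁻¹, map_inv _ _⟩
      simp only [LinearMap.add_apply, LinearMap.sub_apply, Submodule.coe_add, Submodule.coe_sub,
        sg, e1, e2] at this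
      show (c t y l).1 = _
      rw [eq_add_of_sub_eq this.symm |> eq_sub_of_add_eq]
      noncomm_ring
  refine ⟨D, m, funext fun i => d1 _ (he i), funext fun y => ?_⟩
  have e2 : π (γ y)⁻¹ y = x (tt y) := by rw [map_inv, Equiv.Perm.inv_eq_iff_eq, hγ]
  beta_reduce
  rw [← d2, ← d3, e1, e2, sub_add_cancel]
  abel

end Pr

open Pr in
/-- **row PRES** -/
theorem pres : PRES := by
  intro O F G T Y _ _ _ hO _ _ _ _ _ _ _ _ _ _ L τ _ _ _ _ _ H S ρ π x I n Φ hH ij hr ho hm hd hI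
    hR hΦ _ _
  replace hr : ∀ g, S.rb g = (ρ g).1 := fun g => by rw [hr]; rfl
  set J := kerU (Ty (H.C S Set.univ) I) Φ with hJ
  set m := maximalIdeal (RU.PS O (Σ t, τ t) n) with hm'
  let X0 := res S (by simpa only [hr, Units.val_eq_one] using ho) hH.lam
  have h0 : Ty (H.C S Set.univ) I F X0 :=
    ⟨fun y m => (hH.det y m).symm, fun y m => (hr y).trans (congrArg Units.val (hI y m).1)⟩
  have jm : J ≤ m := fun p hp => p0_iff.1 ((hΦ.res F X0 h0 p).symm.trans (ker_le h0 hp))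
  obtain ⟨k, hk⟩ := m.exists_pow_inf_eq_pow_smul J
  have ar : m ^ (k + 1) ⊓ J ≤ m • J := by
    have := hk (k + 1) (Nat.le_succ k)
    rw [Nat.add_sub_cancel_left, pow_one, smul_eq_mul, Ideal.mul_top] at this
    rw [this]
    exact Submodule.smul_mono le_rfl inf_le_right
  have ha : ∀ p ∈ J ⊔ m ^ (k + 1), p0 S _ n p = 0 := fun p hp =>
    p0_iff.2 (sup_le jm (Ideal.pow_le_self (Nat.succ_ne_zero k)) hp)
  obtain ⟨X, hX, ev⟩ := ex_obj hO.cpl (Ct.closed.ty I) hΦ ⟨F, _, X0, h0⟩ (k + 1) le_rfl ha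
  have d1 : H.δ 1 = 1 := by
    have u : IsUnit (H.δ 1) := notMem_maximalIdeal.1 fun m => by
      have := (red_iff S _).2 m
      rw [hH.det 1 trivial, map_one, Matrix.det_one] at this
      exact one_ne_zero this
    have := hm 1 1
    rw [mul_one] at this
    exact u.mul_left_cancel (this.symm.trans (mul_one _).symm)
  have πq : ∀ y, Ideal.Quotient.lift _ _ ha y = X.π y := fun y => by
    obtain ⟨p, rfl⟩ := Ideal.Quotient.mk_surjective y
    exact (ev p ▸ hΦ.res _ X hX p).symm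
  obtain ⟨s, U, h1, h2, h3⟩ := ex_sec (rb := S.rb) ha X.ρ
    ((C : O →+* RU.PS O (Σ t, τ t) n).toMonoidHom.comp ⟨⟨H.δ, d1⟩, hm⟩) I X.opn
    ⟨_, hd (k + 2), by simp [d1], fun y hy => by
      have h2 := Ideal.mem_map_of_mem (C : O →+* RU.PS O (Σ t, τ t) n)
        (show H.δ y - 1 ∈ maximalIdeal O ^ (k + 2) from hy)
      rw [Ideal.map_pow, map_sub, map_one] at h2
      have h3 := Ideal.pow_right_mono (J := m) (Ideal.map_le_iff_le_comap.2 fun c hc =>
        (mem_max_iff _).2 (by simpa using hc)) _ h2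
      rw [pow_succ'] at h3
      rw [p0_ker]
      exact Ideal.mul_mono_right le_sup_right h3⟩
    (fun y => (hX.1 y trivial).trans ((hΦ.cst _ X hX _).symm.trans (ev _)))
    (fun y => by
      rw [← X.res y]
      exact Matrix.ext fun i j => πq _)
    fun y hy => ⟨hX.2 y hy, (congrArg C (hI y hy).2).trans (map_one _)⟩
  have hα : ∀ t, ∃ α β : M2 (RU.PS O (Σ t, τ t) n), α * β = 1 ∧
      α.map (Ideal.Quotient.mk _) = X.α t := fun t => by
    choose p hp using fun i j => Ideal.Quotient.mk_surjective (X.α t i j)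
    have e : (Matrix.of p : M2 _).map (Ideal.Quotient.mk _) = X.α t := Matrix.ext hp
    refine ⟨Matrix.of p, _, Matrix.mul_nonsing_inv _ (notMem_maximalIdeal.1 fun m => ?_), e⟩
    have := p0_iff (S := S).2 m
    rw [RingHom.map_det, RingHom.mapMatrix_apply, show (Matrix.of p : M2 _).map (p0 S _ n) = 1 by
      rw [← X.one t, ← e]; exact Matrix.ext fun i j => πq (Ideal.Quotient.mk _ _),
      Matrix.det_one] at this
    exact one_ne_zero this
  choose α β i1 i2 using hα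
  have h : Lf H S I Φ _ X s U α β := ⟨hH, hΦ, hX, ev, h1, h2, h3, i1, i2⟩
  obtain ⟨N, e, k1, k2, k3⟩ := maxfam (p0_sur (S := S)) (a := J ⊔ m ^ (k + 1))
    (b := J0 H n ⊔ m ^ (k + 1)) (m := m • J) (H := J)
    (fun p hp x hx => by
      obtain ⟨y, hy, z, hz, rfl⟩ := Submodule.mem_sup.1 hx
      rw [mul_add]
      exact Submodule.add_mem_sup (Submodule.smul_mem_smul (p0_iff.1 hp) hy)
        (Ideal.mem_sup_right (Ideal.mul_mem_left _ _ hz)))
    (fun x hx => Ideal.mem_sup_left hx)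
    (fun N => N + finrank F (Zc π I (ad0 ρ)) + Fintype.card T ≤
      finrank F (H2 π I (ad0 ρ)) + n + 4) (finrank F (H2 π I (ad0 ρ)) + n + 4)
    (fun n h => by omega) (h.cnt ρ π x ij hr hR (k + 1) le_sup_right)
  have he : Ideal.span (Set.range e) ≤ J := Ideal.span_le.2 (by rintro _ ⟨i, rfl⟩; exact k2 i)
  have j0 : J0 H n ≤ J := J0_le hH hΦ
  refine ⟨N, e, k1, le_antisymm (Submodule.le_of_le_smul_of_le_jacobson_bot
    (IsNoetherian.noetherian _) (maximalIdeal_le_jacobson _) fun x hx => ?_) (sup_le j0 he)⟩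
  obtain ⟨x1, p1, y, hy, rfl⟩ := Submodule.mem_sup.1 (k3 (Ideal.subset_span hx))
  obtain ⟨x2, p2, y', hy', rfl⟩ := Submodule.mem_sup.1 hy
  obtain ⟨x3, p3, x4, p4, rfl⟩ := Submodule.mem_sup.1 hy'
  have p5 : x4 ∈ J := by
    have := Ideal.sub_mem _ (Ideal.sub_mem _ (Ideal.sub_mem _ hx (he p1))
      (Submodule.smul_le_right p2)) (j0 p3)
    simpa using this
  rw [show x1 + (x2 + (x3 + x4)) = (x3 + x1) + (x2 + x4) by ring]
  exact Submodule.add_mem_sup (Submodule.add_mem_sup p3 p1) (Submodule.add_mem _ p2 (ar ⟨p4, p5⟩))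

end Vale.Agent.P022K.RT
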