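import Vale.Agent.P022K.RT.St

/-!
# P022K, block RT, row PRES: spreading of local trivialisations, and the count
-/

set_option linter.all false

noncomputable section

namespace Vale.Agent.P022K.RT.Pr

open Module
open Vale.Agent.P022D.L2b (M2)
open Vale.Agent.P022K.GW (Ad A1 A2 S0 S1 Zc Z2 B2 H2 ad0 sl ad0_coe)

section spread

variable {G k V : Type} [Group G] [Field k] [AddCommGroup V] [Module k V]

/-- the equivariant extension of one local trivialisation -/
theorem ext1 (σ : Representation k G V) {L : Type} [Group L] (j : L →* G) (W : Subgroup G)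
    [hW : W.Normal] (z : G → G → V) (e : L → V) (hσ : ∀ w ∈ W, σ w = 1)
    (coc : ∀ g h l, σ g (z h l) + z g (h * l) = z (g * h) l + z g h)
    (inv : ∀ w ∈ W, ∀ g h, z (g * w) h = z g h ∧ z g (h * w) = z g h)
    (he : ∀ y y', e (y * y') = e y + σ (j y) (e y') + z (j y) (j y'))
    (ie : ∀ u, j u ∈ W → ∀ y, e (y * u) = e y) :
    ∃ n : G → V, (∀ γ y, n (γ * j y) = n γ + σ γ (e y) + z γ (j y)) ∧
      ∀ w ∈ W, ∀ γ, n (γ * w) = n γ := by
  let B : Subgroup G := j.range ⊔ W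
  let r : G → G := fun γ => (QuotientGroup.mk γ : G ⧸ B).out
  have hr : ∀ γ, ∃ y, (j y)⁻¹ * ((r γ)⁻¹ * γ) ∈ W := fun γ => by
    have h1 : (r γ)⁻¹ * γ ∈ B := QuotientGroup.eq.1 (QuotientGroup.out_eq' _)
    obtain ⟨_, ⟨y, rfl⟩, w, hw, e⟩ := (Subgroup.mul_normal j.range W).le h1
    exact ⟨y, by rw [← e]; simpa using hw⟩
  have rb : ∀ γ, ∀ b ∈ B, r (γ * b) = r γ := fun γ b hb =>
    congrArg Quotient.out (QuotientGroup.eq.2 (by simpa using B.inv_mem hb) :
      (QuotientGroup.mk (γ * b) : G ⧸ B) = QuotientGroup.mk γ)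
  choose d hd using hr
  let n : G → V := fun γ => σ (r γ) (e (d γ)) + z (r γ) (j (d γ))
  have key : ∀ γ y, (j y)⁻¹ * ((r γ)⁻¹ * γ) ∈ W → n γ = σ (r γ) (e y) + z (r γ) (j y) := by
    intro γ y hy
    have h1 : j (y⁻¹ * d γ) ∈ W := by
      have := W.mul_mem hy (W.inv_mem (hd γ))
      rw [map_mul, map_inv]
      convert this using 1
      group
    have h2 : d γ = y * (y⁻¹ * d γ) := by group
    show σ (r γ) (e (d γ)) + z (r γ) (j (d γ)) = _
    rw [h2, ie _ h1, map_mul j y, (inv _ h1 _ _).2]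
  refine ⟨n, fun γ y => ?_, fun w hw γ => ?_⟩
  · have e1 := rb γ (j y) (Subgroup.mem_sup_left ⟨y, rfl⟩)
    have e2 : γ = r γ * j (d γ) * ((j (d γ))⁻¹ * ((r γ)⁻¹ * γ)) := by group
    have e3 : σ γ = σ (r γ) * σ (j (d γ)) := by
      conv_lhs => rw [e2]
      rw [map_mul, hσ _ (hd γ), mul_one, map_mul]
    have e4 : z γ (j y) = z (r γ * j (d γ)) (j y) := by
      conv_lhs => rw [e2]
      exact (inv _ (hd γ) _ _).1
    rw [key _ (d γ * y) (by
      rw [e1, map_mul]
      convert hW.conj_mem' _ (hd γ) (j y) using 1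
      group), e1, he, e3, e4, map_mul j, map_add, map_add, add_assoc, coc]
    show _ = σ (r γ) (e (d γ)) + z (r γ) (j (d γ)) + σ (r γ) (σ (j (d γ)) (e y)) + _
    abel
  · have e1 := rb γ w (Subgroup.mem_sup_right hw)
    rw [key _ (d γ) (by
      rw [e1]
      convert W.mul_mem (hd γ) hw using 1
      group), e1]

/-- **spreading** of local trivialisations over the orbits -/
theorem spread {X T : Type} {L : T → Type} [∀ t, Group (L t)] (σ : Representation k G V)
    (π : G →* Equiv.Perm X) (x : T → X) (j : ∀ t, L t →* G)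
    (hR : Rp π x fun t => Set.range (j t)) (W : Subgroup G) [hW : W.Normal] (z : G → G → V)
    (e : ∀ t, L t → V) (hσ : ∀ w ∈ W, σ w = 1)
    (coc : ∀ g h l, σ g (z h l) + z g (h * l) = z (g * h) l + z g h)
    (inv : ∀ w ∈ W, ∀ g h, z (g * w) h = z g h ∧ z g (h * w) = z g h)
    (one : ∀ g, z 1 g = 0 ∧ z g 1 = 0)
    (he : ∀ t y y', e t (y * y') = e t y + σ (j t y) (e t y') + z (j t y) (j t y'))
    (ie : ∀ t u, j t u ∈ W → ∀ y, e t (y * u) = e t y) :
    ∃ (E : G → X → V) (n : T → V),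
      (∀ g h x, E (g * h) x = E g x + σ g (E h (π g⁻¹ x)) + z g h) ∧
      (∀ w ∈ W, ∀ g x, E (g * w) x = E g x ∧ E g (π w x) = E g x) ∧
      ∀ t y, E (j t y) (x t) = e t y + n t - σ (j t y) (n t) := by
  choose n n1 n2 using fun t => ext1 σ (j t) W z (e t) hσ coc inv (he t) (ie t)
  choose tt γ hγ using hR.all
  have mul : ∀ (g h : G) (v : V), σ (g * h) v = σ g (σ h v) := fun g h v => by
    rw [map_mul]; rfl
  have act : ∀ (g h : G) (y : X), π (g * h) y = π g (π h y) := fun g h v => by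
    rw [map_mul]; rfl
  let E : G → X → V := fun g y =>
    n (tt y) (γ y) - σ g (n (tt y) (g⁻¹ * γ y)) - z g (g⁻¹ * γ y)
  have key : ∀ g t c, E g (π c (x t)) = n t c - σ g (n t (g⁻¹ * c)) - z g (g⁻¹ * c) := by
    intro g t c
    have h1 : π (c⁻¹ * γ (π c (x t))) (x (tt (π c (x t)))) = x t := by
      rw [act, hγ, ← act, inv_mul_cancel, map_one]; rfl
    have h2 := hR.inj _ _ _ h1
    rw [h2] at h1
    obtain ⟨y, hy⟩ := (hR.stb t _).1 h1
    have h3 : γ (π c (x t)) = c * j t y := by rw [hy]; group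
    show n (tt _) (γ _) - σ g (n (tt _) (g⁻¹ * γ _)) - z g (g⁻¹ * γ _) = _
    have h4 := coc g (g⁻¹ * c) (j t y)
    rw [mul_inv_cancel_left] at h4
    rw [h2, h3, ← mul_assoc, n1, n1, map_add, map_add, ← mul, mul_inv_cancel_left]
    rw [eq_sub_of_add_eq' h4]
    abel
  refine ⟨E, fun t => n t 1, fun g h y => ?_, fun w hw g y => ?_, fun t y => ?_⟩
  · obtain ⟨t, c, rfl⟩ := hR.all y
    have h4 := coc g h (h⁻¹ * (g⁻¹ * c))
    rw [mul_inv_cancel_left] at h4
    rw [← act, key, key, key, mul_inv_rev, mul_assoc, map_sub, map_sub, mul,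
      eq_sub_of_add_eq h4.symm]
    abel
  · obtain ⟨t, c, rfl⟩ := hR.all y
    constructor
    · have m := hW.conj_mem' _ (W.inv_mem hw) (g⁻¹ * c)
      rw [key, key, show (g * w)⁻¹ * c = g⁻¹ * c * ((g⁻¹ * c)⁻¹ * w⁻¹ * (g⁻¹ * c)) by group,
        n2 t _ m, (inv _ m _ _).2, (inv _ hw _ _).1, mul, hσ w hw]
      rfl
    · have m := hW.conj_mem' _ hw c
      rw [← act, key, key, show w * c = c * (c⁻¹ * w * c) by group, ← mul_assoc g⁻¹, n2 t _ m,
        n2 t _ m, (inv _ m _ _).2]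
  · have h1 : π (j t y) (x t) = x t := (hR.stb t _).2 ⟨y, rfl⟩
    have h2 := n1 t 1 y
    rw [one_mul, map_one, (one _).1, add_zero] at h2
    conv_lhs => rw [← h1, key, inv_mul_cancel, (one _).2, sub_zero, h2]
    show n t 1 + e t y - _ = _
    abel

end spread

section count

variable {G F X T : Type} [Group G] [TopologicalSpace G] [IsTopologicalGroup G] [Field F]

theorem tr_cj (ρ : G →* GL (Fin 2) F) (g : G) (m : M2 F) :
    ((ρ g).1 * m * (ρ g⁻¹).1).trace = m.trace := by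
  rw [Matrix.trace_mul_cycle, ← Units.val_mul, ← map_mul, inv_mul_cancel, map_one,
    Units.val_one, one_mul]

theorem tr0 (m : sl F) : m.1.trace = 0 := m.2

/-- the coboundary of a matrix -/
def cb (ρ : G →* GL (Fin 2) F) (m : M2 F) (g : G) : sl F :=
  ⟨m - (ρ g).1 * m * (ρ g⁻¹).1, by
    show Matrix.trace (m - (ρ g).1 * m * (ρ g⁻¹).1) = 0
    rw [Matrix.trace_sub, tr_cj, sub_self]⟩

theorem cb_mul (ρ : G →* GL (Fin 2) F) (m : M2 F) (g h : G) :
    cb ρ m (g * h) = cb ρ m g + ad0 ρ g (cb ρ m h) := by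
  refine Subtype.ext ?_
  simp only [cb, Submodule.coe_add, ad0_coe, mul_inv_rev, map_mul, Units.val_mul]
  noncomm_ring

/-- **the count** -/
theorem count [Finite F] [Fintype T] (ρ : G →* GL (Fin 2) F) (π : G →* Equiv.Perm X) (x : T → X)
    (D : T → Set G) (hR : Rp π x D) (I : Set G) (hI : ∃ W, Ad I W ∧ ∀ w ∈ W, ρ w = 1)
    {Λ : Type} [AddCommGroup Λ] [Module F Λ] (E : Λ →ₗ[F] Z2 π I (ad0 ρ)) {n g : ℕ}
    (Ev : Λ →ₗ[F] (Fin n → F)) (hE : Function.Surjective Ev) (ev : (Fin g → F) → Fin n → F)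
    (A : Λ → (Fin g → F) → M2 F → X → M2 F)
    (h : ∀ l (b : G → sl F) (a : X → M2 F), A1 I b →
      (∀ c y, ((E l).1 c y).1 = (b c).1 + a y - (ρ c).1 * a (π c⁻¹ y) * (ρ c⁻¹).1) →
      ∃ d m, Ev l = ev d ∧ a = A l d m)
    [Module.Finite F (Zc π I (ad0 ρ))] [Module.Finite F (H2 π I (ad0 ρ))] :
    n + finrank F (Zc π I (ad0 ρ)) + Fintype.card T ≤ finrank F (H2 π I (ad0 ρ)) + g + 4 := by
  classical
  obtain ⟨W, hW, w1⟩ := hI
  choose tt γ hγ using hR.all
  have act : ∀ (g h : G) (y : X), π (g * h) y = π g (π h y) := fun g h v => by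
    rw [map_mul]; rfl
  have t1 : ∀ c y, tt (π c y) = tt y := fun c y => (hR.inj _ _ ((γ (π c y))⁻¹ * c * γ y) (by
    rw [act, act, hγ, map_inv, Equiv.Perm.inv_eq_iff_eq, hγ])).symm
  have t2 : ∀ t, tt (x t) = t := fun t => hR.inj _ _ _ (hγ (x t))
  let e0 : M2 F := Matrix.diagonal ![1, 0]
  have e1 : e0.trace = 1 := by simp [e0]
  let dμ : (T → F) →ₗ[F] Z2 π I (ad0 ρ) :=
    { toFun := fun μ => ⟨fun c y => μ (tt y) • cb ρ e0 c,
        ⟨W, ⟨hW.nor, hW.opn, fun _ h => h.elim⟩, fun w hw c y => ⟨by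
          beta_reduce
          rw [cb_mul, show cb ρ e0 w = 0 from Subtype.ext (by
            simp [cb, w1 w hw, w1 _ (W.inv_mem hw)]), map_zero, add_zero], by beta_reduce; rw [t1]⟩⟩,
        0, ⟨⊤, Ad.top I, fun _ _ _ _ => ⟨rfl, rfl⟩⟩, fun c c' y => by
          beta_reduce
          rw [t1, cb_mul, map_smul, smul_add]; exact (add_zero _).symm⟩
      map_add' := fun a b => Subtype.ext (funext fun c => funext fun y => add_smul _ _ _)
      map_smul' := fun r a => Subtype.ext (funext fun c => funext fun y => mul_smul _ _ _) }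
  obtain ⟨sg, hs⟩ := Ev.exists_rightInverse_of_surjective (LinearMap.range_eq_top.2 hE)
  let Θ : ((Fin n → F) × (T → F)) →ₗ[F] H2 π I (ad0 ρ) :=
    (Submodule.mkQ _).comp ((E.comp sg).coprod dμ)
  have h1 := Θ.finrank_range_add_finrank_ker
  have h2 := (LinearMap.range Θ).finrank_le
  rw [finrank_prod, finrank_fin_fun, finrank_fintype_fun_eq_card] at h1
  have h3 : ∀ p : LinearMap.ker Θ, ∃ (b : G → sl F) (a : X → sl F), A1 I b ∧ ∀ c y,
      (E (sg p.1.1)).1 c y + p.1.2 (tt y) • cb ρ e0 c = b c + a y - ad0 ρ c (a (π c⁻¹ y)) := by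
    intro p
    obtain ⟨b, a, hb, -, e⟩ := (Submodule.Quotient.mk_eq_zero _).1 p.2
    exact ⟨b, a, hb, e⟩
  choose b0 a0 hb0 he0 using h3
  have h4 : ∀ p : LinearMap.ker Θ × Zc π I (ad0 ρ), ∃ q : (Fin g → F) × M2 F, p.1.1.1 = ev q.1 ∧
      (fun y => (a0 p.1 y).1 + (p.2.1 y).1 - p.1.1.2 (tt y) • e0) = A (sg p.1.1.1) q.1 q.2 := by
    rintro ⟨p, a, c, ⟨W', hW', hc⟩, ha⟩
    obtain ⟨W0, hW0, hb⟩ := hb0 p
    obtain ⟨d, m, k1, k2⟩ := h (sg p.1.1) (b0 p - c)
      (fun y => (a0 p y).1 + (a y).1 - p.1.2 (tt y) • e0)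
      ⟨W0 ⊓ W', hW0.inf hW', fun w hw u => by
        rw [Pi.sub_apply, Pi.sub_apply, hb w hw.1, hc w hw.2]⟩ fun u y => by
        have f1 := congrArg Subtype.val (eq_sub_of_add_eq (he0 p u y))
        have f2 := congrArg Subtype.val (ha u (π u⁻¹ y))
        rw [← act, mul_inv_cancel, map_one] at f2
        simp only [Submodule.coe_add, Submodule.coe_sub, Submodule.coe_smul, ad0_coe, cb,
          Equiv.Perm.coe_one, id] at f1 f2
        rw [f1, f2, t1]
        simp only [Pi.sub_apply, Submodule.coe_sub, mul_sub, sub_mul, mul_add, add_mul, smul_sub,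
          Matrix.mul_smul, Matrix.smul_mul]
        abel
    exact ⟨(d, m), (congrArg (fun f => f p.1.1) (congrArg DFunLike.coe hs)).symm.trans k1, k2⟩
  choose q q1 q2 using h4
  have h5 : Function.Injective q := by
    rintro ⟨p, a⟩ ⟨p', a'⟩ e
    have f1 : p.1.1 = p'.1.1 := (q1 (p, a)).trans (e ▸ (q1 (p', a')).symm)
    have f2 := q2 (p, a)
    rw [e, f1, ← q2 (p', a')] at f2
    have f3 : p.1.2 = p'.1.2 := funext fun t => by
      have := congrArg Matrix.trace (congrFun f2 (x t))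
      simpa [t2, tr0, e1] using this
    obtain rfl : p = p' := Subtype.ext (Prod.ext f1 f3)
    refine Prod.ext rfl (Subtype.ext (funext fun y => Subtype.ext ?_))
    simpa using congrFun f2 y
  have h6 := Nat.card_le_card_of_injective q h5
  rw [Nat.card_prod, natCard_eq_pow_finrank (K := F), natCard_eq_pow_finrank (K := F)
    (V := Zc π I (ad0 ρ)), natCard_eq_pow_finrank (K := F) (V := (Fin g → F) × M2 F), ← pow_add,
    Nat.pow_le_pow_iff_right Finite.one_lt_card, finrank_prod, finrank_fin_fun,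
    finrank_matrix] at h6
  simp only [Fintype.card_fin, finrank_self] at h6
  omega

end count

end Vale.Agent.P022K.RT.Pr
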