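import Vale.Agent.P022K.RT.PresA
import Vale.Agent.P022K.RU.Univ
import Vale.Agent.P022G.Pres.Main

/-!
# P022K, block RT, row PRES: sections, the obstruction cocycle, lifts
-/

set_option linter.all false

noncomputable section

namespace Vale.Agent.P022K.RT.Pr

open Vale.Agent.P022D.L2b (M2)
open Vale.Agent.P022K.GW (Ad A1 A2)
open Vale.Agent.P022G.Pres (Fn meml memr memadd memsub mem_iff mapz der)
open Vale.Agent.P022K.RU (Obj Dat Hom Unr ker_set opn_of_le map_one')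

variable {G F R : Type} [Group G] [Field F] [CommRing R]

/-- a section which is multiplicative modulo `a` -/
structure Sec (rb : G →* M2 F) (π : R →+* F) (a : Ideal R) (d : G → R) (s : G → M2 R)
    (U : Subgroup G) : Prop where
  ker : ∀ x ∈ a, π x = 0
  ob : ∀ g h i j, (s g * s h - s (g * h)) i j ∈ a
  red : ∀ g, (s g).map π = rb g
  det : ∀ g, (s g).det - d g ∈ RingHom.ker π * a
  dm : ∀ g h, d (g * h) = d g * d h
  one : s 1 = 1
  inv : ∀ u ∈ U, ∀ g, s (g * u) = s g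

variable {rb : G →* M2 F} {π : R →+* F} {a : Ideal R} {d : G → R} {s : G → M2 R}
  {U : Subgroup G} {lam : R → F}

theorem ri (rb : G →* M2 F) (g : G) : rb g * rb g⁻¹ = 1 := by
  rw [← map_mul, mul_inv_cancel, map_one]

theorem ri' (rb : G →* M2 F) (g : G) : rb g⁻¹ * rb g = 1 := by
  rw [← map_mul, inv_mul_cancel, map_one]

theorem det_ne (rb : G →* M2 F) (g : G) : (rb g).det ≠ 0 := fun e => by
  have := congrArg Matrix.det (ri rb g)
  rw [Matrix.det_mul, e, zero_mul, Matrix.det_one] at this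
  exact zero_ne_one this

theorem Sec.rb1 (h : Sec rb π a d s U) {u : G} (hu : u ∈ U) : rb u = 1 := by
  rw [← h.red, ← one_mul u, h.inv u hu, h.one, map_one']

theorem Sec.rinv (h : Sec rb π a d s U) {u : G} (hu : u ∈ U) (g : G) :
    rb (g * u)⁻¹ = rb g⁻¹ := by
  rw [mul_inv_rev, map_mul, h.rb1 (U.inv_mem hu), one_mul]

/-- the obstruction cocycle -/
def zz (rb : G →* M2 F) (s : G → M2 R) (lam : R → F) (g h : G) : M2 F :=
  (s g * s h - s (g * h)).map lam * rb (g * h)⁻¹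

theorem Sec.tr (h : Sec rb π a d s U) (f : Fn π a lam) (g : G) {w : M2 R}
    (hw : ∀ i j, w i j ∈ a) :
    (s g + w).det - d g ∈ f.K ↔ (w.map lam * rb g⁻¹).trace = 0 := by
  obtain ⟨d1, d2⟩ := f.det h.ker (s g) hw (h.red g) (ri rb g)
  have d3 := f.mulK (J := RingHom.ker π) (fun x hx => hx) (h.det g)
  rw [show (s g + w).det - d g = ((s g + w).det - (s g).det) + ((s g).det - d g) by
    ring, Ideal.add_mem_iff_left _ d3]
  show _ ∧ _ ↔ _
  rw [d2, mul_eq_zero, or_iff_right (det_ne rb g), and_iff_right d1]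

theorem Sec.mul (h : Sec rb π a d s U) (f : Fn π a lam) (g k : G) {u v w : M2 R}
    (hu : ∀ i j, u i j ∈ a) (hv : ∀ i j, v i j ∈ a) (hw : ∀ i j, w i j ∈ a) :
    (∀ i j, ((s g + u) * (s k + v) - (s (g * k) + w)) i j ∈ f.K) ↔
      w.map lam * rb (g * k)⁻¹ = u.map lam * rb g⁻¹ +
        rb g * (v.map lam * rb k⁻¹) * rb g⁻¹ + zz rb s lam g k := by
  obtain ⟨k1, k2⟩ := f.key h.ker (h.ob g k) hu hv hw
  rw [h.red, h.red] at k2
  have e : ((s g + u) * (s k + v) - (s (g * k) + w)).map lam * rb (g * k)⁻¹ =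
      u.map lam * rb g⁻¹ + rb g * (v.map lam * rb k⁻¹) * rb g⁻¹ +
        zz rb s lam g k - w.map lam * rb (g * k)⁻¹ := by
    rw [k2, sub_mul, add_mul, add_mul, zz, mul_assoc (u.map lam), mul_inv_rev, map_mul,
      ← mul_assoc (rb k), ri, one_mul]
    simp only [mul_assoc]
    abel
  rw [eq_comm, ← sub_eq_zero, ← e]
  refine ⟨fun m => by rw [f.ofK m, zero_mul], fun m => f.memK k1 ?_⟩
  have := congrArg (· * rb (g * k)) m
  simpa only [mul_assoc, ri', mul_one, zero_mul] using this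

theorem Sec.ztr (h : Sec rb π a d s U) (f : Fn π a lam) (g k : G) :
    (zz rb s lam g k).trace = 0 := by
  refine (h.tr f (g * k) (h.ob g k)).1 (f.mulK (J := RingHom.ker π) (fun x hx => hx) ?_)
  rw [add_sub_cancel, Matrix.det_mul, h.dm]
  refine Ideal.Quotient.eq.1 ?_
  rw [map_mul, map_mul, Ideal.Quotient.eq.2 (h.det g), Ideal.Quotient.eq.2 (h.det k)]

theorem Sec.zcoc (h : Sec rb π a d s U) (f : Fn π a lam) (g k l : G) :
    rb g * zz rb s lam k l * rb g⁻¹ + zz rb s lam g (k * l) =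
      zz rb s lam (g * k) l + zz rb s lam g k := by
  have e : s g * (s k * s l - s (k * l)) + (s g * s (k * l) - s (g * (k * l))) =
      (s (g * k) * s l - s (g * k * l)) + (s g * s k - s (g * k)) * s l := by
    rw [mul_sub, sub_mul, mul_assoc g, mul_assoc]; abel
  have e1 := congrArg (fun M : M2 R => M.map lam * rb (g * k * l)⁻¹) e
  beta_reduce at e1
  rw [f.addm (meml _ (h.ob k l)) (h.ob _ _), f.addm (h.ob _ _) (memr (h.ob g k) _),
    f.mull _ (h.ob k l), f.mulr (h.ob g k), h.red, h.red, add_mul, add_mul] at e1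
  have a1 : rb (g * k * l)⁻¹ = rb (k * l)⁻¹ * rb g⁻¹ := by
    rw [mul_assoc g, mul_inv_rev g, map_mul]
  have a2 : rb l * rb (g * k * l)⁻¹ = rb (g * k)⁻¹ := by
    rw [mul_inv_rev _ l, map_mul, ← mul_assoc, ri, one_mul]
  rw [mul_assoc _ (rb l), a2] at e1
  rw [zz, zz, zz, zz, ← e1, ← mul_assoc g k l, mul_assoc, mul_assoc, ← a1, mul_assoc (rb g)]

theorem Sec.zone (h : Sec rb π a d s U) (f : Fn π a lam) (g : G) :
    zz rb s lam 1 g = 0 ∧ zz rb s lam g 1 = 0 := by
  constructor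
  · rw [zz, h.one, one_mul, one_mul, sub_self, f.zerom, zero_mul]
  · rw [zz, h.one, mul_one, mul_one, sub_self, f.zerom, zero_mul]

theorem Sec.zinv (h : Sec rb π a d s U) (hU : U.Normal) {u : G} (hu : u ∈ U) (g k : G) :
    zz rb s lam (g * u) k = zz rb s lam g k ∧ zz rb s lam g (k * u) = zz rb s lam g k := by
  constructor
  · have hu' := hU.conj_mem' u hu k
    rw [zz, zz, h.inv u hu, show g * u * k = g * k * (k⁻¹ * u * k) by group,
      h.inv _ hu', h.rinv hu']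
  · rw [zz, zz, h.inv u hu, ← mul_assoc g, h.inv u hu, h.rinv hu]

theorem ex_lift (ha : ∀ x ∈ a, π x = 0) (N : M2 (R ⧸ a)) {c c' : R} (hc : c * c' = 1)
    (h : N.det = Ideal.Quotient.mk a c) :
    ∃ M : M2 R, M.map (Ideal.Quotient.mk a) = N ∧ M.det - c ∈ RingHom.ker π * a := by
  choose p hp using fun i j => Ideal.Quotient.mk_surjective (N i j)
  have e : (Matrix.of p : M2 R).map (Ideal.Quotient.mk a) = N := Matrix.ext hp
  have hi : (Matrix.of p).det - c ∈ a := Ideal.Quotient.eq.1 (by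
    rw [RingHom.map_det, RingHom.mapMatrix_apply, e, h])
  set i := (Matrix.of p).det - c with hi'
  refine ⟨Matrix.diagonal ![1 - i * c', 1] * Matrix.of p, ?_, ?_⟩
  · rw [Matrix.map_mul, e, Matrix.diagonal_map (map_zero _)]
    have e1 : (fun m => Ideal.Quotient.mk a (![1 - i * c', 1] m)) = fun _ => 1 := by
      funext j
      fin_cases j
      · simp [Ideal.Quotient.eq_zero_iff_mem.2 hi]
      · simp
    rw [e1, Matrix.diagonal_one, one_mul]
  · rw [Matrix.det_mul, Matrix.det_diagonal, Fin.prod_univ_two,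
      show (Matrix.of p).det = c + i by rw [hi']; ring]
    convert Ideal.mul_mem_mul (Ideal.mul_mem_left (RingHom.ker π) (-c') (ha i hi)) hi using 1
    simp only [Matrix.cons_val_zero, Matrix.cons_val_one, Matrix.cons_val_fin_one]
    linear_combination (-i) * hc

theorem ex_sec [TopologicalSpace G] [IsTopologicalGroup G] (ha : ∀ x ∈ a, π x = 0)
    (ρ : G →* M2 (R ⧸ a)) (d : G →* R) (I : Set G) (o1 : IsOpen {g | ρ g = 1})
    (o2 : ∃ V : Set G, IsOpen V ∧ 1 ∈ V ∧ ∀ g ∈ V, d g - 1 ∈ RingHom.ker π * a)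
    (hd : ∀ g, (ρ g).det = Ideal.Quotient.mk a (d g))
    (hr : ∀ g, (ρ g).map (Ideal.Quotient.lift a π ha) = rb g)
    (hI : ∀ g ∈ I, ρ g = 1 ∧ d g = 1) :
    ∃ s U, Sec rb π a d s U ∧ Ad I U ∧ ∀ g, (s g).map (Ideal.Quotient.mk a) = ρ g := by
  let e : G →* R ⧸ RingHom.ker π * a := (Ideal.Quotient.mk _).toMonoidHom.comp d
  let τ := ρ.prod e
  have ex : ∀ x, ∃ M : M2 R, (x = 1 → M = 1) ∧ ∀ g, τ g = x →
      M.map (Ideal.Quotient.mk a) = ρ g ∧ M.det - d g ∈ RingHom.ker π * a := by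
    intro x
    by_cases h1 : x = 1
    · refine ⟨1, fun _ => rfl, fun g hg => ⟨?_, Ideal.Quotient.eq.1 ?_⟩⟩
      · rw [map_one']
        exact (congrArg Prod.fst (hg.trans h1)).symm
      · rw [Matrix.det_one]
        exact (congrArg Prod.snd (hg.trans h1)).symm
    by_cases h2 : ∃ g, τ g = x
    · obtain ⟨g0, rfl⟩ := h2
      obtain ⟨M, m1, m2⟩ := ex_lift ha (ρ g0) (c' := d g0⁻¹)
        (by rw [← map_mul, mul_inv_cancel, map_one]) (hd g0)
      exact ⟨M, fun k => absurd k h1, fun g hg => ⟨m1.trans (congrArg Prod.fst hg).symm,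
        Ideal.Quotient.eq.1 ((Ideal.Quotient.eq.2 m2).trans (congrArg Prod.snd hg).symm)⟩⟩
    · exact ⟨1, fun _ => rfl, fun g hg => absurd ⟨g, hg⟩ h2⟩
  choose f f1 f2 using ex
  have mem : ∀ g, g ∈ τ.toHomUnits.ker ↔ τ g = 1 := fun g => Units.ext_iff
  have l : ∀ g, (f (τ g)).map (Ideal.Quotient.mk a) = ρ g := fun g => (f2 _ g rfl).1
  refine ⟨fun g => f (τ g), τ.toHomUnits.ker, ⟨ha, fun g k => mem_iff.2 ?_, fun g => ?_,
    fun g => (f2 _ g rfl).2, d.map_mul, f1 _ (map_one τ),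
    fun u hu g => by rw [map_mul, (mem u).1 hu, mul_one]⟩, ⟨inferInstance, ?_, fun g hg => ?_⟩, l⟩
  · rw [Matrix.map_mul, l, l, l, map_mul]
  · rw [← hr, ← l]
    rfl
  · obtain ⟨V, v1, v2, v3⟩ := o2
    have od : IsOpen (e.toHomUnits.ker : Set G) :=
      Subgroup.isOpen_of_mem_nhds _ (g := 1) (Filter.mem_of_superset (v1.mem_nhds v2)
        fun g hg => Units.ext (Ideal.Quotient.eq.2 (v3 g hg)))
    rw [ker_set] at od ⊢
    convert o1.inter od using 1
    exact Set.ext fun g => Prod.ext_iff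
  · refine (mem g).2 (Prod.ext (hI g hg).1 ?_)
    show Ideal.Quotient.mk _ (d g) = 1
    rw [(hI g hg).2, map_one]

theorem fin_K [Finite F] (f : Fn π a lam) (hf : Finite (R ⧸ a)) (w : F → R)
    (hw : ∀ c, w c ∈ a ∧ lam (w c) = c) : Finite (R ⧸ f.K) := by
  choose o ho using Ideal.Quotient.mk_surjective (I := a)
  refine Finite.of_surjective
    (fun p : (R ⧸ a) × F => Ideal.Quotient.mk f.K (o p.1 + w p.2)) fun y => ?_
  obtain ⟨r, rfl⟩ := Ideal.Quotient.mk_surjective y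
  have m : r - o (Ideal.Quotient.mk a r) ∈ a := Ideal.Quotient.eq.1 (ho _).symm
  refine ⟨(Ideal.Quotient.mk a r, lam (r - o (Ideal.Quotient.mk a r))),
    (Ideal.Quotient.eq.2 ?_).symm⟩
  rw [← sub_sub]
  exact ⟨a.sub_mem m (hw _).1, by rw [f.sub m (hw _).1, (hw _).2, sub_self]⟩

/-- the change of the frames -/
theorem frm (f : Fn π a lam) (ha : ∀ x ∈ a, π x = 0) {α β M u v w : M2 R} {r : M2 F}
    (hα : α.map π = 1) (hβ : β.map π = 1) (hM : M.map π = r) (hu : ∀ i j, u i j ∈ a)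
    (hv : ∀ i j, v i j ∈ a) (hw : ∀ i j, w i j ∈ a)
    (e : v.map lam = u.map lam + w.map lam * r - r * w.map lam) :
    ((β + w) * (M + u) * (α - w)).map (Ideal.Quotient.mk f.K) =
      (β * (M + v) * α).map (Ideal.Quotient.mk f.K) := by
  have e1 : (β + w) * (M + u) * (α - w) - β * (M + v) * α =
      β * (u - v) * α + w * ((M + u) * (α - w)) - β * (M + u) * w := by noncomm_ring
  have m1 := memr (meml β (memsub hu hv)) α
  have m2 := memr hw ((M + u) * (α - w))
  have m3 := meml (β * (M + u)) hw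
  have p1 : (M + u).map π = r := by
    rw [Matrix.map_add _ (map_add π), hM, mapz ha hu, add_zero]
  have p2 : (α - w).map π = 1 := by
    rw [Matrix.map_sub _ (map_sub π), hα, mapz ha hw, sub_zero]
  rw [← mem_iff, e1]
  refine f.memK (memsub (memadd m1 m2) m3) ?_
  rw [f.subm (memadd m1 m2) m3, f.addm m1 m2, f.mulr (meml β (memsub hu hv)),
    f.mull β (memsub hu hv), f.subm hu hv, f.mulr hw, f.mull _ hw, Matrix.map_mul, Matrix.map_mul,
    p1, p2, hα, hβ, e]
  noncomm_ring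

variable {O T : Type} [CommRing O] [TopologicalSpace G] [IsTopologicalGroup G] {S : Dat O F G T}

/-- the normal form can be reached by a conjugation -/
theorem nrm (S : Dat O F G T) (c1 c2 c3 c4 : F) : ∃ m : M2 F,
    (m * S.rb S.g0 - S.rb S.g0 * m) 0 1 = c1 ∧ (m * S.rb S.g0 - S.rb S.g0 * m) 1 0 = c2 ∧
    (m * S.rb S.g1 - S.rb S.g1 * m) 0 1 = c3 ∧ m 0 0 = c4 := by
  have h1 := sub_ne_zero.2 S.dne
  have h2 := S.n01
  refine ⟨!![c4, -c1 / (S.rb S.g0 0 0 - S.rb S.g0 1 1); c2 / (S.rb S.g0 0 0 - S.rb S.g0 1 1),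
    c4 + (-c1 / (S.rb S.g0 0 0 - S.rb S.g0 1 1) * (S.rb S.g1 1 1 - S.rb S.g1 0 0) - c3) /
      S.rb S.g1 0 1], ?_, ?_, ?_, rfl⟩ <;>
  simp only [Matrix.sub_apply, Matrix.mul_apply, Fin.sum_univ_two, Matrix.of_apply,
    Matrix.cons_val', Matrix.cons_val_zero, Matrix.cons_val_one, Matrix.cons_val_fin_one, S.d01,
    S.d10] <;> field_simp <;> ring

/-- **the object defined by a trivialisation of the obstruction** -/
theorem Sec.up [Finite F] (h : Sec S.rb π a d s U) (f : Fn π a lam) (ι : O →+* R)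
    (hι : ∀ c, π (ι c) = S.red c) (hl : ∀ r, π r ≠ 0 → IsUnit r) (hf : Finite (R ⧸ a))
    (w : F → R) (hw : ∀ c, w c ∈ a ∧ lam (w c) = c) {I : Set G} (hU : Ad I U)
    (α β : T → M2 R) (i1 : ∀ t, α t * β t = 1) (i2 : ∀ t, (α t).map π = 1)
    (b : G → M2 F) (hb : A1 I b) (tr : ∀ g, (b g).trace = 0)
    (coc : ∀ g k, b (g * k) = b g + S.rb g * b k * S.rb g⁻¹ + zz S.rb s lam g k) (c : T → M2 F)
    (n1 : s S.g0 0 1 ∈ a ∧ lam (s S.g0 0 1) + (b S.g0 * S.rb S.g0) 0 1 = 0)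
    (n2 : s S.g0 1 0 ∈ a ∧ lam (s S.g0 1 0) + (b S.g0 * S.rb S.g0) 1 0 = 0)
    (n3 : s S.g1 0 1 - ι S.lam ∈ a ∧ lam (s S.g1 0 1 - ι S.lam) + (b S.g1 * S.rb S.g1) 0 1 = 0)
    (n4 : α S.l0 0 0 - 1 ∈ a ∧ lam (α S.l0 0 0 - 1) = c S.l0 0 0) :
    ∃ Y : Obj S (R ⧸ f.K), (∀ o, Y.ι o = Ideal.Quotient.mk _ (ι o)) ∧
      (∀ g, Y.ρ g = (s g + (b g * S.rb g).map w).map (Ideal.Quotient.mk _)) ∧
      (∀ t, Y.α t = (α t - (c t).map w).map (Ideal.Quotient.mk _)) ∧
      (∀ t, Y.β t = (β t + (c t).map w).map (Ideal.Quotient.mk _)) ∧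
      (∀ g, (Y.ρ g).det = Ideal.Quotient.mk _ (d g)) ∧ Unr Y I := by
  have m : ∀ (N : M2 F) i j, (N.map w) i j ∈ a := fun N i j => (hw _).1
  have e0 : ∀ N : M2 F, (N.map w).map lam = N := fun N => Matrix.ext fun i j => (hw _).2
  have e1 : ∀ g, ((b g * S.rb g).map w).map lam * S.rb g⁻¹ = b g := fun g => by
    rw [e0, mul_assoc, ri, mul_one]
  have one : ∀ g ∈ U, b g = 0 →
      (s g + (b g * S.rb g).map w).map (Ideal.Quotient.mk f.K) = 1 := fun g k z => by
    have : s g = 1 := by rw [← one_mul g, h.inv g k, h.one]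
    rw [← map_one' (Ideal.Quotient.mk f.K), ← mem_iff, this, add_sub_cancel_left]
    exact f.memK (m _) (by rw [e0, z, zero_mul])
  have z1 : b 1 = 0 := by
    have := coc 1 1
    rw [mul_one, inv_one, map_one, one_mul, mul_one, (h.zone f 1).1, add_zero] at this
    exact left_eq_add.1 this
  let ρ' : G →* M2 (R ⧸ f.K) :=
    ⟨⟨fun g => (s g + (b g * S.rb g).map w).map (Ideal.Quotient.mk _), one 1 U.one_mem z1⟩,
      fun g k => by
        rw [← Matrix.map_mul, eq_comm, ← mem_iff, h.mul f g k (m _) (m _) (m _), e1, e1, e1]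
        exact coc g k⟩
  obtain ⟨V, hV, v1⟩ := hb
  have v2 : ∀ g ∈ U ⊓ V, ρ' g = 1 := fun g hg => one g hg.1 (by
    rw [← one_mul g, v1 g hg.2, z1])
  have i3 : ∀ t, (β t).map π = 1 := fun t => by
    have := congrArg (fun M : M2 R => M.map π) (i1 t)
    simpa only [Matrix.map_mul, i2, one_mul, map_one'] using this
  have en : ∀ {x y : R} {c : F}, x - y ∈ a ∧ lam (x - y) + c = 0 →
      Ideal.Quotient.mk f.K (x + w c) = Ideal.Quotient.mk f.K y := fun {x y c} k =>
    Ideal.Quotient.eq.2 (by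
      rw [add_sub_right_comm]
      exact ⟨a.add_mem k.1 (hw c).1, by rw [f.add _ k.1 _ (hw c).1, (hw c).2, k.2]⟩)
  refine ⟨{ ι := (Ideal.Quotient.mk _).comp ι
            π := Ideal.Quotient.lift f.K π fun x hx => h.ker x hx.1
            ρ := ρ'
            α := fun t => (α t - (c t).map w).map (Ideal.Quotient.mk _)
            β := fun t => (β t + (c t).map w).map (Ideal.Quotient.mk _)
            fin := fin_K f hf w hw
            loc := fun y hy => ?_
            alg := hι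
            res := fun g => ?_
            opn := ?_
            dg := ⟨en (y := 0) (by rwa [sub_zero]), en (y := 0) (by rwa [sub_zero])⟩
            nm := en n3
            inv := fun t => ?_
            one := fun t => ?_
            fr := Ideal.Quotient.eq.2 ?_ }, fun _ => rfl, fun _ => rfl, fun _ => rfl,
    fun _ => rfl, fun g => ?_, fun g hg => v2 g ⟨hU.inc g hg, hV.inc g hg⟩⟩
  · obtain ⟨r, rfl⟩ := Ideal.Quotient.mk_surjective y
    exact (hl r hy).map _
  · show (s g + (b g * S.rb g).map w).map π = _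
    rw [Matrix.map_add _ (map_add π), h.red, mapz h.ker (m _), add_zero]
  · rw [← ker_set]
    exact Subgroup.isOpen_mono (H₁ := U ⊓ V) (fun g hg => Units.ext (v2 g hg))
      (hU.opn.inter hV.opn)
  · have z : ∀ i j, (0 : M2 R) i j ∈ a := fun _ _ => a.zero_mem
    have := frm f h.ker (i2 t) (i3 t) (map_one' π) z z (m (c t)) (by simp)
    rw [add_zero, mul_one, mul_one, mul_eq_one_comm.1 (i1 t), map_one', Matrix.map_mul] at this
    exact mul_eq_one_comm.1 this
  · show (α t - (c t).map w).map π = _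
    rw [Matrix.map_sub _ (map_sub π), i2, mapz h.ker (m _), sub_zero]
  · show α S.l0 0 0 - w (c S.l0 0 0) - 1 ∈ f.K
    rw [sub_right_comm]
    exact ⟨a.sub_mem n4.1 (hw _).1, by rw [f.sub n4.1 (hw _).1, (hw _).2, n4.2, sub_self]⟩
  · refine ((Ideal.Quotient.mk f.K).map_det _).symm.trans (Ideal.Quotient.eq.2 ?_)
    rw [h.tr f g (m _), e1]
    exact tr g

open MvPowerSeries in
/-- **the derivation** defined by two homomorphisms -/
theorem glob0 {σ : Type} [Fintype σ] {n : ℕ} (f : Fn π a lam) (ha : ∀ x ∈ a, π x = 0)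
    (i : MvPowerSeries (σ ⊕ Fin n) O →+* R) (hi : ∀ p, constantCoeff p = 0 → π (i p) = 0)
    (φ : MvPowerSeries (σ ⊕ Fin n) O →+* R ⧸ f.K)
    (hC : ∀ c, φ (C c) = Ideal.Quotient.mk _ (i (C c)))
    (hX : ∀ u, φ (X (.inl u)) = Ideal.Quotient.mk _ (i (X (.inl u))))
    (hd : ∀ p, ∃ y ∈ a, φ p = Ideal.Quotient.mk _ (i p + y)) :
    ∃ D : Fin n → F, ∀ p, ∀ y ∈ a, φ p = Ideal.Quotient.mk _ (i p + y) →
      lam y = ∑ k, π (i (C (coeff (Finsupp.single (Sum.inr k) 1) p))) * D k := by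
  choose y hy e using hd
  set μ := Ideal.Quotient.mk f.K with hμ
  have z : ∀ {p}, μ p = 0 ↔ p ∈ f.K := Ideal.Quotient.eq_zero_iff_mem
  have mem : ∀ {x}, x ∈ a.map μ ↔ ∃ p ∈ a, μ p = x :=
    Ideal.mem_map_iff_of_surjective μ Ideal.Quotient.mk_surjective
  have km : ∀ p, π p = 0 → ∀ x ∈ a.map μ, μ p * x = 0 := fun p hp x hx => by
    obtain ⟨q, hq, rfl⟩ := mem.1 hx
    exact z.2 (f.mulK (J := RingHom.ker π) (fun x hx => hx) (Ideal.mul_mem_mul hp hq))
  have e1 : ∀ p, φ p - (μ.comp i) p = μ (y p) := fun p => by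
    rw [e, map_add, RingHom.comp_apply, add_sub_cancel_left]
  have d1 := der (μ.comp i) φ (I := a.map μ) hC
    (fun p => e1 p ▸ Ideal.mem_map_of_mem _ (hy p))
    (fun x hx y hy => by
      obtain ⟨q, hq, rfl⟩ := mem.1 hx
      exact km q (ha q hq) y hy) fun p hp => km _ (hi p hp)
  refine ⟨fun k => lam (y (X (.inr k))), fun p u hu k => ?_⟩
  have e2 := d1 p
  rw [Fintype.sum_sum_type, Finset.sum_eq_zero fun t _ => by
    rw [hX, RingHom.comp_apply _ _ (X _), sub_self, mul_zero], zero_add] at e2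
  simp only [e1] at e2
  simp only [RingHom.comp_apply, ← map_mul, ← map_sum] at e2
  have m := fun t => a.mul_mem_left (i (C (coeff (Finsupp.single (Sum.inr t) 1) p)))
    (hy (X (.inr t)))
  have e3 : μ u = μ (y p) := by rw [← e1, k, map_add, RingHom.comp_apply, add_sub_cancel_left]
  have e4 := (Ideal.Quotient.eq.1 (e3.trans e2)).2
  rw [f.sub hu (a.sum_mem fun t _ => m t), f.sum _ _ m, sub_eq_zero] at e4
  rw [e4]
  exact Finset.sum_congr rfl fun t _ => f.mul _ _ (hy _)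

end Vale.Agent.P022K.RT.Pr
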