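import Vale.Agent.P022K.RT.PresB
import Vale.Agent.P022K.RT.Chart

/-!
# P022K, block RT, row PRES: the object over a quotient, local lifts, global lifts
-/

set_option linter.all false

noncomputable section

namespace Vale.Agent.P022K.RT.Pr

open IsLocalRing MvPowerSeries
open Vale.Agent.P022D.L2b (M2 mem_max_iff)
open Vale.Agent.P022D.CA (emb)
open Vale.Agent.P022K.GW (Ad A1 A2)
open Vale.Agent.P022G.Pres (Fn meml memr memadd memsub mem_iff mapz der)
open Vale.Agent.P022K.RU (Obj Dat Hom Unr ker_set opn_of_le map_one' Univ Closed exists_can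
  hom_map)

variable {O F G T : Type} [CommRing O] [IsLocalRing O] [Field F] [Group G] [TopologicalSpace G]
  [IsTopologicalGroup G]

/-- the residue map -/
def p0 (S : Dat O F G T) (σ : Type) (n : ℕ) : RU.PS O σ n →+* F := S.red.comp constantCoeff

section obj

variable {S : Dat O F G T} {σ : Type} {n : ℕ}

theorem red_iff (S : Dat O F G T) (c : O) : S.red c = 0 ↔ c ∈ maximalIdeal O := by
  rw [← IsLocalRing.eq_maximalIdeal (RingHom.ker_isMaximal_of_surjective _ S.surj)]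
  rfl

theorem p0_iff {p : RU.PS O σ n} : p0 S σ n p = 0 ↔ p ∈ maximalIdeal (RU.PS O σ n) :=
  (red_iff S _).trans (mem_max_iff p).symm

theorem p0_C (c : O) : p0 S σ n (C c) = S.red c := by simp [p0]

theorem p0_sur : Function.Surjective (p0 S σ n) := fun x => by
  obtain ⟨c, rfl⟩ := S.surj x
  exact ⟨C c, p0_C c⟩

theorem p0_ker : RingHom.ker (p0 S σ n) = maximalIdeal (RU.PS O σ n) := Ideal.ext fun _ => p0_iff

theorem fin_pow [IsNoetherianRing O] [Finite F] [Fintype σ] (S : Dat O F G T) (k : ℕ) :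
    Finite (RU.PS O σ n ⧸ maximalIdeal (RU.PS O σ n) ^ k) := by
  have : Finite (RU.PS O σ n ⧸ maximalIdeal (RU.PS O σ n)) := p0_ker (S := S) ▸
    Finite.of_injective _ (p0 S σ n).kerLift_injective
  exact Ideal.finite_quotient_pow (IsNoetherian.noetherian _) k

variable {D : RU.Cl S} {κ : RU.Crd S σ} {Φ : RU.Fam S σ n}

theorem ker_le {A : Type} [CommRing A] {X : Obj S A} (hX : D A X) {p : RU.PS O σ n}
    (hp : p ∈ kerU D Φ) : Φ A X p = 0 :=
  (sInf_le (s := {a | ∃ (A : Type) (_ : CommRing A) (X : RU.Obj S A), D A X ∧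
    a = RingHom.ker (Φ A X)}) ⟨A, _, X, hX, rfl⟩ : kerU D Φ ≤ RingHom.ker (Φ A X)) hp

theorem ex_obj [IsNoetherianRing O] [Finite F] [Fintype σ]
    (hO : IsAdicComplete (maximalIdeal O) O) (hD : Closed D) (hΦ : Univ D κ Φ)
    (ne : ∃ (A : Type) (_ : CommRing A) (X : Obj S A), D A X) (k : ℕ) {a : Ideal (RU.PS O σ n)}
    (h1 : kerU D Φ ⊔ maximalIdeal (RU.PS O σ n) ^ k ≤ a) (h2 : ∀ x ∈ a, p0 S σ n x = 0) :
    ∃ X : Obj S (RU.PS O σ n ⧸ a), D _ X ∧ ∀ p, Φ _ X p = Ideal.Quotient.mk a p := by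
  have := P022D.L2b.isAdicCompleteV (σ := σ ⊕ Fin n) (V := O) hO
  obtain ⟨_, ⟨A, _, X, hX, rfl⟩, h3⟩ := P022D.L2b.chevalley (maximalIdeal (RU.PS O σ n))
    (fin_pow S) {a | ∃ (A : Type) (_ : CommRing A) (X : RU.Obj S A), D A X ∧
      a = RingHom.ker (Φ A X)}
    (by obtain ⟨A, _, X, hX⟩ := ne; exact ⟨_, A, _, X, hX, rfl⟩)
    (by
      rintro _ ⟨A, _, X, hX, rfl⟩ _ ⟨B, _, Y, hY, rfl⟩
      obtain ⟨Z, u, u', -, b, c, d⟩ := exists_can X Y (RingHom.ker X.ev ⊓ RingHom.ker Y.ev)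
        fun w => Iff.rfl
      have hZ := hD.pull _ _ _ Z X Y u u' b c d hX hY
      exact ⟨_, ⟨_, _, Z, hZ, rfl⟩, fun p hp => by
          rw [RingHom.mem_ker, ← hΦ.nat _ _ Z X u hZ hX b, show Φ _ Z p = 0 from hp, map_zero],
        fun p hp => by
          rw [RingHom.mem_ker, ← hΦ.nat _ _ Z Y u' hZ hY c, show Φ _ Z p = 0 from hp, map_zero]⟩)
    (by
      rintro _ ⟨A, _, X, hX, rfl⟩
      obtain ⟨N, hN⟩ := X.nil
      refine ⟨N, ?_⟩
      rw [← Ideal.map_eq_bot_iff_le_ker, Ideal.map_pow, eq_bot_iff, ← hN]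
      refine Ideal.pow_right_mono (Ideal.map_le_iff_le_comap.2 fun p hp => ?_) N
      exact (hΦ.res A X hX p).trans (p0_iff.2 hp)) k
  obtain ⟨Z, u, u', e, b, c, d⟩ := exists_can X X (RingHom.ker X.ev) fun w =>
    ⟨fun h => ⟨h, h⟩, fun h => h.1⟩
  have hZ := hD.pull _ _ _ Z X X u u' b c d hX hX
  have sur : Function.Surjective (Φ _ Z) := fun y => by
    obtain ⟨w, rfl⟩ := Ideal.Quotient.mk_surjective y
    obtain ⟨f, hf⟩ := hΦ.gen w
    exact ⟨f, (hf _ Z hZ).trans (e w)⟩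
  let v := (Φ _ Z).liftOfSurjective sur ⟨Ideal.Quotient.mk a, fun p hp => by
    rw [Ideal.mk_ker]
    refine h1 (h3 ?_)
    rw [RingHom.mem_ker, ← hΦ.nat _ _ Z X u hZ hX b, show Φ _ Z p = 0 from hp, map_zero]⟩
  have hv : ∀ p, v (Φ _ Z p) = Ideal.Quotient.mk a p := fun p =>
    RingHom.liftOfRightInverse_comp_apply _ _ _ _ p
  have hf : Finite (RU.PS O σ n ⧸ a) :=
    have := fin_pow (σ := σ) (n := n) S k
    Finite.of_surjective _ (Ideal.Quotient.factor_surjective (le_sup_right.trans h1))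
  have k := hom_map Z v (Ideal.Quotient.lift a _ h2) hf
    (fun y hy => by
      obtain ⟨p, rfl⟩ := Ideal.Quotient.mk_surjective y
      exact (notMem_maximalIdeal.1 fun m => hy (p0_iff.2 m)).map _)
    fun y => by
      obtain ⟨p, rfl⟩ := sur y
      rw [hv, hΦ.res _ Z hZ]
      rfl
  have hY := hD.push _ _ _ _ v k hZ
  exact ⟨_, hY, fun p => (hΦ.nat _ _ _ _ v hZ hY k p).symm.trans (hv p)⟩

/-- the residual object -/
def res [Finite F] (S : Dat O F G T) (h1 : IsOpen {g | S.rb g = 1})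
    (h2 : S.red S.lam = S.rb S.g1 0 1) : Obj S F where
  ι := S.red
  π := RingHom.id F
  ρ := S.rb
  α _ := 1
  β _ := 1
  fin := inferInstance
  loc _ h := IsUnit.mk0 _ h
  alg _ := rfl
  res _ := rfl
  opn := h1
  dg := ⟨S.d01, S.d10⟩
  nm := h2.symm
  inv _ := mul_one _
  one _ := rfl
  fr := rfl

end obj

theorem Sec.map {R R' : Type} [CommRing R] [CommRing R'] {rb : G →* M2 F} {π : R →+* F}
    {a : Ideal R} {d : G → R} {s : G → M2 R} {U : Subgroup G} (h : Sec rb π a d s U)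
    (i : R →+* R') {π' : R' →+* F} {a' : Ideal R'} (h1 : ∀ p, π' (i p) = π p)
    (h2 : ∀ p ∈ a, i p ∈ a') (h3 : ∀ x ∈ a', π' x = 0) :
    Sec rb π' a' (fun g => i (d g)) (fun g => (s g).map i) U where
  ker := h3
  ob g k p q := by
    rw [← Matrix.map_mul, ← Matrix.map_sub _ (map_sub i)]
    exact h2 _ (h.ob g k p q)
  red g := by
    rw [← h.red]
    exact Matrix.ext fun p q => h1 _
  det g := by
    have := Ideal.mem_map_of_mem i (h.det g)
    rw [Ideal.map_mul, map_sub, RingHom.map_det] at this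
    refine Ideal.mul_mono (Ideal.map_le_iff_le_comap.2 fun p hp => ?_)
      (Ideal.map_le_iff_le_comap.2 h2) this
    exact (h1 p).trans hp
  dm g k := by rw [h.dm, map_mul]
  one := by rw [h.one, map_one']
  inv u hu g := by rw [h.inv u hu]

variable [Algebra O F] {L τ : T → Type} [∀ t, Group (L t)] [∀ t, TopologicalSpace (L t)]
  [∀ t, IsTopologicalGroup (L t)] (H : Ch O F G T L τ) {S : Dat O F G T} {n : ℕ}

/-- the inclusion of a local ring -/
def rn (τ : T → Type) (O : Type) [CommRing O] (n : ℕ) (t : T) :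
    MvPowerSeries (τ t) O →+* RU.PS O (Σ t, τ t) n :=
  (rename (R := O) (emb (Function.Embedding.inl (α := Σ t, τ t) (β := Fin n)) t)).toRingHom

/-- the ideal of the local equations -/
def J0 (n : ℕ) : Ideal (RU.PS O (Σ t, τ t) n) := sumI Function.Embedding.inl H.I

/-- the local lifts -/
def lt (α β : T → M2 (RU.PS O (Σ t, τ t) n)) (t : T) (y : L t) : M2 (RU.PS O (Σ t, τ t) n) :=
  α t * (H.c t).map C * (H.f t y).map (rn τ O n t) * ((H.c' t).map C * β t)

variable {H}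

theorem rn_mem {t : T} {u : MvPowerSeries (τ t) O} (h : u ∈ H.I t) : rn τ O n t u ∈ J0 H n :=
  (le_iSup (fun t => (H.I t).map (rename (R := O) (emb Function.Embedding.inl t))) t)
    (Ideal.mem_map_of_mem _ h)

theorem rn_C (t : T) (c : O) : rn τ O n t (C c) = C c := rename_C _ c

theorem rn_X (t : T) (u : τ t) : rn τ O n t (X u) = X (.inl ⟨t, u⟩) := rename_X _ u

theorem rn_pow {t : T} (k : ℕ) {u : MvPowerSeries (τ t) O} (h : u ∈ H.I t ⊔ maximalIdeal _ ^ k) :
    rn τ O n t u ∈ J0 H n ⊔ maximalIdeal _ ^ k := by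
  obtain ⟨x, hx, y, hy, rfl⟩ := Submodule.mem_sup.1 h
  rw [map_add]
  refine Submodule.add_mem_sup (rn_mem hx) ?_
  have := Ideal.mem_map_of_mem (rn τ O n t) hy
  rw [Ideal.map_pow] at this
  refine Ideal.pow_right_mono (Ideal.map_le_iff_le_comap.2 fun p hp => ?_) k this
  rw [Ideal.mem_comap, mem_max_iff, show constantCoeff (rn τ O n t p) = constantCoeff p from
    constantCoeff_rename _ p]
  exact (mem_max_iff p).1 hp

variable {α β : T → M2 (RU.PS O (Σ t, τ t) n)} {E : Set G}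

theorem lt_in (h : H.Ok S E) (i1 : ∀ t, α t * β t = 1) (t : T) :
    ((H.c' t).map C * β t) * (α t * (H.c t).map C) = 1 := by
  rw [mul_assoc, ← mul_assoc (β t), mul_eq_one_comm.1 (i1 t), one_mul, Ct.cc' h]

theorem lt_mul (h : H.Ok S E) (i1 : ∀ t, α t * β t = 1) (t : T) (y y' : L t) :
    ∀ i j, (lt H α β t y * lt H α β t y' - lt H α β t (y * y')) i j ∈ J0 H n := by
  have e : lt H α β t y * lt H α β t y' - lt H α β t (y * y') = -(α t * (H.c t).map C) *
      (H.f t (y * y') - H.f t y * H.f t y').map (rn τ O n t) * ((H.c' t).map C * β t) := by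
    rw [lt, lt, lt, Matrix.map_sub _ (map_sub _), Matrix.map_mul, mul_assoc _ (_ * β t),
      ← mul_assoc (_ * β t), ← mul_assoc (_ * β t), lt_in h i1, one_mul]
    noncomm_ring
  rw [e]
  exact memr (meml _ fun i j => rn_mem ((h.uni t).mul y y' i j)) _

theorem lt_det (h : H.Ok S E) (i1 : ∀ t, α t * β t = 1) (t : T) (y : L t) :
    (lt H α β t y).det - C (H.δ (H.j t y)) ∈ J0 H n := by
  have e := congrArg Matrix.det (lt_in h i1 t)
  rw [Matrix.det_mul, Matrix.det_one] at e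
  have m := rn_mem (n := n) ((h.uni t).det y)
  rw [map_sub, rn_C, RingHom.map_det, RingHom.mapMatrix_apply] at m
  rw [lt, Matrix.det_mul, Matrix.det_mul _ ((H.f t y).map _), mul_right_comm, mul_comm _ (Matrix.det
    (_ * β t)), e, one_mul]
  exact m

theorem lt_one (h : H.Ok S E) (i1 : ∀ t, α t * β t = 1) (t : T) (k : ℕ) {u : L t}
    (hu : Cg (H.I t ⊔ maximalIdeal _ ^ k) (H.f t u) 1) (y : L t) :
    ∀ i j, (lt H α β t (y * u) - lt H α β t y) i j ∈ J0 H n ⊔ maximalIdeal _ ^ k := by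
  have e : lt H α β t (y * u) - lt H α β t y = (α t * (H.c t).map C) *
      ((H.f t (y * u) - H.f t y * H.f t u).map (rn τ O n t) +
        (H.f t y).map (rn τ O n t) * (H.f t u - 1).map (rn τ O n t)) *
          ((H.c' t).map C * β t) := by
    rw [lt, lt, Matrix.map_sub _ (map_sub _), Matrix.map_sub _ (map_sub _), Matrix.map_mul,
      map_one']
    noncomm_ring
  rw [e]
  exact memr (meml _ (memadd
    (fun i j => Ideal.mem_sup_left (rn_mem ((h.uni t).mul y u i j)))
    (meml _ fun i j => rn_pow k (hu i j)))) _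

theorem lt_back (h : H.Ok S E) (i1 : ∀ t, α t * β t = 1) (t : T) (y : L t) :
    (H.c' t).map C * (β t * lt H α β t y * α t) * (H.c t).map C =
      (H.f t y).map (rn τ O n t) := by
  calc _ = ((H.c' t).map C * β t) * (α t * (H.c t).map C) * (H.f t y).map (rn τ O n t) *
        (((H.c' t).map C * β t) * (α t * (H.c t).map C)) := by simp only [lt, mul_assoc]
    _ = _ := by rw [lt_in h i1, one_mul, mul_one]

end Vale.Agent.P022K.RT.Pr
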