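import Vale.Agent.P022K.RT.PresC

/-!
# P022K, block RT, row PRES: the vanishing of the obstruction
-/

set_option linter.all false

noncomputable section

namespace Vale.Agent.P022K.RT.Pr

open IsLocalRing MvPowerSeries
open Vale.Agent.P022D.L2b (M2 mem_max_iff)
open Vale.Agent.P022K.GW (Ad A1 A2)
open Vale.Agent.P022G.Pres (Fn meml memr memadd memsub mem_iff mapz der)
open Vale.Agent.P022K.RU (Obj Dat Hom Unr ker_set opn_of_le map_one' Univ Closed Ty)
open TrivSqZeroExt (inl inr inlHom fstHom)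

variable {O F G T : Type} [CommRing O] [IsDomain O] [IsDiscreteValuationRing O] [PL.Cf O]
  [Field F] [Finite F] [Group G] [TopologicalSpace G] [IsTopologicalGroup G] [Algebra O F]
  {L τ : T → Type} [∀ t, Group (L t)] [∀ t, TopologicalSpace (L t)]
  [∀ t, IsTopologicalGroup (L t)] [Fintype T] [∀ t, Fintype (τ t)]

/-- the linear term in the free variables -/
def dl (S : Dat O F G T) {σ : Type} {n : ℕ} (D : Fin n → F) (p : RU.PS O σ n) : F :=
  ∑ k, S.red (coeff (Finsupp.single (Sum.inr k) 1) p) * D k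

/-- the lifted data -/
structure Lf (H : Ch O F G T L τ) (S : Dat O F G T) (I : Set G) {n : ℕ}
    (Φ : RU.Fam S (Σ t, τ t) n) (a : Ideal (RU.PS O (Σ t, τ t) n))
    (X : Obj S (RU.PS O (Σ t, τ t) n ⧸ a)) (s : G → M2 (RU.PS O (Σ t, τ t) n)) (U : Subgroup G)
    (α β : T → M2 (RU.PS O (Σ t, τ t) n)) : Prop where
  ok : H.Ok S Set.univ
  uni : Univ (Ty (H.C S Set.univ) I) (H.κ S) Φ
  cl : Ty (H.C S Set.univ) I _ X
  ev : ∀ p, Φ _ X p = Ideal.Quotient.mk a p
  sec : Sec S.rb (p0 S _ n) a (fun x => C (H.δ x)) s U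
  ad : Ad I U
  ls : ∀ x, (s x).map (Ideal.Quotient.mk a) = X.ρ x
  i1 : ∀ t, α t * β t = 1
  lα : ∀ t, (α t).map (Ideal.Quotient.mk a) = X.α t

variable {H : Ch O F G T L τ} {S : Dat O F G T} {I : Set G} {n : ℕ}
  {Φ : RU.Fam S (Σ t, τ t) n} {a : Ideal (RU.PS O (Σ t, τ t) n)}
  {X : Obj S (RU.PS O (Σ t, τ t) n ⧸ a)} {s : G → M2 (RU.PS O (Σ t, τ t) n)} {U : Subgroup G}
  {α β : T → M2 (RU.PS O (Σ t, τ t) n)}

theorem Lf.ι (h : Lf H S I Φ a X s U α β) (c : O) : X.ι c = Ideal.Quotient.mk a (C c) :=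
  (h.uni.cst _ X h.cl c).symm.trans (h.ev _)

theorem Lf.π (h : Lf H S I Φ a X s U α β) (p) : X.π (Ideal.Quotient.mk a p) = p0 S _ n p :=
  h.ev p ▸ h.uni.res _ X h.cl p

theorem Lf.lβ (h : Lf H S I Φ a X s U α β) (t : T) :
    (β t).map (Ideal.Quotient.mk a) = X.β t := by
  have h1 : X.α t * (β t).map (Ideal.Quotient.mk a) = 1 := by
    rw [← h.lα, ← Matrix.map_mul, h.i1, map_one']
  rw [← one_mul ((β t).map _), ← X.inv' t, mul_assoc, h1, mul_one]

theorem Lf.α1 (h : Lf H S I Φ a X s U α β) (t : T) : (α t).map (p0 S _ n) = 1 := by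
  rw [← X.one t, ← h.lα]
  exact Matrix.ext fun i j => (h.π _).symm

theorem Lf.β1 (h : Lf H S I Φ a X s U α β) (t : T) : (β t).map (p0 S _ n) = 1 := by
  rw [← X.oneβ t, ← h.lβ]
  exact Matrix.ext fun i j => (h.π _).symm

theorem Lf.ker (h : Lf H S I Φ a X s U α β) : kerU (Ty (H.C S Set.univ) I) Φ ≤ a := fun p hp =>
  Ideal.Quotient.eq_zero_iff_mem.1 ((h.ev p).symm.trans (ker_le h.cl hp))

theorem J0_le (h : H.Ok S Set.univ) (hΦ : Univ (Ty (H.C S Set.univ) I) (H.κ S) Φ) :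
    J0 H n ≤ kerU (Ty (H.C S Set.univ) I) Φ := by
  refine iSup_le fun t => Ideal.map_le_iff_le_comap.2 fun u hu => ?_
  refine Ideal.mem_comap.2 (Submodule.mem_sInf.2 ?_)
  rintro _ ⟨A, _, Y, hY, rfl⟩
  exact ((chart O F G T L τ H S _ h).2.2 I n Φ hΦ A Y hY t).1 u hu

theorem Lf.loc (h : Lf H S I Φ a X s U α β) (t : T) (y : L t) :
    ∀ i j, (lt H α β t y - s (H.j t y)) i j ∈ a := by
  have e : ∀ M : M2 O, (M.map C).map (Ideal.Quotient.mk a) = M.map X.ι := fun M =>
    Matrix.ext fun i j => (h.ι _).symm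
  have e1 : ((H.f t y).map (rn τ O n t)).map (Ideal.Quotient.mk a) = H.lr X t y :=
    Matrix.ext fun i j => (h.ev _).symm.trans
      (((chart O F G T L τ H S _ h.ok).2.2 I n Φ h.uni _ X h.cl t).2 y i j)
  rw [mem_iff, h.ls, lt]
  simp only [Matrix.map_mul, e, e1, h.lα, h.lβ, Ch.lr, mul_assoc]
  rw [← mul_assoc ((H.c t).map X.ι), Ct.cc h.ok, one_mul, ← mul_assoc (X.α t), X.inv, one_mul,
    ← mul_assoc ((H.c t).map X.ι), Ct.cc h.ok, one_mul, X.inv, mul_one]

/-- **the vanishing of the obstruction** -/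
theorem Lf.glob (h : Lf H S I Φ a X s U α β) {lam : RU.PS O (Σ t, τ t) n → F}
    (f : Fn (p0 S _ n) a lam) (hJ : J0 H n ≤ f.K) (fρ : G → M2 (RU.PS O (Σ t, τ t) n))
    (fα : T → M2 (RU.PS O (Σ t, τ t) n))
    (hρ : ∀ (A : Type) [CommRing A] (Y : Obj S A), Ty (H.C S Set.univ) I A Y →
      ∀ g i j, Φ A Y (fρ g i j) = Y.ρ g i j)
    (hα : ∀ (A : Type) [CommRing A] (Y : Obj S A), Ty (H.C S Set.univ) I A Y →
      ∀ t i j, Φ A Y (fα t i j) = Y.α t i j)
    (b : G → M2 F) (hb : A1 I b) (tr : ∀ g, (b g).trace = 0)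
    (coc : ∀ g k, b (g * k) = b g + S.rb g * b k * S.rb g⁻¹ + zz S.rb s lam g k) (c : T → M2 F)
    (loc : ∀ t y, (lt H α β t y - s (H.j t y)).map lam * S.rb (H.j t y)⁻¹ =
      b (H.j t y) + c t - S.rb (H.j t y) * c t * S.rb (H.j t y)⁻¹) :
    ∃ (D : Fin n → F) (m : M2 F), (∀ j ∈ kerU (Ty (H.C S Set.univ) I) Φ, lam j = -dl S D j) ∧
      (∀ g, b g = ((fρ g).map (dl S D) - (s g - fρ g).map lam) * S.rb g⁻¹ -
        (m - S.rb g * m * S.rb g⁻¹)) ∧
      ∀ t, c t = (α t - fα t).map lam - (fα t).map (dl S D) + m := by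
  obtain ⟨m, m1, m2, m3, m4⟩ := nrm S (-(lam (s S.g0 0 1) + (b S.g0 * S.rb S.g0) 0 1))
    (-(lam (s S.g0 1 0) + (b S.g0 * S.rb S.g0) 1 0))
    (-(lam (s S.g1 0 1 - C S.lam) + (b S.g1 * S.rb S.g1) 0 1))
    (c S.l0 0 0 - lam (α S.l0 0 0 - 1))
  let i : RU.PS O (Σ t, τ t) n →+* DualNumber (RU.PS O (Σ t, τ t) n) := inlHom _ _
  let q : DualNumber (RU.PS O (Σ t, τ t) n) →+* RU.PS O (Σ t, τ t) n :=
    (fstHom (RU.PS O (Σ t, τ t) n) _ _).toRingHom
  let π' := (p0 S _ n).comp q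
  let a' := a.comap q
  let Λ : DualNumber (RU.PS O (Σ t, τ t) n) → F := fun r => lam r.fst + p0 S _ n r.snd
  have f' : Fn π' a' Λ := ⟨fun x hx y hy => by
      show lam (x.fst + y.fst) + p0 S _ n (x.snd + y.snd) = _
      rw [f.add x.fst hx y.fst hy, map_add]
      simp only [Λ]
      ring,
    fun r x hx => by
      show lam (r.fst * x.fst) + p0 S _ n (r * x).snd = p0 S _ n r.fst * (_ + _)
      rw [f.mul r.fst x.fst hx, DualNumber.snd_mul, map_add, map_mul, map_mul,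
        h.sec.ker x.fst hx]
      ring⟩
  have Λi : ∀ p, Λ (i p) = lam p := fun p => by
    show lam p + p0 S _ n 0 = _
    rw [map_zero, add_zero]
  have Λm : ∀ M : M2 (RU.PS O (Σ t, τ t) n), (M.map i).map Λ = M.map lam := fun M =>
    Matrix.ext fun _ _ => Λi _
  let w : F → DualNumber (RU.PS O (Σ t, τ t) n) := fun x => inr (C (H.s x))
  have hw : ∀ x, w x ∈ a' ∧ Λ (w x) = x := fun x => ⟨a.zero_mem, by
    show lam 0 + p0 S _ n (C (H.s x)) = x
    rw [f.zero, zero_add, p0_C, h.ok.red, h.ok.sec]⟩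
  have wm : ∀ (N : M2 F) k l, (N.map w) k l ∈ a' := fun N _ _ => (hw _).1
  have we : ∀ N : M2 F, (N.map w).map Λ = N := fun N => Matrix.ext fun _ _ => (hw _).2
  have ka : ∀ x ∈ a', π' x = 0 := fun x hx => h.sec.ker _ hx
  have sec := h.sec.map i (π' := π') (a' := a') (fun _ => rfl) (fun _ hp => hp) ka
  let b' : G → M2 F := fun g => b g + (m - S.rb g * m * S.rb g⁻¹)
  have eb : ∀ g, b' g * S.rb g = b g * S.rb g + (m * S.rb g - S.rb g * m) := fun g => by
    simp only [b', add_mul, sub_mul, mul_assoc, ri', mul_one]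
  have mq : ∀ {x y}, Ideal.Quotient.mk a x = Ideal.Quotient.mk a y → x - y ∈ a :=
    Ideal.Quotient.eq.1
  have sq : ∀ g k l, Ideal.Quotient.mk a (s g k l) = X.ρ g k l := fun g k l =>
    congrFun (congrFun (h.ls g) k) l
  have aq : ∀ t k l, Ideal.Quotient.mk a (α t k l) = X.α t k l := fun g k l =>
    congrFun (congrFun (h.lα g) k) l
  obtain ⟨Y, y1, y2, y3, y4, y5, y6⟩ := sec.up f' (i.comp C) p0_C
    (fun r hr => TrivSqZeroExt.isUnit_iff_isUnit_fst.2
      (notMem_maximalIdeal.1 fun k => hr (p0_iff.2 k)))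
    (have := X.fin; Finite.of_injective _ (Ideal.quotientMap_injective (I := a) (f := q)))
    w hw h.ad (fun t => (α t).map i) (fun t => (β t).map i)
    (fun t => by rw [← Matrix.map_mul, h.i1, map_one']) h.α1 b'
    (by
      obtain ⟨V, hV, v⟩ := hb
      exact ⟨V ⊓ U, hV.inf h.ad, fun u hu g => by
        simp only [b', v u hu.1, h.sec.rinv hu.2, map_mul S.rb g, h.sec.rb1 hu.2, mul_one]⟩)
    (fun g => by
      simp only [b', Matrix.trace_add, Matrix.trace_sub, tr]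
      rw [Matrix.trace_mul_cycle, ri', one_mul, sub_self, add_zero])
    (fun g k => by
      have : zz S.rb (fun g => (s g).map i) Λ g k = zz S.rb s lam g k := by
        rw [zz, zz, ← Matrix.map_mul, ← Matrix.map_sub _ (map_sub i), Λm]
      simp only [this, b', coc, mul_inv_rev, map_mul]
      noncomm_ring)
    (fun t => c t - m)
    ⟨(Ideal.Quotient.eq_zero_iff_mem (I := a)).1 ((sq _ _ _).trans X.dg.1), by
      rw [eb, Matrix.add_apply, m1, Matrix.map_apply, Λi]; ring⟩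
    ⟨(Ideal.Quotient.eq_zero_iff_mem (I := a)).1 ((sq _ _ _).trans X.dg.2), by
      rw [eb, Matrix.add_apply, m2, Matrix.map_apply, Λi]; ring⟩
    ⟨mq ((sq _ _ _).trans (X.nm.trans (h.ι _))), by
      rw [eb, Matrix.add_apply, m3, Matrix.map_apply, RingHom.comp_apply, ← map_sub, Λi]; ring⟩
    ⟨mq ((aq _ _ _).trans X.fr), by
      rw [Matrix.sub_apply, m4, Matrix.map_apply, ← map_one i, ← map_sub, Λi]; ring⟩
  have hY : Ty (H.C S Set.univ) I _ Y := ⟨fun x _ => (y5 x).trans (y1 _).symm, y6⟩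
  let u : DualNumber (RU.PS O (Σ t, τ t) n) ⧸ f'.K →+* RU.PS O (Σ t, τ t) n ⧸ a :=
    Ideal.Quotient.lift _ ((Ideal.Quotient.mk a).comp q) fun x hx =>
      Ideal.Quotient.eq_zero_iff_mem.2 hx.1
  have hu : Hom Y X u := ⟨fun o => by rw [y1, h.ι]; rfl,
    fun g => by
      rw [y2, ← h.ls]
      exact Matrix.ext fun k l => congrArg (Ideal.Quotient.mk a) (add_zero (s g k l)),
    fun t => by
      rw [y3, ← h.lα]
      exact Matrix.ext fun k l => congrArg (Ideal.Quotient.mk a) (sub_zero (α t k l))⟩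
  have lr : ∀ t y, H.lr Y t y =
      (((H.f t y).map (rn τ O n t)).map i).map (Ideal.Quotient.mk f'.K) := fun t y => by
    have e : ∀ M : M2 O, M.map Y.ι = ((M.map C).map i).map (Ideal.Quotient.mk f'.K) := fun M =>
      Matrix.ext fun _ _ => y1 _
    have e1 := frm f' ka (α := (α t).map i) (β := (β t).map i) (M := (s (H.j t y)).map i)
      (v := (lt H α β t y - s (H.j t y)).map i) (h.α1 t) (h.β1 t) (h.sec.red _)
      (wm (b' (H.j t y) * S.rb (H.j t y))) (h.loc t y) (wm (c t - m)) (by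
        have := congrArg (· * S.rb (H.j t y)) (loc t y)
        simp only [mul_assoc, ri', mul_one, add_mul, sub_mul] at this
        rw [Λm, we, we, this, eb]
        noncomm_ring)
    rw [← Matrix.map_add _ (map_add i), add_sub_cancel, Matrix.map_mul, Matrix.map_mul] at e1
    rw [Ch.lr, y2, y3, y4, e1, e, e, ← lt_back h.ok h.i1]
    simp only [Matrix.map_mul]
  obtain ⟨D, hD⟩ := glob0 f' ka i (fun p hp => by
      show S.red (constantCoeff p) = 0
      rw [hp, map_zero]) (Φ _ Y) (fun o => (h.uni.cst _ Y hY o).trans (y1 o))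
    (fun v => by
      rw [h.uni.crd _ Y hY, Ch.κ, lr, y1, Matrix.map_apply, ← map_sub, Ideal.Quotient.eq,
        Matrix.map_apply, RingHom.comp_apply, ← map_sub, ← map_sub]
      have k := hJ (rn_mem ((h.ok.uni v.1).crd v.2))
      rw [map_sub, map_sub, rn_C, rn_X] at k
      exact ⟨k.1, (Λi _).trans k.2⟩)
    fun p => by
      obtain ⟨r, hr⟩ := Ideal.Quotient.mk_surjective (Φ _ Y p)
      refine ⟨r - i p, mq ?_, by rw [add_sub_cancel, hr]⟩
      have := h.uni.nat _ _ Y X u hY h.cl hu p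
      rw [← hr, h.ev] at this
      exact this
  have hD' : ∀ p, ∀ y ∈ a', Φ _ Y p = Ideal.Quotient.mk _ (i p + y) → Λ y = dl S D p :=
    fun p y hy e => (hD p y hy e).trans (Finset.sum_congr rfl fun k _ =>
      congrArg (· * D k) (p0_C _))
  refine ⟨D, m, fun j hj => ?_, fun g => ?_, fun t => ?_⟩
  · have := hD' j (i (-1 * j)) (a.mul_mem_left _ (h.ker hj)) (by
      rw [ker_le hY hj, ← map_add, neg_one_mul, add_neg_cancel, map_zero, map_zero])
    rw [Λi, f.mul _ _ (h.ker hj), map_neg, map_one] at this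
    rw [← this]
    ring
  · have e : (s g - fρ g).map lam + b' g * S.rb g = (fρ g).map (dl S D) :=
      Matrix.ext fun k l => by
        have k1 : s g k l - fρ g k l ∈ a :=
          mq ((sq g k l).trans ((hρ _ X h.cl g k l).symm.trans (h.ev _)))
        have := hD' (fρ g k l) (i (s g k l - fρ g k l) + w ((b' g * S.rb g) k l))
          (a'.add_mem k1 (hw _).1) (by
            rw [hρ _ Y hY, y2, map_sub, ← add_assoc, add_sub_cancel]; rfl)
        rwa [f'.add _ k1 _ (hw _).1, Λi, (hw _).2] at this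
    rw [← e, add_sub_cancel_left, mul_assoc, ri, mul_one, add_sub_cancel_right]
  · have e : (α t - fα t).map lam - (c t - m) = (fα t).map (dl S D) :=
      Matrix.ext fun k l => by
        have k1 : α t k l - fα t k l ∈ a :=
          mq ((aq t k l).trans ((hα _ X h.cl t k l).symm.trans (h.ev _)))
        have := hD' (fα t k l) (i (α t k l - fα t k l) - w ((c t - m) k l))
          (a'.sub_mem k1 (hw _).1) (by
            rw [hα _ Y hY, y3, map_sub, ← add_sub_assoc, add_sub_cancel]; rfl)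
        rwa [f'.sub k1 (hw _).1, Λi, (hw _).2] at this
    rw [← e]
    abel

end Vale.Agent.P022K.RT.Pr
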