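import Vale.Agent.P022K.RT.St

/-!
# P022K, block RT: the places and the count over `ℚ`. The row.
-/

set_option linter.all false

noncomputable section

namespace Vale.Agent.P022K.RT

open Vale.Agent.P022 Vale.Agent.P022.C
open Vale.Agent.P022.H443 (inP)
open Vale.Agent.P022D.W (dec)
open Vale.Agent.P022E.GW (Ov)
open Vale.Agent.P022K.GW (Id Cy up Adq Zc H2 ad0)

/-- **row QN**: the places and the count -/
def QN : Prop := ∀ (p : ℕ) [Fact p.Prime] (F : Type) [Field F] [Finite F] [CharP F p]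
  (S : Finset ℕ) (P : S → Id) (ρ ρ' : GQ →* GL (Fin 2) F) (k : GL (Fin 2) F), p ∈ S →
  (∀ l : S, Ov l (P l)) → (∀ g, ρ' g = k * ρ g * k⁻¹) → IsOpen {x | ρ x = 1} →
  (∀ c, IsConj c → (ρ c).1.det = -1) →
  (p ≠ 2 → ∃ ω : GQ →* (ZMod p)ˣ, Cy (MonoidHom.id GQ) p ω ∧ Adq ρ (up ω)) →
  (p = 2 → ¬ IsSolvable ρ.range ∧ ∀ g, (ρ g).1.det = 1) →
  ∃ (β γ X : Type) (_ : Fintype β) (_ : Fintype γ) (l : β → ℕ) (Q : β → Id) (c : γ → GQ)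
    (π : GQ →* Equiv.Perm X) (x : S ⊕ β ⊕ γ → X) (I : Set GQ),
    (∀ b, l b ∉ S ∧ Ov (l b) (Q b)) ∧ (∀ i, p = 2 ∧ IsConj (c i) ∧ c i * c i = 1 ∧ c i ≠ 1) ∧
    Rp π x (Sum.elim (fun l => (dec (P l) : Set GQ))
      (Sum.elim (fun b => (dec (Q b) : Set GQ)) fun i => {1, c i})) ∧
    (∀ g, g ∈ I ↔ ∃ l' Q', l' ∉ S ∧ (∀ b, l b ≠ l') ∧ Ov l' Q' ∧ g ∈ inP Q') ∧
    Module.Finite F (Zc π I (ad0 ρ')) ∧ Module.Finite F (H2 π I (ad0 ρ')) ∧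
    Module.finrank F (H2 π I (ad0 ρ')) + 2 + Fintype.card γ ≤ Module.finrank F (Zc π I (ad0 ρ'))

end Vale.Agent.P022K.RT
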