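import Vale.Agent.P022K.RT.Qw
import Vale.Agent.P022K.RT.QbSt
import Vale.Agent.P022K.RT.QnSt
import Vale.Agent.P022K.RT.Unrb
import Vale.Agent.P022K.RT.Z1b
import Vale.Agent.P022K.RT.Infp
import Vale.Agent.P022K.Top.Eg
import Vale.Agent.P022K.G2.Adp
import Vale.Agent.P022K.GW.Pl

/-!
# P022K, block RT, row QB: existence of lifts over `ℚ` with local conditions
-/

set_option linter.all false

noncomputable section

namespace Vale.Agent.P022K.RT

open IsLocalRing MvPowerSeries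
open Vale.Agent.P022 Vale.Agent.P022.C
open Vale.Agent.P022.H443 (inP)
open Vale.Agent.P022D.L2b (M2)
open Vale.Agent.P022D.Core (PS)
open Vale.Agent.P022D.PA (Base)
open Vale.Agent.P022D.W (dec)
open Vale.Agent.P022E.GW (Ov)
open Vale.Agent.P022K.PL (Cf)
open Vale.Agent.P022K.GW (Id)
open Vale.Agent.P022K.Top (cy)
open scoped Pointwise

namespace Qw

theorem lc {G F : Type} [Group G] [TopologicalSpace G] [IsTopologicalGroup G] [Field F]
    {ρ : G →* GL (Fin 2) F} (h : IsOpen {g | ρ g = 1}) :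
    IsLocallyConstant ((Units.coeHom (M2 F)).comp ρ) := by
  refine (IsLocallyConstant.iff_exists_open _).2 fun x =>
    ⟨(fun y => x⁻¹ * y) ⁻¹' {g | ρ g = 1}, h.preimage (by fun_prop), by simp, fun y hy => ?_⟩
  have e : ρ y = ρ x := by
    rw [← mul_inv_cancel_left x y, map_mul, show ρ (x⁻¹ * y) = 1 from hy, mul_one]
  exact congrArg Units.val e

theorem cy_cj {p : ℕ} [Fact p.Prime] {O : Type} [CommRing O] [Algebra ℤ_[p] O] {c : GQ}
    (h : IsConj c) : cy p O c = -1 := by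
  have : (CH.ez p c : ℤ_[p]) = -1 := CH.zc_inj (by
    rw [← CH.eps_eq, CH.eps_conj h, map_neg, map_one])
  rw [Top.cy_eq, this, map_neg, map_one]

theorem mp_one {O R A : Type} [CommRing O] [CommRing R] [CommRing A] [Algebra O R] [Algebra O A]
    (w : R →ₐ[O] A) {m : M2 R} (h : ∀ u v, w ((m - 1) u v) = 0) : m.map w = 1 := by
  rw [← Matrix.map_one w (map_zero w) (map_one w)]
  exact Matrix.ext fun u v => sub_eq_zero.1 ((map_sub w _ _).symm.trans (h u v))

variable {O F : Type} [CommRing O] [IsDomain O] [IsDiscreteValuationRing O] [Cf O] [Field F]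
  [Finite F] [Algebra O F] {r : GQ →* M2 F} {s : F → O} {d : GQ →* O}

/-- the unramified chart at an auxiliary prime -/
theorem ex_fin (hr : IsLocallyConstant r) (hs : ∀ x, algebraMap O F (s x) = x)
    (hd : ∀ x, algebraMap O F (d x) = (r x).det) (cd : Cd d) {l : ℕ} {P : Id} (o : Ov l P)
    (hl : (l : F) ≠ 0) (hi : ∀ i ∈ inP P, r i = 1 ∧ d i = 1) :
    ∃ x : Bc GQ O, x.Ok r s d ∧ x.D = dec P ∧ x.k = 3 ∧ Par x.J 3 ∧
      ∀ i : x.D, i.1 ∈ inP P → ∀ a b, (x.f i - 1) a b ∈ x.J := by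
  have hr' : IsLocallyConstant (r.comp (dec P).subtype) := hr.comp_continuous continuous_subtype_val
  obtain ⟨⟨n, g, a, b, tn⟩, -⟩ := z1l F l P _ o hl hr'
  obtain ⟨⟨I, f, hU⟩, -⟩ := lu (dec P) F O (Fin n) _ s (d.comp (dec P).subtype) g a b hr' hs
    (fun x => hd x.1) tn
  exact ⟨⟨dec P, Fin n, g, a, b, I, f, _, 3⟩, ⟨G2.dec_closed P, tn, hU, le_sup_left⟩, rfl, rfl,
    unrb F O (Fin n) l P _ s (d.comp (dec P).subtype) g a b I f o hr' hs (fun x => hd x.1)
      (Sy.Cd.comp cd continuous_subtype_val) hU fun i k => hi i.1 k,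
    fun i k a b => Ideal.mem_sup_right (Ideal.subset_span ⟨i, a, b, k, rfl⟩)⟩

/-- the chart at infinity -/
theorem ex_inf [CharP F 2] [CharZero O] (hs : ∀ x, algebraMap O F (s x) = x) {c : GQ}
    (hc : c * c = 1) (hr : (r c).det = 1) (hd : d c = -1) :
    ∃ x : Bc GQ O, x.Ok r s d ∧ (x.D : Set GQ) = {1, c} ∧ x.k = 2 ∧ Par x.J 2 := by
  let D : Subgroup GQ :=
    { carrier := {1, c}
      one_mem' := Or.inl rfl
      mul_mem' := by
        rintro _ _ (rfl | rfl) (rfl | rfl)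
        exacts [Or.inl (one_mul _), Or.inr (one_mul _), Or.inr (mul_one _), Or.inl hc]
      inv_mem' := by
        rintro _ (rfl | rfl)
        exacts [Or.inl inv_one, Or.inr (inv_eq_of_mul_eq_one_right hc)] }
  have := H443.galQb
  have fi : (D : Set GQ).Finite := Set.toFinite ({1, c} : Set GQ)
  have : Finite D := fi
  obtain ⟨g, a, b, I, f, tn, hU, hp⟩ := infp (r.comp D.subtype) s (fun x => d x.1) ⟨c, Or.inr rfl⟩
    (fun x => x.2.imp Subtype.ext Subtype.ext) (Subtype.ext hc) hr d.map_one hd hs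
  exact ⟨⟨D, Fin 3, g, a, b, I, f, I, 2⟩, ⟨fi.isClosed, tn, hU, le_rfl⟩, rfl, rfl, hp⟩

end Qw

open Qw Nf in
/-- **row QB** from the places and the count -/
theorem qb_of (qn : QN) : QB := by
  intro p hp' O F _ _ _ _ _ _ _ _ _ _ S hp ρ s P τ _ g a b I J f hs opn det spl unr odd two ov tn
    uni le pr sat dim par fin
  classical
  have d2 : p = 2 → ∀ g, (ρ g).1.det = 1 := by
    rintro rfl g
    exact (det g).trans (Sy.co_two g)
  obtain ⟨N, c, c', nm⟩ : ∃ (N : RU.Dat O F GQ Unit) (c c' : M2 O), Nm ρ N c c' := by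
    have h1 : Function.Surjective (algebraMap O F) := fun x => ⟨s x, hs x⟩
    have h2 : ∀ c, algebraMap O F c ≠ 0 → IsUnit c := fun c h =>
      by_contra fun k => h ((Sy.ker_eq hs c).2 k)
    by_cases e : p = 2
    · subst e
      obtain ⟨N, c, c', h, -⟩ := nm_ns h1 h2 () ρ spl (two rfl) (d2 rfl)
      exact ⟨N, c, c', h⟩
    · obtain ⟨ω, -, k⟩ := odd e
      obtain ⟨N, c, c', h, -⟩ := nm_adq h1 h2 () ρ spl k
      exact ⟨N, c, c', h⟩
  let k : GL (Fin 2) F := ⟨c.map N.red, c'.map N.red, nm.cc, nm.cc'⟩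
  obtain ⟨β, γ, Y, _, _, l, Q, σ, π, x, U, q1, q2, q3, q4, q5, q6, q7⟩ := qn p F S P ρ
    ((MulAut.conj k).toMonoidHom.comp ρ) k hp ov (fun _ => rfl) opn
    (fun c hc => by rw [det, cy_cj hc, map_neg, map_one]) odd fun e => ⟨two e, d2 e⟩
  have cd : Cd (Sy.co p O) := Sy.cd_co (Sy.p_mem hs p)
  have ui : ∀ l ∉ S, ∀ Q, Ov l Q → ∀ i ∈ inP Q, ρ i = 1 ∧ Sy.co p O i = 1 :=
    fun l hl Q o i hi => ⟨unr l hl Q o i hi, Top.cy_inert o (fun e => hl (e ▸ hp)) hi⟩
  choose B1 b1 b2 b3 b4 b5 using fun t => ex_fin (d := Sy.co p O) (lc opn) hs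
    (fun x => (det x).symm) cd (q1 t).2 (fun e => (q1 t).1 (((Nat.prime_dvd_prime_iff_eq hp'.out
      (q1 t).2.1).1 ((CharP.cast_eq_zero_iff F p _).1 e)) ▸ hp))
    fun i hi => (ui _ (q1 t).1 _ (q1 t).2 i hi).imp_left (congrArg Units.val)
  choose B2 c1 c2 c3 c4 using fun t => haveI : CharP F 2 := (q2 t).1 ▸ ‹CharP F p›
    ex_inf (r := (Units.coeHom _).comp ρ) (d := Sy.co p O) hs (q2 t).2.2.1 (d2 (q2 t).1 _)
      (cy_cj (q2 t).2.1)
  let B : S ⊕ β ⊕ γ → Bc GQ O := Sum.elim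
    (fun t => ⟨dec (P t), τ t, g t, a t, b t, I t, f t, J t, if t = ⟨p, hp⟩ then 4 else 3⟩)
    (Sum.elim B1 B2)
  have gq : ∀ (A : Type) [CommRing A] [IsLocalRing A] [Algebra O A] (r : GQ →* M2 A),
      Gw B ((Units.coeHom _).comp ρ) s (Sy.co p O) U r →
      Gq p S ((Units.coeHom _).comp ρ) s P f J r := fun A _ _ _ r h => by
    refine ⟨h.lift, fun l' hl Q' o y hy => ?_, fun t => h.loc (.inl t)⟩
    by_cases e : ∃ t, l t = l'
    · obtain ⟨t, rfl⟩ := e
      obtain ⟨z, hz⟩ := GW.Pl.ov_trans o (q1 t).2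
      have m : z * y * z⁻¹ ∈ inP (Q t) := hz ▸ GW.Pl.inert_conj hy z
      obtain ⟨w, -, w2, w3⟩ := h.loc (.inr (.inl t))
      have e1 : r (z * y * z⁻¹) = 1 := by
        let i : (B1 t).D := ⟨_, b2 t ▸ GW.Pl.inert_dec m⟩
        exact (w3 i).symm.trans (mp_one w fun u v => w2 _ (b5 t i m u v))
      rw [show y = z⁻¹ * (z * y * z⁻¹) * z by group, map_mul, map_mul, e1, mul_one, ← map_mul,
        inv_mul_cancel, map_one]
    · exact h.unr y ((q4 y).2 ⟨l', Q', hl, fun t k => e ⟨t, k⟩, o, hy⟩)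
  obtain ⟨V, i1, i2, i3, i4, i5, i6, r, a1, a2, a3⟩ := qw B nm
    (ρ' := (MulAut.conj k).toMonoidHom.comp ρ) (MonoidHom.ext nm.rb) (Sy.co p O) (π := π)
    (x := x) (I := U) (.inl ⟨p, hp⟩) hs opn det cd
    (by
      rintro (t | t | t)
      exacts [⟨G2.dec_closed _, tn t, uni t, le t⟩, b1 t, c1 t])
    (fun y hy => by
      obtain ⟨l', Q', h1, -, h2, h3⟩ := (q4 y).1 hy
      exact ui l' h1 Q' h2 y h3)
    (by
      convert q3 using 2 with t
      rcases t with t | t | t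
      exacts [rfl, congrArg _ (b2 t), c2 t])
    q5 q6
    (by
      have e1 : ∑ t : S, (B (.inl t)).k = 3 * Fintype.card S + 1 := by
        have : ∀ t : S, (B (.inl t)).k = 3 + if t = ⟨p, hp⟩ then 1 else 0 := fun t => by
          show (if t = ⟨p, hp⟩ then 4 else 3) = _
          split_ifs <;> rfl
        simp only [this, Finset.sum_add_distrib, Finset.sum_ite_eq', Finset.mem_univ, if_true,
          Finset.sum_const, Finset.card_univ, smul_eq_mul, mul_comm]
      have e2 : ∑ t : β, (B (.inr (.inl t))).k = 3 * Fintype.card β := by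
        simp only [show ∀ t, (B (.inr (.inl t))).k = 3 from b3, Finset.sum_const, Finset.card_univ,
          smul_eq_mul, mul_comm]
      have e3 : ∑ t : γ, (B (.inr (.inr t))).k = 2 * Fintype.card γ := by
        simp only [show ∀ t, (B (.inr (.inr t))).k = 2 from c3, Finset.sum_const, Finset.card_univ,
          smul_eq_mul, mul_comm]
      rw [Fintype.sum_sum_type, Fintype.sum_sum_type, e1, e2, e3, Fintype.card_sum,
        Fintype.card_sum]
      omega)
    pr sat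
    (by
      show (((if (⟨p, hp⟩ : S) = ⟨p, hp⟩ then 4 else 3) + 1 : ℕ) : WithBot ℕ∞) ≤ _
      rw [if_pos rfl]
      exact dim)
    (by
      rintro (t | t | t) e
      · have e' : t ≠ ⟨p, hp⟩ := fun k => e (congrArg _ k)
        show Par (J t) (if t = ⟨p, hp⟩ then 4 else 3)
        rw [if_neg e']
        exact par t fun k => e' (Subtype.ext k)
      · exact (b3 t).symm ▸ b4 t
      · exact (c3 t).symm ▸ c4 t)
    fun A _ _ _ _ r h => fin A r (gq A r h)
  exact ⟨V, i1, i2, i3, i4, i5, i6, r, a1, a2, gq V r a3⟩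

end Vale.Agent.P022K.RT
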