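import Vale.Agent.P022K.RT.QsA
import Vale.Agent.P022K.RT.Pres
import Vale.Agent.P022K.RT.GeoB
import Vale.Agent.P022K.RT.Tanb
import Vale.Agent.P022K.RU.Univ
import Vale.Agent.P022K.O2.Dvr1

/-!
# P022K, block RT: row QS
-/

set_option linter.all false

noncomputable section

namespace Vale.Agent.P022K.RT

open IsLocalRing MvPowerSeries Module
open Vale.Agent.P022D.L2b (M2 mem_max_iff)
open Vale.Agent.P022D.Core (PS)
open Vale.Agent.P022D.CA (emb dimGE_prime dimGE_ofList dimGE_mono)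
open Vale.Agent.P022D.PA (Base)
open Vale.Agent.P022K.GW (Zc H2 ad0)
open Vale.Agent.P022K.RU (Obj Dat Univ Ty W map_one')
open Vale.Agent.P022K.RT.Pr

namespace Qs

theorem dim_nat {R : Type} [CommRing R] [IsLocalRing R] [IsNoetherianRing R] (J : Ideal R) {k : ℕ}
    (h : ((k + 1 : ℕ) : WithBot ℕ∞) ≤ ringKrullDim (R ⧸ J)) :
    ∃ m, k ≤ m ∧ ringKrullDim (R ⧸ J) = (m + 1 : ℕ) := by
  have h1 : ringKrullDim (R ⧸ J) < ⊤ :=
    lt_of_le_of_lt (ringKrullDim_quotient_le J) ringKrullDim_lt_top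
  generalize ringKrullDim (R ⧸ J) = d at h h1
  induction d using WithBot.recBotCoe with
  | bot => exact absurd h (by simp)
  | coe d =>
    induction d using ENat.recTopCoe with
    | top => exact absurd h1 (by simp)
    | coe d =>
      have h2 : k + 1 ≤ d := by exact_mod_cast h
      refine ⟨d - 1, by omega, ?_⟩
      rw [show d - 1 + 1 = d by omega]
      rfl

variable {O F G T : Type} [CommRing O] [IsDomain O] [IsDiscreteValuationRing O] [hO : PL.Cf O]
  [Field F] [Finite F] [Group G] [TopologicalSpace G] [IsTopologicalGroup G] [Algebra O F]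
  {L τ : T → Type} [∀ t, Group (L t)] [∀ t, TopologicalSpace (L t)]
  [∀ t, IsTopologicalGroup (L t)] [Fintype T] [∀ t, Fintype (τ t)]
  {H : Ch O F G T L τ} {S : Dat O F G T} {I : Set G} {n : ℕ}
  {Φ : RU.Fam S (Σ t, τ t) n} {fw : W O G T → RU.PS O (Σ t, τ t) n}

/-- the dimension of the sum of the local conditions -/
theorem dim_loc (J : ∀ t, Ideal (PS O (τ t))) (k : T → ℕ) (t₀ : T) (h1 : (J t₀).IsPrime)
    (h2 : Sat (J t₀)) (h3 : ((k t₀ + 1 : ℕ) : WithBot ℕ∞) ≤ ringKrullDim (PS O (τ t₀) ⧸ J t₀))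
    (h4 : ∀ t, t ≠ t₀ → Par (J t) (k t)) (n : ℕ) :
    ((∑ t, k t + n + 1 : ℕ) : WithBot ℕ∞) ≤
      ringKrullDim (RU.PS O (Σ t, τ t) n ⧸ sumI Function.Embedding.inl J) := by
  classical
  obtain ⟨m, hm, e⟩ := dim_nat _ h3
  let ε : (Σ b : {t // t ≠ t₀}, τ b.1) ↪ (Σ t, τ t) ⊕ Fin n :=
    ⟨fun z => .inl ⟨z.1.1, z.2⟩, by
      rintro ⟨⟨a, ha⟩, u⟩ ⟨⟨b, hb⟩, v⟩ h
      obtain ⟨rfl, h⟩ := Sigma.mk.inj (Sum.inl.inj h)
      cases h
      rfl⟩
  obtain ⟨-, -, h5⟩ := geo O {t // t ≠ t₀} ((Σ t, τ t) ⊕ Fin n) (τ t₀) (fun b => τ b.1) ε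
    (emb Function.Embedding.inl t₀) (fun b => J b.1) (J t₀) (fun b => k b.1) m
    (m + ∑ b : {t // t ≠ t₀}, k b.1 + n)
    (fun a b h => a.1.2 (congrArg Sigma.fst (Sum.inl.inj h))) h1 h2 e (fun b => h4 b.1 b.2) (by
      rw [Fintype.card_sum, Fintype.card_fin, Fintype.card_sigma,
        Fintype.sum_eq_add_sum_subtype_ne _ t₀]
      omega)
  refine dimGE_mono (iSup_le fun t => ?_) (le_trans ?_ h5.ge)
  · by_cases ht : t = t₀
    · subst ht; exact le_sup_left
    · exact le_sup_of_le_right (le_iSup_of_le ⟨t, ht⟩ le_rfl)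
  · rw [Fintype.sum_eq_add_sum_subtype_ne _ t₀]
    exact_mod_cast (by omega)

/-- finiteness -/
theorem Uv.fin (h : Uv H S I Φ fw) (h0 : ∃ y, S.rb y 1 0 ≠ 0) {A : Type} [CommRing A]
    [IsLocalRing A] [IsNoetherianRing A] [Algebra O A] {y : RU.PS O (Σ t, τ t) n →ₐ[O] A}
    (sy : Function.Surjective y) (h1 : ∀ p ∈ kerU (Ty (H.C S Set.univ) I) Φ, y p = 0)
    (h2 : ∀ p ∈ maximalIdeal _, y p ∈ maximalIdeal A)
    (h3 : ∀ t, (gm (.inr (.inl t))).map (h.th h1) = 1) (B : Subgroup G) [B.FiniteIndex]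
    (hB : ∀ g ∈ B, IsIntegral O (h.rp h1 g).trace) : Module.Finite O A := by
  have l := (h.gl h1 h2 h3 (J := fun _ => ⊥) fun t u hu => by
    rw [Ideal.mem_bot.1 hu, map_zero, map_zero])
  have _ := hO.cpl
  have un : ∀ a : A, ∀ c : F, c ≠ 0 → a - algebraMap O A (H.s c) ∈ maximalIdeal A → IsUnit a :=
    fun a c hc m => notMem_maximalIdeal.1 fun ha => by
      have u : IsUnit (H.s c) := notMem_maximalIdeal.1 fun k => hc (by
        rw [← h.ok.sec c, ← h.ok.red]; exact (red_iff S _).2 k)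
      have := sub_mem ha m
      rw [sub_sub_cancel] at this
      exact this (u.map _)
  have _ : Module.Finite O (A ⧸ maximalIdeal A) := by
    refine Module.Finite.of_surjective (Algebra.linearMap O _) fun z => ?_
    obtain ⟨z, rfl⟩ := Ideal.Quotient.mk_surjective z
    obtain ⟨z, rfl⟩ := sy z
    refine ⟨constantCoeff z, Ideal.Quotient.eq.2 ?_⟩
    rw [← y.commutes, ← map_sub]
    refine h2 (C (constantCoeff z) - z) ((mem_max_iff _).2 ?_)
    simp
  refine FinR.fin_res (Ideal.map_le_iff_le_comap.2 l.lift.loc) (h.rp h1) B hB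
    (fun g _ => l.lift.det g ▸ isIntegral_algebraMap) fun D hD c1 c2 c3 a => ?_
  obtain ⟨g₂, h0⟩ := h0
  have en := ent hD c2 (c3 S.g0) l.dg (g₁ := S.g1) (g₂ := g₂)
    (un _ _ (sub_ne_zero.2 S.dne) (by
      have m : H.s (S.rb S.g0 0 0) - H.s (S.rb S.g0 1 1) - H.s (S.rb S.g0 0 0 - S.rb S.g0 1 1) ∈
          maximalIdeal O := (red_iff S _).1 (by
        rw [map_sub, map_sub, h.ok.red, h.ok.sec, h.ok.sec, h.ok.sec, sub_self])
      have := add_mem (sub_mem (l.lift.red S.g0 0 0) (l.lift.red S.g0 1 1)) (l.lift.loc _ m)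
      rw [map_sub, map_sub] at this
      convert this using 1
      ring))
    (l.nm ▸ c1 _) (un _ _ S.n01 (l.lift.red _ _ _)) (un _ _ h0 (l.lift.red _ _ _))
  have o1 : ∀ i j, (1 : M2 A) i j ∈ D := fun i j => by
    rw [Matrix.one_apply]
    split_ifs
    exacts [D.one_mem, D.zero_mem]
  have al : ∀ w, h.th h1 w ∈ D := fun w => by
    induction w using MvPolynomial.induction_on with
    | C c => exact h.th_C h1 c ▸ c1 c
    | add p q hp hq => exact map_add (h.th h1) p q ▸ D.add_mem hp hq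
    | mul_X p v hp =>
      rw [map_mul]
      refine D.mul_mem hp ?_
      obtain ⟨g | t | t, i, j⟩ := v
      · exact en g i j
      · exact Set.mem_of_eq_of_mem (congrFun (congrFun (h3 t) i) j) (o1 i j)
      · exact Set.mem_of_eq_of_mem (congrFun (congrFun (h.bet h1 (h3 t)) i) j) (o1 i j)
  obtain ⟨p, rfl⟩ := sy a
  obtain ⟨X, hX, ev⟩ := h.obj 1
  obtain ⟨w, hw⟩ := h.uni.rng _ X hX p
  rw [← h.fw w _ X hX, ev, ev] at hw
  obtain ⟨a, ha, b, hb, e⟩ := Submodule.mem_sup.1 (Ideal.Quotient.eq.1 hw)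
  refine ⟨_, al w, ?_⟩
  have e3 := congrArg y e
  rw [map_add, h1 a ha, zero_add, map_sub] at e3
  have := Ideal.mem_map_of_mem y hb
  rw [Ideal.map_pow] at this
  exact e3 ▸ Ideal.pow_right_mono (Ideal.map_le_iff_le_comap.2 h2) 2 this

end Qs

open Qs in
/-- **row QS** -/
theorem qs : QS := by
  intro O F G T Y _ _ _ hO _ _ _ _ _ _ _ _ _ _ _ L τ _ _ _ _ _ H S ρ π x I J k t₀ hH ij hr ho hm hd
    hI hR h10 f1 f2 hn hJ j1 j2 j3 j4 hF
  classical
  have _ := hO.cpl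
  have _ : Nonempty T := ⟨t₀⟩
  have hr' : ∀ g, S.rb g = (ρ g).1 := fun g => by rw [hr]; rfl
  let X0 := res S (by simpa only [hr', Units.val_eq_one] using ho) hH.lam
  have h0 : Ty (H.C S Set.univ) I F X0 :=
    ⟨fun y m => (hH.det y m).symm, fun y m => (hr' y).trans (congrArg Units.val (hI y m).1)⟩
  obtain ⟨c1, c2, -⟩ := chart O F G T L τ H S _ hH
  set n := finrank F (Zc π I (ad0 ρ)) + Fintype.card T with hn'
  obtain ⟨Φ, hΦ, -⟩ := RU.univ O F G T (Σ t, τ t) S H.D Set.univ I n _ _ (red_iff S) c1 c2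
    ⟨F, _, X0, h0⟩ fun Z hZ => by
      refine le_trans ((tanb G F Y T ρ π x H.D I I _ hR le_rfl fun y m => (hI y m).1).2 f1 le_rfl Z
        (hr ▸ hZ)) ?_
      exact_mod_cast (by omega)
  obtain ⟨m, u, hc, hk⟩ := pres O F G T Y L τ H S ρ π x I n Φ hH ij hr ho hm hd hI hR hΦ f1 f2
  choose fw hfw using hΦ.gen
  have h : Uv H S I Φ fw := ⟨hH, hΦ, hfw, F, _, X0, h0⟩
  let fr : T × Fin 2 × Fin 2 → RU.PS O (Σ t, τ t) n := fun v =>
    fw (gm (.inr (.inl v.1)) v.2.1 v.2.2) - (1 : M2 _) v.2.1 v.2.2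
  let s := (Finset.univ : Finset (T × Fin 2 × Fin 2)).erase (S.l0, 0, 0)
  have sc : s.card + 1 = 4 * Fintype.card T := by
    rw [Finset.card_erase_add_one (Finset.mem_univ _), Finset.card_univ]
    simp [mul_comm]
  have uk : ∀ i, u i ∈ kerU (Ty (H.C S Set.univ) I) Φ := fun i =>
    hk ▸ Ideal.mem_sup_right (Ideal.subset_span ⟨i, rfl⟩)
  obtain ⟨P, p1, p2, p3⟩ := dimGE_prime (dimGE_ofList (List.ofFn u ++ s.toList.map fr)
    (I := sumI Function.Embedding.inl J) (k := 1) (fun f hf => by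
      rcases List.mem_append.1 hf with hf | hf
      · obtain ⟨i, rfl⟩ := (List.mem_ofFn' _ _).1 hf
        exact h.le (uk i)
      · obtain ⟨v, -, rfl⟩ := List.mem_map.1 hf
        refine p0_iff (S := S).1 ?_
        rw [map_sub, h.p0, sub_eq_zero]
        refine (MvPolynomial.eval₂Hom_X' _ _ _).trans ?_
        exact congrFun (congrFun (map_one' (p0 S _ n)).symm _) _)
    (le_trans (by
      rw [List.length_append, List.length_ofFn, List.length_map, Finset.length_toList]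
      exact_mod_cast (by omega)) (dim_loc J k t₀ j1 j2 j3 j4 n)))
  have q1 : ∀ t, ∀ a ∈ J t, rn τ O n t a ∈ P := fun t a ha => p2 (Ideal.mem_sup_left
    (le_iSup (fun t => (J t).map (rename (R := O) (emb Function.Embedding.inl t))) t
      (Ideal.mem_map_of_mem _ ha)))
  have q2 : kerU (Ty (H.C S Set.univ) I) Φ ≤ P := by
    rw [hk]
    refine sup_le (iSup_le fun t => Ideal.map_le_iff_le_comap.2 fun a ha => q1 t a (hJ t ha))
      (Ideal.span_le.2 ?_)
    rintro _ ⟨i, rfl⟩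
    exact p2 (Ideal.mem_sup_right (Ideal.subset_span
      (List.mem_append_left _ ((List.mem_ofFn' _ _).2 ⟨i, rfl⟩))))
  have q3 : ∀ v, fr v ∈ P := fun v => by
    by_cases hv : v = (S.l0, 0, 0)
    · subst hv
      refine q2 (mem_ker fun A _ X hX => ?_)
      rw [map_sub, hfw _ A X hX, Matrix.one_apply_eq, map_one, sub_eq_zero]
      exact (RU.ev_X X (.inr (.inl S.l0)) 0 0).trans X.fr
    · exact p2 (Ideal.mem_sup_right (Ideal.subset_span (List.mem_append_right _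
        (List.mem_map.2 ⟨v, Finset.mem_toList.2 (by simp [s, hv]), rfl⟩))))
  have key : ∀ (A : Type) [CommRing A] [Algebra O A] (y : RU.PS O (Σ t, τ t) n →ₐ[O] A)
      (e : ∀ p ∈ P, y p = 0) (t : T),
      (gm (.inr (.inl t))).map (h.th (y := y) fun p hp => e p (q2 hp)) = 1 :=
    fun A _ _ y e t => Matrix.ext fun i j => by
      have := e _ (q3 (t, i, j))
      rw [map_sub, sub_eq_zero] at this
      exact this.trans (congrFun (congrFun (map_one' (y : RU.PS O (Σ t, τ t) n →+* A)) i) j)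
  have _ := PL.base_ps O ((Σ t, τ t) ⊕ Fin n)
  have _ := base_quot P p1.ne_top
  let y := Ideal.Quotient.mkₐ O P
  have y0 : ∀ p ∈ P, y p = 0 := fun p hp => Ideal.Quotient.eq_zero_iff_mem.2 hp
  have lm : ∀ p ∈ maximalIdeal _, y p ∈ maximalIdeal (RU.PS O (Σ t, τ t) n ⧸ P) :=
    fun p hp a => hp (((IsLocalHom.of_surjective (Ideal.Quotient.mk P)
      Ideal.Quotient.mk_surjective).map_nonunit p) a)
  obtain ⟨B, _, hB⟩ := hF _ _ (fun a => by
    obtain ⟨z, rfl⟩ := Ideal.Quotient.mk_surjective a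
    refine ⟨constantCoeff z, lm (z - C (constantCoeff z)) ((mem_max_iff _).2 ?_)⟩
    simp) (h.gl _ lm (key _ y y0) fun t a ha => y0 _ (q1 t a ha))
  have _ := h.fin h10 Ideal.Quotient.mk_surjective _ lm (key _ y y0) B hB
  have inj : Function.Injective (algebraMap O (RU.PS O (Σ t, τ t) n ⧸ P)) := by
    rw [RingHom.injective_iff_ker_eq_bot]
    by_contra ne
    have m1 : (⊥ : Ideal (RU.PS O (Σ t, τ t) n ⧸ P)).IsMaximal :=
      Ideal.isMaximal_of_isIntegral_of_isMaximal_comap (R := O) ⊥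
        (Ideal.IsPrime.isMaximal inferInstance ne)
    refine Geo.not_one_le (fun p hp => Ideal.Quotient.eq_zero_iff_mem.1 ?_) p3
    exact Ideal.mem_bot.1 (eq_maximalIdeal m1 ▸ lm p hp)
  let Ω := FractionRing (RU.PS O (Σ t, τ t) n ⧸ P)
  have inj' : Function.Injective (algebraMap O Ω) := by
    rw [IsScalarTower.algebraMap_eq O (RU.PS O (Σ t, τ t) n ⧸ P) Ω]
    exact (IsFractionRing.injective (RU.PS O (Σ t, τ t) n ⧸ P) Ω).comp inj
  have _ := (faithfulSMul_iff_algebraMap_injective O Ω).2 inj'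
  obtain ⟨V, _, _, _, _, _, _, ι, z, v1, v2, -, v3, -, v4⟩ := O2.D1.ex_dvr
    ((IsScalarTower.toAlgHom O _ Ω).comp y)
    (fun p => (Algebra.IsIntegral.isIntegral (y p)).map (IsScalarTower.toAlgHom O _ Ω))
    Set.finite_empty fun _ h => h.elim
  have z0 : ∀ p ∈ P, z p = 0 := fun p hp => v1 (by
    rw [v2, AlgHom.comp_apply, y0 p hp, map_zero, map_zero])
  exact ⟨V, _, _, ‹_›, ‹_›, ‹_›, _, _, v3,
    fun a b e => inj' (by rw [← ι.commutes, e, ι.commutes]),
    h.gl _ v4 (key _ z z0) fun t a ha => z0 _ (q1 t a ha)⟩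

end Vale.Agent.P022K.RT
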