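import Vale.Agent.P022K.RT.QsSt
import Vale.Agent.P022K.RT.PresC
import Vale.Agent.P022K.Fin.Res

/-!
# P022K, block RT, row QS: the lift attached to a point of the universal ring
-/

set_option linter.all false

noncomputable section

namespace Vale.Agent.P022K.RT.Qs

open IsLocalRing MvPowerSeries
open Vale.Agent.P022D.L2b (M2 mem_max_iff)
open Vale.Agent.P022D.Core (PS)
open Vale.Agent.P022D.CA (emb)
open Vale.Agent.P022D.PA (Base)
open Vale.Agent.P022K.RU (Obj Dat Hom Unr opn_of_le map_one' Univ Closed Ty W ev_X ev_C)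
open Vale.Agent.P022K.RT.Pr

/-- quotients of base rings -/
theorem base_quot {R : Type} [CommRing R] [h : Base R] (Q : Ideal R) (hQ : Q ≠ ⊤) :
    Base (R ⧸ Q) := by
  have _ := Ideal.Quotient.nontrivial_iff.2 hQ
  have _ : IsLocalRing (R ⧸ Q) :=
    IsLocalRing.of_surjective' (Ideal.Quotient.mk Q) Ideal.Quotient.mk_surjective
  have _ := h.cpl
  have _ := h.fin
  have h1 : IsPrecomplete (maximalIdeal R) (R ⧸ Q) := by
    rw [← AdicCompletion.of_surjective_iff]
    intro z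
    obtain ⟨y, rfl⟩ := AdicCompletion.map_surjective (maximalIdeal R) Q.mkQ_surjective z
    obtain ⟨w, rfl⟩ := AdicCompletion.of_surjective (maximalIdeal R) R y
    exact ⟨Q.mkQ w, (AdicCompletion.map_of ..).symm⟩
  have h2 : IsHausdorff (maximalIdeal R) (R ⧸ Q) := inferInstance
  have h3 : IsAdicComplete (maximalIdeal R) (R ⧸ Q) := { h1, h2 with }
  have _ := IsLocalHom.of_surjective (Ideal.Quotient.mk Q) Ideal.Quotient.mk_surjective
  refine { cpl := ?_, fin := Finite.of_surjective (ResidueField.map (Ideal.Quotient.mk Q)) ?_ }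
  · rw [← map_maximalIdeal_of_surjective (algebraMap R (R ⧸ Q)) Ideal.Quotient.mk_surjective]
    exact (IsAdicComplete.map_algebraMap_iff _ _).2 h3
  · intro z
    obtain ⟨z, rfl⟩ := residue_surjective z
    obtain ⟨z, rfl⟩ := Ideal.Quotient.mk_surjective z
    exact ⟨residue _ z, rfl⟩

/-- the entries of a representation in normal form -/
theorem ent {B Γ : Type} [CommRing B] [Group Γ] {A : Subring B} (hA : FinR.Sat A)
    {ρ : Γ →* M2 B} (ht : ∀ g, (ρ g).trace ∈ A) {g₀ g₁ g₂ : Γ} (hd : (ρ g₀).det ∈ A)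
    (h0 : ρ g₀ 0 1 = 0 ∧ ρ g₀ 1 0 = 0) (hu : IsUnit (ρ g₀ 0 0 - ρ g₀ 1 1)) (hb : ρ g₁ 0 1 ∈ A)
    (h1 : IsUnit (ρ g₁ 0 1)) (h2 : IsUnit (ρ g₂ 1 0)) (g : Γ) (i j : Fin 2) : ρ g i j ∈ A := by
  obtain ⟨u, hu⟩ := hu.exists_right_inv
  obtain ⟨b, h1⟩ := h1.exists_right_inv
  obtain ⟨c, h2⟩ := h2.exists_right_inv
  have t0 := ht g₀
  rw [Matrix.det_fin_two, h0.1, zero_mul, sub_zero] at hd
  rw [Matrix.trace_fin_two] at t0
  have b1 : ρ g₀ 1 1 ∈ A := hA.int _ ⟨Polynomial.X ^ 2 + (Polynomial.C (-⟨_, t0⟩) * Polynomial.X +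
    Polynomial.C ⟨_, hd⟩),
    Polynomial.monic_X_pow_add (lt_of_le_of_lt Polynomial.degree_linear_le (by norm_num)), by
      simp only [Polynomial.eval₂_add, Polynomial.eval₂_mul, Polynomial.eval₂_C,
        Polynomial.eval₂_X, Polynomial.eval₂_X_pow]
      show ρ g₀ 1 1 ^ 2 + (-(ρ g₀ 0 0 + ρ g₀ 1 1) * ρ g₀ 1 1 + ρ g₀ 0 0 * ρ g₀ 1 1) = 0
      ring⟩
  have u1 : u ∈ A := hA.inv _ (by
    have := A.sub_mem (A.sub_mem t0 b1) b1
    rwa [add_sub_cancel_right] at this) _ hu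
  have a0 : ∀ g, ρ g 0 0 ∈ A := fun g => by
    have := A.mul_mem (A.sub_mem (ht (g₀ * g)) (A.mul_mem b1 (ht g))) u1
    rw [map_mul] at this
    simp only [Matrix.trace_fin_two, Matrix.mul_apply, Fin.sum_univ_two, h0.1, h0.2] at this
    convert this using 1
    linear_combination (-ρ g 0 0) * hu
  have bc : ∀ g h, ρ g 0 1 * ρ h 1 0 ∈ A := fun g h => by
    have := A.sub_mem (a0 (g * h)) (A.mul_mem (a0 g) (a0 h))
    rw [map_mul, Matrix.mul_apply, Fin.sum_univ_two] at this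
    convert this using 1
    ring
  have c0 : ∀ g, ρ g 1 0 ∈ A := fun g => by
    convert A.mul_mem (hA.inv _ hb _ h1) (bc g₁ g) using 1
    linear_combination (-ρ g 1 0) * h1
  fin_cases i <;> fin_cases j
  · exact a0 g
  · show ρ g 0 1 ∈ A
    convert A.mul_mem (bc g g₂) (hA.inv _ (c0 g₂) _ h2) using 1
    linear_combination (-ρ g 0 1) * h2
  · exact c0 g
  · show ρ g 1 1 ∈ A
    convert A.sub_mem (ht g) (a0 g) using 1
    rw [Matrix.trace_fin_two]
    ring

variable {O F G T : Type} [CommRing O] [IsDomain O] [IsDiscreteValuationRing O] [hO : PL.Cf O]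
  [Field F] [Finite F] [Group G] [TopologicalSpace G] [IsTopologicalGroup G] [Algebra O F]
  {L τ : T → Type} [∀ t, Group (L t)] [∀ t, TopologicalSpace (L t)]
  [∀ t, IsTopologicalGroup (L t)] [Fintype T] [∀ t, Fintype (τ t)]
  {H : Ch O F G T L τ} {S : Dat O F G T} {I : Set G} {n : ℕ}
  {Φ : RU.Fam S (Σ t, τ t) n} {fw : W O G T → RU.PS O (Σ t, τ t) n}

theorem mem_ker {D : RU.Cl S} {p : RU.PS O (Σ t, τ t) n}
    (h : ∀ (A : Type) [CommRing A] (X : Obj S A), D A X → Φ A X p = 0) : p ∈ kerU D Φ :=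
  Submodule.mem_sInf.2 (by
    rintro _ ⟨A, _, Y, hY, rfl⟩
    exact h A Y hY)

/-- the generic matrices -/
def gm (v : G ⊕ T ⊕ T) : M2 (W O G T) := Matrix.of fun i j => MvPolynomial.X (v, i, j)

theorem gm_ev {A : Type} [CommRing A] (X : Obj S A) (v : G ⊕ T ⊕ T) :
    (gm v).map X.ev = X.mat v := Matrix.ext fun i j => ev_X X v i j

/-- the universal family with lifts of the entries -/
structure Uv (H : Ch O F G T L τ) (S : Dat O F G T) (I : Set G) (Φ : RU.Fam S (Σ t, τ t) n)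
    (fw : W O G T → RU.PS O (Σ t, τ t) n) : Prop where
  ok : H.Ok S Set.univ
  uni : Univ (Ty (H.C S Set.univ) I) (H.κ S) Φ
  fw : ∀ w (A : Type) [CommRing A] (X : Obj S A), Ty (H.C S Set.univ) I A X → Φ A X (fw w) = X.ev w
  ne : ∃ (A : Type) (_ : CommRing A) (X : Obj S A), Ty (H.C S Set.univ) I A X

theorem Uv.p0 (h : Uv H S I Φ fw) (w : W O G T) : p0 S _ n (fw w) = RU.πW S w := by
  obtain ⟨A, _, X, hX⟩ := h.ne
  rw [← RU.π_ev X, ← h.fw w A X hX, h.uni.res A X hX]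
  rfl

theorem Uv.le (h : Uv H S I Φ fw) : kerU (Ty (H.C S Set.univ) I) Φ ≤ maximalIdeal _ := fun p hp => by
  obtain ⟨A, _, X, hX⟩ := h.ne
  refine p0_iff (S := S).1 ((h.uni.res A X hX p).symm.trans ?_)
  rw [ker_le hX hp, map_zero]

theorem Uv.obj (h : Uv H S I Φ fw) (k : ℕ) :
    ∃ X : Obj S (RU.PS O (Σ t, τ t) n ⧸ (kerU (Ty (H.C S Set.univ) I) Φ ⊔ maximalIdeal _ ^ (k + 1))),
      Ty (H.C S Set.univ) I _ X ∧ ∀ p, Φ _ X p = Ideal.Quotient.mk _ p :=
  ex_obj hO.cpl (Ct.closed.ty I) h.uni h.ne (k + 1) le_rfl fun p hp =>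
    p0_iff.2 (sup_le h.le (Ideal.pow_le_self (Nat.succ_ne_zero k)) hp)

variable {A : Type} [CommRing A] [Algebra O A] {y : RU.PS O (Σ t, τ t) n →ₐ[O] A}

theorem Uv.tr (h : Uv H S I Φ fw) (h1 : ∀ p ∈ kerU (Ty (H.C S Set.univ) I) Φ, y p = 0)
    {p q : RU.PS O (Σ t, τ t) n} (e : ∀ (B : Type) [CommRing B] (X : Obj S B),
      Ty (H.C S Set.univ) I B X → Φ B X p = Φ B X q) : y p = y q := by
  rw [← sub_eq_zero, ← map_sub]
  exact h1 _ (mem_ker fun B _ X hX => by rw [map_sub, e B X hX, sub_self])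

/-- evaluation of the entries at a point -/
def Uv.th (h : Uv H S I Φ fw) (h1 : ∀ p ∈ kerU (Ty (H.C S Set.univ) I) Φ, y p = 0) :
    W O G T →+* A where
  toFun w := y (fw w)
  map_one' := (h.tr h1 fun B _ X hX => by rw [h.fw _ B X hX, map_one, map_one]).trans (map_one y)
  map_mul' a b := (h.tr h1 fun B _ X hX => by
    rw [h.fw _ B X hX, map_mul, map_mul, h.fw _ B X hX, h.fw _ B X hX]).trans (map_mul y _ _)
  map_zero' := (h.tr h1 fun B _ X hX => by rw [h.fw _ B X hX, map_zero, map_zero]).trans (map_zero y)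
  map_add' a b := (h.tr h1 fun B _ X hX => by
    rw [h.fw _ B X hX, map_add, map_add, h.fw _ B X hX, h.fw _ B X hX]).trans (map_add y _ _)

theorem Uv.th_eq (h : Uv H S I Φ fw) (h1 : ∀ p ∈ kerU (Ty (H.C S Set.univ) I) Φ, y p = 0)
    {a b : W O G T} (e : ∀ (B : Type) [CommRing B] (X : Obj S B),
      Ty (H.C S Set.univ) I B X → X.ev a = X.ev b) : h.th h1 a = h.th h1 b :=
  h.tr h1 fun B _ X hX => by rw [h.fw _ B X hX, h.fw _ B X hX, e B X hX]

theorem Uv.th_C (h : Uv H S I Φ fw) (h1 : ∀ p ∈ kerU (Ty (H.C S Set.univ) I) Φ, y p = 0) (c : O) :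
    h.th h1 (MvPolynomial.C c) = algebraMap O A c :=
  (h.tr h1 fun B _ X hX => by
    rw [h.fw _ B X hX, ev_C, ← h.uni.cst B X hX]; rfl).trans (y.commutes c)

theorem Uv.th_mat (h : Uv H S I Φ fw) (h1 : ∀ p ∈ kerU (Ty (H.C S Set.univ) I) Φ, y p = 0)
    {a b : M2 (W O G T)} (e : ∀ (B : Type) [CommRing B] (X : Obj S B),
      Ty (H.C S Set.univ) I B X → a.map X.ev = b.map X.ev) : a.map (h.th h1) = b.map (h.th h1) :=
  Matrix.ext fun i j => h.th_eq h1 fun B _ X hX => congrFun (congrFun (e B X hX) i) j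

/-- the representation at a point -/
def Uv.rp (h : Uv H S I Φ fw) (h1 : ∀ p ∈ kerU (Ty (H.C S Set.univ) I) Φ, y p = 0) :
    G →* M2 A where
  toFun g := (gm (.inl g)).map (h.th h1)
  map_one' := (h.th_mat h1 fun B _ X hX => by
    rw [gm_ev, map_one']; exact map_one X.ρ).trans (map_one' _)
  map_mul' a b := (h.th_mat h1 fun B _ X hX => by
    rw [Matrix.map_mul, gm_ev, gm_ev, gm_ev]; exact map_mul X.ρ a b).trans Matrix.map_mul

theorem Uv.bet (h : Uv H S I Φ fw) (h1 : ∀ p ∈ kerU (Ty (H.C S Set.univ) I) Φ, y p = 0) {t : T}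
    (h3 : (gm (.inr (.inl t))).map (h.th h1) = 1) : (gm (.inr (.inr t))).map (h.th h1) = 1 := by
  have := h.th_mat h1 (a := gm (.inr (.inl t)) * gm (.inr (.inr t))) (b := 1) fun B _ X hX => by
    rw [Matrix.map_mul, gm_ev, gm_ev, map_one']; exact X.inv t
  rwa [Matrix.map_mul, h3, one_mul, map_one'] at this

theorem Uv.gl [IsLocalRing A] (h : Uv H S I Φ fw)
    (h1 : ∀ p ∈ kerU (Ty (H.C S Set.univ) I) Φ, y p = 0)
    (h2 : ∀ p ∈ maximalIdeal _, y p ∈ maximalIdeal A)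
    (h3 : ∀ t, (gm (.inr (.inl t))).map (h.th h1) = 1) {J : ∀ t, Ideal (PS O (τ t))}
    (h4 : ∀ t, ∀ u ∈ J t, y (rn τ O n t u) = 0) : Gl H S I J (h.rp h1) := by
  have e0 : ∀ M : M2 O, (M.map MvPolynomial.C).map (h.th h1) = M.map (algebraMap O A) := fun M =>
    Matrix.ext fun i j => h.th_C h1 _
  refine ⟨⟨fun k => ?_, fun a ha => ?_, fun x i j => ?_, fun x => ?_⟩, fun g hg => ?_, ⟨?_, ?_⟩, ?_,
    fun t => ⟨y.comp (rename (R := O) (emb Function.Embedding.inl t)), fun u => ?_, h4 t,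
      fun z => ?_⟩⟩
  · obtain ⟨X, hX, ev⟩ := h.obj k
    have := opn_of_le X.ρ ((Ideal.Quotient.mk (maximalIdeal A ^ k)).mapMatrix.toMonoidHom.comp
      (h.rp h1)) X.opn fun g hg => Matrix.ext fun i j => by
        have e1 : Φ _ X (fw (gm (.inl g) i j)) = Φ _ X ((1 : M2 _) i j) := by
          rw [h.fw _ _ X hX]
          refine (congrFun (congrFun ((gm_ev X (.inl g)).trans hg) i) j).trans ?_
          rw [← map_one' (Φ _ X)]; rfl
        rw [ev, ev] at e1
        obtain ⟨a, ha, b, hb, e2⟩ := Submodule.mem_sup.1 (Ideal.Quotient.eq.1 e1)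
        have e3 := congrArg y e2
        rw [map_add, h1 a ha, zero_add, map_sub] at e3
        have e4 : y b ∈ maximalIdeal A ^ k := by
          have := Ideal.mem_map_of_mem y (Ideal.pow_le_pow_right k.le_succ hb)
          rw [Ideal.map_pow] at this
          exact Ideal.pow_right_mono (Ideal.map_le_iff_le_comap.2 h2) k this
        rw [← map_one' (Ideal.Quotient.mk (maximalIdeal A ^ k))]
        refine Ideal.Quotient.eq.2 ?_
        rw [← map_one' (y : RU.PS O (Σ t, τ t) n →+* A)]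
        exact e3 ▸ e4
    refine Eq.mpr (congrArg IsOpen (Set.ext fun g => ?_)) this
    refine ⟨fun c => Matrix.ext fun i j => ?_, fun c i j => ?_⟩
    · rw [← map_one' (Ideal.Quotient.mk (maximalIdeal A ^ k))]
      exact Ideal.Quotient.eq.2 (c i j)
    · rw [← map_one' (Ideal.Quotient.mk (maximalIdeal A ^ k))] at c
      exact Ideal.Quotient.eq.1 (congrFun (congrFun c i) j)
  · rw [← y.commutes]
    exact h2 (C a) ((mem_max_iff _).2 (by simpa using ha))
  · rw [← y.commutes]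
    refine (map_sub y _ _).symm ▸ h2 _ (p0_iff (S := S).1 ?_)
    rw [map_sub, h.p0]
    refine sub_eq_zero.2 ((MvPolynomial.eval₂Hom_X' _ _ _).trans ?_)
    refine Eq.trans ?_ (p0_C _).symm
    rw [h.ok.red, h.ok.sec]
    rfl
  · rw [← h.th_C h1]
    refine ((h.th h1).map_det _).symm.trans (h.th_eq h1 fun B _ X hX => ?_)
    rw [RingHom.map_det, RingHom.mapMatrix_apply, gm_ev, ev_C]
    exact hX.1 x trivial
  · exact (h.th_mat h1 fun B _ X hX => by
      rw [gm_ev, map_one']; exact hX.2 g hg).trans (map_one' _)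
  · exact (h.th_eq h1 fun B _ X hX => (ev_X X (.inl S.g0) 0 1).trans
      (X.dg.1.trans (map_zero _).symm)).trans (map_zero _)
  · exact (h.th_eq h1 fun B _ X hX => (ev_X X (.inl S.g0) 1 0).trans
      (X.dg.2.trans (map_zero _).symm)).trans (map_zero _)
  · exact (h.th_eq h1 fun B _ X hX => (ev_X X (.inl S.g1) 0 1).trans
      (X.nm.trans (ev_C X _).symm)).trans (h.th_C h1 _)
  · refine h2 (rn τ O n t (X u)) ((mem_max_iff _).2 ?_)
    rw [rn_X, constantCoeff_X]
    exact zero_mem _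
  · have e1 : (H.f t z).map (y.comp (rename (R := O) (emb Function.Embedding.inl t))) =
        ((H.c' t).map MvPolynomial.C * (gm (.inr (.inr t)) * gm (.inl (H.j t z)) *
          gm (.inr (.inl t))) * (H.c t).map MvPolynomial.C).map (h.th h1) :=
      Matrix.ext fun i j => h.tr h1 fun B _ X hX => by
        have e2 : ∀ M : M2 O, (M.map MvPolynomial.C).map X.ev = M.map X.ι := fun M =>
          Matrix.ext fun i j => ev_C X _
        refine (((chart O F G T L τ H S _ h.ok).2.2 I n Φ h.uni B X hX t).2 z i j).trans ?_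
        rw [h.fw _ B X hX, ← Matrix.map_apply (f := X.ev)]
        simp only [Matrix.map_mul, gm_ev, e2]
        rfl
    rw [e1]
    simp only [Matrix.map_mul, e0, h3, h.bet h1 (h3 t), one_mul, mul_one]
    rfl

end Vale.Agent.P022K.RT.Qs
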