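import Vale.Agent.P022K.RT.St

/-!
# P022K, block RT: existence of global lifts with local conditions. The row.
-/

set_option linter.all false

noncomputable section

namespace Vale.Agent.P022K.RT

open IsLocalRing MvPowerSeries
open Vale.Agent.P022D.L2b (M2)
open Vale.Agent.P022D.Core (PS)
open Vale.Agent.P022D.PA (Base)
open Vale.Agent.P022K.PL (Cf)
open Vale.Agent.P022K.GW (Zc H2 ad0)

/-- a global lift in normal form whose local representations are points of the ideals `J t` -/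
structure Gl {O F G T : Type} [CommRing O] [IsLocalRing O] [Field F] [Group G] [TopologicalSpace G]
    {L τ : T → Type} [∀ t, Group (L t)] (H : Ch O F G T L τ) (S : RU.Dat O F G T) (I : Set G)
    (J : ∀ t, Ideal (PS O (τ t))) {A : Type} [CommRing A] [IsLocalRing A] [Algebra O A]
    (r : G →* M2 A) : Prop where
  lift : LiftC S.rb H.s H.δ r
  unr : ∀ y ∈ I, r y = 1
  dg : r S.g0 0 1 = 0 ∧ r S.g0 1 0 = 0
  nm : r S.g1 0 1 = algebraMap O A S.lam
  loc : ∀ t, ∃ x : PS O (τ t) →ₐ[O] A, (∀ u, x (X u) ∈ maximalIdeal A) ∧ (∀ u ∈ J t, x u = 0) ∧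
    ∀ y, (H.f t y).map x =
      (H.c' t).map (algebraMap O A) * r (H.j t y) * (H.c t).map (algebraMap O A)

/-- row QS: presentation, dimension and finiteness give a lift in characteristic zero -/
def QS : Prop := ∀ (O F G T X : Type) [CommRing O] [IsDomain O] [IsDiscreteValuationRing O]
  [Cf O] [CharZero O] [Field F] [Finite F] [Algebra O F] [Group G] [TopologicalSpace G]
  [IsTopologicalGroup G] [CompactSpace G] [T2Space G] [TotallyDisconnectedSpace G] [Fintype T]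
  (L τ : T → Type) [∀ t, Group (L t)] [∀ t, TopologicalSpace (L t)]
  [∀ t, IsTopologicalGroup (L t)] [∀ t, CompactSpace (L t)] [∀ t, Fintype (τ t)]
  (H : Ch O F G T L τ) (S : RU.Dat O F G T) (ρ : G →* GL (Fin 2) F) (π : G →* Equiv.Perm X)
  (x : T → X) (I : Set G) (J : ∀ t, Ideal (PS O (τ t))) (k : T → ℕ) (t₀ : T),
  H.Ok S Set.univ → (∀ t, Function.Injective (H.j t)) → S.rb = (Units.coeHom _).comp ρ →
  IsOpen {y | ρ y = 1} → (∀ y z, H.δ (y * z) = H.δ y * H.δ z) → Cd H.δ →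
  (∀ y ∈ I, ρ y = 1 ∧ H.δ y = 1) → Rp π x H.D → (∃ y, S.rb y 1 0 ≠ 0) →
  Module.Finite F (Zc π I (ad0 ρ)) → Module.Finite F (H2 π I (ad0 ρ)) →
  Module.finrank F (H2 π I (ad0 ρ)) + 3 + 3 * Fintype.card T ≤
    Module.finrank F (Zc π I (ad0 ρ)) + ∑ t, k t →
  (∀ t, H.I t ≤ J t) → (J t₀).IsPrime → Sat (J t₀) →
  ((k t₀ + 1 : ℕ) : WithBot ℕ∞) ≤ ringKrullDim (PS O (τ t₀) ⧸ J t₀) →
  (∀ t, t ≠ t₀ → Par (J t) (k t)) →
  (∀ (A : Type) [CommRing A] [IsDomain A] [Base A] [Algebra O A] (r : G →* M2 A),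
    (∀ a : A, ∃ o : O, a - algebraMap O A o ∈ maximalIdeal A) → Gl H S I J r →
    ∃ B : Subgroup G, B.FiniteIndex ∧ ∀ y ∈ B, IsIntegral O (r y).trace) →
    ∃ (V : Type) (_ : CommRing V) (_ : IsDomain V) (_ : IsDiscreteValuationRing V) (_ : Cf V)
      (_ : CharZero V) (_ : Algebra O V) (r : G →* M2 V), Module.Finite O V ∧
      Function.Injective (algebraMap O V) ∧ Gl H S I J r

end Vale.Agent.P022K.RT
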