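import Vale.Agent.P022K.RT.Qs
import Vale.Agent.P022K.RT.Nf
import Vale.Agent.P022K.RT.Inv
import Vale.Agent.P022K.RT.Sys0

/-!
# P022K, block RT: existence of lifts, basis free form with charts on closed subgroups
-/

set_option linter.all false

noncomputable section

namespace Vale.Agent.P022K.RT.Qw

open IsLocalRing MvPowerSeries
open Vale.Agent.P022D.L2b (M2)
open Vale.Agent.P022D.Loc2 (TnG)
open Vale.Agent.P022D.Core (PS)
open Vale.Agent.P022D.PA (Base)
open Vale.Agent.P022K.PL (Cf)
open Vale.Agent.P022K.GW (Zc H2 ad0)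
open Nf

/-- conjugation of a representation -/
def cjm {G A : Type} [Group G] [CommRing A] {c c' : M2 A} (e : c * c' = 1) (r : G →* M2 A) :
    G →* M2 A where
  toFun x := c' * r x * c
  map_one' := by rw [map_one, mul_one, mul_eq_one_comm.1 e]
  map_mul' x y := by
    rw [map_mul]
    simp only [mul_assoc]
    rw [← mul_assoc c c', e, one_mul]

theorem cjm_tr {G A : Type} [Group G] [CommRing A] {c c' : M2 A} (e : c * c' = 1) (r : G →* M2 A)
    (x : G) : (cjm e r x).trace = (r x).trace := by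
  show (c' * r x * c).trace = _
  rw [Matrix.trace_mul_cycle, e, one_mul]

theorem mp_inv {O A : Type} [CommRing O] [CommRing A] (u : O →+* A) {c c' : M2 O}
    (h : c * c' = 1) : c.map u * c'.map u = 1 := by
  rw [← Matrix.map_mul, h, Matrix.map_one _ (map_zero _) (map_one _)]

variable {G O F : Type} [Group G] [TopologicalSpace G] [CommRing O] [Field F]

theorem lift_cj [IsLocalRing O] [Algebra O F] {A : Type} [CommRing A] [IsLocalRing A]
    [Algebra O A] {r r' : G →* M2 F} {s : F → O} {d : G → O} {ρ : G →* M2 A} (h : LiftC r s d ρ)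
    (hs : ∀ x, algebraMap O F (s x) = x) {c c' : M2 O} (e : c * c' = 1)
    (k : ∀ x, r' x = c'.map (algebraMap O F) * r x * c.map (algebraMap O F)) :
    LiftC r' s d (cjm (mp_inv (algebraMap O A) e) ρ) := by
  have e1 := mp_inv (algebraMap O A) e
  have e2 := mul_eq_one_comm.1 e1
  refine ⟨fun n => ?_, h.loc, fun x i j => ?_, fun x => ?_⟩
  · suffices k : {x | Cg (maximalIdeal A ^ n) (cjm e1 ρ x) 1} =
        {x | Cg (maximalIdeal A ^ n) (ρ x) 1} by rw [k]; exact h.lc n
    refine Set.ext fun x => ⟨fun k => ?_, fun k => ?_⟩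
    · have := ((Cg.rfl (a := c.map (algebraMap O A))).mul k).mul
        (Cg.rfl (a := c'.map (algebraMap O A)))
      show Cg _ _ _
      rwa [mul_one, e1, show c.map (algebraMap O A) * cjm e1 ρ x * c'.map (algebraMap O A) =
        c.map (algebraMap O A) * c'.map (algebraMap O A) * ρ x *
          (c.map (algebraMap O A) * c'.map (algebraMap O A)) by
        simp only [cjm, MonoidHom.coe_mk, OneHom.coe_mk, mul_assoc], e1, one_mul, mul_one] at this
    · have := ((Cg.rfl (a := c'.map (algebraMap O A))).mul k).mul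
        (Cg.rfl (a := c.map (algebraMap O A)))
      rwa [mul_one, e2] at this
  · have h1 : Cg (maximalIdeal A) (ρ x) (((r x).map s).map (algebraMap O A)) := h.red x
    have h2 := ((Cg.rfl (a := c'.map (algebraMap O A))).mul h1).mul
      (Cg.rfl (a := c.map (algebraMap O A))) i j
    rw [← Matrix.map_mul, ← Matrix.map_mul] at h2
    have h3 : (c' * (r x).map s * c).map (algebraMap O F) = r' x := by
      rw [Matrix.map_mul, Matrix.map_mul, k,
        show ((r x).map s).map (algebraMap O F) = r x from Matrix.ext fun _ _ => hs _]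
    have h4 := h.loc ((c' * (r x).map s * c) i j - s (r' x i j)) ((Sy.ker_eq hs _).1 (by
      rw [map_sub, hs, ← h3]; exact sub_self _))
    rw [map_sub] at h4
    exact sub_add_sub_cancel (cjm e1 ρ x i j) _ _ ▸ add_mem h2 h4
  · show (_ * ρ x * _).det = _
    rw [Matrix.det_mul, Matrix.det_mul, mul_right_comm, ← Matrix.det_mul, e2, Matrix.det_one,
      one_mul, h.det]

variable (G O) in
/-- a chart on a subgroup, with an ideal and its relative dimension -/
structure Bc : Type 1 where
  D : Subgroup G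
  τ : Type
  [fτ : Fintype τ]
  g : τ → D
  a : τ → Fin 2
  b : τ → Fin 2
  I : Ideal (PS O τ)
  f : D → M2 (PS O τ)
  J : Ideal (PS O τ)
  k : ℕ

attribute [instance] Bc.fτ

structure Bc.Ok [IsLocalRing O] [Algebra O F] (x : Bc G O) (r : G →* M2 F) (s : F → O)
    (d : G → O) : Prop where
  cl : IsClosed (x.D : Set G)
  tn : TnG (r.comp x.D.subtype) x.g x.a x.b
  uni : Uni (r.comp x.D.subtype) s (fun y => d y.1) x.g x.a x.b x.I x.f
  le : x.I ≤ x.J

/-- a lift whose local representations are points of the ideals of the charts -/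
structure Gw [IsLocalRing O] {T : Type} (B : T → Bc G O) (r₀ : G →* M2 F) (s : F → O) (d : G → O)
    (I : Set G) {A : Type} [CommRing A] [IsLocalRing A] [Algebra O A] (r : G →* M2 A) : Prop where
  lift : LiftC r₀ s d r
  unr : ∀ y ∈ I, r y = 1
  loc : ∀ t, ∃ x : PS O (B t).τ →ₐ[O] A, (∀ u, x (X u) ∈ maximalIdeal A) ∧
    (∀ u ∈ (B t).J, x u = 0) ∧ ∀ y, ((B t).f y).map x = r y.1

/-- **existence of lifts**, basis free -/
theorem qw {T Y : Type} [IsDomain O] [IsDiscreteValuationRing O] [Cf O] [CharZero O] [Finite F]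
    [Algebra O F] [IsTopologicalGroup G] [CompactSpace G] [T2Space G] [TotallyDisconnectedSpace G]
    [Fintype T] (B : T → Bc G O) {ρ ρ' : G →* GL (Fin 2) F} {S : RU.Dat O F G Unit} {c c' : M2 O}
    (nm : Nm ρ S c c') (e : S.rb = (Units.coeHom _).comp ρ') {s : F → O} (d : G →* O)
    {π : G →* Equiv.Perm Y} {x : T → Y} {I : Set G} (t₀ : T)
    (hs : ∀ x, algebraMap O F (s x) = x) (opn : IsOpen {y | ρ y = 1})
    (det : ∀ y, (ρ y).1.det = algebraMap O F (d y)) (cd : Cd d)
    (ok : ∀ t, (B t).Ok ((Units.coeHom _).comp ρ) s d) (hI : ∀ y ∈ I, ρ y = 1 ∧ d y = 1)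
    (rp : Rp π x fun t => (B t).D) (f1 : Module.Finite F (Zc π I (ad0 ρ')))
    (f2 : Module.Finite F (H2 π I (ad0 ρ')))
    (num : Module.finrank F (H2 π I (ad0 ρ')) + 3 + 3 * Fintype.card T ≤
      Module.finrank F (Zc π I (ad0 ρ')) + ∑ t, (B t).k)
    (pr : (B t₀).J.IsPrime) (sat : Sat (B t₀).J)
    (dim : (((B t₀).k + 1 : ℕ) : WithBot ℕ∞) ≤ ringKrullDim (PS O (B t₀).τ ⧸ (B t₀).J))
    (par : ∀ t, t ≠ t₀ → Par (B t).J (B t).k)
    (fin : ∀ (A : Type) [CommRing A] [IsDomain A] [Base A] [Algebra O A] (r : G →* M2 A),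
      Gw B ((Units.coeHom _).comp ρ) s d I r →
      ∃ U : Subgroup G, U.FiniteIndex ∧ ∀ y ∈ U, IsIntegral O (r y).trace) :
    ∃ (V : Type) (_ : CommRing V) (_ : IsDomain V) (_ : IsDiscreteValuationRing V) (_ : Cf V)
      (_ : CharZero V) (_ : Algebra O V) (r : G →* M2 V), Module.Finite O V ∧
      Function.Injective (algebraMap O V) ∧ Gw B ((Units.coeHom _).comp ρ) s d I r := by
  let S' : RU.Dat O F G T := ⟨S.red, S.rb, S.g0, S.g1, S.lam, t₀, S.surj, S.d01, S.d10, S.dne, S.n01⟩
  let H : Ch O F G T (fun t => (B t).D) fun t => (B t).τ :=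
    ⟨fun t => (B t).D.subtype, fun _ => c, fun _ => c',
      fun t => ((Units.coeHom _).comp ρ).comp (B t).D.subtype, s, d, fun t => (B t).g,
      fun t => (B t).a, fun t => (B t).b, fun t => (B t).I, fun t => (B t).f⟩
  have cp : ∀ t, CompactSpace (B t).D := fun t => isCompact_iff_compactSpace.1 (ok t).cl.isCompact
  have on : ∀ y, ρ' y = 1 ↔ ρ y = 1 := fun y => by
    rw [← nm.one, e]
    exact Units.ext_iff
  have gw : ∀ (A : Type) [CommRing A] [IsLocalRing A] [Algebra O A] (r : G →* M2 A),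
      Gl H S' I (fun t => (B t).J) r →
      Gw B ((Units.coeHom _).comp ρ) s d I (cjm (mp_inv (algebraMap O A) nm.inv) r) :=
    fun A _ _ _ r h => ⟨lift_cj h.lift hs nm.inv fun y => nm.red ▸ nm.res y, fun y hy => by
      show _ * r y * _ = 1
      rw [h.unr y hy, mul_one, mul_eq_one_comm.1 (mp_inv (algebraMap O A) nm.inv)], h.loc⟩
  obtain ⟨V, i1, i2, i3, i4, i5, i6, r, a1, a2, a3⟩ := qs O F G T Y (fun t => (B t).D)
    (fun t => (B t).τ) H S' ρ' π x I (fun t => (B t).J) (fun t => (B t).k) t₀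
    ⟨nm.red, hs, nm.lam, fun _ => continuous_subtype_val, fun _ => nm.inv, fun t y => nm.res y.1,
      fun _ => Set.subset_univ _, fun y _ => by
        show S.red (d y) = (S.rb y).det
        rw [nm.det, det, nm.red], fun t => (ok t).tn, fun t => (ok t).uni⟩
    (fun _ => Subtype.val_injective) e (by simpa only [on] using opn) d.map_mul cd
    (fun y hy => ⟨(on y).2 (hI y hy).1, (hI y hy).2⟩)
    (by
      have : H.D = fun t => ((B t).D : Set G) := funext fun t => Subtype.range_coe
      rwa [this])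
    nm.n10 f1 f2 num (fun t => (ok t).le) pr sat dim par fun A _ _ _ _ r _ h => by
      obtain ⟨U, u1, u2⟩ := fin A _ (gw A r h)
      exact ⟨U, u1, fun y hy => cjm_tr _ r y ▸ u2 y hy⟩
  exact ⟨V, i1, i2, i3, i4, i5, i6, _, a1, a2, gw V r a3⟩

end Vale.Agent.P022K.RT.Qw
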