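import Vale.Agent.P022K.RT.Z1b
import Vale.Agent.P022K.RT.Orb

/-!
# P022K, block RT: row SMO (smooth points in characteristic zero)
-/

set_option linter.all false

noncomputable section

namespace Vale.Agent.P022K.RT.Zl

open IsLocalRing
open Vale.Agent.P022D.L2b (M2 Z1 pd)
open Vale.Agent.P022K.RT.Lu (Zc)

theorem one_add_pow {R : Type} [Ring R] {X : R} (h : X * X = 0) (n : ℕ) :
    (1 + X) ^ n = 1 + n • X := by
  induction n with
  | zero => simp
  | succ n ih =>
    rw [pow_succ, ih, mul_add, mul_one, add_mul, one_mul, smul_mul_assoc, h, smul_zero, add_zero,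
      succ_nsmul, add_assoc]

variable {G O : Type} [Group G] [TopologicalSpace G] [CommRing O] [IsDomain O] [IsLocalRing O]
  [IsNoetherianRing O] {l : ℕ} {I W : Subgroup G} {τ φ : G} {ρ : G →* M2 O}

/-- a wild element which is residually trivial is trivial -/
theorem wild_one (T : Wd l I W τ φ) (hl : IsUnit (l : O))
    (hρ : ∀ k, IsLocallyConstant fun x => (ρ x).map (Ideal.Quotient.mk (maximalIdeal O ^ k)))
    {w : G} (hw : w ∈ W) (h1 : Cg (maximalIdeal O) (ρ w) 1) : ρ w = 1 := by
  have key : ∀ k, Cg (maximalIdeal O ^ (k + 1)) (ρ w) 1 := by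
    intro k
    induction k with
    | zero => simpa using h1
    | succ k ih =>
      let π := Ideal.Quotient.mk (maximalIdeal O ^ (k + 1 + 1))
      obtain ⟨n, hn⟩ := T.wild (pm π ρ).toHomUnits.ker (by
        convert (hρ (k + 1 + 1)).isOpen_fiber 1 using 1
        ext g
        simp [Units.ext_iff, pm_apply, π]) w hw
      have h2 : pm π ρ w ^ l ^ n = 1 := by
        rw [← map_pow]
        exact congrArg Units.val hn
      have h3 : (pm π ρ w - 1) * (pm π ρ w - 1) = 0 := by
        have e : pm π ρ w - 1 = (ρ w - 1).map π := by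
          rw [← RingHom.mapMatrix_apply, map_sub, map_one]; rfl
        rw [e, ← Matrix.map_mul]
        ext i j
        rw [Matrix.map_apply, Matrix.mul_apply]
        refine Ideal.Quotient.eq_zero_iff_mem.2 (Ideal.sum_mem _ fun a _ => ?_)
        rw [pow_succ]
        exact Ideal.mul_mem_mul (ih i a) (h1 a j)
      have h4 := one_add_pow h3 (l ^ n)
      rw [add_sub_cancel, h2, left_eq_add, ← Nat.cast_smul_eq_nsmul O, Nat.cast_pow,
        (hl.pow n).smul_eq_zero, sub_eq_zero] at h4
      exact cg_one.2 h4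
  exact Or.cg_pow fun n i j => Ideal.pow_le_pow_right n.le_succ (key n i j)

theorem wild_fin [Finite (O ⧸ maximalIdeal O)] (T : Wd l I W τ φ) (hl : IsUnit (l : O))
    (hρ : ∀ k, IsLocallyConstant fun x => (ρ x).map (Ideal.Quotient.mk (maximalIdeal O ^ k))) :
    (ρ '' W).Finite := by
  refine Set.Finite.of_finite_image (f := fun M => M.map (Ideal.Quotient.mk (maximalIdeal O)))
    (Set.toFinite _) ?_
  rintro _ ⟨w, hw, rfl⟩ _ ⟨w', hw', rfl⟩ e
  have h1 := wild_one T hl hρ (W.mul_mem (W.inv_mem hw) hw') (cg_one.2 (by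
    have e' : (ρ w).map (Ideal.Quotient.mk (maximalIdeal O)) =
      (ρ w').map (Ideal.Quotient.mk (maximalIdeal O)) := e
    rw [map_mul, Matrix.map_mul, ← e', ← Matrix.map_mul, inv_r]
    exact Matrix.map_one _ (map_zero _) (map_one _)))
  rw [← mul_inv_cancel_left w w', map_mul ρ w, h1, mul_one]

variable {K : Type} [Field K] [Algebra O K] [IsFractionRing O K]

omit [IsLocalRing O] [IsNoetherianRing O] [TopologicalSpace G] in
theorem map_inj {M N : M2 O} (h : M.map (algebraMap O K) = N.map (algebraMap O K)) : M = N :=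
  Matrix.ext fun i j => IsFractionRing.injective O K (congrFun (congrFun h i) j)

/-- adically continuous functions with bounded denominators are continuous -/
theorem cts_frac (hl : IsUnit (l : O)) {b : G → M2 K} {o : K} (ho : o ≠ 0) {c : G → M2 O}
    (hb : ∀ x, o • b x = (c x).map (algebraMap O K))
    (hc : ∀ k, IsLocallyConstant fun x => (c x).map (Ideal.Quotient.mk (maximalIdeal O ^ k))) :
    Cts (ad (pm (algebraMap O K) ρ)) l fun x => b x * pm (algebraMap O K) ρ x⁻¹ := by
  let L : ℕ → AddSubgroup (M2 K) := fun k =>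
    { carrier := {M | ∃ N : M2 O, N.map (Ideal.Quotient.mk (maximalIdeal O ^ k)) = 0 ∧
        o • M = N.map (algebraMap O K)}
      add_mem' := by
        rintro a b ⟨A, h1, h2⟩ ⟨B, h3, h4⟩
        exact ⟨A + B, by rw [Matrix.map_add _ (map_add _), h1, h3, add_zero],
          by rw [Matrix.map_add _ (map_add _), smul_add, h2, h4]⟩
      zero_mem' := ⟨0, Matrix.map_zero _ (map_zero _), by
        rw [smul_zero, Matrix.map_zero _ (map_zero _)]⟩
      neg_mem' := by
        rintro a ⟨A, h1, h2⟩
        exact ⟨-A, by rw [Matrix.map_neg _ (map_neg _), h1, neg_zero],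
          by rw [Matrix.map_neg _ (map_neg _), smul_neg, h2]⟩ }
  intro v hv
  obtain ⟨k, hk⟩ : ∃ k, v ∉ L k := by
    by_contra hc
    push Not at hc
    obtain ⟨N, -, h2⟩ := hc 0
    have h3 : N = 0 := Or.cg_pow fun n => by
      obtain ⟨N', h4, h5⟩ := hc n
      rw [cg_iff, map_inj (h2.symm.trans h5), h4, Matrix.map_zero _ (map_zero _)]
    rw [h3, Matrix.map_zero _ (map_zero _)] at h2
    exact hv ((smul_eq_zero.1 h2).resolve_left ho)
  refine ⟨L k, hk, ?_, ?_, ?_⟩
  · rintro g w ⟨N, h1, h2⟩
    refine ⟨ρ g * N * ρ g⁻¹, by rw [Matrix.map_mul, Matrix.map_mul, h1, mul_zero, zero_mul], ?_⟩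
    rw [← map_smul, h2, Matrix.map_mul, Matrix.map_mul]
    rfl
  · rintro w ⟨N, h1, h2⟩
    obtain ⟨u, hu⟩ := hl.exists_left_inv
    refine ⟨u • N, ?_, ?_⟩
    · ext i j
      have := congrFun (congrFun h1 i) j
      simp only [Matrix.map_apply, Matrix.smul_apply, smul_eq_mul, map_mul] at this ⊢
      rw [this]; simp
    · ext i j
      rw [← Nat.cast_smul_eq_nsmul K] at h2
      have := congrFun (congrFun h2 i) j
      have hu' := congrArg (algebraMap O K) hu
      simp only [Matrix.map_apply, Matrix.smul_apply, smul_eq_mul, map_mul,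
        map_natCast, map_one] at this hu' ⊢
      rw [← this]
      linear_combination (-(o * w i j)) * hu'
  · convert (hc k).isOpen_fiber 0 using 1
    ext x
    constructor
    · rintro ⟨N, h1, h2⟩
      have h3 : c x = N * ρ x := map_inj (K := K) (by
        rw [Matrix.map_mul, ← h2, ← hb, ← pm_apply, smul_mul_assoc, mul_assoc, inv_r, mul_one])
      show (c x).map _ = 0
      rw [h3, Matrix.map_mul, h1, zero_mul]
    · intro h
      have h' : (c x).map (Ideal.Quotient.mk (maximalIdeal O ^ k)) = 0 := h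
      exact ⟨c x * ρ x⁻¹, by rw [Matrix.map_mul, h', zero_mul], by
        rw [Matrix.map_mul, ← hb, smul_mul_assoc]; rfl⟩

omit [IsLocalRing O] [IsNoetherianRing O] [TopologicalSpace G] in
theorem clear {ι : Type} [Finite ι] (z : ι → K) :
    ∃ (o : O) (a : ι → O), algebraMap O K o ≠ 0 ∧
      ∀ i, algebraMap O K (a i) = algebraMap O K o * z i := by
  obtain ⟨b, hb⟩ := IsLocalization.exist_integer_multiples_of_finite (nonZeroDivisors O) z
  choose a ha using hb
  exact ⟨b, a, (map_ne_zero_iff _ (IsFractionRing.injective O K)).2 (nonZeroDivisors.ne_zero b.2),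
    fun i => (ha i).trans (Algebra.smul_def _ _)⟩

omit [IsLocalRing O] [IsNoetherianRing O] [TopologicalSpace G] in
theorem clearM (N : M2 K) : ∃ (o : K) (A : M2 O), o ≠ 0 ∧ o • N = A.map (algebraMap O K) := by
  obtain ⟨o, a, h1, h2⟩ := clear (O := O) fun i : Fin 2 × Fin 2 => N i.1 i.2
  exact ⟨_, Matrix.of fun i j => a (i, j), h1, Matrix.ext fun i j => (h2 (i, j)).symm⟩

/-- **four adically continuous deformations are dependent** -/
theorem zc_dep [CharZero O] [Finite (O ⧸ maximalIdeal O)] (T : Wd l I W τ φ)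
    (hl : IsUnit (l : O))
    (hρ : ∀ k, IsLocallyConstant fun x => (ρ x).map (Ideal.Quotient.mk (maximalIdeal O ^ k)))
    (hN : ∀ N : M2 O, N.trace = 0 → (∀ s ∈ I, ρ s * N = N * ρ s) →
      (l : O) • (ρ φ * N) = N * ρ φ → N = 0)
    (c : Fin 4 → G → M2 O) (hc : ∀ i, Zc (maximalIdeal O) ρ (c i)) : ¬ LinearIndependent O c := by
  intro hli
  let K := FractionRing O
  let ι := algebraMap O K
  have inj : Function.Injective ι := IsFractionRing.injective O K
  haveI : CharZero K := charZero_of_injective_algebraMap inj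
  let γ : (Fin 4 → K) →ₗ[K] (G → M2 K) := Fintype.linearCombination K fun i x => (c i x).map ι
  have hγ : ∀ z x, γ z x = ∑ i, z i • (c i x).map ι := fun z x => by
    simp [γ, Fintype.linearCombination_apply]
  have hcl : ∀ (z : Fin 4 → K) (o : O) (a : Fin 4 → O), (∀ i, ι (a i) = ι o * z i) →
      ∀ x, ι o • γ z x = (∑ i, a i • c i x).map ι := fun z o a ha x => by
    ext i j
    simp only [hγ, Matrix.smul_apply, Matrix.sum_apply, Matrix.map_apply, smul_eq_mul, map_sum,
      map_mul, ha, mul_assoc]
    rw [Finset.mul_sum]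
  have hinj : Function.Injective γ := by
    rw [injective_iff_map_eq_zero]
    intro z hz
    obtain ⟨o, a, h1, h2⟩ := clear (O := O) z
    have h3 := Fintype.linearIndependent_iff.1 hli a (funext fun x => map_inj (K := K) (by
      have := hcl z o a h2 x
      rw [hz, Pi.zero_apply, smul_zero] at this
      rw [Finset.sum_apply, Pi.zero_apply, Matrix.map_zero _ (map_zero _)]
      exact this.symm))
    funext i
    have h4 := h2 i
    rw [h3 i, map_zero] at h4
    exact (mul_eq_zero.1 h4.symm).resolve_left h1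
  have hf : (pm ι ρ '' W).Finite := ((wild_fin T hl hρ).image fun M => M.map ι).subset (by
    rintro _ ⟨w, hw, rfl⟩
    exact ⟨_, ⟨w, hw, rfl⟩, rfl⟩)
  have h := (rank_mat T hf (fun w hw => ?_) γ hinj fun z => ⟨fun x => ?_, fun x y => ?_, ?_⟩).2
    (h2_of T two_ne_zero (fun N => ?_) fun N h1 h2 h3 => ?_)
  · rw [rank_fun', Fintype.card_fin] at h
    exact absurd (by exact_mod_cast h : 4 ≤ 3) (by omega)
  · have h1 : ((pm ι ρ).toHomUnits '' W).Finite :=
      Set.Finite.of_finite_image (f := Units.val) (hf.subset (by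
        rintro _ ⟨_, ⟨s, hs, rfl⟩, rfl⟩; exact ⟨s, hs, rfl⟩)) Units.val_injective.injOn
    have h2 : Finite (W.map (pm ι ρ).toHomUnits) := h1.to_subtype
    let g : W.map (pm ι ρ).toHomUnits := ⟨(pm ι ρ).toHomUnits w, w, hw, rfl⟩
    exact ⟨orderOf g, Nat.cast_ne_zero.2 (orderOf_pos g).ne',
      congrArg Units.val (congrArg Subtype.val (pow_orderOf_eq_one g))⟩
  · have h1 : ∀ i, pd (pm ι ρ x) ((c i x).map ι) = 0 := fun i => by
      have := congrArg ι ((hc i).det x)
      simp only [pd, map_sub, map_add, map_mul, map_zero] at this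
      exact this
    rw [hγ, pd_eq, Finset.sum_mul, Matrix.trace_sum]
    refine Finset.sum_eq_zero fun i _ => ?_
    rw [smul_mul_assoc, Matrix.trace_smul, ← pd_eq, h1, smul_zero]
  · simp only [hγ, (hc _).mul, Matrix.map_add _ (map_add _), Matrix.map_mul, smul_add,
      Finset.sum_add_distrib, Finset.sum_mul, Finset.mul_sum, smul_mul_assoc, mul_smul_comm,
      pm_apply]
  · obtain ⟨o, a, h1, h2⟩ := clear (O := O) z
    refine cts_frac hl h1 (hcl z o a h2) fun k => ?_
    let π := Ideal.Quotient.mk (maximalIdeal O ^ k)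
    have h3 := (((hc 0).lc k).prodMk ((hc 1).lc k)).comp₂ (((hc 2).lc k).prodMk ((hc 3).lc k))
      fun A B => π (a 0) • A.1 + π (a 1) • A.2 + π (a 2) • B.1 + π (a 3) • B.2
    convert h3 using 2 with x
    ext i j
    simp only [Fin.sum_univ_four, Matrix.map_apply, Matrix.add_apply, Matrix.smul_apply,
      smul_eq_mul, map_add, map_mul, π]
  · obtain ⟨o, A, h1, h2⟩ := clearM (O := O) N
    have h3 := cts_frac (ρ := ρ) (b := fun x => N * pm ι ρ x - pm ι ρ x * N)
      (c := fun x => A * ρ x - ρ x * A) hl h1 (fun x => by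
        rw [Matrix.map_sub _ (map_sub _), Matrix.map_mul, Matrix.map_mul, ← h2, smul_sub,
          smul_mul_assoc, mul_smul_comm]
        rfl) fun k => by
        have := (hρ k).comp fun Y => A.map (Ideal.Quotient.mk _) * Y -
          Y * A.map (Ideal.Quotient.mk _)
        convert this using 2 with x
        rw [Matrix.map_sub _ (map_sub _), Matrix.map_mul, Matrix.map_mul]
        rfl
    convert h3 using 2 with g
    simp only [sub_mul, mul_assoc, r_inv, mul_one, ad_apply, ι]
  · obtain ⟨o, A, h4, h5⟩ := clearM (O := O) N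
    have h6 := hN A (inj (by
      have := congrArg Matrix.trace h5
      rw [Matrix.trace_smul, h1, smul_zero] at this
      rw [map_zero, AddMonoidHom.map_trace]
      exact this.symm)) (fun s hs => map_inj (K := K) (by
        rw [Matrix.map_mul, Matrix.map_mul, ← h5, smul_mul_assoc, mul_smul_comm]
        exact congrArg _ (h2 s hs))) (map_inj (K := K) (by
        have e : ((l : O) • (ρ φ * A)).map (algebraMap O K) =
            (l : K) • (ρ φ * A).map (algebraMap O K) := by
          ext i j
          simp only [Matrix.map_apply, Matrix.smul_apply, smul_eq_mul, map_mul, map_natCast]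
        rw [e, Matrix.map_mul, Matrix.map_mul, ← h5, smul_mul_assoc, mul_smul_comm, smul_comm]
        exact congrArg _ h3))
    rw [h6, Matrix.map_zero _ (map_zero _)] at h5
    exact (smul_eq_zero.1 h5).resolve_left h4

end Vale.Agent.P022K.RT.Zl

namespace Vale.Agent.P022K.RT

open Zl IsLocalRing MvPowerSeries

/-- row SMO -/
theorem smo : SMO := by
  intro F O τ _ _ _ _ _ hO _ _ _ l P r s d g p q I f x h hl hs hU hI ⟨φ, hφ, hN⟩ Z hZ
  obtain ⟨t, T⟩ := wd h
  have h' := hU.un hs
  have hx := Or.pt_loc x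
  have hfin : Finite (O ⧸ maximalIdeal O) := hO.fin
  have hl' : IsUnit (l : O) := by
    by_contra hn
    have h1 : (l : O) ∈ maximalIdeal O := hn
    rw [← P022D.L2b.ker_eq hs, RingHom.mem_ker, map_natCast] at h1
    exact hl h1
  by_contra hlt
  obtain ⟨w, hw⟩ := exists_linearIndependent_of_le_finrank (R := O) (M := Z)
    (show 4 ≤ Module.finrank O Z by omega)
  have hw' := hw.map' Z.subtype Z.ker_subtype
  have hz := fun i => h'.zc (φ := x.toRingHom) (v := (w i : τ → O)) hI hx (hZ _ (w i).2)
  refine zc_dep (T φ hφ) hl' (fun k => ?_) (fun N h1 h2 h3 => hN N h1 (fun i hi => h2 i hi) h3) _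
    (fun i => (hz i).1) (Fintype.linearIndependent_iff.2 fun a ha =>
      Fintype.linearIndependent_iff.1 hw' a (funext fun u => ?_))
  · exact h'.rep_lc ((Ideal.Quotient.mk (maximalIdeal O ^ k)).comp x.toRingHom)
      (fun u hu => (congrArg (Ideal.Quotient.mk _) (hI u hu)).trans (map_zero _)) (k := k)
      fun u hu => Ideal.Quotient.eq_zero_iff_mem.2 (Or.pow_map x.toRingHom hx k u hu)
  · have h2 := congrFun (congrFun (congrFun ha (g u)) (p u)) (q u)
    simpa only [Finset.sum_apply, Pi.smul_apply, Matrix.sum_apply, Matrix.smul_apply,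
      Matrix.map_apply, fun i => (hz i).2 u, smul_eq_mul, Pi.zero_apply, Matrix.zero_apply,
      Function.comp_apply, Submodule.subtype_apply] using h2

end Vale.Agent.P022K.RT
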