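import Vale.Agent.P022K.RT.St

/-!
# P022K, block RT: the patching machine on the discrete side. Rows of pure algebra.
-/

set_option linter.all false

noncomputable section

namespace Vale.Agent.P022K.RT

open IsLocalRing MvPowerSeries Filter
open Vale.Agent.P022D.L2b (M2)
open Vale.Agent.P022D.Core (PS)
open Vale.Agent.P022K.PL (Cf Fl)

section disc

variable (O : Type) {R K M : Type} [CommRing O] [IsLocalRing O] [CommRing R] [Algebra O R]
  [Group K] [AddCommGroup M] [Module O M] [Module R M] [IsScalarTower O R M]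

/-- the vectors of level `j` -/
def Lv (N : ℕ → Subgroup K) (ρ : K →* Module.End R M) (j : ℕ) : Submodule R M where
  carrier := {v | (∀ g ∈ N j, ρ g v = v) ∧ ∀ o ∈ maximalIdeal O ^ j, o • v = 0}
  add_mem' {a b} ha hb := ⟨fun g hg => by rw [map_add, ha.1 g hg, hb.1 g hg],
    fun o ho => by rw [smul_add, ha.2 o ho, hb.2 o ho, add_zero]⟩
  zero_mem' := ⟨fun g _ => map_zero _, fun o _ => smul_zero o⟩
  smul_mem' c a ha := ⟨fun g hg => by rw [map_smul, ha.1 g hg], fun o ho => by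
    rw [← algebraMap_smul R o, smul_comm, algebraMap_smul, ha.2 o ho, smul_zero]⟩

/-- the vectors of level `j` form a free module of rank `b` over `(O / m ^ j) [K / N j]` -/
def Fre (N : ℕ → Subgroup K) (ρ : K →* Module.End R M) (b j : ℕ) : Prop :=
  ∃ x : Fin b → M, (∀ i, x i ∈ Lv O N ρ j) ∧
    (∀ v ∈ Lv O N ρ j, v ∈ Submodule.span O (Set.range fun q : K × Fin b => ρ q.1 (x q.2))) ∧
    ∀ (s : Finset K) (c : K → Fin b → O), (∀ a ∈ s, ∀ a' ∈ s, a⁻¹ * a' ∈ N j → a = a') →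
      ∑ γ ∈ s, ∑ i, c γ i • ρ γ (x i) = 0 → ∀ γ ∈ s, ∀ i, c γ i ∈ maximalIdeal O ^ j

/-- cofree of rank `b` -/
structure Cof (N : ℕ → Subgroup K) (ρ : K →* Module.End R M) (b : ℕ) : Prop where
  sm : ∀ v, ∃ j, v ∈ Lv O N ρ j
  fre : ∀ j, Fre O N ρ b j

/-- a patched module: `γ` are the extra parameters, `qa`, `qb` the quadratic relations -/
structure Dm [IsLocalRing R] {e r : ℕ} {β : Type} (k : Fin e ⊕ Fin r → K) (N : ℕ → Subgroup K)
    (ρ : K →* Module.End R M) (b : ℕ) (γ : β → K) (qa qb : Fin r → R) : Prop where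
  cof : Cof O N ρ b
  com : ∀ i j, Commute (ρ (γ i)) (ρ (γ j))
  mem : ∀ s, qa s ∈ maximalIdeal R ∧ qb s ∈ maximalIdeal R
  quad : ∀ s, (ρ (k (Sum.inr s)) - 1) ^ 2 - qa s • (ρ (k (Sum.inr s)) - 1) + qb s • 1 = 0
  gk : {v : M | (∀ u ∈ maximalIdeal R, u • v = 0) ∧ (∀ s, ρ (k (Sum.inr s)) v = v) ∧
    ∀ i, ρ (γ i) v = v}.Finite

/-- `θ` is a projector up to a scalar and a unit -/
def Prj (ρ : K →* Module.End R M) (θ : Module.End R M) : Prop :=
  (∀ g, Commute θ (ρ g)) ∧ ∃ (θ' : Module.End R M) (c : O), (∀ g, Commute θ' (ρ g)) ∧ c ≠ 0 ∧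
    ∀ v, θ (θ' (θ v)) = c • θ v

/-- `θ` has unbounded exponent on `S` -/
def Unb (θ : M → M) (S : Set M) : Prop := ∀ o : O, o ≠ 0 → ∃ v ∈ S, o • θ v ≠ 0

/-- the vectors killed by an ideal -/
def Kl (M : Type) [AddCommGroup M] [Module R M] (𝔮 : Ideal R) : Set M := {v | ∀ u ∈ 𝔮, u • v = 0}

/-- the annihilator of the image of `θ` -/
def An (θ : Module.End R M) : Ideal R := (LinearMap.range θ).annihilator

/-- the equivariant maps from the module `O ^ n` with the action `τ` -/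
def Hm {n : ℕ} (τ : K → Matrix (Fin n) (Fin n) O) (ρ : K →* Module.End R M) :
    Submodule R (Fin n → M) where
  carrier := {x | ∀ g i, ρ g (x i) = ∑ j, τ g j i • x j}
  add_mem' {a b} ha hb g i := by
    simp only [Pi.add_apply, map_add, ha g i, hb g i, smul_add, Finset.sum_add_distrib]
  zero_mem' g i := by simp
  smul_mem' c a ha g i := by
    simp only [Pi.smul_apply, map_smul, ha g i, Finset.smul_sum]
    exact Finset.sum_congr rfl fun j _ => by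
      rw [← algebraMap_smul R (τ g j i), ← algebraMap_smul R (τ g j i), smul_comm]

/-- `M` is the bounded ultraproduct of the `Y n`; `Rp v x` says that `x` represents `v` -/
structure Ult (N : ℕ → Subgroup K) (U : Ultrafilter ℕ) (Y : ℕ → Type) [∀ n, AddCommGroup (Y n)]
    [∀ n, Module O (Y n)] [∀ n, Module R (Y n)] [∀ n, IsScalarTower O R (Y n)]
    (ρ : ∀ n, K →* Module.End R (Y n)) (ρ' : K →* Module.End R M)
    (Rp : M → (∀ n, Y n) → Prop) : Prop where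
  ex : ∀ v, ∃ x, Rp v x
  sur : ∀ x j, (∀ᶠ n in (U : Filter ℕ), x n ∈ Lv O N (ρ n) j) → ∃ v, Rp v x
  eq : ∀ v x v' x', Rp v x → Rp v' x' → (v = v' ↔ ∀ᶠ n in (U : Filter ℕ), x n = x' n)
  add : ∀ v x v' x', Rp v x → Rp v' x' → Rp (v + v') (x + x')
  smul : ∀ (u : R) v x, Rp v x → Rp (u • v) (u • x)
  act : ∀ g v x, Rp v x → Rp (ρ' g v) fun n => ρ n g (x n)
  sm : ∀ v, ∃ j, v ∈ Lv O N ρ' j
  lev : ∀ v x j, Rp v x → (v ∈ Lv O N ρ' j ↔ ∀ᶠ n in (U : Filter ℕ), x n ∈ Lv O N (ρ n) j)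
  lift : ∀ θ : ∀ n, Y n →+ Y n, (∀ j, ∃ j', ∀ᶠ n in (U : Filter ℕ), ∀ y ∈ Lv O N (ρ n) j,
    θ n y ∈ Lv O N (ρ n) j') → ∃ θ' : M →+ M, ∀ v x, Rp v x → Rp (θ' v) fun n => θ n (x n)

end disc

/-- the free abelian group of the patching variables -/
abbrev Zr (r : ℕ) : Type := Multiplicative (Fin r → ℤ)

/-- its filtration -/
def NZ (p r m : ℕ) : Subgroup (Zr r) where
  carrier := {a | ∀ s, (p : ℤ) ^ m ∣ a.toAdd s}
  mul_mem' {a b} ha hb s := by simpa using dvd_add (ha s) (hb s)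
  one_mem' s := by simp
  inv_mem' {a} ha s := by simpa using ha s

/-- its generators -/
def zg {r : ℕ} (s : Fin r) : Zr r := Multiplicative.ofAdd (Pi.single s 1)

/-- the generators of the product -/
def kP {K : Type} [Group K] {e : ℕ} (k : Fin e → K) (r : ℕ) : Fin e ⊕ Fin r → K × Zr r :=
  Sum.elim (fun i => (k i, 1)) fun s => (1, zg s)

/-- the filtration of the product -/
def NP {K : Type} [Group K] (N : ℕ → Subgroup K) (p r m : ℕ) : Subgroup (K × Zr r) :=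
  (N m).prod (NZ p r m)

/-- row UPA: bounded ultraproducts -/
def UPA : Prop := ∀ (O R K : Type) [CommRing O] [IsDomain O] [IsDiscreteValuationRing O] [Cf O]
  [CommRing R] [Algebra O R] [Group K] (N : ℕ → Subgroup K) (U : Ultrafilter ℕ) (Y : ℕ → Type)
  [∀ n, AddCommGroup (Y n)] [∀ n, Module O (Y n)] [∀ n, Module R (Y n)]
  [∀ n, IsScalarTower O R (Y n)] (ρ : ∀ n, K →* Module.End R (Y n)),
  Antitone N → (∀ m, (N m).Normal) → (∀ m, (N m).index ≠ 0) →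
    ∃ (M : Type) (_ : AddCommGroup M) (_ : Module O M) (_ : Module R M) (_ : IsScalarTower O R M)
      (ρ' : K →* Module.End R M) (Rp : M → (∀ n, Y n) → Prop), Ult O N U Y ρ ρ' Rp ∧
      ∀ b j, (∀ᶠ n in (U : Filter ℕ), Fre O N (ρ n) b j) → Fre O N ρ' b j

/-- row UNP: products of uniform groups with the group of the patching variables -/
def UNP : Prop := ∀ (K : Type) [Group K] (p e r : ℕ) [Fact p.Prime] (k : Fin e → K)
  (N : ℕ → Subgroup K), Unf p (kP k 0 · |>.1) N → Unf p (kP k r) (NP N p r) ∧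
    Unf p (fun s : Fin 0 ⊕ Fin r => (kP (Fin.elim0 : Fin 0 → Unit) r s).2) (NZ p r)

/-- the module of characters of `M` is free over the power series ring -/
structure Du {O R K M : Type} [CommRing O] [IsLocalRing O] [CommRing R] [Algebra O R] [Group K]
    [AddCommGroup M] [Module O M] [Module R M] [IsScalarTower O R M] {e r b : ℕ}
    (N : ℕ → Subgroup K) (ρ : K →* Module.End R M)
    (lam : K →* Module.End O (PS O (Fin e ⊕ Fin r)))
    (B : (Fin b → PS O (Fin e ⊕ Fin r)) →+ CharacterModule M) : Prop where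
  bij : Function.Bijective B
  c : ∀ (o : O) v m, B ((C o : PS O (Fin e ⊕ Fin r)) • v) m = B v (o • m)
  act : ∀ g v m, B (fun i => lam g (v i)) (ρ g m) = B v m
  fl : ∀ j, ∃ j', ∀ v ∈ Fl O (Fin e) r (Fin b → PS O (Fin e ⊕ Fin r)) j',
    ∀ m ∈ Lv O N ρ j, B v m = 0
  lf : ∀ j', ∃ j, ∀ v, (∀ m ∈ Lv O N ρ j, B v m = 0) →
    v ∈ Fl O (Fin e) r (Fin b → PS O (Fin e ⊕ Fin r)) j'

/-- row DUAL -/
def DUAL : Prop := ∀ (O R K M : Type) [CommRing O] [IsDomain O] [IsDiscreteValuationRing O]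
  [Cf O] [CommRing R] [Algebra O R] [Group K] [AddCommGroup M] [Module O M] [Module R M]
  [IsScalarTower O R M] (p e r b : ℕ) [Fact p.Prime] (k : Fin e ⊕ Fin r → K)
  (N : ℕ → Subgroup K) (ρ : K →* Module.End R M), (p : O) ∈ maximalIdeal O → Unf p k N →
  Cof O N ρ b → ∃ (lam : K →* Module.End O (PS O (Fin e ⊕ Fin r)))
    (B : (Fin b → PS O (Fin e ⊕ Fin r)) →+ CharacterModule M), Reg k N lam ∧ Du N ρ lam B

/-- **row PATD: the big patching theorem on the discrete side** -/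
def PATD : Prop := ∀ (O σ β K M : Type) [CommRing O] [IsDomain O] [IsDiscreteValuationRing O]
  [Cf O] [Fintype σ] [Fintype β] [Group K] [AddCommGroup M] [Module O M] [Module (PS O σ) M]
  [IsScalarTower O (PS O σ) M] (p e r b D : ℕ) [Fact p.Prime] (k : Fin e ⊕ Fin r → K)
  (N : ℕ → Subgroup K) (ρ : K →* Module.End (PS O σ) M) (γ : β → K) (qa qb : Fin r → PS O σ)
  (θ : Module.End (PS O σ) M) (I₀ J₀ 𝔵 : Ideal (PS O σ)) (h : PS O σ),
  (p : O) ∈ maximalIdeal O → Unf p k N → Dm O k N ρ b γ qa qb → Prj O ρ θ →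
  (∀ v, v ∈ Kl M I₀) → 𝔵.IsPrime → An θ ≤ 𝔵 → h ∉ 𝔵 → (∀ u ∈ J₀, h * u ∈ I₀) → J₀.IsPrime →
  Sat J₀ → ringKrullDim (PS O σ ⧸ J₀) = (D + 1 : ℕ) → D + Fintype.card β ≤ e + r →
    An θ ≤ J₀ ∧ ∀ 𝔮 : Ideal (PS O σ), 𝔮.IsPrime → J₀ ≤ 𝔮 → (∀ o, C o ∈ 𝔮 → o = 0) →
      ∀ S : Set (Fin r), (∀ s ∈ S, qa s ∈ 𝔮 ∧ qb s ∈ 𝔮) →
        Unb O θ (Kl M 𝔮 ∩ {v | ∀ s ∈ S, ρ (k (Sum.inr s)) v = v})

/-- row PATE: modules of finite level -/
def PATE : Prop := ∀ (O σ K M : Type) [CommRing O] [IsDomain O] [IsDiscreteValuationRing O]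
  [Cf O] [Fintype σ] [Group K] [AddCommGroup M] [Module O M] [Module (PS O σ) M]
  [IsScalarTower O (PS O σ) M] (p r b : ℕ) [Fact p.Prime] (k : Fin 0 ⊕ Fin r → K)
  (N : ℕ → Subgroup K) (ρ : K →* Module.End (PS O σ) M) (qa qb : Fin r → PS O σ)
  (θ : Module.End (PS O σ) M), (p : O) ∈ maximalIdeal O → Unf p k N →
  Dm O k N ρ b (Empty.elim : Empty → K) qa qb → Prj O ρ θ →
    (θ ≠ 0 → ((r + 1 : ℕ) : WithBot ℕ∞) ≤ ringKrullDim (PS O σ ⧸ An θ) ∧ Sat (An θ)) ∧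
    ∀ 𝔮 : Ideal (PS O σ), 𝔮.IsPrime →
      (An θ ≤ 𝔮 → (∀ o, C o ∈ 𝔮 → o = 0) → ∀ S : Set (Fin r), (∀ s ∈ S, qa s ∈ 𝔮 ∧ qb s ∈ 𝔮) →
        Unb O θ (Kl M 𝔮 ∩ {v | ∀ s ∈ S, ρ (k (Sum.inr s)) v = v})) ∧
      (An θ ≤ 𝔮 → (∀ s, ∃ c c', qa s - C c ∈ 𝔮 ∧ qb s - C c' ∈ 𝔮) →
        Module.Finite O (PS O σ ⧸ 𝔮)) ∧
      (Module.Finite O (PS O σ ⧸ 𝔮) → Unb O θ (Kl M 𝔮) → An θ ≤ 𝔮)

/-- row HOMF: equivariant maps from a lattice -/
def HOMF : Prop := ∀ (O R K M : Type) [CommRing O] [IsDomain O] [IsDiscreteValuationRing O]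
  [Cf O] [CommRing R] [Algebra O R] [Group K] [AddCommGroup M] [Module O M] [Module R M]
  [IsScalarTower O R M] (p e r b n : ℕ) [Fact p.Prime] (k : Fin e → K) (N : ℕ → Subgroup K)
  (ρ : K × Zr r →* Module.End R M) (τ : K →* Matrix (Fin n) (Fin n) O),
  (p : O) ∈ maximalIdeal O → Unf p (kP k r) (NP N p r) → Cof O (NP N p r) ρ b →
  (∀ j, ∃ m, ∀ g ∈ N m, ∀ a a', (τ g - 1) a a' ∈ maximalIdeal O ^ j) →
    ∀ ρ' : Zr r →* Module.End R (Hm O τ (ρ.comp (MonoidHom.inl K (Zr r)))),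
      (∀ z x i, (ρ' z x).1 i = ρ (1, z) (x.1 i)) → Cof O (NZ p r) ρ' (b * n)

/-! ### from the Galois action to matrices -/

section gal

variable {O F G T M : Type} [CommRing O] [Field F] [Group G] [AddCommGroup M] [Module O M]

/-- the trace operators -/
def tt (γ : G →* Module.End O M) (ε : G → O) (g : G) : Module.End O M := γ g + ε g • γ g⁻¹

/-- locally nilpotent -/
def Lnil (θ : Module.End O M) : Prop := ∀ v, ∃ n : ℕ, (θ ^ n) v = 0

/-- a module with a Galois action of rank two -/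
structure Gm (S : RU.Dat O F G T) (s : F → O) (γ : G →* Module.End O M) (ε : G →* O) : Prop where
  sec : ∀ x, S.red (s x) = x
  lam : S.red S.lam = S.rb S.g1 0 1
  n10 : ∃ g, S.rb g 1 0 ≠ 0
  det : ∀ g, S.red (ε g) = (S.rb g).det
  cen : ∀ g h, Commute (tt γ ε g) (γ h)
  fin : ∀ v, ∃ Y : Submodule O M, v ∈ Y ∧ (Y : Set M).Finite ∧ ∀ g, ∀ w ∈ Y, γ g w ∈ Y
  nil : ∀ g, Lnil (tt γ ε g - s (S.rb g).trace • 1)

/-- the ring of traces `B`, the representation `ρ` in normal form, the matrix units `E` -/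
structure Mu (S : RU.Dat O F G T) (s : F → O) (γ : G →* Module.End O M) (ε : G →* O) (B : Type)
    [CommRing B] [Algebra O B] [Module B M] (ρ : G →* M2 B) (E : M2 B →+* Module.End O M) :
    Prop where
  gal : ∀ g, E (ρ g) = γ g
  sca : ∀ (u : B) v, E (Matrix.scalar (Fin 2) u) v = u • v
  loc : ∀ (u : B) (Z : Finset M), ∃ θ ∈ Algebra.adjoin O (Set.range (tt γ ε)),
    ∀ v ∈ Z, u • v = θ v
  locE : ∀ (m : M2 B) (Z : Finset M), ∃ θ ∈ Algebra.adjoin O (Set.range γ), ∀ v ∈ Z, E m v = θ v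
  dg : ρ S.g0 0 1 = 0 ∧ ρ S.g0 1 0 = 0
  nm : ρ S.g1 0 1 = algebraMap O B S.lam
  det : ∀ g, (ρ g).det = algebraMap O B (ε g)
  tr : ∀ g (v : M), (ρ g).trace • v = tt γ ε g v
  res : ∀ g i j (v : M), ∃ n : ℕ, (ρ g i j - algebraMap O B (s (S.rb g i j))) ^ n • v = 0
  all : ∀ u : B, ∃ c : F, ∀ v : M, ∃ n : ℕ, (u - algebraMap O B (s c)) ^ n • v = 0

end gal

/-- row GAL -/
def GAL : Prop := ∀ (O F G T M : Type) [CommRing O] [IsDomain O] [IsDiscreteValuationRing O]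
  [Field F] [Group G] [AddCommGroup M] [Module O M] (S : RU.Dat O F G T) (s : F → O)
  (γ : G →* Module.End O M) (ε : G →* O), (∀ c, S.red c = 0 ↔ c ∈ maximalIdeal O) →
  Gm S s γ ε → ∃ (B : Type) (_ : CommRing B) (_ : Algebra O B) (_ : Module B M)
    (_ : IsScalarTower O B M) (ρ : G →* M2 B) (E : M2 B →+* Module.End O M), Mu S s γ ε B ρ E

end Vale.Agent.P022K.RT
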