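import Vale.Agent.P022K.RT.Unrb

/-!
# P022K, block RT: lifts with the same inertial type of order prime to `p` are connected by a
family over `O[[t]]`
-/

set_option linter.all false

noncomputable section

namespace Vale.Agent.P022K.RT.Zl

open IsLocalRing MvPowerSeries
open Vale.Agent.P022D.L2b (M2 mem_max_iff ker_eq)
open Vale.Agent.P022D.Core (PS)
open Vale.Agent.P022D
open Vale.Agent.P022D.PA (Base)
open Vale.Agent.P022K.PL (Cf)
open Vale.Agent.P027M.S (Inert)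
open Vale.Agent.P022D.W (dec)
open Vale.Agent.P022E.GW (Ov Fb)
open Vale.Agent.P022K.GW (Id)

/-- adic continuity -/
def Ac {G A : Type} [Group G] [TopologicalSpace G] [CommRing A] [IsLocalRing A] (ρ : G → M2 A) :
    Prop := ∀ n : ℕ, IsOpen {x | Cg (maximalIdeal A ^ n) (ρ x) 1}

/-- changing the image of Frobenius by an element of the centraliser of inertia -/
theorem Wd.tw_mul {G M : Type} [Group G] [TopologicalSpace G] [Monoid M] {l : ℕ}
    {I W : Subgroup G} {τ φ : G} (T : Wd l I W τ φ) (hI : I.Normal) {a b c : G →* M}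
    (ha : IsOpen {g | a g = 1}) (hb : IsOpen {g | b g = 1}) (hc : IsOpen {g | c g = 1})
    (a1 : ∀ s ∈ I, a s = 1) (b1 : ∀ s ∈ I, b s = 1) (b2 : b φ = c φ) {γ : M} (a2 : a φ = γ * c φ)
    (hγ : ∀ s ∈ I, Commute γ (c s)) (x y : G) :
    a (x * y) * b (x * y)⁻¹ * c (x * y) = a x * b x⁻¹ * c x * (a y * b y⁻¹ * c y) := by
  have ho : IsOpen ((kr a ⊓ kr b ⊓ kr c : Subgroup G) : Set G) :=
    ((kr_open ha).inter (kr_open hb)).inter (kr_open hc)
  have h1 : ∃ s ∈ I, b x⁻¹ * c x = c s := by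
    obtain ⟨k, s, hs, u, hu, rfl⟩ := T.gen _ ho x
    refine ⟨s, hs, ?_⟩
    have e : c (φ ^ k) = b (φ ^ k) := by rw [map_pow, map_pow, b2]
    simp only [mul_inv_rev, map_mul, b1 _ (I.inv_mem hs), mem_kr.1 ((kr b).inv_mem hu.1.2),
      mem_kr.1 hu.2, one_mul, mul_one, e]
    rw [← mul_assoc, ← map_mul, inv_mul_cancel, map_one, one_mul]
  have h2 : ∀ (j : ℕ), ∀ s ∈ I, Commute (a (φ ^ j) * c (φ ^ j)⁻¹) (c s) := by
    intro j
    induction j with
    | zero => intro s _; simp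
    | succ j ih =>
      intro s hs
      have e : a (φ ^ (j + 1)) * c (φ ^ (j + 1))⁻¹ =
          γ * (c φ * (a (φ ^ j) * c (φ ^ j)⁻¹) * c φ⁻¹) := by
        rw [pow_succ', map_mul, a2, mul_inv_rev, map_mul]
        simp only [mul_assoc]
      rw [e]
      refine (hγ s hs).mul_left ?_
      have hs' : φ⁻¹ * s * φ ∈ I := by simpa using hI.conj_mem s hs φ⁻¹
      have e1 : c φ⁻¹ * c s = c (φ⁻¹ * s * φ) * c φ⁻¹ := by
        rw [← map_mul, ← map_mul]; congr 1; group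
      have e2 : c φ * c (φ⁻¹ * s * φ) = c s * c φ := by
        rw [← map_mul, ← map_mul]; congr 1; group
      show _ * _ = _ * _
      rw [mul_assoc, e1, ← mul_assoc, mul_assoc (c φ), (ih _ hs').eq, ← mul_assoc, e2]
      simp only [mul_assoc]
  have h3 : ∀ s ∈ I, Commute (a y * b y⁻¹) (c s) := by
    obtain ⟨k, s, hs, u, hu, rfl⟩ := T.gen _ ho y
    have e : b (φ ^ k)⁻¹ = c (φ ^ k)⁻¹ := by
      have e0 : c (φ ^ k) = b (φ ^ k) := by rw [map_pow, map_pow, b2]
      rw [← mul_one (b _), ← map_one c, ← mul_inv_cancel (φ ^ k), map_mul, e0, ← mul_assoc,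
        ← map_mul, inv_mul_cancel, map_one, one_mul]
    simp only [mul_inv_rev, map_mul, b1 _ (I.inv_mem hs), mem_kr.1 ((kr b).inv_mem hu.1.2),
      mem_kr.1 hu.1.1, a1 s hs, one_mul, mul_one, e]
    exact h2 k
  obtain ⟨s, hs, e⟩ := h1
  calc _ = a x * (a y * b y⁻¹ * (b x⁻¹ * c x)) * c y := by
        simp only [mul_inv_rev, map_mul, mul_assoc]
    _ = a x * (b x⁻¹ * c x * (a y * b y⁻¹)) * c y := by rw [e, (h3 s hs).eq]
    _ = _ := by simp only [mul_assoc]

theorem iD_nor (P : Id) : (iD P).Normal :=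
  ⟨fun s hs g => P022D.W.conj_inP g.2 hs⟩

theorem Ac.one {G A : Type} [Group G] [TopologicalSpace G] [CommRing A] [IsLocalRing A]
    {ρ : G →* M2 A} (h : Ac ρ) (n : ℕ) :
    IsOpen {x | pm (Ideal.Quotient.mk (maximalIdeal A ^ n)) ρ x = 1} := by
  have := h n
  simp only [cg_one] at this
  exact this

theorem Ac.map {G A B : Type} [Group G] [TopologicalSpace G] [IsTopologicalGroup G] [CommRing A]
    [IsLocalRing A] [CommRing B] [IsLocalRing B] {ρ : G →* M2 A} (h : Ac ρ) (u : A →+* B)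
    (hu : ∀ a ∈ maximalIdeal A, u a ∈ maximalIdeal B) : Ac (pm u ρ) :=
  fun n => cg_open u (Or.pow_map u hu n) (h n)

variable {l : ℕ} {P : Id}

/-- **twisting Frobenius** by an element of the centraliser of inertia -/
theorem tw_rep (h : Ov l P) {φ : dec P} (hφ : Fb l P φ) {A : Type} [CommRing A] [Base A]
    {ρ : dec P →* M2 A} (hρ : Ac ρ) {γ : M2 A} (hu : IsUnit γ)
    (hγ : ∀ i : dec P, Inert P i → Commute γ (ρ i)) :
    ∃ σ : dec P →* M2 A, Ac σ ∧ σ φ = γ * ρ φ ∧ ∀ i : dec P, Inert P i → σ i = ρ i := by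
  obtain ⟨τ, T⟩ := wd h
  have hΦ : IsUnit (ρ φ) := (Group.isUnit φ).map ρ
  obtain ⟨a, a1, a2, a3, -⟩ := (ufr l P φ h hφ A).1 _ (hu.mul hΦ)
  obtain ⟨b, b1, b2, b3, -⟩ := (ufr l P φ h hφ A).1 _ hΦ
  let σ : dec P →* M2 A :=
    { toFun := fun x => a x * b x⁻¹ * ρ x
      map_one' := by simp
      map_mul' := fun x y => Or.cg_pow fun n => cg_iff.2 (by
        simp only [Matrix.map_mul]
        exact (T φ hφ).tw_mul (iD_nor P) (Ac.one a3 n) (Ac.one b3 n) (hρ.one n)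
          (fun s hs => by rw [pm_apply, a2 s hs, Matrix.map_one _ (map_zero _) (map_one _)])
          (fun s hs => by rw [pm_apply, b2 s hs, Matrix.map_one _ (map_zero _) (map_one _)])
          (by rw [pm_apply, b1]; rfl) (γ := γ.map (Ideal.Quotient.mk _))
          (by rw [pm_apply, a1, Matrix.map_mul]; rfl)
          (fun s hs => (hγ s hs).map (Ideal.Quotient.mk _).mapMatrix) x y) }
  have e : ∀ x, σ x = a x * b x⁻¹ * ρ x := fun x => rfl
  refine ⟨σ, fun n => ?_, ?_, fun i hi => ?_⟩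
  · simp only [cg_one]
    have ho : IsOpen ((kr (pm (Ideal.Quotient.mk (maximalIdeal A ^ n)) σ) : Subgroup (dec P)) :
        Set (dec P)) := Subgroup.isOpen_mono
      (H₁ := kr (pm (Ideal.Quotient.mk _) a) ⊓ kr (pm (Ideal.Quotient.mk _) b) ⊓
        kr (pm (Ideal.Quotient.mk _) ρ)) (fun g hg => mem_kr.2 (by
          rw [pm_apply, e, Matrix.map_mul, Matrix.map_mul, ← pm_apply, ← pm_apply, ← pm_apply,
            mem_kr.1 hg.1.1, mem_kr.1 (Subgroup.inv_mem _ hg.1.2), mem_kr.1 hg.2, mul_one,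
            mul_one]))
      (((kr_open (Ac.one a3 n)).inter (kr_open (Ac.one b3 n))).inter (kr_open (hρ.one n)))
    convert ho using 1
    exact Set.ext fun g =>
      (mem_kr (ρ := pm (Ideal.Quotient.mk (maximalIdeal A ^ n)) σ) (g := g)).symm
  · rw [e, a1, mul_assoc, ← b1, inv_r, mul_one, b1]
  · rw [e, a2 i hi, b2 i⁻¹ ((iD P).inv_mem hi), one_mul, one_mul]

section conj

variable {G A : Type} [Group G] [CommRing A]

/-- conjugate representations -/
def cj (U V : M2 A) (h : U * V = 1) (ρ : G →* M2 A) : G →* M2 A where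
  toFun x := U * ρ x * V
  map_one' := by rw [map_one, mul_one, h]
  map_mul' x y := by
    rw [map_mul]
    calc _ = U * ρ x * (V * U) * ρ y * V := by
          rw [mul_eq_one_comm.1 h]; simp only [mul_assoc, mul_one]
      _ = _ := by simp only [mul_assoc]

theorem cj_apply (U V : M2 A) (h : U * V = 1) (ρ : G →* M2 A) (x : G) :
    cj U V h ρ x = U * ρ x * V := rfl

theorem cj_det (U V : M2 A) (h : U * V = 1) (ρ : G →* M2 A) (x : G) :
    (cj U V h ρ x).det = (ρ x).det := by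
  rw [cj_apply, Matrix.det_mul, Matrix.det_mul, mul_right_comm, ← Matrix.det_mul, h,
    Matrix.det_one, one_mul]

theorem Ac.cj [TopologicalSpace G] [IsTopologicalGroup G] [IsLocalRing A] {ρ : G →* M2 A}
    (hρ : Ac ρ) (U V : M2 A) (h : U * V = 1) : Ac (cj U V h ρ) := fun n => by
  simp only [cg_one]
  exact open_of_le (ρ' := pm (Ideal.Quotient.mk _) (Zl.cj U V h ρ)) (hρ.one n) fun g hg => by
    rw [pm_apply, cj_apply, Matrix.map_mul, Matrix.map_mul, ← pm_apply, hg, mul_one,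
      ← Matrix.map_mul, h, Matrix.map_one _ (map_zero _) (map_one _)]

theorem unit_of_cg [IsLocalRing A] {U : M2 A} (h : Cg (maximalIdeal A) U 1) : IsUnit U.det := by
  by_contra hn
  have h1 : Ideal.Quotient.mk (maximalIdeal A) U.det = 0 := Ideal.Quotient.eq_zero_iff_mem.2 hn
  rw [RingHom.map_det, RingHom.mapMatrix_apply, cg_one.1 h, Matrix.det_one] at h1
  exact (maximalIdeal.isMaximal A).ne_top
    ((Ideal.eq_top_iff_one _).2 (Ideal.Quotient.eq_zero_iff_mem.1 h1))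

/-- an element of finite invertible order which is residually trivial is trivial -/
theorem one_of_pow [IsLocalRing A] [IsNoetherianRing A] {M : M2 A} {n : ℕ} (hn : IsUnit (n : A))
    (h : M ^ n = 1) (h1 : Cg (maximalIdeal A) M 1) : M = 1 := by
  have key : ∀ k, Cg (maximalIdeal A ^ (k + 1)) M 1 := by
    intro k
    induction k with
    | zero => simpa using h1
    | succ k ih =>
      let π := Ideal.Quotient.mk (maximalIdeal A ^ (k + 1 + 1))
      have h2 : M.map π ^ n = 1 := by rw [← RingHom.mapMatrix_apply, ← map_pow, h, map_one]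
      have h3 : (M.map π - 1) * (M.map π - 1) = 0 := by
        have e : M.map π - 1 = (M - 1).map π := by
          rw [← RingHom.mapMatrix_apply, ← RingHom.mapMatrix_apply, map_sub, map_one]
        rw [e, ← Matrix.map_mul]
        ext i j
        rw [Matrix.map_apply, Matrix.mul_apply]
        refine Ideal.Quotient.eq_zero_iff_mem.2 (Ideal.sum_mem _ fun a _ => ?_)
        rw [pow_succ]
        exact Ideal.mul_mem_mul (ih i a) (h1 a j)
      have h4 := one_add_pow h3 n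
      rw [add_sub_cancel, h2, left_eq_add, ← Nat.cast_smul_eq_nsmul A, hn.smul_eq_zero,
        sub_eq_zero] at h4
      exact cg_one.2 h4
  exact Or.cg_pow fun n i j => Ideal.pow_le_pow_right n.le_succ (key n i j)

/-- two congruent representations of a group of invertible order are conjugate -/
theorem ex_conj [IsLocalRing A] [IsNoetherianRing A] [Finite (A ⧸ maximalIdeal A)]
    {I : Subgroup G} {ρ₀ ρ₁ : G →* M2 A} (hr : ∀ s ∈ I, Cg (maximalIdeal A) (ρ₁ s) (ρ₀ s))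
    (hn : ∀ s ∈ I, ∃ n : ℕ, IsUnit (n : A) ∧ ρ₀ s ^ n = 1) (hk : ∀ s ∈ I, ρ₀ s = 1 → ρ₁ s = 1) :
    ∃ U : M2 A, Cg (maximalIdeal A) U 1 ∧ ∀ s ∈ I, ρ₁ s * U = U * ρ₀ s := by
  let π := Ideal.Quotient.mk (maximalIdeal A)
  let R : G →* Module.End A (M2 A) :=
    { toFun := fun g => LinearMap.mulLeftRight A (ρ₁ g, ρ₀ g⁻¹)
      map_one' := by ext X : 1; simp
      map_mul' := fun x y => by ext X : 1; simp [mul_assoc] }
  have hR : ∀ g X, R g X = ρ₁ g * X * ρ₀ g⁻¹ := fun g X => rfl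
  have h1 : ∀ s ∈ I, ρ₀ s = 1 → R s = 1 := fun s hs e => LinearMap.ext fun X => by
    have e' : ρ₀ s⁻¹ = 1 := by
      have := r_inv ρ₀ s
      rwa [e, one_mul] at this
    rw [hR, hk s hs e, e', one_mul, mul_one]; rfl
  have hfin : Finite (I.map R.toHomUnits) := by
    have hex : ∀ γ : I.map R.toHomUnits, ∃ s ∈ I, R.toHomUnits s = γ := fun γ => γ.2
    choose σ hσ hσ' using hex
    refine Finite.of_injective (fun γ => (ρ₀ (σ γ)).map π) fun γ δ e => Subtype.ext ?_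
    have hm := I.mul_mem (I.inv_mem (hσ γ)) (hσ δ)
    obtain ⟨n, hn1, hn2⟩ := hn _ hm
    have h2 := h1 _ hm (one_of_pow hn1 hn2 (cg_one.2 (by
      have e' : (ρ₀ (σ γ)).map π = (ρ₀ (σ δ)).map π := e
      rw [map_mul, Matrix.map_mul, ← e', ← Matrix.map_mul, inv_r]
      exact Matrix.map_one _ (map_zero _) (map_one _))))
    have h3 : R.toHomUnits ((σ γ)⁻¹ * σ δ) = 1 := Units.ext h2
    rw [map_mul, map_inv, inv_mul_eq_one, hσ', hσ'] at h3
    exact h3
  have hcard : IsUnit (Nat.card (I.map R.toHomUnits) : A) := by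
    have h2 := card_ne (Γ := I.map R.toHomUnits) (F := ResidueField A) (by
      rintro ⟨_, s, hs, rfl⟩
      obtain ⟨n, hn1, hn2⟩ := hn s hs
      refine ⟨n, by simpa using (hn1.map (residue A)).ne_zero, Subtype.ext (Units.ext ?_)⟩
      show R s ^ n = 1
      rw [← map_pow]
      exact h1 _ (I.pow_mem hs n) (by rw [map_pow, hn2]))
    by_contra hc
    exact h2 (by rw [← map_natCast (residue A)]; exact (residue_eq_zero_iff _).2 hc)
  obtain ⟨Av, hA, hA'⟩ := avg R I hcard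
  have hb : Coc R fun g => 1 - R g 1 := fun x y => by
    simp only [act_mul, map_sub]
    abel
  have h2 := hA' _ hb fun s _ e => by rw [e]; exact sub_self _
  let V₀ : Submodule A (M2 A) :=
    { carrier := {X | ∀ i j, X i j ∈ maximalIdeal A}
      add_mem' := fun ha hb i j => Ideal.add_mem _ (ha i j) (hb i j)
      zero_mem' := fun i j => Ideal.zero_mem _
      smul_mem' := fun c X hX i j => Ideal.mul_mem_left _ c (hX i j) }
  have h3 := hA V₀ (fun g => 1 - R g 1) fun s hs => cg_iff.2 (by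
    rw [hR, mul_one, Matrix.map_mul, cg_iff.1 (hr s hs), ← Matrix.map_mul, r_inv])
  refine ⟨1 - Av fun g => 1 - R g 1, fun i j => ?_, fun s hs => ?_⟩
  · simpa using (maximalIdeal A).neg_mem (h3 i j)
  · have h4 : R s (1 - Av fun g => 1 - R g 1) = 1 - Av fun g => 1 - R g 1 := by
      rw [map_sub]
      linear_combination (norm := module) -h2 s hs
    rw [hR] at h4
    conv_rhs => rw [← h4]
    rw [mul_assoc, inv_r, mul_one]

end conj

section fam

variable {O : Type} [CommRing O] [IsDomain O] [IsDiscreteValuationRing O] [hO : Cf O]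

/-- evaluation at a uniformiser -/
theorem ex_ev {ϖ : O} (hϖ : Irreducible ϖ) : ∃ ev : PS O (Fin 1) →ₐ[O] O, ev (X 0) = ϖ := by
  have := hO.cpl
  obtain ⟨e, h1, h2⟩ := NR.exists_ev (ι := Fin 1) (maximalIdeal O) (RingHom.id O) (fun _ => ϖ)
    fun _ => hϖ.not_isUnit
  exact ⟨{ e with commutes' := h1 }, h2 0⟩

omit hO in
theorem ex_div {ϖ : O} (hϖ : Irreducible ϖ) {U : M2 O} (h : Cg (maximalIdeal O) U 1) :
    ∃ Y : M2 O, U = 1 + ϖ • Y := by
  have h1 : ∀ i j, ∃ y, y * ϖ = U i j - (1 : M2 O) i j := fun i j =>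
    Ideal.mem_span_singleton'.1 (hϖ.maximalIdeal_eq ▸ h i j)
  choose y hy using h1
  exact ⟨Matrix.of y, Matrix.ext fun i j => by
    rw [Matrix.add_apply, Matrix.smul_apply, smul_eq_mul, mul_comm, Matrix.of_apply, hy]; ring⟩

/-- the line through `1` in the direction `Y` -/
def ln (Y : M2 O) : M2 (PS O (Fin 1)) := 1 + (X 0 : PS O (Fin 1)) • Y.map C

omit [IsDomain O] [IsDiscreteValuationRing O] hO in
theorem ln_map (e : PS O (Fin 1) →+* O) (he : ∀ o, e (C o) = o) (Y : M2 O) :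
    (ln Y).map e = 1 + e (X 0) • Y := by
  ext i j
  fin_cases i <;> fin_cases j <;> simp [ln, he]

omit hO in
theorem ln_unit (Y : M2 O) : IsUnit (ln Y).det := by
  rw [isUnit_iff_constantCoeff, RingHom.map_det, RingHom.mapMatrix_apply,
    ln_map _ constantCoeff_C, constantCoeff_X, zero_smul, add_zero, Matrix.det_one]
  exact isUnit_one

/-- a path from `1` to `γ` in the elements of determinant one which commute with `S` -/
def Pth (ev : PS O (Fin 1) →ₐ[O] O) (S : Set (M2 O)) (γ : M2 O) : Prop :=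
  ∃ Γ : M2 (PS O (Fin 1)), Γ.det = 1 ∧ Γ.map constantCoeff = 1 ∧ Γ.map ev = γ ∧
    ∀ N ∈ S, Commute Γ (N.map C)

omit hO in
/-- Hilbert 90 -/
theorem pth_of {ϖ : O} (hϖ : Irreducible ϖ) {ev : PS O (Fin 1) →ₐ[O] O} (hev : ev (X 0) = ϖ)
    {S : Set (M2 O)} {γ a : M2 O} (hd : γ.det = 1) (h1 : Cg (maximalIdeal O) γ 1)
    (hS : ∀ N ∈ S, Commute γ N ∧ Commute a N) (ha : a.trace = 1) (hc : Commute a γ) :
    Pth ev S γ := by
  have adj : ∀ {R : Type} [CommRing R] (M : M2 R), M.adjugate = M.trace • 1 - M := fun M => by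
    ext i j
    fin_cases i <;> fin_cases j <;> simp [Matrix.adjugate_fin_two, Matrix.trace_fin_two]
  have cadj : ∀ {R : Type} [CommRing R] {M N : M2 R}, Commute M N → Commute M.adjugate N :=
    fun h => by
      rw [adj]
      exact ((Commute.one_left _).smul_left _).sub_left h
  obtain ⟨B, hB⟩ := ex_div hϖ (U := a + γ * a.adjugate) (cg_iff.2 (by
    rw [Matrix.map_add _ (map_add _), Matrix.map_mul, cg_one.1 h1, one_mul,
      ← Matrix.map_add _ (map_add _), adj, ha, one_smul, add_sub_cancel]))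
  have hBN : ∀ N ∈ S, Commute B N := fun N hN => by
    have h2 : Commute (1 + ϖ • B) N :=
      hB ▸ (hS N hN).2.add_left ((hS N hN).1.mul_left (cadj (hS N hN).2))
    have h3 : ϖ • (B * N - N * B) = 0 := by
      have := h2.eq
      rw [add_mul, mul_add, one_mul, mul_one, smul_mul_assoc, mul_smul_comm] at this
      rw [smul_sub, add_left_cancel this, sub_self]
    exact sub_eq_zero.1 ((smul_eq_zero.1 h3).resolve_left hϖ.ne_zero)
  have hu := ln_unit B.adjugate
  have i1 := Matrix.mul_nonsing_inv _ hu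
  have i2 := Matrix.nonsing_inv_mul _ hu
  have cl : ∀ M N : M2 O, Commute M N → Commute (ln M) (N.map C) := fun M N h =>
    (Commute.one_left _).add_left ((h.map (C : O →+* PS O (Fin 1)).mapMatrix).smul_left _)
  have key : ∀ e : PS O (Fin 1) →+* O, (∀ o, e (C o) = o) → ∀ δ : M2 O,
      δ * (1 + e (X 0) • B.adjugate) = 1 + e (X 0) • B →
      (ln B * (ln B.adjugate)⁻¹).map e = δ := fun e he δ hδ => by
    rw [Matrix.map_mul, ln_map e he, ← hδ, ← ln_map e he, mul_assoc, ← Matrix.map_mul, i1,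
      Matrix.map_one _ (map_zero _) (map_one _), mul_one]
  refine ⟨ln B * (ln B.adjugate)⁻¹, ?_, key _ constantCoeff_C 1 (by simp),
    key ev.toRingHom (fun o => ev.commutes o) γ ?_, fun N hN => (cl _ _ (hBN N hN)).mul_left ?_⟩
  · have e : (ln B).det = (ln B.adjugate).det := by
      simp [ln, Matrix.det_fin_two, Matrix.adjugate_fin_two]
      ring
    rw [Matrix.det_mul, e, ← Matrix.det_mul, i1, Matrix.det_one]
  · have e1 : 1 + ϖ • B.adjugate = (1 + ϖ • B).adjugate := by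
      ext i j
      fin_cases i <;> fin_cases j <;> simp [Matrix.adjugate_fin_two]
    have e2 : (a + γ * a.adjugate).adjugate = a.adjugate + a * γ.adjugate := by
      have e3 : a.adjugate.adjugate = a := by
        ext i j
        fin_cases i <;> fin_cases j <;> simp [Matrix.adjugate_fin_two]
      have e4 : ∀ M N : M2 O, (M + N).adjugate = M.adjugate + N.adjugate := fun M N => by
        ext i j
        fin_cases i <;> fin_cases j <;> simp [Matrix.adjugate_fin_two] <;> ring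
      rw [e4, Matrix.adjugate_mul_distrib, e3]
    show γ * (1 + ev (X 0) • B.adjugate) = 1 + ev (X 0) • B
    rw [hev, e1, ← hB, e2, mul_add, ← mul_assoc, ← hc.eq, mul_assoc, Matrix.mul_adjugate, hd,
      one_smul, mul_one, add_comm]
  · have h3 := cl _ _ (cadj (hBN N hN))
    show _ * _ = _ * _
    calc (ln B.adjugate)⁻¹ * N.map C =
          (ln B.adjugate)⁻¹ * (N.map C * ln B.adjugate) * (ln B.adjugate)⁻¹ := by
            rw [mul_assoc, mul_assoc, i1, mul_one]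
      _ = _ := by rw [← h3.eq, ← mul_assoc, i2, one_mul]

omit hO in
/-- the scalar case -/
theorem pth_sc {ϖ : O} (hϖ : Irreducible ϖ) {ev : PS O (Fin 1) →ₐ[O] O} (hev : ev (X 0) = ϖ)
    {S : Set (M2 O)} {γ : M2 O} (hd : γ.det = 1) (h1 : Cg (maximalIdeal O) γ 1)
    (hS : ∀ N ∈ S, ∃ c : O, N = c • 1) : Pth ev S γ := by
  obtain ⟨B, hB⟩ := ex_div hϖ h1
  have hu : IsUnit (ln B 0 0) := by
    rw [isUnit_iff_constantCoeff, ← Matrix.map_apply (f := constantCoeff),
      ln_map _ constantCoeff_C]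
    simp
  obtain ⟨u, hu'⟩ := hu.exists_right_inv
  let Γ : M2 (PS O (Fin 1)) := !![ln B 0 0, ln B 0 1; ln B 1 0, u * (1 + ln B 0 1 * ln B 1 0)]
  have hΓ : Γ.det = 1 := by
    rw [Matrix.det_fin_two_of]
    linear_combination (1 + ln B 0 1 * ln B 1 0) * hu'
  have key : ∀ e : PS O (Fin 1) →+* O, (∀ o, e (C o) = o) → ∀ δ : M2 O,
      δ = 1 + e (X 0) • B → δ.det = 1 → Γ.map e = δ := fun e he δ hδ hδ' => by
    rw [← ln_map e he] at hδ
    have d1 : (Γ.map e).det = 1 := by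
      rw [← RingHom.mapMatrix_apply, ← RingHom.map_det, hΓ, map_one]
    have e0 : Γ.map e 0 0 = δ 0 0 := by rw [hδ]; rfl
    have e1 : Γ.map e 0 1 = δ 0 1 := by rw [hδ]; rfl
    have e2 : Γ.map e 1 0 = δ 1 0 := by rw [hδ]; rfl
    have u0 : IsUnit (δ 0 0) := by rw [hδ]; exact hu.map e
    rw [Matrix.det_fin_two, e0, e1, e2] at d1
    rw [Matrix.det_fin_two] at hδ'
    have e3 : Γ.map e 1 1 = δ 1 1 := u0.mul_left_cancel (by linear_combination d1 - hδ')
    ext i j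
    fin_cases i <;> fin_cases j <;> assumption
  refine ⟨Γ, hΓ, key _ constantCoeff_C 1 (by simp) Matrix.det_one,
    key ev.toRingHom (fun o => ev.commutes o) γ (by rw [hB, ← hev]; rfl) hd, fun N hN => ?_⟩
  obtain ⟨c, rfl⟩ := hS N hN
  have e : (c • (1 : M2 O)).map (C : O →+* PS O (Fin 1)) = (C c : PS O (Fin 1)) • 1 := by
    ext i j : 2
    fin_cases i <;> fin_cases j <;> simp
  rw [e]
  exact (Commute.one_right _).smul_right _

/-- a family over `O[[t]]` with constant determinant through `ρ₀` and `ρ₁` -/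
def Fm {G : Type} [Group G] [TopologicalSpace G] (ρ₀ ρ₁ : G →* M2 O) : Prop :=
  ∃ (ρ : G →* M2 (PS O (Fin 1))) (ev : PS O (Fin 1) →ₐ[O] O), Ac ρ ∧
    (∀ x, (ρ x).det = C (ρ₀ x).det) ∧ (∀ x, (ρ x).map constantCoeff = ρ₀ x) ∧
    ∀ x, (ρ x).map ev = ρ₁ x

omit hO in
theorem cd_det {G : Type} [Group G] [TopologicalSpace G] [IsTopologicalGroup G] {ρ : G →* M2 O}
    (h : Ac ρ) : Cd (Matrix.detMonoidHom.comp ρ : G →* O) := fun n => by
  convert ((lc_of_cg ρ _ (h n)).comp Matrix.det).isOpen_fiber 1 using 1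
  let π := Ideal.Quotient.mk (maximalIdeal O ^ n)
  exact Set.ext fun y => Ideal.Quotient.eq.symm.trans ((Eq.congr_right (map_one π)).trans
    (Eq.congr_left (RingHom.map_det π (ρ y))))

/-- **the family**, from a path in the centraliser -/
theorem fm_of (h : Ov l P) {ρ₀ ρ₁ : dec P →* M2 O} (h0 : Ac ρ₀) (h1 : Ac ρ₁)
    (hr : ∀ x, Cg (maximalIdeal O) (ρ₁ x) (ρ₀ x)) (hd : ∀ x, (ρ₁ x).det = (ρ₀ x).det)
    (hn : ∀ i : dec P, Inert P i → ∃ n : ℕ, IsUnit (n : O) ∧ ρ₀ i ^ n = 1)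
    (hk : ∀ i : dec P, Inert P i → ρ₀ i = 1 → ρ₁ i = 1)
    (hp : ∀ {ϖ : O}, Irreducible ϖ → ∀ ev : PS O (Fin 1) →ₐ[O] O, ev (X 0) = ϖ → ∀ γ : M2 O,
      γ.det = 1 → Cg (maximalIdeal O) γ 1 → (∀ N ∈ ρ₀ '' iD P, Commute γ N) →
      Pth ev (ρ₀ '' iD P) γ) : Fm ρ₀ ρ₁ := by
  haveI := PL.base_ps O (Fin 1)
  have hfin : Finite (O ⧸ maximalIdeal O) := hO.fin
  obtain ⟨τ, T⟩ := wd h
  obtain ⟨φ, hφ⟩ := ex_phi h
  replace T := T φ hφ
  obtain ⟨ϖ, hϖ⟩ := IsDiscreteValuationRing.exists_irreducible O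
  obtain ⟨ev, hev⟩ := ex_ev hϖ
  obtain ⟨U, u1, u2⟩ := ex_conj (I := iD P) (fun s _ => hr s) hn hk
  have hu := unit_of_cg u1
  have i1 := Matrix.mul_nonsing_inv _ hu
  have i2 := Matrix.nonsing_inv_mul _ hu
  let π := Ideal.Quotient.mk (maximalIdeal O)
  have u3 : U⁻¹.map π = 1 := by
    have e : U.map π * U⁻¹.map π = 1 := by
      rw [← Matrix.map_mul, i1]
      exact Matrix.map_one _ (map_zero π) (map_one π)
    rwa [cg_one.1 u1, one_mul] at e
  let ρ₂ := cj U⁻¹ U i2 ρ₁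
  have r1 : ∀ s ∈ iD P, ρ₂ s = ρ₀ s := fun s hs => by
    rw [cj_apply, mul_assoc, u2 s hs, ← mul_assoc, i2, one_mul]
  obtain ⟨Γ, g1, g2, g3, g4⟩ := hp hϖ ev hev (ρ₂ φ * ρ₀ φ⁻¹)
    (by rw [Matrix.det_mul, cj_det, hd, ← Matrix.det_mul, r_inv, Matrix.det_one])
    (cg_one.2 (by
      rw [Matrix.map_mul, cj_apply, Matrix.map_mul, Matrix.map_mul, u3, cg_one.1 u1, one_mul,
        mul_one, cg_iff.1 (hr φ), ← Matrix.map_mul, r_inv]
      exact Matrix.map_one _ (map_zero _) (map_one _))) (by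
      rintro _ ⟨s, hs, rfl⟩
      have hs' : φ⁻¹ * s * φ ∈ iD P := by simpa using (iD_nor P).conj_mem s hs φ⁻¹
      have e1 : ρ₀ φ⁻¹ * ρ₀ s = ρ₀ (φ⁻¹ * s * φ) * ρ₀ φ⁻¹ := by
        rw [← map_mul, ← map_mul]; congr 1; group
      have e2 : ρ₂ φ * ρ₂ (φ⁻¹ * s * φ) = ρ₂ s * ρ₂ φ := by
        rw [← map_mul, ← map_mul]; congr 1; group
      show _ * _ = _ * _
      rw [mul_assoc, e1, ← mul_assoc, ← r1 _ hs', e2, r1 s hs, mul_assoc])
  have hC : ∀ a ∈ maximalIdeal O, (C a : PS O (Fin 1)) ∈ maximalIdeal _ := fun a ha => Lu.C_max ha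
  obtain ⟨σ, s1, s2, s3⟩ := tw_rep h hφ (h0.map C hC)
    ((Matrix.isUnit_iff_isUnit_det Γ).2 (g1 ▸ isUnit_one)) fun i hi => g4 _ ⟨i, hi, rfl⟩
  have mC : ∀ (e : PS O (Fin 1) →+* O), (∀ o, e (C o) = o) → ∀ M : M2 O,
      (M.map (C : O →+* PS O (Fin 1))).map e = M := fun e he M => Matrix.ext fun i j => he _
  have dC : ∀ x, (pm (C : O →+* PS O (Fin 1)) ρ₀ x).det = C (ρ₀ x).det := fun x =>
    (RingHom.map_det _ _).symm
  have evC : ∀ o, ev.toRingHom (C o) = o := fun o => ev.commutes o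
  have sp0 : pm constantCoeff σ = ρ₀ := T.ext_adic
    (s1.map _ fun u hu => (mem_max_iff u).1 hu) h0
    (by rw [pm_apply, s2, Matrix.map_mul, g2, one_mul, pm_apply, mC _ constantCoeff_C])
    fun s hs => by rw [pm_apply, s3 s hs, pm_apply, mC _ constantCoeff_C]
  have sp1 : pm ev.toRingHom σ = ρ₂ := T.ext_adic (s1.map _ (Or.pt_loc ev)) (h1.cj _ _ _)
    (by
      rw [pm_apply, s2, Matrix.map_mul, pm_apply, mC _ evC]
      exact (congrArg (· * ρ₀ φ) g3).trans (by rw [mul_assoc, inv_r, mul_one]))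
    fun s hs => by rw [pm_apply, s3 s hs, pm_apply, mC _ evC, r1 s hs]
  obtain ⟨Y, hY⟩ := ex_div hϖ u1
  have j1 := Matrix.mul_nonsing_inv _ (ln_unit Y)
  have jm : ∀ (e : PS O (Fin 1) →+* O) (V : M2 O), V * (ln Y).map e = 1 →
      (ln Y)⁻¹.map e = V := fun e V hV => by
    rw [← one_mul ((ln Y)⁻¹.map e), ← hV, mul_assoc, ← Matrix.map_mul, j1,
      Matrix.map_one _ (map_zero _) (map_one _), mul_one]
  have l0 : (ln Y).map constantCoeff = 1 := by rw [ln_map _ constantCoeff_C]; simp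
  have l1 : (ln Y).map ev.toRingHom = U := by rw [ln_map _ evC, hY, ← hev]; rfl
  refine ⟨cj _ _ j1 σ, ev, s1.cj _ _ _, fun x => ?_, fun x => ?_, fun x => ?_⟩
  · rw [cj_det]
    exact T.det_eq C hC (cd_det h0) s1 (by rw [s2, Matrix.det_mul, g1, one_mul]; exact dC φ)
      (fun s hs => by rw [s3 s hs]; exact dC s) x
  · rw [cj_apply, Matrix.map_mul, Matrix.map_mul, jm _ 1 (by rw [l0, one_mul]), l0, one_mul,
      mul_one, ← pm_apply, sp0]
  · show (cj _ _ j1 σ x).map ev.toRingHom = _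
    rw [cj_apply, Matrix.map_mul, Matrix.map_mul, jm _ U⁻¹ (by rw [l1, i2]), l1, ← pm_apply, sp1,
      cj_apply]
    calc _ = (U * U⁻¹) * ρ₁ x * (U * U⁻¹) := by simp only [mul_assoc]
      _ = _ := by rw [i1, one_mul, mul_one]

/-- **odd residue characteristic** -/
theorem fm_odd (h : Ov l P) (h2 : IsUnit (2 : O)) {ρ₀ ρ₁ : dec P →* M2 O} (h0 : Ac ρ₀)
    (h1 : Ac ρ₁) (hr : ∀ x, Cg (maximalIdeal O) (ρ₁ x) (ρ₀ x))
    (hd : ∀ x, (ρ₁ x).det = (ρ₀ x).det)
    (hn : ∀ i : dec P, Inert P i → ∃ n : ℕ, IsUnit (n : O) ∧ ρ₀ i ^ n = 1)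
    (hk : ∀ i : dec P, Inert P i → ρ₀ i = 1 → ρ₁ i = 1) : Fm ρ₀ ρ₁ := by
  obtain ⟨u, hu⟩ := h2.exists_right_inv
  exact fm_of h h0 h1 hr hd hn hk fun hϖ ev hev γ a b c => pth_of hϖ hev (a := u • 1) a b
    (fun N hN => ⟨c N hN, (Commute.one_left _).smul_left _⟩)
    (by simpa [mul_comm] using hu) ((Commute.one_left _).smul_left _)

/-- **unramified lifts**, any residue characteristic -/
theorem fm_unr (h : Ov l P) {ρ₀ ρ₁ : dec P →* M2 O} (h0 : Ac ρ₀)
    (h1 : Ac ρ₁) (hr : ∀ x, Cg (maximalIdeal O) (ρ₁ x) (ρ₀ x))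
    (hd : ∀ x, (ρ₁ x).det = (ρ₀ x).det) (u0 : ∀ i : dec P, Inert P i → ρ₀ i = 1)
    (u1 : ∀ i : dec P, Inert P i → ρ₁ i = 1) : Fm ρ₀ ρ₁ :=
  fm_of h h0 h1 hr hd (fun i hi => ⟨1, by simp, by rw [u0 i hi, one_pow]⟩)
    (fun i hi _ => u1 i hi) fun hϖ ev hev γ a b c => pth_sc hϖ hev a b (by
      rintro _ ⟨i, hi, rfl⟩
      exact ⟨1, by rw [u0 i hi, one_smul]⟩)

end fam

end Vale.Agent.P022K.RT.Zl
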