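import Vale.Agent.P022K.RT.Trd0
import Vale.Agent.P022K.RT.Pwd
import Vale.Agent.P022K.RT.Mls
import Vale.Agent.P022K.RT.Sys
import Vale.Agent.P022K.RT.Gir
import Vale.Agent.P022K.RT.Gir2
import Vale.Agent.P022K.WB.YSurj
import Vale.Agent.P022K.WB.YNf

/-!
# P022K, block RT: modularity lifting on a site from the existence of the patched module
-/

set_option linter.all false

noncomputable section

namespace Vale.Agent.P022K.RT

open Vale.Agent.P022K.FI (CS)

theorem trd : TRD := by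
  intro p _ O F _ _ _ _ _ _ _ _ _ _ Z C D η J φ r m c L hZ hC h ty e i sp irr _ gp le loc
  obtain ⟨n, o, o1, o2, o3⟩ := WB.LocR.all loc
  obtain ⟨a, b, hab, -, cj⟩ := gp.cj
  letI : Module D.A D.M.Y := h.N.mr
  exact h.tga (Pd.p_max hC) gp.l0 gp.tr_mem ty o1 o2 (sp.trq h hZ hC (Pd.p_max hC)
    (WB.r1_rows p _) (WB.surj p _) (WB.phi_row p _) (WB.sur0 p) (σ := h.sg)
    (E := fun k => h.N.E (C.u k)) (fun _ _ => rfl) (fun _ _ _ => rfl)
    (fun k m v => LinearMap.congr_fun (h.N_E _ m) v) (fun k => C.dk (L k) (e k))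
    (fun k s => ((L k).hP.onto ((e k).symm ▸ s.2)).imp fun _ => Subtype.ext) (fun _ _ => rfl)
    (h.tp hZ hC (WB.phi_row p _) L e i) (fun k => D.cs hC (L k) (e k)) h.nilR (h.th_ak ty.1)
    (fun t m => Pd.com_thY D.M ty.1 fun _ _ => (D.M.com t m _).symm) irr le hab
    (fun k s => (cj _ _).trans (by rw [Fr.j_dk]; rfl)) o3)

/-- **modularity lifting on a site** -/
theorem mls (pkg : PKG fun _ _ _ _ _ Z => Z.Twi) : MLS :=
  mls_of sys pkg gir gir2 (fun p _ => WB.surj p _) (fun p _ => WB.phi_row p _) trd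

end Vale.Agent.P022K.RT
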