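import Vale.Agent.P022K.RT.Bigp
import Vale.Agent.P022K.RT.Tga
import Vale.Agent.P022K.RT.Trr
import Vale.Agent.P022K.WB.Tp

/-!
# P022K, block RT: the transfer on the patched module, at a point with values in `O`
-/

set_option linter.all false

noncomputable section

namespace Vale.Agent.P022K.RT

open IsLocalRing Function
open Vale.Agent.P022D.L2b (M2)
open Vale.Agent.P022D.Core (PS)
open Vale.Agent.P022K.PL (Cf)
open Vale.Agent.P022K.WB (G2 Iso Og Cs Loc Tp SlS mv qf smf SURJ PHI)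
open Vale.Agent.P022K.Top (Si)

theorem d4_map {A B : Type} [CommRing A] [CommRing B] (g : A →+* B) (m : Fin 4 → M2 A) :
    d4 (fun i => (m i).map g) = g (d4 m) := by
  rw [d4, d4, g.map_det]
  refine congrArg _ (Matrix.ext fun i j => ?_)
  fin_cases j <;> rfl

variable {p : ℕ} [Fact p.Prime] {O : Type} [CommRing O] [IsDomain O] [IsDiscreteValuationRing O]

section

variable {K : Type} [NontriviallyNormedField K] [IsUltrametricDist K]
  [CharZero K] {ψ : ℚ_[p] → K} {Γ : Type} [Group Γ] {act : Γ →* Iso K} {χ : Γ →* ℤ_[p]ˣ}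
  {ok : Og ψ act χ}

/-- the local condition over a finite extension, after conjugation -/
theorem loc_up {B : Type} [CommRing B] [IsDomain B] [Algebra O B] [Module.Finite O B]
    [FaithfulSMul O B] {I : Type} {rl : Set (G2 p × I →₀ O)} {r : Γ →* M2 O} {r' : Γ →* M2 B}
    (h : Loc ok (mv r) (smf id) rl) {a b : M2 O} (hab : a * b = 1)
    (hr : ∀ s, r' s = (a * r s * b).map (algebraMap O B)) :
    Loc ok (mv r') (smf (algebraMap O B)) rl := by
  obtain ⟨μ, k, c, hc⟩ := WB.exists_lam (p := p) (O := O) (O' := B)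
  have e : ∀ o y, μ (algebraMap O B o * y) = o * μ y := fun o y => by
    rw [← Algebra.smul_def, map_smul, smul_eq_mul]
  refine (h.chg (r' := qf (algebraMap O B) r) (φ' := algebraMap O B) μ.toAddMonoidHom
    (fun s i j => e _) e hc).conj (b.map (algebraMap O B)) (fun s => ?_)
    ⟨0, (a.map (algebraMap O B)).det, ?_⟩
  · rw [hr, WB.qf_apply, ← Matrix.map_mul, ← Matrix.map_mul, ← mul_assoc, ← mul_assoc,
      mul_eq_one_comm.1 hab, one_mul]
  · rw [← Matrix.det_mul, ← Matrix.map_mul, mul_eq_one_comm.1 hab, pow_zero,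
      Matrix.map_one _ (map_zero _) (map_one _), Matrix.det_one]

end

namespace Pd

variable {F : Type} [Algebra ℤ_[p] O] [Field F] {Z : Si p O} {C : Fr Z F} (D : Pd C)

/-- the block `t` is frozen at the point `φ` -/
def Pz (φ : D.R →ₐ[O] O) (t : C.T) : Ideal D.R :=
  (RingHom.ker (φ.comp (D.io t))).map (D.io t)

variable {D} [Algebra O F] [Cf O] [CharP F p] {θ : Module.End D.R D.M.Y}
  {J : ∀ t, Ideal (PS O (C.τ t))} {φ : D.R →ₐ[O] O}

/-- freezing blocks at a point gives a prime, with the same trace on the other blocks -/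
theorem Sup.nz (sp : D.Sup θ J) (h : D.Ok) (hC : C.Ok) (le : D.J0 J ≤ RingHom.ker φ)
    (s : Set C.T) : (D.J0 J ⊔ ⨆ t ∈ s, D.Pz φ t).IsPrime ∧
      ∀ t ∉ s, ∀ c, D.io t c ∈ D.J0 J ⊔ ⨆ t ∈ s, D.Pz φ t → c ∈ J t := by
  classical
  let J' : ∀ t, Ideal (PS O (C.τ t)) := fun t =>
    if t ∈ s then RingHom.ker (φ.comp (D.io t)) else J t
  have l1 : ∀ t, J t ≤ RingHom.ker (φ.comp (D.io t)) := fun t u hu =>
    le (Ideal.mem_sup_left (mem_sumI hu))
  have l2 : ∀ t, J t ≤ J' t ∧ J' t ≤ RingHom.ker (φ.comp (D.io t)) := fun t => by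
    by_cases ht : t ∈ s <;> simp only [J', ht, if_true, if_false, l1, le_refl, and_self]
  have e : D.J0 J ⊔ ⨆ t ∈ s, D.Pz φ t = D.J0 J' := le_antisymm
    (sup_le (sup_le_sup_right (sumI_mono fun t => (l2 t).1) _) (iSup₂_le fun t ht =>
      Ideal.map_le_iff_le_comap.2 fun u hu => Ideal.mem_sup_left
        (mem_sumI (J := J') (by simpa only [J', ht, if_true] using hu))))
    (sup_le (sumI_le.2 fun t u hu => by
      by_cases ht : t ∈ s
      · exact Ideal.mem_sup_right (Submodule.mem_iSup_of_mem t (Submodule.mem_iSup_of_mem ht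
          (Ideal.mem_map_of_mem _ ((l2 t).2 hu))))
      · exact Ideal.mem_sup_left (Ideal.mem_sup_left
          (mem_sumI (by simpa only [J', ht, if_false] using hu))))
      (le_sup_of_le_left le_sup_right))
  rw [e]
  refine ⟨(h.aux.blk hC.sur (k := fun t => if t ∈ s then 0 else C.kd t) fun t => ?_).1,
    fun t ht c hc => ?_⟩
  · by_cases ht : t ∈ s <;> simp only [J', ht, if_true, if_false]
    exacts [.inl (par_pt _), sp.gb t]
  · simpa only [J', ht, if_false] using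
      h.aux.mem_blk (fun t => φ.comp (D.io t)) (fun b _ => (l2 b).2) hc

variable [CharZero O] {K : Type} [NontriviallyNormedField K] [IsUltrametricDist K] [CharZero K]
  [CompleteSpace K] [IsAlgClosed K] {ψ : ℚ_[p] → K} {Γ : Type} [Group Γ] {act : Γ →* Iso K}
  {χ : Γ →* ℤ_[p]ˣ} {ok : Og ψ act χ} [Module (D.R ⧸ D.I0) D.M.Y] {I : Type} [Finite I]
  [Nonempty I] {σ : Z.J → Representation (D.R ⧸ D.I0) (G2 p) D.M.Y}
  {E : Z.J → M2 (D.R ⧸ D.I0) →ₐ[D.R ⧸ D.I0] Module.End (D.R ⧸ D.I0) D.M.Y}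
  {f : Z.J → Γ →* M2 (D.R ⧸ D.I0)} {L : Z.J → Type} {W : ∀ k, L k → D.M.Y →+ WB.Y p K}
  {rl : Z.J → Set (G2 p × I →₀ O)}

/-- **the transfer on the patched module** -/
theorem Sup.trq (sp : D.Sup θ J) (h : D.Ok) (hZ : Z.Ok) (hC : C.Ok) (h1 : ¬ IsUnit (p : O))
    (rw : WB.R1.Rows p K) (hS : SURJ p K) (hF : PHI p K) (sur : Surjective χ)
    (hs : ∀ (u : D.R) (v : D.M.Y), Ideal.Quotient.mk D.I0 u • v = u • v)
    (hσ : ∀ k g v, σ k g v = D.ak D.M k g v)
    (hE : ∀ k (m : M2 D.R) v, E k (m.map (Ideal.Quotient.mk D.I0)) v = D.M.E (C.u k) m v)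
    (d : ∀ k, Γ → P022D.W.dec (C.P (C.u k))) (hd : ∀ k, Surjective (d k))
    (hf : ∀ k s, f k s = (D.fm (C.u k) (d k s)).map (Ideal.Quotient.mk D.I0))
    (tp : Tp ok σ E f W)
    (cs : ∀ k, Cs p act (f k) fun N => (maximalIdeal D.R ^ N).map (Ideal.Quotient.mk D.I0))
    (nil : ∀ v : D.M.Y, ∃ N, ∀ u ∈ maximalIdeal D.R ^ N, u • v = 0)
    (c1 : ∀ k g, Commute θ (D.ak D.M k g)) (c2 : ∀ t m, Commute θ (D.M.E t m))
    (irr : ∀ k, ∃ x : Fin 4 → P022D.W.dec (C.P (C.u k)), d4 (fun i => C.f (C.u k) (x i)) ∉ J (C.u k))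
    (le : D.J0 J ≤ RingHom.ker φ) {r : Z.J → Γ →* M2 O} {a b : M2 O} (hab : a * b = 1)
    (hr : ∀ k s, (D.fm (C.u k) (d k s)).map φ = a * r k s * b)
    (loc : ∀ k, Loc ok (mv (r k)) (smf id) (rl k)) (N : ℕ) :
    ∃ y ∈ D.Sv rl (LinearMap.range θ ⊓ WB.R1.Kl D.M.Y (RingHom.ker φ)), p ^ N • y ≠ 0 := by
  have h0 : (p : O) ≠ 0 := Nat.cast_ne_zero.2 (Fact.out : p.Prime).ne_zero
  have su := Ideal.Quotient.mk_surjective (I := D.I0)
  have i0 : D.I0 ≤ D.J0 J := h.le_an.trans sp.an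
  have kl : ∀ (𝔮 : Ideal (D.R ⧸ D.I0)) (v : D.M.Y), v ∈ WB.R1.Kl D.M.Y 𝔮 ↔
      ∀ u ∈ 𝔮.comap (Ideal.Quotient.mk D.I0), u • v = 0 := fun 𝔮 v => by
    rw [WB.R1.mem_Kl, su.forall]
    simp only [hs, Ideal.mem_comap]
  let Q : Submodule (D.R ⧸ D.I0) D.M.Y :=
    { (LinearMap.range θ).toAddSubmonoid with
      smul_mem' := su.forall.2 fun u v hv => hs u v ▸ (LinearMap.range θ).smul_mem u hv }
  let x := Ideal.Quotient.liftₐ D.I0 φ fun u hu => le (i0 hu)
  have := trr (φ := algebraMap O _) (rel := rl) (Q := Q) h0 h1 rw hS hF sur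
    (fun _ _ e => Ideal.map_mono (Ideal.pow_le_pow_right e))
    (fun v _ => (nil v).imp fun n hn => WB.R1.mem_Kl.2 fun u hu => by
      obtain ⟨u, k, rfl⟩ := (Ideal.mem_map_iff_of_surjective _ su).1 hu
      rw [hs, hn u k])
    (fun 𝔞 _ => by
      have : Finite (D.R ⧸ 𝔞.comap (Ideal.Quotient.mk D.I0)) :=
        .of_injective _ Ideal.quotientMap_injective
      exact (pow_le_fin _).imp fun n => Ideal.map_le_iff_le_comap.2)
    (fun s k hk => tp.tg _ _ (fun k g => by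
      rintro _ ⟨v, rfl⟩
      exact ⟨_, (LinearMap.congr_fun (c1 k g).eq v).trans (hσ k g _).symm⟩) s (fun m => by
      obtain ⟨m, rfl⟩ : ∃ m' : M2 D.R, m'.map (Ideal.Quotient.mk D.I0) = m :=
        ⟨m.map (surjInv su), Matrix.ext fun i j => surjInv_eq su _⟩
      rintro _ ⟨v, rfl⟩
      exact ⟨_, (LinearMap.congr_fun (c2 _ m).eq v).trans (hE k m _).symm⟩) hk)
    cs ((D.J0 J).map (Ideal.Quotient.mk D.I0))
    (fun k => (D.Pz φ (C.u k)).map (Ideal.Quotient.mk D.I0)) (fun k s hk => ?_)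
    (fun k 𝔮 hq hP => ?_) (fun 𝔮 hq hJ n => ?_) (cq_ker x)
    (Ideal.map_le_iff_le_comap.2 le) (fun k => Ideal.map_le_iff_le_comap.2
      (Ideal.map_le_iff_le_comap.2 fun _ hu => hu)) N
  · obtain ⟨y, y1, y2⟩ := this
    refine ⟨y, ⟨fun a => ⟨(y1.1 a).1, WB.R1.mem_Kl.2 ((kl _ _).1 (y1.1 a).2)⟩,
      fun k _ a q hq => ?_⟩, y2⟩
    rw [← y1.2 k trivial a q hq]
    exact Finsupp.sum_congr fun _ _ => by rw [hσ, ← hs, Ideal.Quotient.mk_algebraMap]
  · obtain ⟨z, hz⟩ := irr k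
    obtain ⟨n1, n2⟩ := sp.nz h hC le (C.u '' s)
    choose g hg using fun i => hd k (z i)
    refine ⟨d4 fun i => f k (g i), fun m => Submodule.span_mono ?_ (WB.d4_span _ m), ?_⟩
    · rintro _ ⟨i, rfl⟩
      exact ⟨_, rfl⟩
    · have e : (D.J0 J).map (Ideal.Quotient.mk D.I0) ⊔
          ⨆ j ∈ s, (D.Pz φ (C.u j)).map (Ideal.Quotient.mk D.I0) =
          (D.J0 J ⊔ ⨆ t ∈ C.u '' s, D.Pz φ t).map (Ideal.Quotient.mk D.I0) := by
        simp only [Ideal.map_sup, Ideal.map_iSup, iSup_image]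
      simp only [e, hf, hg, su.forall, d4_map, ← map_mul,
        Ideal.mem_quotient_iff_mem (le_sup_of_le_left i0)]
      exact fun u hu => (n1.mem_or_mem hu).resolve_left fun c => hz (n2 _
        (fun ⟨j, j1, j2⟩ => hk (hC.u_inj hZ j2 ▸ j1)) _ (d4_map (D.io _).toRingHom _ ▸ c))
  · have := hq.prime
    have := hq.fin
    have := hq.fs
    refine loc_up (loc k) hab fun s => Matrix.ext fun i j => ?_
    rw [← hr, WB.qf_apply, hf]
    refine Ideal.Quotient.eq.2 (hP ?_)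
    have := Ideal.mem_map_of_mem (Ideal.Quotient.mk D.I0) (Ideal.mem_map_of_mem (D.io (C.u k))
      (show C.f _ (d k s) i j - algebraMap O _ (φ (D.io _ (C.f _ (d k s) i j))) ∈
        RingHom.ker (φ.comp (D.io (C.u k))) by simp [RingHom.mem_ker]))
    rwa [map_sub, map_sub, AlgHom.commutes] at this
  · have := hq.prime
    obtain ⟨v, v1, v2⟩ := sp.unb (𝔮.comap (Ideal.Quotient.mk D.I0)) inferInstance
      (Ideal.map_le_iff_le_comap.1 hJ) hq.cst ∅ (fun _ e => e.elim) _ (pow_ne_zero n h0)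
    exact ⟨θ v, ⟨⟨v, rfl⟩, (kl _ _).2 fun u hu => by rw [← map_smul, v1.1 u hu, map_zero]⟩,
      by rwa [← Nat.cast_pow, Nat.cast_smul_eq_nsmul] at v2⟩

end Pd

end Vale.Agent.P022K.RT
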