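import Vale.Agent.P022K.RT.TwlA
import Vale.Agent.P022K.QT.If

/-!
# P022K, block RT, row TWL, part B: the Iwahori-Hecke algebra at a Taylor-Wiles place
-/

set_option linter.all false

noncomputable section

namespace Vale.Agent.P022K.RT.Tl

open IsLocalRing Module Polynomial

section

variable {O V : Type} [CommRing O] [AddCommGroup V] [Module O V]

theorem Nl.add {θ φ : End O V} (h : Commute θ φ) {v : V} (h1 : v ∈ Nl θ) (h2 : v ∈ Nl φ) :
    v ∈ Nl (θ + φ) := by
  obtain ⟨m, hm⟩ := h1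
  obtain ⟨n, hn⟩ := h2
  refine ⟨m + n, ?_⟩
  rw [h.add_pow', LinearMap.sum_apply]
  refine Finset.sum_eq_zero fun x hx => ?_
  have e := Finset.HasAntidiagonal.mem_antidiagonal.1 hx
  rw [LinearMap.smul_apply]
  rcases le_total m x.1 with k | k
  · rw [(h.pow_pow _ _).eq, Module.End.mul_apply, Nl.ge hm k, map_zero, smul_zero]
  · rw [Module.End.mul_apply, Nl.ge hn (by omega), map_zero, smul_zero]

theorem Nl.smul_one {c : O} {v : V} (h : ∃ n : ℕ, c ^ n • v = 0) :
    v ∈ Nl (c • (1 : End O V)) := h.imp fun n hn => by simpa [_root_.smul_pow] using hn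

/-- the generalised eigenspace depends on the residue class only -/
theorem Nl.congr {θ : End O V} {a b : O} {v : V} (h : ∃ n : ℕ, (a - b) ^ n • v = 0)
    (hv : v ∈ Nl (θ - a • 1)) : v ∈ Nl (θ - b • 1) := by
  have := Nl.add (((Commute.one_right _).smul_right (a - b))) hv (Nl.smul_one h)
  rwa [sub_smul, sub_add_sub_cancel] at this

theorem Nl.of_eq {θ φ : End O V} (S : Submodule O V) (hS : ∀ v ∈ S, θ v ∈ S)
    (e : ∀ v ∈ S, θ v = φ v) {v : V} (hv : v ∈ S) (n : ℕ) : (θ ^ n) v = (φ ^ n) v := by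
  induction n generalizing v with
  | zero => rfl
  | succ n ih => rw [pow_succ, pow_succ, Module.End.mul_apply, Module.End.mul_apply,
      ih (hS v hv), e v hv]

theorem Nl.disj {θ : End O V} {a b : O} (hu : IsUnit (a - b)) {v : V} (h1 : v ∈ Nl (θ - a • 1))
    (h2 : v ∈ Nl (θ - b • 1)) : v = 0 := by
  have := Nl.add (θ := θ - b • 1) (φ := -(θ - a • 1)) (Commute.neg_right
    ((Commute.refl θ).sub_right ((Commute.one_right θ).smul_right a) |>.sub_left
      ((Commute.one_left _).smul_left b))) h2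
    (h1.imp fun n hn => by rw [neg_pow, Module.End.mul_apply, hn, map_zero])
  rw [show θ - b • 1 + -(θ - a • 1) = (a - b) • (1 : End O V) by rw [sub_smul]; abel] at this
  obtain ⟨n, hn⟩ := this
  rw [_root_.smul_pow, one_pow, LinearMap.smul_apply, Module.End.one_apply] at hn
  exact ((hu.pow n).smul_eq_zero).1 hn

/-- the relations of the Iwahori-Hecke algebra: `e` is the trace to the spherical vectors `W` -/
structure Hk (q : O) (e P : End O V) (W : Submodule O V) : Prop where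
  pi : P * P = 1
  mem : ∀ v, e v ∈ W
  tr : ∀ w ∈ W, e w = (q + 1) • w

variable {q α β : O} {e P : End O V} {W : Submodule O V}

theorem Hk.ee (h : Hk q e P W) : e * e = (q + 1) • e :=
  LinearMap.ext fun v => h.tr _ (h.mem v)

theorem Hk.uu (h : Hk q e P W) : (e - 1) * P * (P * (e - q • 1)) = q • 1 := by
  rw [mul_assoc, ← mul_assoc P, h.pi, one_mul, sub_mul, mul_sub, h.ee]
  simp only [one_mul, mul_smul_comm, mul_one, add_smul, one_smul]
  abel

theorem Hk.uu' (h : Hk q e P W) : P * (e - q • 1) * ((e - 1) * P) = q • 1 := by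
  have : (e - q • 1) * (e - 1) = q • 1 := by
    rw [sub_mul, mul_sub, h.ee]
    simp only [one_mul, smul_mul_assoc, mul_one, add_smul, one_smul, smul_sub]
    abel
  rw [mul_assoc, ← mul_assoc (e - q • 1), this, smul_mul_assoc, one_mul, mul_smul_comm, h.pi]

theorem Hk.com (h : Hk q e P W) : Commute ((e - 1) * P) (P * (e - q • 1)) :=
  h.uu.trans h.uu'.symm

theorem Hk.quad (h : Hk q e P W) (hq : α * β = q) :
    ((e - 1) * P - α • 1) * ((e - 1) * P - β • 1) =
      (e - 1) * P * ((e - 1) * P + P * (e - q • 1) - (α + β) • 1) := by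
  rw [mul_sub ((e - 1) * P) (_ + _), mul_add, h.uu, ← hq]
  generalize (e - 1) * P = U
  simp only [sub_mul, mul_sub, smul_mul_assoc, mul_smul_comm, one_mul,
    mul_one, add_smul, smul_smul, smul_sub, mul_comm β α, mul_add]
  abel

theorem com_sub (θ : End O V) (a b : O) : Commute (θ - a • 1) (θ - b • 1) :=
  ((Commute.refl θ).sub_right ((Commute.one_right θ).smul_right b)).sub_left
    ((Commute.one_left _).smul_left a)

theorem Hk.comz (h : Hk q e P W) (t : O) :
    Commute ((e - 1) * P) ((e - 1) * P + P * (e - q • 1) - t • 1) :=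
  ((Commute.refl _).add_right h.com).sub_right ((Commute.one_right _).smul_right t)

theorem Hk.maps (h : Hk q e P W) (hq : α * β = q) (hu : IsUnit q) {v : V}
    (hv : v ∈ Nl ((e - 1) * P - α • 1)) : e v ∈ Nl (e * P - (α + β) • 1) := by
  obtain ⟨n, hn⟩ := hv
  have e1 : (e * P - (α + β) • 1) * e = e * ((e - 1) * P + P * (e - q • 1) - (α + β) • 1) := by
    have : e * ((e - 1) * P) = q • (e * P) := by
      rw [← mul_assoc, mul_sub, h.ee, add_smul, one_smul, mul_one, add_sub_cancel_right,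
        smul_mul_assoc]
    rw [mul_sub e, mul_add, this]
    simp only [sub_mul, mul_sub, smul_mul_assoc, mul_smul_comm, one_mul, mul_one, mul_assoc]
    abel
  have e2 : ∀ k : ℕ, (e * P - (α + β) • 1) ^ k * e =
      e * ((e - 1) * P + P * (e - q • 1) - (α + β) • 1) ^ k := fun k =>
    (SemiconjBy.pow_right (show SemiconjBy e _ _ from e1.symm) k).symm
  refine ⟨n, ?_⟩
  rw [← Module.End.mul_apply, e2, Module.End.mul_apply]
  have e3 : (((e - 1) * P) ^ n) ((((e - 1) * P + P * (e - q • 1) - (α + β) • 1) ^ n) v) = 0 := by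
    rw [← Module.End.mul_apply, ← (h.comz _).mul_pow, ← h.quad hq, (com_sub _ _ _).eq,
      (com_sub _ _ _).mul_pow, Module.End.mul_apply, hn, map_zero]
  have e4 := congrArg ((P * (e - q • 1)) ^ n : End O V) e3
  rw [← Module.End.mul_apply, ← h.com.symm.mul_pow, h.uu', map_zero, _root_.smul_pow, one_pow,
    LinearMap.smul_apply, Module.End.one_apply] at e4
  rw [((hu.pow n).smul_eq_zero).1 e4, map_zero]

variable [IsLocalRing O]

theorem Hk.inj (h : Hk q e P W) (tor : ∀ v : V, ∃ j, ∀ o ∈ maximalIdeal O ^ j, o • v = 0)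
    (h1 : q - 1 ∈ maximalIdeal O) (hq : α * β = q) (hα : IsUnit α) (hu : IsUnit (α - β)) {v : V}
    (hv : v ∈ Nl ((e - 1) * P - α • 1)) (h0 : e v = 0) : v = 0 := by
  obtain ⟨j, hj⟩ := tor v
  induction j generalizing v with
  | zero => simpa using hj 1 (by simp)
  | succ j ih =>
    have hm : ∀ o ∈ maximalIdeal O, o • v = 0 := fun o ho =>
      ih (Submodule.smul_mem _ o hv) (by rw [map_smul, h0, smul_zero]) fun o' ho' => by
        rw [← mul_smul]
        exact hj _ (by rw [pow_succ]; exact Ideal.mul_mem_mul ho' ho)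
    obtain ⟨n, hn⟩ := hv
    have e1 : (e - 1) * ((e - 1) * P - α • 1) =
        (P * (e - q • 1) - α • 1) * (e - 1) + (q - 1) • ((e - 1) * P) := by
      have a1 : (e - 1) * (e - 1) = (q - 1) • (e - 1) + q • 1 := by
        rw [sub_mul, mul_sub, h.ee]
        simp only [one_mul, mul_one, add_smul, sub_smul, one_smul, smul_sub]
        abel
      have a2 : (e - q • 1) * (e - 1) = q • 1 := by
        rw [sub_mul, mul_sub, h.ee]
        simp only [one_mul, smul_mul_assoc, mul_one, add_smul, one_smul, smul_sub]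
        abel
      rw [mul_sub (e - 1), ← mul_assoc, a1, sub_mul (P * _), mul_assoc P, a2]
      simp only [add_mul, smul_mul_assoc, mul_smul_comm, one_mul, mul_one]
      abel
    have e2 : ∀ k : ℕ, ∀ x : V, (q - 1) • x = 0 → (e - 1) ((((e - 1) * P - α • 1) ^ k) x) =
        ((P * (e - q • 1) - α • 1) ^ k) ((e - 1) x) := fun k => by
      induction k with
      | zero => exact fun _ _ => rfl
      | succ k ih =>
        intro x hx
        rw [pow_succ, pow_succ, Module.End.mul_apply, Module.End.mul_apply,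
          ih _ (by rw [← map_smul, hx, map_zero]), ← Module.End.mul_apply (e - 1), e1,
          LinearMap.add_apply, LinearMap.smul_apply, ← map_smul, hx, map_zero, add_zero,
          Module.End.mul_apply]
    have e3 := e2 n v (hm _ h1)
    rw [hn, map_zero, LinearMap.sub_apply, h0, zero_sub, Module.End.one_apply, map_neg,
      zero_eq_neg] at e3
    have e4 : (e - 1) * P * (P * (e - q • 1) - α • 1) = (-α) • ((e - 1) * P - β • 1) := by
      rw [mul_sub, h.uu, ← hq]
      simp only [mul_smul_comm, mul_one, smul_sub, smul_smul, neg_smul, neg_mul]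
      abel
    have e5 := congrArg (((e - 1) * P) ^ n : End O V) e3
    rw [← Module.End.mul_apply, ← (h.com.sub_right ((Commute.one_right _).smul_right α)).mul_pow,
      e4, _root_.smul_pow, LinearMap.smul_apply, map_zero] at e5
    exact Nl.disj hu ⟨n, hn⟩ ⟨n, ((hα.neg.pow n).smul_eq_zero).1 e5⟩

theorem Hk.surj (h : Hk q e P W) (h1 : q - 1 ∈ maximalIdeal O) (hq : α * β = q)
    (hu : IsUnit (α - β)) {w : V} (hw : w ∈ W) (hv : w ∈ Nl (e * P - (α + β) • 1)) :
    ∃ v ∈ Nl ((e - 1) * P - α • 1), e v = w := by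
  have hT : W ≤ W.comap (e * P) := fun x _ => h.mem _
  have hf : ∀ (f : O[X]), ∀ x ∈ W, aeval (e * P) f x ∈ W := fun f x hx =>
    aeval_apply_smul_mem_of_le_comap hx f _ hT
  have st : ∀ x ∈ W, ∀ y ∈ W, ((e - 1) * P - β • 1) (x + P y) =
      (e * P) x - β • x + q • y + P (-x - β • y) := fun x _ y hy => by
    have : P (P y) = y := LinearMap.congr_fun h.pi y
    simp only [LinearMap.sub_apply, Module.End.mul_apply, map_add, this, h.tr y hy, map_sub,
      map_neg, map_smul, LinearMap.smul_apply, Module.End.one_apply, add_smul, one_smul, smul_add]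
    abel
  have key : ∀ n : ℕ, ∃ f g : O[X], (∀ x ∈ W, (((e - 1) * P - β • 1) ^ (n + 1)) x =
      aeval (e * P) f x + P (aeval (e * P) g x)) ∧
      f.eval (α + β) - (α - β) ^ n * α ∈ maximalIdeal O ∧
      g.eval (α + β) + (α - β) ^ n ∈ maximalIdeal O := fun n => by
    induction n with
    | zero =>
      refine ⟨X - C β, -1, fun x hx => ?_, by simp, by simp⟩
      simpa [Module.algebraMap_end_apply] using st x hx 0 W.zero_mem
    | succ n ih =>
      obtain ⟨f, g, a1, a2, a3⟩ := ih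
      refine ⟨(X - C β) * f + C q * g, -f - C β * g, fun x hx => ?_, ?_, ?_⟩
      · rw [pow_succ', Module.End.mul_apply, a1 x hx, st _ (hf f x hx) _ (hf g x hx)]
        simp [Module.algebraMap_end_apply]
      · have := add_mem (add_mem (Ideal.mul_mem_left _ α a2) (Ideal.mul_mem_left _ q a3))
          (Ideal.mul_mem_left _ 0 h1)
        convert this using 1
        simp only [eval_add, eval_mul, eval_sub, eval_X, eval_C, ← hq]
        ring
      · have := sub_mem (neg_mem a2) (Ideal.mul_mem_left _ β a3)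
        convert this using 1
        simp only [eval_neg, eval_mul, eval_sub, eval_C]
        ring
  obtain ⟨n, hn⟩ := hv
  obtain ⟨f, g, a1, a2, a3⟩ := key n
  have u1 : IsUnit ((C (q + 1) * f + X * g).eval (α + β)) := by
    by_contra hc
    have := sub_mem (sub_mem (sub_mem ((mem_maximalIdeal _).2 hc)
      (Ideal.mul_mem_left _ (q + 1) a2)) (Ideal.mul_mem_left _ (α + β) a3))
      (Ideal.mul_mem_left _ ((α - β) ^ n * α) h1)
    refine (mem_maximalIdeal _).1 ?_ (hu.pow (n + 1))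
    convert this using 1
    simp only [eval_add, eval_mul, eval_X, eval_C]
    ring
  have cp : IsCoprime (C (q + 1) * f + X * g) (X - C (α + β)) := by
    obtain ⟨r, hr⟩ := X_sub_C_dvd_sub_C_eval (p := C (q + 1) * f + X * g) (a := α + β)
    obtain ⟨u, hu⟩ := u1.exists_left_inv
    refine ⟨C u, -(C u * r), ?_⟩
    have := congrArg C hu
    rw [C_mul, C_1] at this
    linear_combination C u * hr + this
  obtain ⟨a, b, hab⟩ := cp.pow_right (n := n)
  have ev : aeval (e * P) (X - C (α + β)) = e * P - (α + β) • 1 := by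
    rw [map_sub, aeval_X, aeval_C, Algebra.algebraMap_eq_smul_one]
  have w1 : aeval (e * P) a w ∈ W := hf a w hw
  refine ⟨(((e - 1) * P - β • 1) ^ (n + 1)) (aeval (e * P) a w), ⟨n + 1, ?_⟩, ?_⟩
  · rw [← Module.End.mul_apply, ← (com_sub _ _ _).mul_pow, h.quad hq, (h.comz _).mul_pow,
      Module.End.mul_apply, ← Nl.of_eq (θ := e * P - (α + β) • 1) W
        (fun x hx => sub_mem (h.mem _) (W.smul_mem _ hx)) (fun x hx => by
          simp only [LinearMap.sub_apply, LinearMap.add_apply, Module.End.mul_apply, h.tr x hx,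
            LinearMap.smul_apply, Module.End.one_apply, add_smul, one_smul, map_add, map_sub]
          abel) w1, ← ev, ← map_pow, ← Module.End.mul_apply (aeval _ _), ← map_mul,
      mul_comm _ a, map_mul, Module.End.mul_apply, map_pow, ev, Nl.ge hn n.le_succ, map_zero,
      map_zero]
  · have := LinearMap.congr_fun (congrArg (aeval (e * P)) hab) w
    rw [map_add, mul_comm a, map_mul, map_mul, map_pow, ev, LinearMap.add_apply,
      Module.End.mul_apply, Module.End.mul_apply, hn, map_zero, add_zero, map_one,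
      Module.End.one_apply] at this
    rw [a1 _ w1, map_add, h.tr _ (hf f _ w1)]
    refine Eq.trans ?_ this
    simp [Module.algebraMap_end_apply, add_smul]

omit [IsLocalRing O] in
theorem Nl.coe {R Y F : Type} [CommRing R] [AddCommGroup Y] [Module R Y] [FunLike F Y V]
    [ZeroHomClass F Y V] {φ : F} (inj : Function.Injective φ) {θ' : End R Y} {θ : End O V}
    (h : ∀ y, φ (θ' y) = θ (φ y)) {y : Y} : y ∈ Nl θ' ↔ φ y ∈ Nl θ :=
  exists_congr fun n => by
    rw [← Sh.Fre.pow_comm h, map_eq_zero_iff φ inj]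

/-- **the trace is a bijection on generalised eigenspaces** -/
theorem bij_sub (I : Submodule O V) (pi : P * P = 1) (hP : ∀ v ∈ I, P v ∈ I)
    (he : ∀ v ∈ I, e v ∈ W) (le : W ≤ I) (tr : ∀ w ∈ W, e w = (q + 1) • w)
    (tor : ∀ v : V, ∃ j, ∀ o ∈ maximalIdeal O ^ j, o • v = 0)
    (h1 : q - 1 ∈ maximalIdeal O) (hq : α * β = q) (hu : IsUnit (α - β)) :
    Set.BijOn e {v | v ∈ I ∧ v ∈ Nl ((e - 1) * P - α • 1)}
      {w | w ∈ W ∧ w ∈ Nl (e * P - (α + β) • 1)} := by
  have uq : IsUnit q := by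
    by_contra hc
    have := sub_mem ((mem_maximalIdeal _).2 hc) h1
    rw [sub_sub_cancel] at this
    exact (mem_maximalIdeal _).1 this isUnit_one
  let e' : End O I := e.restrict fun v hv => le (he v hv)
  let P' : End O I := P.restrict hP
  have h : Hk q e' P' (W.comap I.subtype) :=
    ⟨LinearMap.ext fun v => Subtype.ext (LinearMap.congr_fun pi v), fun v => he v v.2,
      fun w hw => Subtype.ext (tr w hw)⟩
  have k1 : ∀ v : I, v ∈ Nl ((e' - 1) * P' - α • 1) ↔ (v : V) ∈ Nl ((e - 1) * P - α • 1) :=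
    fun v => Nl.coe (φ := I.subtype) I.injective_subtype fun _ => rfl
  have k2 : ∀ v : I, v ∈ Nl (e' * P' - (α + β) • 1) ↔ (v : V) ∈ Nl (e * P - (α + β) • 1) :=
    fun v => Nl.coe (φ := I.subtype) I.injective_subtype fun _ => rfl
  refine ⟨fun v hv => ⟨he v hv.1, (k2 _).1 (h.maps hq uq ((k1 ⟨v, hv.1⟩).2 hv.2))⟩,
    fun v hv v' hv' e0 => sub_eq_zero.1 (congrArg Subtype.val (h.inj (v := ⟨v - v', sub_mem hv.1 hv'.1⟩)
      (fun x => (tor x).imp fun j hj o ho => Subtype.ext (hj o ho)) h1 hq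
      (isUnit_of_mul_isUnit_left (hq ▸ uq)) hu ((k1 _).2 (sub_mem hv.2 hv'.2))
      (Subtype.ext (show e (v - v') = 0 by rw [map_sub, e0, sub_self])))), fun w hw => ?_⟩
  obtain ⟨v, a1, a2⟩ := h.surj h1 hq hu (w := ⟨w, le hw.1⟩) hw.1 ((k2 _).2 hw.2)
  exact ⟨v, ⟨v.2, (k1 v).1 a1⟩, congrArg Subtype.val a2⟩

end

/-! ### matrices -/

section

open Sh

variable {O K : Type} [CommRing O] [IsDomain O] [IsDiscreteValuationRing O] [Field K] [Algebra O K]

theorem mem_Iw0 {g : GL (Fin 2) K} :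
    g ∈ Iw0 O K ↔ ∃ k : GL (Fin 2) O, k 1 0 ∈ maximalIdeal O ∧ gK K k = g :=
  exists_congr fun k => and_congr_left fun _ => residue_eq_zero_iff (k 1 0)

theorem mem_Iw1 {g : GL (Fin 2) K} : g ∈ Iw1 O K ↔ ∃ k : GL (Fin 2) O,
    (k 1 0 ∈ maximalIdeal O ∧ k 0 0 - k 1 1 ∈ maximalIdeal O) ∧ gK K k = g :=
  exists_congr fun k => and_congr_left fun _ =>
    and_congr (residue_eq_zero_iff (k 1 0)) Ideal.Quotient.eq

theorem Up_mono {V V' : Subgroup (GL (Fin 2) (ResidueField O))} (h : V ≤ V') :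
    Up O K V ≤ Up O K V' := Subgroup.map_mono (Subgroup.comap_mono h)

theorem Up_le (V : Subgroup (GL (Fin 2) (ResidueField O))) : Up O K V ≤ KK O K := by
  rintro _ ⟨k, -, rfl⟩
  exact ⟨k, rfl⟩

theorem Iw1_le : Iw1 O K ≤ Iw0 O K := Up_mono fun _ h => h.1

theorem cj_dg {p : O} (hp : Irreducible p) {c : Kˣ} (e : algebraMap O K p = c)
    (k : GL (Fin 2) O) (h : k 0 1 ∈ maximalIdeal O) : ∃ k' : GL (Fin 2) O,
      gK K k * dg c = dg c * gK K k' ∧ k' 0 0 = k 0 0 ∧ k' 1 1 = k 1 1 ∧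
      k' 1 0 ∈ maximalIdeal O := by
  rw [hp.maximalIdeal_eq] at h ⊢
  obtain ⟨b, hb⟩ := Ideal.mem_span_singleton'.1 h
  refine ⟨Matrix.GeneralLinearGroup.mk'' !![k 0 0, b; p * k 1 0, k 1 1] ?_, ?_, rfl, rfl,
    Ideal.mul_mem_right _ _ (Ideal.mem_span_singleton_self p)⟩
  · have := (Matrix.GeneralLinearGroup.det k).isUnit
    rw [Matrix.GeneralLinearGroup.val_det_apply, Matrix.det_fin_two, ← hb] at this
    rw [Matrix.det_fin_two_of]
    convert this using 1
    ring
  · ext i j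
    fin_cases i <;> fin_cases j <;>
      simp [dg_val, Matrix.mul_apply, Fin.sum_univ_two, ← hb, ← e, mul_comm]

theorem ss_mem : gK K (sO (O := O) * sO) ∈ Zl K := by
  convert scalar_mem (K := K) (-1) using 1
  ext i j
  fin_cases i <;> fin_cases j <;> simp [sO, Matrix.mul_apply, Fin.sum_univ_two]

theorem PP_mem (c : Kˣ) : gK K (sO (O := O))⁻¹ * dg c * (gK K (sO (O := O))⁻¹ * dg c) ∈ Zl K := by
  convert scalar_mem (K := K) (-c) using 1
  ext i j
  fin_cases i <;> fin_cases j <;>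
    simp [dg_val, sO, Matrix.mul_apply, Fin.sum_univ_two, Matrix.vecMul, dotProduct]

theorem rep_Iw0 (hi : Function.Injective (algebraMap O K)) [Fintype (ResidueField O)] :
    Rep (KK O K) (Iw0 O K) Finset.univ fun i => gK K (pO (O := O) i * sO) := by
  have key : ∀ x : GL (Fin 2) O, (sO⁻¹ * x * sO : GL (Fin 2) O) 1 0 = -x 0 1 := fun x => by
    simp [sO, Matrix.mul_apply, Fin.sum_univ_two, Matrix.vecMul, dotProduct]
  have inj : Function.Injective (gK (O := O) K) := fun _ _ e =>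
    Units.ext (Matrix.map_injective hi (congrArg Units.val e))
  refine ⟨fun y hy u hu => mul_mem hy (Up_le _ hu), fun i _ => ⟨_, rfl⟩, fun i _ k _ m => ?_, ?_⟩
  · obtain ⟨x, h1, h2⟩ := mem_Iw0.1 m
    rw [← map_inv, ← map_mul] at h2
    rw [inj h2, show (pO (O := O) i * sO)⁻¹ * (pO k * sO) = sO⁻¹ * ((pO i)⁻¹ * pO k) * sO by group,
      key] at h1
    exact pO_inj (neg_mem_iff.1 h1)
  · rintro _ ⟨k, rfl⟩
    obtain ⟨i, hi⟩ := pO_sur (k * sO⁻¹)
    refine ⟨i, Finset.mem_univ i, mem_Iw0.2 ⟨(pO i * sO)⁻¹ * k, ?_, by rw [map_mul, map_inv]⟩⟩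
    rw [show (pO (O := O) i * sO)⁻¹ * k = sO⁻¹ * ((pO i)⁻¹ * (k * sO⁻¹)) * sO by group, key]
    exact neg_mem hi

theorem diag_unit (k : GL (Fin 2) O) (h : k 1 0 ∈ maximalIdeal O) :
    residue O (k 0 0) ≠ 0 ∧ residue O (k 1 1) ≠ 0 := by
  have := (Matrix.GeneralLinearGroup.det k).isUnit.map (residue O)
  rw [Matrix.GeneralLinearGroup.val_det_apply, Matrix.det_fin_two, map_sub, map_mul, map_mul,
    (residue_eq_zero_iff _).2 h, mul_zero, sub_zero] at this
  exact mul_ne_zero_iff.1 this.ne_zero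

theorem inv_mul_mem {k k' : GL (Fin 2) O} (h : k 1 0 ∈ maximalIdeal O)
    (h' : k' 1 0 ∈ maximalIdeal O) (h0 : residue O (k' 0 0) * residue O (k 1 1) =
      residue O (k 0 0) * residue O (k' 1 1)) : (gK K k)⁻¹ * gK K k' ∈ Iw1 O K := by
  refine ⟨k⁻¹ * k', ?_, by rw [map_mul, map_inv]⟩
  obtain ⟨a, b⟩ := diag_unit k h
  obtain ⟨u, rfl⟩ : ∃ u, k' = k * u := ⟨k⁻¹ * k', by group⟩
  rw [inv_mul_cancel_left]
  rw [← residue_eq_zero_iff] at h h'
  simp only [Units.val_mul, Matrix.mul_apply, Fin.sum_univ_two, map_add, map_mul, h, zero_mul,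
    zero_add] at h' h0
  have c : residue O (u 1 0) = 0 := (mul_eq_zero.1 h').resolve_left b
  refine ⟨c, show residue O (u 0 0) = residue O (u 1 1) from ?_⟩
  rw [c] at h0
  exact mul_left_cancel₀ (mul_ne_zero a b) (by linear_combination h0)

variable {G0 G : Type} [Group G0] [Group G] {T : Tw G0 G} (w : T.Lc O K)
  {Λ M : Type} [CommRing Λ] [AddCommGroup M] [Module Λ M] (a : Representation Λ G M)

/-- the Atkin-Lehner element -/
def Pw : End Λ M := a (w.ι (gK K (sO (O := O))⁻¹ * dg w.ϖ))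

/-- the trace from the Iwahori subgroup -/
def Ew : End Λ M :=
  haveI := w.fin
  haveI := Fintype.ofFinite (ResidueField O)
  ∑ i, a (w.ι (gK K (pO (O := O) i * sO)))

/-- the operator `U` -/
def Uw : End Λ M :=
  haveI := w.fin
  haveI := Fintype.ofFinite (ResidueField O)
  ∑ t, a (w.ι (w.tr (some t)))

variable {w a}

theorem mem_Fl {V : Subgroup (GL (Fin 2) K)} {v : M} :
    v ∈ w.Fl a V ↔ ∀ g ∈ V, a (w.ι g) v = v :=
  ⟨fun h g hg => h _ ⟨g, hg, rfl⟩, fun h => by rintro _ ⟨g, hg, rfl⟩; exact h g hg⟩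

theorem Tv_eq : w.Tv a = Ew w a * Pw w a := by
  rw [Ew, Tw.Lc.Tv, Finset.sum_mul]
  refine Finset.sum_congr rfl fun i _ => ?_
  rw [Pw, ← map_mul, ← map_mul, ← mul_assoc, ← map_mul, mul_inv_cancel_right, Tw.Lc.tr]

theorem Uw_eq (hz : ∀ g ∈ Zl K, a (w.ι g) = 1) : Uw w a = (Ew w a - 1) * Pw w a := by
  have := w.fin
  let _ := Fintype.ofFinite (ResidueField O)
  rw [Ew, Fintype.sum_option, show pO (O := O) none = sO from rfl, hz _ ss_mem,
    add_sub_cancel_left, Uw, Finset.sum_mul]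
  refine Finset.sum_congr rfl fun i _ => ?_
  rw [Pw, ← map_mul, ← map_mul, ← mul_assoc, ← map_mul, mul_inv_cancel_right, Tw.Lc.tr]

theorem Pw_sq (hz : ∀ g ∈ Zl K, a (w.ι g) = 1) : Pw w a * Pw w a = 1 := by
  rw [Pw, ← map_mul, ← map_mul, hz _ (PP_mem _)]

theorem Pw_mem {v : M} (hv : v ∈ w.Fl a (Iw0 O K)) : Pw w a v ∈ w.Fl a (Iw0 O K) := by
  obtain ⟨p, hp, e⟩ := w.irr
  refine mem_Fl.2 fun g hg => ?_
  obtain ⟨k, h1, rfl⟩ := mem_Iw0.1 hg
  obtain ⟨k', h2, -, -, h3⟩ := cj_dg hp e (sO * k * sO⁻¹) (by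
    simpa [sO, Matrix.mul_apply, Fin.sum_univ_two, Matrix.vecMul, dotProduct] using h1)
  rw [Pw, ← Module.End.mul_apply, ← map_mul, ← map_mul, ← mul_assoc, ← map_mul,
    show k * sO⁻¹ = sO⁻¹ * (sO * k * sO⁻¹) by group, map_mul (gK K), mul_assoc (gK K _), h2,
    ← mul_assoc, map_mul w.ι, map_mul, Module.End.mul_apply,
    mem_Fl.1 hv _ (mem_Iw0.2 ⟨k', h3, rfl⟩)]

theorem Ew_mem {v : M} (hv : v ∈ w.Fl a (Iw0 O K)) : Ew w a v ∈ w.Fl a (KK O K) := by
  have := w.fin
  let _ := Fintype.ofFinite (ResidueField O)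
  refine mem_Fl.2 fun g hg => ?_
  have r := rep_Iw0 w.inj
  have c : Cor (KK O K) (KK O K) (Iw0 O K) := ⟨fun u hu y hy => mul_mem hu hy, r.right, r.fin⟩
  have i : Inv (Iw0 O K) fun x => a (w.ι x) v := fun x u hu => by
    simp only [map_mul, Module.End.mul_apply, mem_Fl.1 hv u hu]
  have := hk_inv c i 1 g hg
  rw [r.hk i, r.hk i] at this
  simpa only [Ew, LinearMap.sum_apply, map_sum, one_mul, map_mul w.ι, map_mul a,
    Module.End.mul_apply] using this

theorem Ew_tr {v : M} (hv : v ∈ w.Fl a (KK O K)) : Ew w a v = ((qq O : Λ) + 1) • v := by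
  have := w.fin
  let _ := Fintype.ofFinite (ResidueField O)
  rw [Ew, LinearMap.sum_apply, Finset.sum_congr rfl fun i _ => mem_Fl.1 hv _ ⟨_, rfl⟩,
    Finset.sum_const, Tw.Lc.card_opt, ← Nat.cast_smul_eq_nsmul Λ, Nat.cast_succ]

/-- `U` commutes with the Iwahori subgroup on the vectors of level `Iw1` -/
theorem Uw_com {v : M} (hv : v ∈ w.Fl a (Iw1 O K)) {g : GL (Fin 2) K} (hg : g ∈ Iw0 O K) :
    a (w.ι g) (Uw w a v) = Uw w a (a (w.ι g) v) := by
  have := w.fin
  let _ := Fintype.ofFinite (ResidueField O)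
  obtain ⟨p, hp, e⟩ := w.irr
  obtain ⟨k, h1, rfl⟩ := mem_Iw0.1 hg
  obtain ⟨d0, d1⟩ := diag_unit k h1
  let φ : ResidueField O → ResidueField O := fun t =>
    (residue O (k 0 0) * t + residue O (k 0 1)) / residue O (k 1 1)
  have hφ : Function.Bijective φ := Finite.injective_iff_bijective.1 fun s t h =>
    mul_left_cancel₀ d0 (add_right_cancel ((div_left_inj' d1).1 h))
  have h0 := (residue_eq_zero_iff _).2 h1
  have out : ∀ t : ResidueField O, residue O t.out = t := fun t => Quotient.out_eq t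
  simp only [Uw, LinearMap.sum_apply, map_sum]
  refine Finset.sum_bijective φ hφ (by simp) fun t _ => ?_
  obtain ⟨k', h2, h3, h4, h5⟩ := cj_dg hp e ((nO (φ t).out)⁻¹ * k * nO t.out) (by
    rw [← residue_eq_zero_iff]
    simp [nO, Matrix.mul_apply, Fin.sum_univ_two, Matrix.vecMul, dotProduct, out, h0, φ]
    field_simp
    ring)
  have h6 := mem_Fl.1 hv _ (inv_mul_mem (K := K) h1 h5 (by
    rw [h3, h4]
    simp [nO, Matrix.mul_apply, Fin.sum_univ_two, Matrix.vecMul, dotProduct, h0]))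
  have h7 : gK K k * w.tr (some t) = w.tr (some (φ t)) * gK K k * ((gK K k)⁻¹ * gK K k') := by
    rw [mul_assoc _ (gK K k), mul_inv_cancel_left, Tw.Lc.tr, Tw.Lc.tr, mul_assoc, ← h2]
    simp only [map_mul, map_inv, pO]
    group
  rw [← Module.End.mul_apply, ← map_mul, ← map_mul, h7, map_mul w.ι, map_mul a,
    Module.End.mul_apply, h6, map_mul w.ι, map_mul a, Module.End.mul_apply]

theorem Uw_mem {V : Subgroup (GL (Fin 2) K)} (h1 : Iw1 O K ≤ V) (h0 : V ≤ Iw0 O K) {v : M}
    (hv : v ∈ w.Fl a V) : Uw w a v ∈ w.Fl a V := mem_Fl.2 fun g hg => by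
  rw [Uw_com (mem_Fl.2 fun u hu => mem_Fl.1 hv u (h1 hu)) (h0 hg), mem_Fl.1 hv g hg]

/-- operators that commute with the local group -/
def Cm (w : T.Lc O K) (a : Representation Λ G M) (θ : End Λ M) : Prop :=
  ∀ g, Commute θ (a (w.ι g))

theorem Cm.P {θ : End Λ M} (h : Cm w a θ) : Commute θ (Pw w a) := h _

theorem Cm.E {θ : End Λ M} (h : Cm w a θ) : Commute θ (Ew w a) :=
  Commute.sum_right _ _ _ fun _ _ => h _

theorem Cm.U {θ : End Λ M} (h : Cm w a θ) : Commute θ (Uw w a) :=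
  Commute.sum_right _ _ _ fun _ _ => h _

theorem Cm.Tv {θ : End Λ M} (h : Cm w a θ) : Commute θ (w.Tv a) :=
  Commute.sum_right _ _ _ fun _ _ => h _

theorem cm_ker {y : G} (h : w.π y = 1) : Cm w a (a y) := fun g =>
  ((w.com g y h).symm.map a)

/-- **the comparison at one place**, inside a submodule which is stable under the local group -/
theorem tw_bij [IsLocalRing Λ] (hz : ∀ g ∈ Zl K, a (w.ι g) = 1) (X : Submodule Λ M)
    (hX : ∀ g, ∀ v ∈ X, a (w.ι g) v ∈ X)
    (tor : ∀ v : M, ∃ j, ∀ o ∈ maximalIdeal Λ ^ j, o • v = 0) {α β : Λ}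
    (h1 : (qq O : Λ) - 1 ∈ maximalIdeal Λ) (hq : α * β = qq O) (hu : IsUnit (α - β))
    (hT : ∀ v ∈ X, v ∈ w.Fl a (KK O K) → v ∈ Nl (w.Tv a - (α + β) • 1)) :
    Set.BijOn (Ew w a) {v | (v ∈ X ∧ v ∈ w.Fl a (Iw0 O K)) ∧ v ∈ Nl (Uw w a - α • 1)}
      {v | v ∈ X ∧ v ∈ w.Fl a (KK O K)} := by
  have := bij_sub (e := Ew w a) (P := Pw w a) (W := X ⊓ w.Fl a (KK O K)) (X ⊓ w.Fl a (Iw0 O K))
    (Pw_sq hz) (fun v hv => ⟨hX _ v hv.1, Pw_mem hv.2⟩) (fun v hv => ⟨by
      rw [Ew, LinearMap.sum_apply]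
      exact X.sum_mem fun i _ => hX _ v hv.1, Ew_mem hv.2⟩)
    (fun v hv => ⟨hv.1, mem_Fl.2 fun g hg => mem_Fl.1 hv.2 g (Up_le _ hg)⟩)
    (fun v hv => Ew_tr hv.2) tor h1 hq hu
  rw [← Uw_eq hz, ← Tv_eq] at this
  exact ⟨fun v hv => (this.1 hv).1, this.2.1, fun v hv => this.2.2 ⟨hv, hT v hv.1 hv.2⟩⟩

end

end Vale.Agent.P022K.RT.Tl
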