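import Vale.Agent.P022K.RT.TwlD

/-!
# P022K, block RT, row TWL, part C: levels, traces, matrices
-/

set_option linter.all false

noncomputable section

namespace Vale.Agent.P022K.RT.Tl

open IsLocalRing Module Sh
open Vale.Agent.P022K.WB (Kn)

/-! ### groups -/

theorem peel {G ι : Type} [Group G] [Finite ι] (e : ι → G →* G) (h1 : ∀ i g, e i (e i g) = e i g)
    (h2 : ∀ i k g, i ≠ k → e i (e k g) = 1) {U X : Subgroup G} (hU : ∀ i, ∀ u ∈ U, e i u ∈ U)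
    (h0 : ∀ u ∈ U, (∀ i, e i u = 1) → u ∈ X) {u : G} (hu : u ∈ U) (hx : ∀ i, e i u ∈ X) :
    u ∈ X := by
  classical
  have := Fintype.ofFinite ι
  suffices ∀ s : Finset ι, ∀ u ∈ U, (∀ i ∉ s, e i u = 1) → (∀ i, e i u ∈ X) → u ∈ X from
    this Finset.univ u hu (by simp) hx
  intro s
  induction s using Finset.induction_on with
  | empty => exact fun u hu h _ => h0 u hu fun i => h i (by simp)
  | insert k s hk ih =>
    intro u hu h hx
    have key : ∀ i, e i ((e k u)⁻¹ * u) = if i = k then 1 else e i u := fun i => by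
      rw [map_mul, map_inv]
      split_ifs with c
      · rw [c, h1, inv_mul_cancel]
      · rw [h2 i k u c, inv_one, one_mul]
    have := mul_mem (hx k) (ih _ (mul_mem (inv_mem (hU k u hu)) hu) (fun i hi => by
      rw [key]
      split_ifs with c
      · rfl
      · exact h i (by simp [c, hi])) fun i => by
      rw [key]
      split_ifs
      exacts [one_mem _, hx i])
    rwa [mul_inv_cancel_left] at this

theorem mem_sup_nor {G K : Type} [Group G] [Group K] (κ : K →* G) {H : Subgroup G}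
    (hn : ∀ k, ∀ h ∈ H, (κ k)⁻¹ * h * κ k ∈ H) (N : Subgroup K) {x : G} :
    x ∈ H ⊔ N.map κ ↔ ∃ k ∈ N, ∃ h ∈ H, x = κ k * h := by
  refine ⟨fun hx => ?_, by
    rintro ⟨k, hk, h, hh, rfl⟩
    exact mul_mem (Subgroup.mem_sup_right ⟨k, hk, rfl⟩) (Subgroup.mem_sup_left hh)⟩
  let X : Subgroup G :=
    { carrier := {x | ∃ k ∈ N, ∃ h ∈ H, x = κ k * h}
      mul_mem' := by
        rintro _ _ ⟨k, hk, h, hh, rfl⟩ ⟨k', hk', h', hh', rfl⟩
        exact ⟨k * k', mul_mem hk hk', _, mul_mem (hn k' h hh) hh', by rw [map_mul]; group⟩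
      one_mem' := ⟨1, one_mem _, 1, one_mem _, by simp⟩
      inv_mem' := by
        rintro _ ⟨k, hk, h, hh, rfl⟩
        exact ⟨k⁻¹, inv_mem hk, _, hn k⁻¹ _ (inv_mem hh), by rw [map_inv]; group⟩ }
  exact (sup_le (fun h hh => ⟨1, one_mem _, h, hh, by simp⟩)
    (by rintro _ ⟨k, hk, rfl⟩; exact ⟨k, hk, 1, one_mem _, by simp⟩) : H ⊔ N.map κ ≤ X) hx

section

variable {G0 G : Type} [Group G0] [Group G] {T : Tw G0 G}

theorem ex_lev (ok : T.Ok0) {U : Subgroup G} (hU : U ∈ T.Lev) {ι : Type} [Finite ι]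
    (P : ι → Subgroup G) (h : ∀ i, ∃ L ∈ T.Lev, L ≤ P i) :
    ∃ L ∈ T.Lev, L ≤ U ∧ ∀ i, L ≤ P i := by
  classical
  have := Fintype.ofFinite ι
  suffices ∀ s : Finset ι, ∃ L ∈ T.Lev, L ≤ U ∧ ∀ i ∈ s, L ≤ P i from
    (this Finset.univ).imp fun L hL => ⟨hL.1, hL.2.1, fun i => hL.2.2 i (Finset.mem_univ i)⟩
  intro s
  induction s using Finset.induction_on with
  | empty => exact ⟨U, hU, le_rfl, by simp⟩
  | insert k s hk ih =>
    obtain ⟨L, a1, a2, a3⟩ := ih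
    obtain ⟨L', b1, b2⟩ := h k
    refine ⟨L ⊓ L', ok.inf _ a1 _ b1, inf_le_left.trans a2, fun i hi => ?_⟩
    rcases Finset.mem_insert.1 hi with rfl | hi
    exacts [inf_le_right.trans b2, inf_le_left.trans (a3 i hi)]

theorem lc_lev {O K : Type} [CommRing O] [IsDomain O] [IsDiscreteValuationRing O] [Field K]
    [Algebra O K] (w : T.Lc O K) {U X : Subgroup G} (hU : U ∈ T.Lev) (hz : T.Z ≤ X)
    (h : ∃ m, ∀ y ∈ Km O K m, w.ι y ∈ X) : ∃ L ∈ T.Lev, L ≤ X.comap (w.ι.comp w.π) := by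
  obtain ⟨m, hm⟩ := h
  refine ⟨_, w.lev U hU m, sup_le (sup_le (fun u hu => ?_) fun z h => hz (w.cen _ (w.cen' z h))) ?_⟩
  · show w.ι (w.π u) ∈ X
    rw [show w.π u = 1 from hu.2, map_one]
    exact one_mem _
  · rintro _ ⟨y, hy, rfl⟩
    show w.ι (w.π (w.ι y)) ∈ X
    rw [w.πι]
    exact hm y hy

variable {O M K H' : Type} [CommRing O] [AddCommGroup M] [Module O M] [Group K] [Group H']
  [TopologicalSpace H'] {p : ℕ} {a : Representation O G M} {g : Representation O H' M}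

theorem fv_nor {H : Subgroup G} {x : G} (hn : ∀ h ∈ H, x⁻¹ * h * x ∈ H) {v : M}
    (hv : v ∈ Fv a H) : a x v ∈ Fv a H := fun u hu => by
  conv_rhs => rw [← hv _ (hn u hu)]
  rw [← Module.End.mul_apply, ← Module.End.mul_apply, ← map_mul, ← map_mul]
  congr 2
  group

/-- the stabiliser of a vector -/
def stb (a : Representation O G M) (v : M) : Subgroup G where
  carrier := {x | a x v = v}
  mul_mem' {x y} hx hy := by
    show a (x * y) v = v
    rw [map_mul, Module.End.mul_apply, hy, hx]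
  one_mem' := by show a 1 v = v; simp
  inv_mem' {x} hx := by
    show a x⁻¹ v = v
    conv_lhs => rw [← show a x v = v from hx]
    rw [← Module.End.mul_apply, ← map_mul, inv_mul_cancel, map_one, Module.End.one_apply]

theorem fv_sup {H H' : Subgroup G} {v : M} : v ∈ Fv a (H ⊔ H') ↔ v ∈ Fv a H ∧ v ∈ Fv a H' :=
  ⟨fun h => ⟨fun u hu => h u (Subgroup.mem_sup_left hu), fun u hu => h u (Subgroup.mem_sup_right hu)⟩,
    fun h => (sup_le h.1 h.2 : H ⊔ H' ≤ stb a v)⟩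

/-- **divisibility and traces from the interface** -/
theorem dt_cc (cc : T.CC p a g) (κ : K →* G) {H : Subgroup G}
    (hn : ∀ k, ∀ h ∈ H, (κ k)⁻¹ * h * κ k ∈ H) (N : Subgroup K) [hN : N.Normal]
    (idx : ∃ m, N.index = p ^ m) (p0 : p ≠ 0) (hk : ∀ k, κ k ∈ H → k ∈ N)
    (h1 : H ⊔ (⊤ : Subgroup K).map κ ∈ T.Nl) (h2 : H ⊔ N.map κ ∈ T.Nl) :
    DT p (rst a (Fv a H) κ fun k _ => fv_nor (hn k)) N ∧
      {v | v ∈ Fx (rst a (Fv a H) κ fun k _ => fv_nor (hn k)) N ∧ p • v = 0}.Finite := by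
  have fx : ∀ (L : Subgroup K) (v : Fv a H),
      (∀ k ∈ L, rst a (Fv a H) κ (fun k _ => fv_nor (hn k)) k v = v) ↔
      v.1 ∈ Fv a (H ⊔ L.map κ) := fun L v => by
    rw [fv_sup, and_iff_right v.2]
    exact ⟨by rintro h _ ⟨k, hk, rfl⟩; exact congrArg Subtype.val (h k hk),
      fun h k hk => Subtype.ext (h _ ⟨k, hk, rfl⟩)⟩
  have le : H ⊔ N.map κ ≤ H ⊔ (⊤ : Subgroup K).map κ := sup_le_sup_left (Subgroup.map_mono le_top) _
  have cm : ∀ k, κ k ∈ H ⊔ N.map κ → k ∈ N := fun k h => by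
    obtain ⟨k', a1, h, a2, e⟩ := (mem_sup_nor κ hn N).1 h
    have := mul_mem a1 (hk (k'⁻¹ * k) (by rwa [map_mul, map_inv, e, inv_mul_cancel_left]))
    rwa [mul_inv_cancel_left] at this
  have nor : ∀ u ∈ H ⊔ (⊤ : Subgroup K).map κ, ∀ y ∈ H ⊔ N.map κ, u⁻¹ * y * u ∈ H ⊔ N.map κ := by
    intro u hu y hy
    obtain ⟨k, -, h, a2, rfl⟩ := (mem_sup_nor κ hn ⊤).1 hu
    obtain ⟨n, b1, h', b2, rfl⟩ := (mem_sup_nor κ hn N).1 hy
    have := mul_mem (mul_mem (mul_mem (Subgroup.mem_sup_left (inv_mem a2))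
      (Subgroup.mem_sup_right (S := H) (T := N.map κ) ⟨_, hN.conj_mem' n b1 k, rfl⟩))
      (Subgroup.mem_sup_left (hn k h' b2))) (Subgroup.mem_sup_left a2)
    convert this using 1
    simp only [map_mul, map_inv]
    group
  obtain ⟨m, hm⟩ := idx
  have : Finite (K ⧸ N) := Subgroup.index_ne_zero_iff_finite.1 (hm ▸ pow_ne_zero m p0)
  let _ := Fintype.ofFinite (K ⧸ N)
  have rep : Rep (H ⊔ (⊤ : Subgroup K).map κ : Subgroup G) (H ⊔ N.map κ) Finset.univ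
      fun c : K ⧸ N => κ c.out := by
    refine ⟨fun y hy u hu => mul_mem hy (le hu), fun i _ => Subgroup.mem_sup_right ⟨_, trivial, rfl⟩,
      fun i _ k _ e => ?_, fun y hy => ?_⟩
    · rw [← map_inv, ← map_mul] at e
      exact (QuotientGroup.out_eq' i).symm.trans
        ((QuotientGroup.eq.2 (cm _ e)).trans (QuotientGroup.out_eq' k))
    · obtain ⟨k, -, h, a2, rfl⟩ := (mem_sup_nor κ hn ⊤).1 hy
      refine ⟨(k : K ⧸ N), Finset.mem_univ _, (mem_sup_nor κ hn N).2 ⟨_,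
        QuotientGroup.eq.1 (QuotientGroup.out_eq' (k : K ⧸ N)), h, a2, ?_⟩⟩
      rw [map_mul, map_inv, mul_assoc]
  have ri : (H ⊔ N.map κ).relIndex (H ⊔ (⊤ : Subgroup K).map κ) = p ^ m := by
    rw [← hm]
    refine (Nat.card_congr (Equiv.ofBijective (fun c : K ⧸ N => (((⟨κ c.out,
      rep.mem c (Finset.mem_univ c)⟩ : (H ⊔ (⊤ : Subgroup K).map κ : Subgroup G))) :
      _ ⧸ (H ⊔ N.map κ).subgroupOf (H ⊔ (⊤ : Subgroup K).map κ))) ⟨fun i k e => ?_, fun c => ?_⟩)).symm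
    · have := QuotientGroup.eq.1 e
      exact rep.inj i (Finset.mem_univ _) k (Finset.mem_univ _) this
    · obtain ⟨i, -, e⟩ := rep.sur c.out.1 c.out.2
      exact ⟨i, Eq.trans (QuotientGroup.eq.2 (by exact e)) (QuotientGroup.out_eq' c)⟩
  refine ⟨⟨fun v hv => ?_, fun k v hv h0 => ?_⟩, Set.Finite.of_finite_image (f := Subtype.val)
    ((cc.adm _ h2.1).subset ?_) Subtype.val_injective.injOn⟩
  · obtain ⟨v', a1, a2⟩ := cc.div _ h1 v ((fx ⊤ v).1 fun k _ => hv k)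
    exact ⟨⟨v', (fv_sup.1 a1).1⟩, fun k => (fx ⊤ _).2 a1 k trivial, Subtype.ext a2⟩
  · obtain ⟨v', a1, a2, a3⟩ := cc.tro _ h1 _ h2 le (fun u hu => Subgroup.ext fun y =>
      mem_cj.trans ⟨fun h => by
        have := nor _ (inv_mem hu) _ h
        rwa [show u⁻¹⁻¹ * (u⁻¹ * y * u) * u⁻¹ = y by group] at this, nor u hu y⟩) ⟨m, ri⟩ k v
      ((fx ⊤ v).1 fun k _ => hv k) (congrArg Subtype.val h0)
    refine ⟨⟨v', (fv_sup.1 a1).1⟩, (fx N _).2 a1, Subtype.ext a2, Subtype.ext ?_⟩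
    rw [← a3, Sh.hv, rep.hk fun x u hu => by rw [map_mul, Module.End.mul_apply, a1 u hu], trN,
      finsum_eq_sum_of_fintype, Submodule.coe_sum]
    exact Finset.sum_congr rfl fun c _ => by rw [one_mul]; rfl
  · rintro _ ⟨v, hv, rfl⟩
    exact ⟨(fx N v).1 hv.1, congrArg Subtype.val hv.2⟩

end

/-! ### matrices -/

section

variable {O K : Type} [CommRing O] [IsDomain O] [IsDiscreteValuationRing O] [Field K] [Algebra O K]

theorem Iw1_le_n (m : ℕ) : Iw1 O K ≤ Iwn O K m := Up_mono fun _ h => ⟨h.1, 1, by simp [h.2]⟩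

theorem Iwn_le (m : ℕ) : Iwn O K m ≤ Iw0 O K := Up_mono fun _ h => h.1

theorem map_mk_eq_one {R : Type} [CommRing R] (I : Ideal R) (k : GL (Fin 2) R) :
    Matrix.GeneralLinearGroup.map (n := Fin 2) (Ideal.Quotient.mk I) k = 1 ↔
      ∀ i j, (k.val - 1) i j ∈ I := by
  simp only [← Ideal.Quotient.eq_zero_iff_mem, Units.ext_iff, ← Matrix.ext_iff]
  refine forall₂_congr fun i j => ?_
  rw [Matrix.sub_apply, map_sub, sub_eq_zero]
  by_cases h : i = j <;> simp [Matrix.one_apply, h]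

theorem Km_le_Iw1 : Km O K 1 ≤ Iw1 O K := by
  rintro _ ⟨k, hk, rfl⟩
  have e := (map_mk_eq_one _ k).1 hk
  rw [pow_one] at e
  refine mem_Iw1.2 ⟨k, ⟨by simpa using e 1 0, ?_⟩, rfl⟩
  simpa using sub_mem (e 0 0) (e 1 1)

theorem Bn_nor {k : Type} [Field k] {m : ℕ} {g y : GL (Fin 2) k} (hg : g ∈ Bo k)
    (hy : y ∈ Bn k m) : g⁻¹ * y * g ∈ Bn k m := by
  obtain ⟨h1, x, h2⟩ := hy
  have h3 : g 1 0 = 0 := hg
  have h4 : (g⁻¹ : GL (Fin 2) k) 1 0 = 0 := inv_mem hg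
  have e := congrArg Units.val (inv_mul_cancel g)
  have e0 := congrFun (congrFun e 0) 0
  have e1 := congrFun (congrFun e 1) 1
  simp only [Units.val_mul, Matrix.mul_apply, Fin.sum_univ_two, h3, h4, mul_zero, zero_mul, add_zero,
    zero_add, Units.val_one, Matrix.one_apply_eq] at e0 e1
  refine ⟨?_, x, ?_⟩ <;> simp only [Units.val_mul, Matrix.mul_apply, Fin.sum_univ_two, h1, h3, h4,
    h2, mul_zero, zero_mul, add_zero, zero_add]
  linear_combination (x : k) ^ m * y 1 1 * (e0 - e1)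

theorem Iwn_nor {m : ℕ} {g y : GL (Fin 2) K} (hg : g ∈ Iw0 O K) (hy : y ∈ Iwn O K m) :
    g⁻¹ * y * g ∈ Iwn O K m := by
  obtain ⟨g, h1, rfl⟩ := hg
  obtain ⟨y, h2, rfl⟩ := hy
  refine ⟨g⁻¹ * y * g, Subgroup.mem_comap.2 ?_, by rw [map_mul, map_mul, map_inv]⟩
  rw [map_mul, map_mul, map_inv]
  exact Bn_nor (Subgroup.mem_comap.1 h1) (Subgroup.mem_comap.1 h2)

/-- `diag (c, 1)` over `O` -/
def dI : Oˣ →* GL (Fin 2) O where
  toFun c := ⟨!![c, 0; 0, 1], !![(c⁻¹ : Oˣ), 0; 0, 1], by simp [Matrix.one_fin_two],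
    by simp [Matrix.one_fin_two]⟩
  map_one' := Units.ext (by simp [Matrix.one_fin_two])
  map_mul' a b := Units.ext (by simp)

theorem dO_eq (c : Oˣ) : dO K c = gK K (dI c) := by
  ext i j
  fin_cases i <;> fin_cases j <;> simp [dO, dI, dg_val]

theorem dO_zpow (c : Oˣ) (z : ℤ) : dO K c ^ z = dO K (c ^ z) := by
  rw [dO_eq, dO_eq, map_zpow, map_zpow]

theorem dO_inv (c : Oˣ) : dO K c⁻¹ = (dO K c)⁻¹ := by rw [dO_eq, dO_eq, map_inv, map_inv]

theorem dO_Iw0 (c : Oˣ) : dO K c ∈ Iw0 O K := mem_Iw0.2 ⟨dI c, by simp [dI], (dO_eq c).symm⟩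

theorem dO_Iwn (c : Oˣ) {m : ℕ} {z : ℤ} (h : (m : ℤ) ∣ z) : dO K c ^ z ∈ Iwn O K m := by
  obtain ⟨e, rfl⟩ := h
  rw [zpow_mul, zpow_natCast]
  refine zpow_mem ?_ e
  rw [dO_eq, ← map_pow, ← map_pow]
  exact ⟨_, ⟨by simp [dI], Units.map (residue O).toMonoidHom c, by simp [dI]⟩, rfl⟩

theorem Iw0_le {c : Oˣ} (hc : ∀ x : ResidueField O, x ≠ 0 → ∃ e : ℕ, residue O c ^ e = x)
    {X : Subgroup (GL (Fin 2) K)} (h1 : Iw1 O K ≤ X) (h2 : dO K c ∈ X) : Iw0 O K ≤ X := by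
  intro g hg
  obtain ⟨k, a1, rfl⟩ := mem_Iw0.1 hg
  obtain ⟨d0, d1⟩ := diag_unit k a1
  obtain ⟨e, he⟩ := hc _ (div_ne_zero d0 d1)
  have := mul_mem (pow_mem h2 e) (h1 (inv_mul_mem (K := K) (k := dI (c ^ e)) (by simp [dI]) a1
    (by simp [dI, he, d1])))
  rwa [dO_eq, ← map_pow, ← map_pow, mul_inv_cancel_left] at this

theorem dvd_of_mem (hi : Function.Injective (algebraMap O K)) [Finite (ResidueField O)] {c : Oˣ}
    (hc : ∀ x : ResidueField O, x ≠ 0 → ∃ e : ℕ, residue O c ^ e = x) {m : ℕ} (hm : m ∣ qq O - 1)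
    {z : ℤ} (h : dO K c ^ z ∈ Iwn O K m ⊔ Zl K) : (m : ℤ) ∣ z := by
  obtain ⟨_, ⟨y, ⟨h0, x, hx⟩, rfl⟩, ζ, hζ, e⟩ := Subgroup.mem_sup_of_normal_right.1 h
  obtain ⟨b, hb⟩ := Matrix.GeneralLinearGroup.mem_center_iff_val_mem_range_scalar.1 hζ
  have h2 := congrArg Units.val e
  rw [dO_zpow, Units.val_mul, ← hb] at h2
  have e0 := congrFun (congrFun h2 0) 0
  have e1 := congrFun (congrFun h2 1) 1
  simp only [Matrix.scalar_apply, Matrix.mul_diagonal, dO, dg_val, Matrix.of_apply,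
    Matrix.cons_val', Matrix.cons_val_zero, Matrix.cons_val_one, Matrix.cons_val_fin_one] at e0 e1
  have e2 : y 0 0 = (c ^ z : Oˣ) * y 1 1 := hi (by
    rw [map_mul]
    exact show gK K y 0 0 = ((Units.map (algebraMap O K).toMonoidHom (c ^ z) : Kˣ) : K) * gK K y 1 1
      by rw [← e0]; linear_combination (-gK K y 0 0) * e1)
  let u : (ResidueField O)ˣ := Units.map (residue O).toMonoidHom c
  have hu : ∀ x : (ResidueField O)ˣ, x ∈ Subgroup.zpowers u := fun x => by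
    obtain ⟨e, he⟩ := hc x x.ne_zero
    exact ⟨e, Units.ext (by simpa [u] using he)⟩
  have e3 : u ^ z = x ^ m := by
    have d1 : residue O (y 1 1) ≠ 0 := (diag_unit y ((residue_eq_zero_iff _).1 h0)).2
    have : residue O (y 0 0) = x ^ m * residue O (y 1 1) := hx
    rw [e2, map_mul] at this
    exact Units.ext (by rw [← map_zpow]; exact mul_right_cancel₀ d1 this)
  obtain ⟨e, rfl⟩ := hu x
  have o : orderOf u = qq O - 1 := by
    rw [orderOf_eq_card_of_forall_mem_zpowers hu, Nat.card_units]; rfl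
  have e4 : u ^ (z - e * m) = 1 := by
    rw [zpow_sub, e3, zpow_mul, zpow_natCast, mul_inv_cancel]
  have := (Int.natCast_dvd_natCast.2 (o ▸ hm)).trans (orderOf_dvd_iff_zpow_eq_one.2 e4)
  simpa using dvd_add this (dvd_mul_left (m : ℤ) e)

end

theorem qq_zp (l : ℕ) [Fact l.Prime] : qq ℤ_[l] = l :=
  (Nat.card_congr PadicInt.residueField.toEquiv).trans (Nat.card_zmod l)

theorem Km_eq (p : ℕ) [Fact p.Prime] (m : ℕ) : Km ℤ_[p] ℚ_[p] m = Kn p m := by
  have key : ∀ k : GL (Fin 2) ℤ_[p], Matrix.GeneralLinearGroup.map (n := Fin 2) (Ideal.Quotient.mk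
      (maximalIdeal ℤ_[p] ^ m)) k = 1 ↔ WB.En (WB.rad p m) ((gK ℚ_[p] k).val - 1) := fun k => by
    have e : ∀ i j, ((gK ℚ_[p] k).val - 1) i j = ((k.val - 1) i j : ℤ_[p]) := fun i j => by
      by_cases h : i = j <;> simp [h]
    have e' : WB.rad p m = (p : ℝ) ^ (-m : ℤ) := by rw [WB.rad, inv_pow, zpow_neg, zpow_natCast]
    simp only [map_mk_eq_one, WB.En, e', e, ← PadicInt.norm_def,
      PadicInt.norm_le_pow_iff_mem_span_pow, ← Ideal.span_singleton_pow,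
      ← PadicInt.maximalIdeal_eq_span_p]
  ext g
  refine ⟨?_, fun h => ?_⟩
  · rintro ⟨k, hk, rfl⟩
    exact ⟨(key k).1 hk, fun i j => by rw [← map_inv]; exact PadicInt.norm_le_one _⟩
  · have inj : Function.Injective ((algebraMap ℤ_[p] ℚ_[p]).mapMatrix (m := Fin 2)) :=
      Matrix.map_injective Subtype.val_injective
    let k : GL (Fin 2) ℤ_[p] := ⟨Matrix.of fun i j => ⟨g i j, WB.Kn_en h i j⟩,
      Matrix.of fun i j => ⟨(g⁻¹ : GL (Fin 2) ℚ_[p]) i j, h.2 i j⟩,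
      inj (by rw [map_mul, map_one]; exact g.mul_inv), inj (by rw [map_mul, map_one]; exact g.inv_mul)⟩
    exact ⟨k, (key k).2 h.1, Units.ext rfl⟩

end Vale.Agent.P022K.RT.Tl
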