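import Vale.Agent.P022K.RT.TwlC
import Vale.Agent.P022K.Top.Eg

/-!
# P022K, block RT, row TWL, part E: levels on a site
-/

set_option linter.all false

noncomputable section

namespace Vale.Agent.P022K.RT.Tl

open IsLocalRing Module Vale.Agent.P022 Vale.Agent.P022.C CH Sh Top Top.Si
open Vale.Agent.P022K.WB (Kn)

section

variable {G ι : Type} [Group G] [Fintype ι] {N : ι → Type} [∀ i, Group (N i)]
  {φ : ∀ i, N i →* G} {hc : Pairwise fun i j => ∀ x y, Commute (φ i x) (φ j y)}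

theorem pi_mem {X : Subgroup G} {y : ∀ i, N i} (h : ∀ i, φ i (y i) ∈ X) :
    MonoidHom.noncommPiCoprod φ hc y ∈ X := by
  rw [MonoidHom.noncommPiCoprod_apply]
  exact X.noncommProd_mem _ fun i _ => h i

theorem pi_ev [DecidableEq ι] {k : ι} (f : G →* N k) (h1 : ∀ y, f (φ k y) = y)
    (h2 : ∀ i, k ≠ i → ∀ y, f (φ i y) = 1) (y : ∀ i, N i) :
    f (MonoidHom.noncommPiCoprod φ hc y) = y k := by
  have : f.comp (MonoidHom.noncommPiCoprod φ hc) = Pi.evalMonoidHom N k :=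
    MonoidHom.pi_ext fun i x => by
      rw [MonoidHom.comp_apply, MonoidHom.noncommPiCoprod_mulSingle, Pi.evalMonoidHom_apply]
      by_cases e : k = i
      · subst e
        rw [h1, Pi.mulSingle_eq_same]
      · rw [h2 i e, Pi.mulSingle_eq_of_ne e]
  exact DFunLike.congr_fun this y

end

section

variable {G0 G : Type} [Group G0] [Group G] {T : Tw G0 G} {O M K H' ι : Type} [CommRing O]
  [AddCommGroup M] [Module O M] [Group K] [Group H'] [TopologicalSpace H'] {p : ℕ}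
  {a : Representation O G M} {g : Representation O H' M}
  {R Y : Type} [CommRing R] [AddCommGroup Y] [Module O Y] [Module R Y]

theorem dt_emb (cc : T.CC p a g) (κ : K →* G) {H : Subgroup G}
    (hn : ∀ k, ∀ h ∈ H, (κ k)⁻¹ * h * κ k ∈ H) (N : Subgroup K) [hN : N.Normal]
    (idx : ∃ m, N.index = p ^ m) (p0 : p ≠ 0) (hk : ∀ k, κ k ∈ H → k ∈ N)
    (h1 : H ⊔ (⊤ : Subgroup K).map κ ∈ T.Nl) (h2 : H ⊔ N.map κ ∈ T.Nl) (θ : ι → End O M)
    (t1 : ∀ i, ∀ v ∈ Fv a H, θ i v ∈ Fv a H)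
    (t2 : ∀ i k, ∀ v ∈ Fv a H, θ i (θ k v) = θ k (θ i v))
    (t3 : ∀ i k, ∀ v ∈ Fv a H, θ i (a (κ k) v) = a (κ k) (θ i v)) {X : Submodule O M}
    (hX : ∀ v, v ∈ X ↔ v ∈ Fv a H ∧ ∀ i, v ∈ Nl (θ i)) {ρ : K →* End R Y} {φ : Y →ₗ[O] M}
    (e : Emb a X κ ρ φ) : DT p ρ N := by
  obtain ⟨d1, d2⟩ := dt_cc cc κ hn N idx p0 hk h1 h2
  obtain ⟨m, hm⟩ := idx
  have : Finite (K ⧸ N) := Subgroup.index_ne_zero_iff_finite.1 (hm ▸ pow_ne_zero m p0)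
  have k1 : ∀ i (v : Fv a H), v ∈ Nl ((θ i).restrict (t1 i)) ↔ v.1 ∈ Nl (θ i) := fun i v =>
    Nl.coe (φ := (Fv a H).subtype) (Fv a H).injective_subtype fun _ => rfl
  refine d1.ge d2 (fun v => (cc.tor v.1).imp fun k h => Subtype.ext h)
    (fun i => (θ i).restrict (t1 i)) (fun i k => LinearMap.ext fun v => Subtype.ext (t2 i k v v.2))
    (fun i k => LinearMap.ext fun v => Subtype.ext (t3 i k v v.2))
    (φ.codRestrict _ fun y => ((hX _).1 ((e.rng _).1 ⟨y, rfl⟩)).1).toAddMonoidHom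
    (fun y y' h => e.inj (congrArg Subtype.val h)) (fun v => ⟨?_, fun h => ?_⟩)
    fun k y => Subtype.ext (e.eqv k y)
  · rintro ⟨y, rfl⟩ i
    exact (k1 i _).2 (((hX _).1 ((e.rng _).1 ⟨y, rfl⟩)).2 i)
  · exact ((e.rng v).2 ((hX _).2 ⟨v.2, fun i => (k1 i v).1 (h i)⟩)).imp fun y hy => Subtype.ext hy

variable [IsDomain O] [IsDiscreteValuationRing O] [Algebra O R] [IsScalarTower O R Y]

theorem fre_emb [Fact p.Prime] {κ : K →* G} {X : Submodule O M} {ρ : K →* End R Y}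
    {φ : Y →ₗ[O] M} (e : Emb a X κ ρ φ) {N : ℕ → Subgroup K} {j b : ℕ} [(N j).Normal]
    (d : DT p ρ (N j)) (idx : ∃ m, (N j).index = p ^ m) (hp : (p : O) ∈ maximalIdeal O)
    {f : Fin b → M} (hb : Bs O {v | v ∈ X ∧ ∀ k, a (κ k) v = v} f) : Fre O N ρ b j := by
  obtain ⟨f', hf⟩ := hb.comap (S := (Fx ρ ⊤).restrictScalars O) φ ⟨fun y hy =>
    ⟨(e.rng _).1 ⟨y, rfl⟩, fun k => by rw [← e.eqv, hy k trivial]⟩, e.inj.injOn, fun v hv => by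
      obtain ⟨y, rfl⟩ := (e.rng v).2 hv.1
      exact ⟨y, fun k _ => e.inj (by rw [e.eqv, hv.2]), rfl⟩⟩
  refine d.fre idx hp (f := f') ?_
  convert hf using 1
  exact Set.ext fun v => ⟨fun h k _ => h k, fun h k => h k trivial⟩

theorem tor_max (cc : T.CC p a g) (p0 : (p : O) ≠ 0) (v : M) :
    ∃ j, ∀ o ∈ maximalIdeal O ^ j, o • v = 0 := by
  obtain ⟨k, hk⟩ := cc.tor v
  obtain ⟨ϖ, hϖ⟩ := IsDiscreteValuationRing.exists_irreducible O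
  obtain ⟨j, u, hu⟩ := IsDiscreteValuationRing.associated_pow_irreducible (pow_ne_zero k p0) hϖ
  refine ⟨j, (kil_iff hϖ j).2 ?_⟩
  rw [← hu, mul_comm, mul_smul, ← Nat.cast_pow, Nat.cast_smul_eq_nsmul, hk, smul_zero]

end

variable {p : ℕ} [Fact p.Prime] {O : Type} [CommRing O] [Algebra ℤ_[p] O] {Z : Si p O}

section

variable (h : Z.Ok)

theorem xp_x (k : Z.J) (y : Z.J → GL (Fin 2) ℚ_[p]) : (Z.x k).π (xp h y) = y k :=
  pi_ev (N := fun _ : Z.J => GL (Fin 2) ℚ_[p]) (φ := fun k => (Z.x k).ι) (k := k) (Z.x k).π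
    (Z.x k).πι (fun i e => (h.xx k i e).1) y

theorem xp_mem {X : Subgroup Z.G} {y : Z.J → GL (Fin 2) ℚ_[p]} (e : ∀ k, (Z.x k).ι (y k) ∈ X) :
    xp h y ∈ X := pi_mem e

theorem xp_w (i : Z.I) (y : Z.J → GL (Fin 2) ℚ_[p]) : (Z.w i).π (xp h y) = 1 :=
  pi_mem (X := (Z.w i).π.ker) fun k => (h.xw k i).2 _

theorem xp_single (k : Z.J) (y : GL (Fin 2) ℚ_[p]) : xp h (Pi.mulSingle k y) = (Z.x k).ι y :=
  MonoidHom.noncommPiCoprod_mulSingle (N := fun _ => GL (Fin 2) ℚ_[p]) _ k y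

theorem xp_com {u : Z.G} (hu : ∀ k, (Z.x k).π u = 1) (y : Z.J → GL (Fin 2) ℚ_[p]) :
    Commute u (xp h y) :=
  MonoidHom.commute_noncommPiCoprod _ (fun k x => ((Z.x k).com x u (hu k)).symm) y

theorem xk_U (q : ℕ) (y : Z.J → Kn p (q + 2)) : xk h q y ∈ Z.U :=
  xp_mem h fun k => (h.atx k).1 _ (by
    obtain ⟨x, -, e⟩ : (y k).1 ∈ Km ℤ_[p] ℚ_[p] (q + 2) := (Km_eq p _).symm ▸ (y k).2
    exact ⟨x, e⟩)

theorem xk_open (q j : ℕ) (k : Z.J) {y : GL (Fin 2) ℚ_[p]} (hy : y ∈ Km ℤ_[p] ℚ_[p] (j + (q + 2))) :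
    ∃ x ∈ NG p q Z.J j, xk h q x = (Z.x k).ι y := by
  rw [Km_eq] at hy
  refine ⟨Pi.mulSingle k ⟨y, WB.Kn_anti (by omega) hy⟩, mem_NG.2 fun v => ⟨1, _, ?_, by
    rw [WB.dd_one, one_mul]⟩, ?_⟩
  · by_cases e : v = k
    · subst e
      rwa [Pi.mulSingle_eq_same]
    · rw [Pi.mulSingle_eq_of_ne e]
      exact one_mem _
  · rw [← xp_single h]
    refine congrArg (xp h) (funext fun v => ?_)
    exact Pi.apply_mulSingle (fun _ => (Kn p (q + 2)).subtype) (fun _ => rfl) k _ v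

theorem ng_of {q : ℕ} (j : ℕ) {x : Z.J → Kn p (q + 2)} (hx : ∀ k, (x k).1 ∈ Zl ℚ_[p]) :
    x ∈ NG p q Z.J j := mem_NG.2 fun k => by
  have := hx k
  rw [Zl, Matrix.GeneralLinearGroup.center_eq_range_scalar] at this
  obtain ⟨z, hz⟩ := this
  refine ⟨z, 1, one_mem _, ?_⟩
  rw [mul_one, ← hz]
  ext i j
  fin_cases i <;> fin_cases j <;> simp

include h

theorem peelS {Q : Set Z.I} (hQ : Q.Finite) {X : Subgroup Z.G} (h0 : Z.aw Q ≤ X) {u : Z.G}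
    (hu : u ∈ Z.U) (h1 : ∀ k, (Z.x k).ι ((Z.x k).π u) ∈ X)
    (h2 : ∀ i ∈ Q, (Z.w i).ι ((Z.w i).π u) ∈ X) : u ∈ X := by
  have := hQ.to_subtype
  refine peel (ι := Z.J ⊕ Q) (Sum.elim (fun k => (Z.x k).ι.comp (Z.x k).π)
    fun i => (Z.w i).ι.comp (Z.w i).π) ?_ ?_ (U := Z.U) ?_ (fun y hy e => h0 (mem_aw.2 ⟨hy,
      fun k => ?_, fun i hi => ?_⟩)) hu ?_
  · rintro (k | i) g
    exacts [congrArg (Z.x k).ι ((Z.x k).πι _), congrArg (Z.w i).ι ((Z.w i).πι _)]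
  · rintro (k | i) (k' | i') g e
    · exact (congrArg (Z.x k).ι ((h.xx k k' fun c => e (congrArg _ c)).1 _)).trans (map_one _)
    · exact (congrArg (Z.x k).ι ((h.xw k i').1 _)).trans (map_one _)
    · exact (congrArg (Z.w i).ι ((h.xw k' i).2 _)).trans (map_one _)
    · exact (congrArg (Z.w i).ι ((h.ww i i' fun c => e (congrArg _ (Subtype.ext c))).1 _)).trans
        (map_one _)
  · rintro (k | i) y hy
    exacts [((h.atx k).iff h.lev.1).2 ((h.atx k).2 y hy), ((h.atw i).iff h.lev.1).2 ((h.atw i).2 y hy)]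
  · exact ((Z.x k).πι _).symm.trans ((congrArg (Z.x k).π (e (.inl k))).trans (map_one _))
  · exact ((Z.w i).πι _).symm.trans ((congrArg (Z.w i).π (e (.inr ⟨i, hi⟩))).trans (map_one _))
  · rintro (k | i)
    exacts [h1 k, h2 i i.2]

theorem lev_of {Q : Set Z.I} (hQ : Q.Finite) {X : Subgroup Z.G} (le : X ≤ Z.U) (h0 : Z.aw Q ≤ X)
    (hz : Z.T.Z ≤ X) (h1 : ∀ k, ∃ m, ∀ y ∈ Km ℤ_[p] ℚ_[p] m, (Z.x k).ι y ∈ X)
    (h2 : ∀ i ∈ Q, ∃ m, ∀ y ∈ Km ℤ_[Z.l i] ℚ_[Z.l i] m, (Z.w i).ι y ∈ X) : X ∈ Z.T.Nl := by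
  have := hQ.to_subtype
  obtain ⟨L, a1, a2, a3⟩ := ex_lev h.ok h.lev.1 (ι := Z.J ⊕ Q) (Sum.elim
    (fun k => X.comap ((Z.x k).ι.comp (Z.x k).π)) fun i => X.comap ((Z.w i).ι.comp (Z.w i).π)) (by
      rintro (k | i)
      exacts [lc_lev _ h.lev.1 hz (h1 k), lc_lev _ h.lev.1 hz (h2 i i.2)])
  exact ⟨h.ok.mid L a1 _ h.lev.1 X (fun u hu => peelS h hQ h0 (a2 hu) (fun k => a3 (.inl k) hu)
    fun i hi => a3 (.inr ⟨i, hi⟩) hu) le, fun x γ hγ => h.lev.2 x γ (Subgroup.comap_mono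
      (Subgroup.comap_mono le) hγ)⟩

theorem fv_z (v : Z.M) : v ∈ Fv Z.a Z.T.Z := fun u hu => by rw [h.cc.z u hu]; rfl

theorem z_le : Z.T.Z ≤ Z.U := sInf_le h.lev.1

theorem xk_sm (q : ℕ) (v : Z.M) : ∃ j, ∀ x ∈ NG p q Z.J j, Z.a (xk h q x) v = v := by
  obtain ⟨U, hU, hv⟩ := h.cc.sm v
  choose m hm using fun k => (Z.x k).op U hU.1
  refine ⟨Finset.univ.sup m, fun x hx => hv _ (xp_mem h fun k => ?_)⟩
  obtain ⟨z, y, hy, e⟩ := mem_NG.1 hx k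
  show (Z.x k).ι (x k).1 ∈ U
  rw [e, map_mul]
  refine mul_mem ((sInf_le hU.1 : Z.T.Z ≤ U) ((Z.x k).cen _ (Subgroup.mem_center_iff.2 fun g =>
    (WB.dd_comm z g).symm))) (hm k ?_)
  rw [Km_eq]
  exact WB.Kn_anti ((Finset.le_sup (f := m) (Finset.mem_univ k)).trans (Nat.le_add_right _ _)) hy

end

variable [IsLocalRing O]

theorem Nt.mm {Q : Set Z.I} {θ : End O Z.M} (hθ : Nt Q θ) (h : Z.Ok) {t : Z.H → O} {v : Z.M}
    (h1 : v ∈ Fv Z.a (Z.aw Q)) (h2 : v ∈ Mm Z t) : θ v ∈ Mm Z t := by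
  refine (Submodule.mem_iInf _).2 fun s => ((Submodule.mem_iInf _).1 h2 s).imp fun n hn => ?_
  suffices ∀ n : ℕ, ∀ v ∈ Fv Z.a (Z.aw Q), ((Z.tg s - t s • 1) ^ n) (θ v) =
    θ (((Z.tg s - t s • 1) ^ n) v) by rw [this n v h1, hn, map_zero]
  intro n
  induction n with
  | zero => exact fun _ _ => rfl
  | succ n ih =>
    intro v hv
    rw [pow_succ, Module.End.mul_apply, Module.End.mul_apply,
      ← ih ((Z.tg s - t s • 1) v) (sub_mem (h.ok1.tg_mem hv s) (Submodule.smul_mem _ _ hv))]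
    simp only [LinearMap.sub_apply, LinearMap.smul_apply, Module.End.one_apply, map_sub, map_smul,
      hθ.tg s v hv]

theorem nt_a (h : Z.Ok) {Q : Set Z.I} {y : Z.G} (h1 : ∀ u ∈ Z.aw Q, y⁻¹ * u * y ∈ Z.aw Q)
    (h2 : ∀ i ∈ Q, (Z.w i).π y = 1) : Nt Q (Z.a y) :=
  ⟨fun _ => fv_nor h1, fun s v _ => h.ok1.a_tg y s v, fun i hi => cm_ker (h2 i hi)⟩

theorem nts (h : Z.Ok) {Q : Set Z.I} (hQ : Q.Finite) : Nts h Q := by
  have tm : ∀ y, Z.Tm y → Nt Q (Z.a y) := fun y hy =>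
    ⟨fun _ => hy.mem, fun s v _ => h.ok1.a_tg y s v, fun i _ => cm_ker (hy.w i)⟩
  refine ⟨fun s => ⟨fun v hv => h.ok1.g_mem hv s, fun s' v hv => (h.ok1.tg_g hQ hv s' s).symm,
    fun i _ x => (h.cc.com _ s).symm⟩, fun y => nt_a h (fun u hu => ?_) fun i _ => xp_w h i y, tm,
    fun η hη => ⟨fun _ => op_mem hη, fun s v _ => ?_, fun i hi x => LinearMap.ext fun v => ?_⟩⟩
  · rwa [mul_assoc, (xp_com h (mem_aw.1 hu).2.1 y).eq, inv_mul_cancel_left]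
  · simp only [op_apply, map_sum, map_smul, h.ok1.a_tg]
  · simp only [Module.End.mul_apply, op_apply, map_sum, map_smul]
    exact Finset.sum_congr rfl fun y hy => congrArg _
      (LinearMap.congr_fun (cm_ker ((hη y hy).w i) x).eq v)

theorem gq_of (h : Z.Ok) {Q : Set Z.I} (hQ : Q.Finite) {t : Z.H → O} {X : Submodule O Z.M}
    (h1 : X ≤ Fv Z.a (Z.aw Q)) (h2 : X ≤ Mm Z t) {Y : Type} [AddCommGroup Y] [Module O Y]
    {γ : Z.H →* End O Y} {φ : Y →ₗ[O] Z.M} (e : Emb Z.g X (MonoidHom.id _) γ φ) : Gq t γ := by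
  have k0 : ∀ s y, φ (γ s y) = Z.g s (φ y) := e.eqv
  have k1 : ∀ s y, φ (tt γ (cyH Z) s y) = Z.tg s (φ y) := fun s y => by
    rw [tt, LinearMap.add_apply, LinearMap.smul_apply, map_add, map_smul, k0, k0]
    rfl
  refine ⟨fun s s' => LinearMap.ext fun y => e.inj ?_, fun y => ?_, fun s y => ?_⟩
  · rw [Module.End.mul_apply, Module.End.mul_apply, k1, k0, k0, k1,
      h.tg_g hQ (h1 ((e.rng _).1 ⟨y, rfl⟩))]
  · obtain ⟨U, hU, hv⟩ := h.cc.sm (φ y)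
    obtain ⟨k, hk⟩ := h.cc.tor (φ y)
    refine ⟨(Fv Z.a U ⊓ LinearMap.ker (p ^ k • LinearMap.id)).comap φ, ⟨hv, hk⟩,
      Set.Finite.preimage (f := φ) e.inj.injOn (fin_pow _ (h.cc.adm U hU.1) k), fun s w hw => ⟨?_, ?_⟩⟩
    · show φ (γ s w) ∈ Fv Z.a U
      rw [k0]
      exact h.ok1.g_mem hw.1 s
    · show p ^ k • φ (γ s w) = 0
      rw [k0, ← map_nsmul, show p ^ k • φ w = 0 from hw.2, map_zero]
  · exact (Nl.coe (φ := φ) e.inj (θ := Z.tg s - t s • 1) fun y => by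
      simp only [LinearMap.sub_apply, LinearMap.smul_apply, Module.End.one_apply, map_sub, map_smul,
        k1]).2 ((Submodule.mem_iInf _).1 (h2 ((e.rng _).1 ⟨y, rfl⟩)) s)

end Vale.Agent.P022K.RT.Tl
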