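import Vale.Agent.P022K.RT.Twl
import Vale.Agent.P022K.RT.St3
import Vale.Agent.P022K.Top.Twi
import Mathlib.RingTheory.Henselian

/-!
# P022K, block RT, row TWL, part T: the group `Gr`, quadratic twists
-/

set_option linter.all false

noncomputable section

namespace Vale.Agent.P022K.RT.Tl

open IsLocalRing Module Vale.Agent.P022 Vale.Agent.P022.C CH Sh Top Top.Si Polynomial

theorem Nl.tw {O V : Type} [CommRing O] [IsLocalRing O] [AddCommGroup V] [Module O V]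
    (h2 : (2 : O) ∈ maximalIdeal O) (tor : ∀ v : V, ∃ j, ∀ o ∈ maximalIdeal O ^ j, o • v = 0)
    {θ m : End O V} {ε : ℤˣ} (h : θ * m = ε • (m * θ)) {c : O} {v : V}
    (hv : v ∈ Nl (θ - c • 1)) : m v ∈ Nl (θ - c • 1) := by
  rcases Int.units_eq_one_or ε with rfl | rfl
  · exact Nl.map (com_sub' (h.trans (one_smul _ _)) c) hv
  · obtain ⟨j, hj⟩ := tor v
    obtain ⟨k, hk⟩ := Nl.congr (b := -c) ⟨j, hj _ (Ideal.pow_mem_pow (by
      rw [sub_neg_eq_add, ← two_mul]; exact Ideal.mul_mem_right _ _ h2) j)⟩ hv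
    have e : SemiconjBy m (-(θ - -c • 1)) (θ - c • 1) := by
      rw [SemiconjBy, sub_mul, h]
      simp only [Units.neg_smul, one_smul, neg_smul, sub_neg_eq_add, mul_neg, mul_add,
        mul_smul_comm, smul_mul_assoc, mul_one, one_mul]
      abel
    refine ⟨k, ?_⟩
    rw [← Module.End.mul_apply, ← (e.pow_right k).eq, neg_pow, Module.End.mul_apply,
      Module.End.mul_apply, hk, map_zero, map_zero]

theorem sq_det {O K : Type} [CommRing O] [IsDomain O] [IsDiscreteValuationRing O] [Field K]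
    [Algebra O K] [IsAdicComplete (maximalIdeal O) O] (h2 : IsUnit (2 : O)) {m : ℕ} (hm : 2 ∣ m)
    {y : GL (Fin 2) K} (hy : y ∈ Iwn O K m) : IsSquare (Matrix.GeneralLinearGroup.det y) := by
  obtain ⟨y, ⟨h0, x, hx⟩, rfl⟩ := hy
  obtain ⟨e, rfl⟩ := hm
  have h0' : residue O (y 1 0) = 0 := h0
  have hx' : residue O (y 0 0) = x ^ (2 * e) * residue O (y 1 1) := hx
  obtain ⟨a, ha⟩ := residue_surjective ((x : ResidueField O) ^ e * residue O (y 1 1))
  have ua : IsUnit a := by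
    by_contra hc
    exact mul_ne_zero (pow_ne_zero e x.ne_zero) (diag_unit y ((residue_eq_zero_iff _).1 h0')).2
      (ha ▸ (residue_eq_zero_iff _).2 ((mem_maximalIdeal _).2 hc))
  obtain ⟨b, hb, -⟩ := HenselianRing.is_henselian (I := maximalIdeal O)
    (X ^ 2 - C (y.det : O)) (monic_X_pow_sub_C _ two_ne_zero) a (by
      rw [← residue_eq_zero_iff]
      rw [eval_sub, eval_pow, eval_X, eval_C]
      simp only [Matrix.GeneralLinearGroup.val_det_apply,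
        Matrix.det_fin_two, map_sub, map_pow, map_mul, ha, h0', hx']
      ring) (by
      rw [derivative_sub, derivative_C, sub_zero, derivative_X_sq, eval_mul, eval_C, eval_X]
      exact (h2.mul ua).map (Ideal.Quotient.mk (maximalIdeal O)))
  have hb' : b * b = y.det := by
    have : b ^ 2 - y.det = 0 := by simpa only [IsRoot, eval_sub, eval_pow, eval_X, eval_C] using hb
    rw [← sq, sub_eq_zero.1 this]
  obtain ⟨u, rfl⟩ : IsUnit b := isUnit_of_mul_isUnit_left (hb' ▸ y.det.isUnit)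
  refine ⟨Units.map (algebraMap O K).toMonoidHom u, ?_⟩
  rw [← map_mul, show u * u = y.det from Units.ext hb', Matrix.GeneralLinearGroup.map_det]
  rfl

variable {p : ℕ} [Fact p.Prime] {O : Type} [CommRing O] [Algebra ℤ_[p] O] {Z : Si p O}

theorem gr_w (h : Z.Ok) (i : Z.I) {y : Z.G} (hy : y ∈ Gr Z) : (Z.w i).π y = 1 :=
  (Subgroup.closure_le (Z.w i).π.ker).2 (by
    rintro x (hx | ⟨_, ⟨k, rfl⟩, g, rfl⟩)
    exacts [hx.w i, (h.xw k i).2 g]) hy

theorem gr_fv {Q : Set Z.I} {y : Z.G} (hy : y ∈ Gr Z) :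
    ∀ v ∈ Fv Z.a (Z.aw Q), Z.a y v ∈ Fv Z.a (Z.aw Q) := by
  induction hy using Subgroup.closure_induction'' with
  | mem x hx =>
    rcases hx with hx | ⟨_, ⟨k, rfl⟩, g, rfl⟩
    exacts [fun _ => hx.mem, fun _ => ap_mem k g]
  | inv_mem x hx =>
    rcases hx with hx | ⟨_, ⟨k, rfl⟩, g, rfl⟩
    · refine fun _ => Tm.mem ⟨Subgroup.ext fun u => ?_, fun k => by rw [map_inv, hx.x, inv_one],
        fun i => by rw [map_inv, hx.w, inv_one]⟩
      rw [mem_cj, ← hx.nor, mem_cj, hx.nor, show x⁻¹ * (x⁻¹⁻¹ * u * x⁻¹) * x = u by group]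
    · rw [← map_inv]
      exact fun _ => ap_mem k _
  | one => exact fun v hv => by rwa [map_one]
  | mul x y _ _ hx hy => exact fun v hv => by rw [act_mul]; exact hx _ (hy v hv)

/-- the elements of `Gr` act by natural operators -/
theorem nt_gr [IsLocalRing O] (h : Z.Ok) (Q : Set Z.I) {y : Z.G} (hy : y ∈ Gr Z) : Nt Q (Z.a y) :=
  ⟨gr_fv hy, fun s v _ => h.ok1.a_tg y s v, fun i _ => cm_ker (gr_w h i hy)⟩

theorem twd_gr {η : Z.H →* ℤˣ} {i : Z.I} {ν : Z.G →* ℤˣ} {m : End O Z.M} (h : Z.Twd η i ν m)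
    {y : Z.G} (hy : y ∈ Gr Z) : Commute (Z.a y) m := by
  have : ν y = 1 := (Subgroup.closure_le ν.ker).2 (by
    rintro x (hx | ⟨_, ⟨k, rfl⟩, g, rfl⟩)
    exacts [h.tm x hx, h.x k g]) hy
  exact (h.a y).trans (by rw [this, one_smul])

namespace TW

variable [IsDomain O] [IsDiscreteValuationRing O] {t : Z.H → O} {r n : ℕ} (D : TW Z t r n)
  {η : Z.H →* ℤˣ} {s₀ : Fin r} {ν : Z.G →* ℤˣ} {m : End O Z.M}

theorem gr_d {y : Z.G} (hy : y ∈ Gr Z) (s : Fin r) (g : GL (Fin 2) ℚ_[Z.l (D.Q s)]) :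
    Commute y ((Z.w (D.Q s)).ι g) := ((Z.w _).com g y (gr_w D.ok _ hy)).symm

theorem gr_xq {y : Z.G} (hy : y ∈ Gr Z) (g : ∀ s, GL (Fin 2) ℚ_[Z.l (D.Q s)]) :
    Commute y (D.xq g) := MonoidHom.commute_noncommPiCoprod _ (fun s => D.gr_d hy s) g

theorem xq_Y (z : Zr r) {v : Z.M} (hv : v ∈ D.Y) : Z.a (D.xq (D.dz z)) v ∈ D.Y := by
  have := D.nm_Y (D.nm_kap 0 (1, z)) hv
  rwa [kap_apply, map_one, one_mul] at this

theorem nu_ne (h : Z.Twd η (D.Q s₀) ν m) {s : Fin r} (e : s ≠ s₀) {g : GL (Fin 2) ℚ_[Z.l (D.Q s)]}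
    (hg : g ∈ KK ℤ_[Z.l (D.Q s)] _) : ν ((Z.w (D.Q s)).ι g) = 1 :=
  h.aw _ (mem_aw.2 ⟨(D.ok.atw _).1 g hg, fun k => (D.ok.xw k _).1 g, by
    rintro _ rfl
    exact (D.ne e).2 g⟩)

theorem nu_d_ne (h : Z.Twd η (D.Q s₀) ν m) {s : Fin r} (e : s ≠ s₀) : ν (D.d s) = 1 :=
  D.nu_ne h e (Up_le _ (dO_Iw0 _))

theorem nu_d (p2 : p = 2) (h : Z.Twd η (D.Q s₀) ν m) : ν (D.d s₀) = -1 := h.nsq _ (by
  rintro ⟨x, hx⟩
  have _ := (Z.w (D.Q s₀)).fin
  have := dvd_of_mem (Z.w (D.Q s₀)).inj (D.gen s₀) (m := 2) (z := 1) (by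
    rw [qq_zp]; exact (p2.symm.dvd.trans (dvd_pow_self p D.pos.ne')).trans (D.dvd s₀)) (Subgroup.mem_sup_left (by
      rw [zpow_one, hx, ← zpow_two, ← dO_zpow]; exact dO_Iwn x dvd_rfl))
  omega)

/-- **the twist preserves the module** -/
theorem twd_Y (p2 : p = 2) (hp : (p : O) ∈ maximalIdeal O) (p0 : (p : O) ≠ 0)
    (h : Z.Twd η (D.Q s₀) ν m) {v : Z.M} (hv : v ∈ D.Y) : m v ∈ D.Y := by
  have h2 : (2 : O) ∈ maximalIdeal O := by simpa [p2] using hp
  have tor := tor_max D.ok.cc p0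
  have fx : ∀ x, ν x = 1 → Z.a x v = v → Z.a x (m v) = m v := fun x h1 h3 => by
    rw [← Module.End.mul_apply, h.a, h1, one_smul, Module.End.mul_apply, h3]
  obtain ⟨⟨a1, a2⟩, a3⟩ := D.mem_Y.1 hv
  refine D.mem_Y.2 ⟨⟨fun u hu => fx u (h.aw u (aw_anti (Set.singleton_subset_iff.2 (Set.mem_range_self s₀)) hu))
    (a1 u hu), (Submodule.mem_iInf _).2 fun s => Nl.tw h2 tor (h.tg s)
      ((Submodule.mem_iInf _).1 a2 s)⟩, fun s => ⟨mem_Fl.2 fun g hg => fx _ ?_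
        (mem_Fl.1 (a3 s).1 g hg), Nl.tw h2 tor (ε := ν ((Z.w (D.Q s)).ι (dg (Z.w (D.Q s)).ϖ))) ?_
          (a3 s).2⟩⟩
  · by_cases e : s = s₀
    · subst e
      have _ := (Z.w (D.Q s)).cpl
      refine h.sqr g (sq_det ?_ (p2.symm.dvd.trans (dvd_pow_self p D.pos.ne')) hg)
      rw [PadicInt.isUnit_iff]
      by_contra hc
      have := (PadicInt.norm_natCast_lt_one_iff (n := 2)).1
        (lt_of_le_of_ne (PadicInt.norm_le_one _) hc)
      exact D.ok.ok1.l_ne _ (((Nat.prime_dvd_prime_iff_eq (Z.l (D.Q s)).2 Nat.prime_two).1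
        this).trans p2.symm)
    · exact D.nu_ne h e (Up_le _ hg)
  · rw [Uw, Finset.sum_mul, Finset.mul_sum, Finset.smul_sum]
    refine Finset.sum_congr rfl fun i _ => (h.a _).trans ?_
    rw [Tw.Lc.tr, map_mul (Z.w (D.Q s)).ι, map_mul ν, show ν _ = 1 from ?_, one_mul]
    by_cases e : s = s₀
    · subst e
      refine h.sqr _ ?_
      rw [Matrix.GeneralLinearGroup.map_det, det_pO, map_one]
      exact IsSquare.one
    · exact D.nu_ne h e ⟨_, rfl⟩

end TW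

end Vale.Agent.P022K.RT.Tl
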