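import Vale.Agent.P022K.RT.Gda
import Vale.Agent.P022K.GW.Pl
import Vale.Agent.P022.H853.L3.Cyc

/-!
# P022K, block RT, row TWP: auxiliary primes on a site, bad places, counting of places
-/

set_option linter.all false

noncomputable section

namespace Vale.Agent.P022K.RT.Tp

open IsLocalRing NumberField IsDedekindDomain
open Vale.Agent.P022 Vale.Agent.P022.C
open Vale.Agent.P022E.GW (Ov Fb)
open Vale.Agent.P022D.W (dec)
open Vale.Agent.P022.H443 (inP)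
open Vale.Agent.P022.H853 (cyc cyc_spec zt_prim cyc_frob cyc_of_pow cyc_conj)
open Vale.Agent.P022K.PL (Cf)
open Vale.Agent.P022K.Top (Si cy Bad)
open Vale.Agent.P022K.GW (Id Stb pm orb Fo Cy up)
open Vale.Agent.P022K.GW.Pl
open scoped Pointwise

/-! ### primes -/

section

variable {L : Type} [Field L] [NumberField L] (j : L →+* Qb)

theorem same_below {P P' : Id} (h : P.IsPrime) (h' : P'.IsPrime) :
    below j P = below j P' ↔ ∃ g : GK j, (g : GQ) • P = P' :=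
  ⟨fun e => (H916.exists_smul j h h' e).imp fun _ => Eq.symm,
    fun ⟨g, e⟩ => by rw [← e, below_smul j g.2]⟩

theorem fri_of_fb {l : ℕ} {P : Id} {w : HeightOneSpectrum (𝓞 L)} (hP : Ov l P)
    (hw : below j P = w.asIdeal) {φ : GK j} (h : Fb l P φ) : FrI j w P φ := by
  classical
  have hl : (l : 𝓞 L) ∈ w.asIdeal := hw ▸ H20.l_mem_below j hP.2.2
  obtain ⟨f, -, hf⟩ := (Nat.dvd_prime_pow hP.1).1
    (show Ideal.absNorm w.asIdeal ∣ l ^ Module.finrank ℤ (𝓞 L) by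
      rw [← Ideal.absNorm_span_natCast]
      exact Ideal.absNorm_dvd_absNorm_of_le ((Ideal.span_singleton_le_iff_mem _).2 hl))
  have := w.isMaximal
  let _ : Field (𝓞 L ⧸ w.asIdeal) := Ideal.Quotient.field _
  have hc : Nat.card (𝓞 L ⧸ w.asIdeal) = l ^ f := hf
  have : Finite (𝓞 L ⧸ w.asIdeal) :=
    Nat.finite_of_card_ne_zero (hc ▸ pow_ne_zero f hP.1.ne_zero)
  let _ := Fintype.ofFinite (𝓞 L ⧸ w.asIdeal)
  have h1 := (FiniteField.forall_pow_eq_one_iff (𝓞 L ⧸ w.asIdeal) (l - 1)).1 fun x => by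
    obtain ⟨y, hy⟩ := Ideal.Quotient.mk_surjective (x : 𝓞 L ⧸ w.asIdeal)
    have a1 := h (RingOfIntegers.mapRingHom j y)
    rw [fix_int j φ.2, ← map_pow, ← map_sub, ← Ideal.mem_comap] at a1
    have a2 := Ideal.Quotient.eq.2 (show y - y ^ l ∈ w.asIdeal from hw ▸ a1)
    rw [map_pow, hy] at a2
    have a3 : x ^ (l - 1) * x = 1 * x := by
      rw [← pow_succ, Nat.sub_add_cancel hP.1.pos, one_mul]
      exact Units.ext a2.symm
    exact mul_right_cancel a3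
  rw [← Nat.card_eq_fintype_card, hc] at h1
  have h2 : 1 < l ^ f := hc ▸ Finite.one_lt_card
  have h3 := Nat.le_of_dvd (Nat.sub_pos_of_lt hP.1.one_lt) h1
  have h4 : l ≤ l ^ f := Nat.le_self_pow (by rintro rfl; simp at h2) l
  refine ⟨hP.2.1, hw, ?_⟩
  rw [hf, show l ^ f = l by omega]
  exact h

end

/-! ### the cyclotomic character -/

section

variable (p : ℕ) [hp : Fact p.Prime]

theorem cz_mod (n : ℕ) (g : GQ) :
    PadicInt.toZModPow n ((cyclotomicCharacter Qb p g.toRingEquiv : ℤ_[p]ˣ) : ℤ_[p]) =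
      (cyc (p ^ n) g : ZMod (p ^ n)) := by
  haveI : ∀ i, HasEnoughRootsOfUnity Qb (p ^ i) := fun i => by
    have : NeZero ((p ^ i : ℕ) : Qb) := ⟨by exact_mod_cast (NeZero.ne (p ^ i))⟩
    infer_instance
  have h := zt_prim (p ^ n)
  have h1 := cyclotomicCharacter.spec p (n := n) g.toRingEquiv _ h.pow_eq_one
  exact ZMod.val_injective _ (h.pow_inj (ZMod.val_lt _) (ZMod.val_lt _)
    (h1.symm.trans (cyc_spec g h.pow_eq_one)))

variable (O : Type) [CommRing O] [Algebra ℤ_[p] O] {p}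

theorem cy_pow {l q : ℕ} {P : Id} {g : GQ} (hP : Ov l P) (hl : l ≠ p)
    (h : ∀ x : 𝓞 Qb, g • x - x ^ q ∈ P) : cy p O g = q := by
  have : ((cyclotomicCharacter Qb p g.toRingEquiv : ℤ_[p]ˣ) : ℤ_[p]) = q := by
    rw [← PadicInt.ext_of_toZModPow]
    intro n
    rw [cz_mod, map_natCast, ← ZMod.natCast_zmod_val (cyc (p ^ n) g).1]
    refine (ZMod.natCast_eq_natCast_iff _ _ _).2 (cyc_of_pow dvd_rfl hP.2.1 (fun k => hl ?_) h)
    rw [Nat.cast_pow] at k
    exact ov_uniq hP ⟨hp.out, hP.2.1, hP.2.1.mem_of_pow_mem n k⟩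
  rw [cy, this, map_natCast]

theorem cy_frob {l : ℕ} {P : Id} {φ : GQ} (hP : Ov l P) (hl : l ≠ p) (h : Fb l P φ) :
    cy p O φ = l := cy_pow O hP hl h

theorem cy_inert {l : ℕ} {P : Id} {g : GQ} (hP : Ov l P) (hl : l ≠ p) (h : g ∈ inP P) :
    cy p O g = 1 := (cy_pow O (q := 1) hP hl fun x => by rw [pow_one]; exact h x).trans Nat.cast_one

theorem cy_conj {c : GQ} (h : P022.IsConj c) : cy p O c = -1 := by
  have : ((cyclotomicCharacter Qb p c.toRingEquiv : ℤ_[p]ˣ) : ℤ_[p]) = -1 := by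
    rw [← PadicInt.ext_of_toZModPow]
    intro n
    rw [cz_mod, cyc_conj h, map_neg, map_one]
  rw [cy, this, map_neg, map_one]

theorem z2 : ∀ y : ZMod 2, y ≠ 0 → y - 1 = 0 := by decide

theorem cy_two {F : Type} [Field F] [CharP F p] (u : O →+* F) (h : p = 2) (g : GQ) :
    u (cy p O g) = 1 := by
  subst h
  obtain ⟨x, hx⟩ : ∃ x : ℤ_[2]ˣ, cy 2 O g = algebraMap ℤ_[2] O x := ⟨_, rfl⟩
  have h1 : PadicInt.toZMod ((x : ℤ_[2]) - 1) = 0 := by
    have := (x.isUnit.map PadicInt.toZMod).ne_zero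
    rw [map_sub, map_one]
    exact z2 _ this
  rw [← RingHom.mem_ker, PadicInt.ker_toZMod, PadicInt.maximalIdeal_eq_span_p,
    Ideal.mem_span_singleton'] at h1
  obtain ⟨y, hy⟩ := h1
  rw [hx, ← sub_add_cancel (x : ℤ_[2]) 1, ← hy]
  simp only [map_add, map_mul, map_natCast, map_one, CharP.cast_eq_zero, mul_zero, zero_add]

theorem cy_cd [IsLocalRing O] (h : (p : O) ∈ maximalIdeal O) :
    Cd fun g : GQ => cy p O g := fun n => by
  let W : Subgroup GQ := ((Units.map ((Ideal.Quotient.mk (maximalIdeal O ^ n)).comp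
    (algebraMap ℤ_[p] O)).toMonoidHom).comp
    ((cyclotomicCharacter Qb p).comp (MulSemiringAction.toRingAut GQ Qb))).ker
  have hW : ∀ g, g ∈ W ↔ cy p O g - 1 ∈ maximalIdeal O ^ n := fun g =>
    Units.ext_iff.trans (Ideal.Quotient.eq (x := cy p O g) (y := 1))
  rw [show {g : GQ | cy p O g - 1 ∈ maximalIdeal O ^ n} = W from Set.ext fun g => (hW g).symm]
  refine Subgroup.isOpen_mono (H₁ := (cyc (p ^ n)).ker) (fun g hg => (hW g).2 ?_)
    (H853.isOpen_cyc _)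
  have h1 : ((cyclotomicCharacter Qb p g.toRingEquiv : ℤ_[p]ˣ) : ℤ_[p]) - 1 ∈
      RingHom.ker (PadicInt.toZModPow n) := by
    rw [RingHom.mem_ker, map_sub, cz_mod, show cyc (p ^ n) g = 1 from hg, map_one, Units.val_one,
      sub_self]
  rw [PadicInt.ker_toZModPow, Ideal.mem_span_singleton'] at h1
  obtain ⟨y, hy⟩ := h1
  rw [cy, ← map_one (algebraMap ℤ_[p] O), ← map_sub, ← hy, map_mul, map_pow, map_natCast]
  exact Ideal.mul_mem_left _ _ (Ideal.pow_mem_pow h n)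

end

/-! ### counting orbits -/

section

variable {G X J : Type} [Group G] [MulAction G X] (H : Subgroup G) (x : J → X) (x0 : X)

theorem le_idx (hi : H.index ≠ 0) (h1 : ∀ k, ∃ g : G, g • x0 = x k)
    (h2 : ∀ k k' (h : H), (h : G) • x k = x k' → k = k') : Nat.card J ≤ H.index := by
  choose g hg using h1
  have : Finite (G ⧸ H) := Subgroup.index_ne_zero_iff_finite.1 hi
  refine Nat.card_le_card_of_injective (fun k => (((g k)⁻¹ : G) : G ⧸ H)) fun k k' e => ?_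
  refine (h2 k' k ⟨_, QuotientGroup.eq.1 e⟩ ?_).symm
  rw [← hg, ← hg, ← mul_smul]
  simp

theorem idx_le [Finite J] (h1 : ∀ k, ∃ g : G, g • x0 = x k)
    (h2 : ∀ y, ∃ (k : J) (h : H), (h : G) • x k = y) (h3 : ∀ k (s : G), s • x k = x k → s ∈ H) :
    H.index ≤ Nat.card J := by
  choose g hg using h1
  refine Nat.card_le_card_of_surjective (fun k => (((g k)⁻¹ : G) : G ⧸ H)) fun q => ?_
  obtain ⟨a, rfl⟩ := QuotientGroup.mk_surjective q
  obtain ⟨k, h, e⟩ := h2 (a⁻¹ • x0)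
  refine ⟨k, QuotientGroup.eq.2 ?_⟩
  have := h3 k (g k * a * h) (by rw [mul_smul, e, mul_smul, smul_inv_smul, hg])
  rw [inv_inv]
  exact (H.mul_mem_cancel_right h.2).1 this

end

theorem inf_trans (v w : InfinitePlace Qb) : ∃ g : GQ, g • v = w := by
  obtain ⟨g, hg⟩ := emb_trans v.embedding w.embedding
  refine ⟨g, ?_⟩
  rw [← v.mk_embedding, ← w.mk_embedding, InfinitePlace.smul_mk]
  exact congrArg _ (RingHom.ext hg)

theorem inf_stab {w : InfinitePlace Qb} {s : GQ} (h : s • w = w) : s = 1 ∨ P022.IsConj s := by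
  rw [← w.mk_embedding] at h
  exact ((InfinitePlace.mem_stabilizer_mk_iff _ s).1 h).imp id fun e => ⟨_, fun x => e.eq x⟩

/-- the stabiliser of an infinite place -/
theorem inf_conj (w : InfinitePlace Qb) : ∃ c : GQ, P022.IsConj c ∧ c * c = 1 ∧ c ≠ 1 ∧
    ∀ s : GQ, s • w = w ↔ s = 1 ∨ s = c := by
  obtain ⟨c, h⟩ := H916.exists_conj_elt w.embedding
  have k : ComplexEmbedding.IsConj (k := ℚ) w.embedding c := RingHom.ext fun x => (h x).symm
  refine ⟨c, ⟨_, h⟩, mul_eq_one_iff_eq_inv.2 (k.ext k.symm), fun e => ?_, fun s => ?_⟩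
  · have : Fact (Nat.Prime 3) := ⟨Nat.prime_three⟩
    have h1 := cy_conj (p := 3) ℤ_[3] ⟨_, h⟩
    rw [e, cy, show (1 : GQ).toRingEquiv = 1 from rfl, map_one, Units.val_one, map_one] at h1
    exact two_ne_zero (α := ℤ_[3]) (by linear_combination h1)
  · conv_lhs => rw [← w.mk_embedding]
    exact (InfinitePlace.mem_stabilizer_mk_iff _ s).trans (or_congr_right
      ⟨fun e => e.ext k, fun e => e ▸ k⟩)

/-! ### sites -/

variable {p : ℕ} [Fact p.Prime] {O : Type} [CommRing O] [Algebra ℤ_[p] O] {Z : Si p O}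

variable (Z) in
/-- the bad primes -/
abbrev Bd : Set Id := {P | Bad Z.H Z.S P}

variable (Z) in
theorem bad_stb : Stb Z.H.subtype (Bd Z) := by
  rintro g P ⟨l, hl, h, le⟩
  refine ⟨l, hl, GW.ov_smul h _, fun s hs => ?_⟩
  have : (g : GQ)⁻¹ * s * g ∈ dec P := (dec_iff _ _).2 (by
    rw [mul_smul, mul_smul, show s • (g : GQ) • P = (g : GQ) • P from (dec_iff _ _).1 hs,
      inv_smul_smul])
  exact (Z.H.mul_mem_cancel_left (inv_mem g.2)).1 ((Z.H.mul_mem_cancel_right g.2).1 (le this))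

theorem emb_H : Topology.IsOpenEmbedding Z.H.subtype :=
  (H916.isOpen_GK Z.j).isOpenEmbedding_subtypeVal

theorem cpt_H : CompactSpace Z.H := by
  have := cpt
  exact isCompact_iff_compactSpace.1 (Z.H.isClosed_of_isOpen (H916.isOpen_GK Z.j)).isCompact

theorem idx_H : Z.H.index ≠ 0 := by
  simpa using idx Z.H.subtype emb_H

theorem bad_p (h : Z.Ok) {P : Id} (hP : Ov p P) : Bad Z.H Z.S P :=
  ⟨p, h.mem, hP, h.spl p (Finset.mem_singleton_self p) P hP⟩

theorem card_J (h : Z.Ok) : Fintype.card Z.J ≤ Z.H.index := by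
  choose P h1 h2 using fun k => H916.exists_above Z.j (Z.u k).asIdeal (Z.u k).isPrime
  have o : ∀ k, Ov p (P k) := fun k => (h.up _).2 ⟨h1 k, k, h2 k⟩
  obtain ⟨P0, h0⟩ := ex_ov (Fact.out : p.Prime)
  rw [← Nat.card_eq_fintype_card]
  refine le_idx Z.H P P0 idx_H (fun k => ov_trans h0 (o k)) fun k k' g e => h.uinj ?_
  exact HeightOneSpectrum.ext (by rw [← h2, ← h2, ← e, below_smul Z.j g.2])

theorem card_inf (h : Z.Ok) {J : Type} [Fintype J] (w : J → InfinitePlace Qb)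
    (hw : ∀ v, ∃ (k : J) (g : Z.H), (g : GQ) • w k = v) : Z.H.index ≤ Fintype.card J := by
  have := H443.algQb
  obtain ⟨Φ⟩ : Nonempty (Qb →+* ℂ) := ⟨(IsAlgClosed.lift : Qb →ₐ[ℚ] ℂ).toRingHom⟩
  rw [← Nat.card_eq_fintype_card]
  exact idx_le Z.H w (InfinitePlace.mk Φ) (fun k => inf_trans _ _) hw fun k s e =>
    (inf_stab e).elim (fun e => e ▸ one_mem _) (h.real s)

theorem in_eq : GW.In Z.H.subtype (Bd Z) = Inq Z ∅ := Set.ext fun s =>
  ⟨fun ⟨l, P, a, b, c⟩ => ⟨l, P, a, b, fun _ h => h.elim, c⟩,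
    fun ⟨l, P, a, b, _, c⟩ => ⟨l, P, a, b, c⟩⟩

theorem cy_inq (h : Z.Ok) {Q : Set Z.I} {s : Z.H} (hs : s ∈ Inq Z Q) : cy p O s.1 = 1 := by
  obtain ⟨l, P, a, b, -, c⟩ := hs
  exact cy_inert O a (fun e => b (bad_p h (e ▸ a))) c

variable [IsLocalRing O] {F : Type} [Field F] [CharP F p] [Algebra O F] {C : Fr Z F}

theorem bad_prime {P : Id} (h : Bad Z.H Z.S P) : P.IsPrime := h.choose_spec.2.1.2.1

/-- the bad places are representatives of the orbits -/
theorem rp_bad (hC : C.Ok) : Rp (pm Z.H.subtype (bad_stb Z)) (fun t => ⟨C.P t, hC.bad t⟩)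
    fun t => Set.range (C.j t) where
  all y := by
    obtain ⟨t, e⟩ := hC.all y y.2
    obtain ⟨g, hg⟩ := (same_below Z.j (bad_prime (hC.bad t)) (bad_prime y.2)).1 e.symm
    exact ⟨t, g, Subtype.ext hg⟩
  inj t t' g e := hC.inj t t' ((same_below Z.j (bad_prime (hC.bad t))
    (bad_prime (hC.bad t'))).2 ⟨g, congrArg Subtype.val e⟩)
  stb t g := ⟨fun e => ⟨⟨g, (dec_iff _ _).2 (congrArg Subtype.val e)⟩, rfl⟩,
    fun ⟨s, e⟩ => Subtype.ext (e ▸ (dec_iff _ _).1 s.2)⟩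

theorem fo_bad (hC : C.Ok) : Fo (pm Z.H.subtype (bad_stb Z)) := fo_of _ (rp_bad hC).all

theorem ne_bad (h : Z.Ok) : (Bd Z).Nonempty :=
  (ex_ov (Fact.out : p.Prime)).imp fun _ => bad_p h

theorem ne_T (h : Z.Ok) (hC : C.Ok) : Nonempty C.T := by
  obtain ⟨P, hP⟩ := ne_bad h
  exact ⟨(hC.all P hP).choose⟩

theorem rb_inq (hC : C.Ok) {Q : Set Z.I} {s : Z.H} (hs : s ∈ Inq Z Q) : C.rb s = 1 := by
  obtain ⟨l, P, a, b, -, c⟩ := hs
  exact hC.unr l P a b s c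

theorem det_conj (h : Z.Ok) (hC : C.Ok) (c : GQ) (hc : P022.IsConj c) :
    ∃ g : Z.H, Z.H.subtype g = c ∧ (C.rb g).1.det = -1 :=
  ⟨⟨c, h.real c hc⟩, rfl, (hC.det _).trans (by rw [cy_conj O hc, map_neg, map_one])⟩

theorem det_two (hC : C.Ok) (hp : p = 2) (g : Z.H) : (C.rb g).1.det = 1 :=
  (hC.det g).trans (cy_two O _ hp _)

end Vale.Agent.P022K.RT.Tp

namespace Vale.Agent.P022K.RT.Tp

open IsLocalRing NumberField IsDedekindDomain
open Vale.Agent.P022 Vale.Agent.P022.C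
open Vale.Agent.P022E.GW (Ov Fb)
open Vale.Agent.P022K.Top (Si cy Bad)
open Vale.Agent.P022K.GW (Id orb)
open Vale.Agent.P022K.GW.Pl

/-- **TWP** -/
theorem twp (hT : Tl.TWL) {p : ℕ} [Fact p.Prime] {O : Type} [CommRing O] [IsDomain O]
    [IsDiscreteValuationRing O] [CharZero O] [Algebra ℤ_[p] O] {Z : Si p O} {F : Type} [Field F]
    [CharP F p] [Algebra O F] {C : Fr Z F} (h : Z.Ok) (hC : C.Ok) {r n : ℕ} {S' : Finset ℕ}
    (hS : Z.S ⊆ S') {l : Fin r → ℕ} {P : Fin r → Id} {φ : Fin r → Z.H} (hl : Function.Injective l)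
    (tw : ∀ s, GW.Tw Z.H.subtype C.rb (p ^ (n + 1)) S' (l s) (P s) (φ s)) :
    ∃ D : Tl.TW Z C.t r (n + 1), D.P = P ∧ D.φ = φ ∧ (∀ s, (Z.l (D.Q s) : ℕ) = l s ∧
      below Z.j (P s) = (Z.v (D.Q s)).asIdeal ∧ D.τ s ∈ Inq Z ∅) ∧
      GW.In Z.H.subtype (Bd Z ∪ orb Z.H.subtype P) = Inq Z (Set.range D.Q) := by
  have hk : ∀ o, algebraMap O F o = 0 ↔ o ∈ maximalIdeal O := fun o => by
    rw [← RingHom.mem_ker, eq_maximalIdeal (RingHom.ker_isMaximal_of_surjective _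
      fun x => ⟨_, hC.sec x⟩)]
  have ns : ∀ s, l s ∉ Z.S := fun s k => (tw s).out (hS k)
  choose Q hQ using fun s => h.vall _ (ns s) _ (tw s).ov (by simpa using (tw s).deg)
  have o : ∀ s, Ov (Z.l (Q s)) (P s) := fun s => ((h.vl _).2 _ (tw s).ov.2.1 (hQ s)).1
  have el : ∀ s, (Z.l (Q s) : ℕ) = l s := fun s => ov_uniq (o s) (tw s).ov
  choose a ha using fun s => hC.spl (φ s)
  have d1 : ∀ s, (C.r (φ s)).det = 1 := fun s => by
    rw [hC.det, cy_frob O (φ := φ s) (tw s).ov (fun e => ns s (e ▸ h.mem)) (tw s).fb, map_natCast,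
      ← Nat.sub_add_cancel (tw s).ov.1.pos, Nat.cast_add, (CharP.cast_eq_zero_iff F p _).2
      ((dvd_pow_self p n.succ_ne_zero).trans (tw s).cg), zero_add, Nat.cast_one]
  have u1 : ∀ s, IsUnit (C.s (a s) ^ 2 - 1) := fun s => notMem_maximalIdeal.1 fun k =>
    (tw s).rg (by
      have e := (hk _).2 k
      have e' := ha s
      rw [map_sub, map_pow, hC.sec, map_one] at e
      rw [d1] at e'
      show (C.r (φ s)).trace ^ 2 = 4 * (C.r (φ s)).det
      rw [d1]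
      linear_combination ((C.r (φ s)).trace * a s + 2 - (C.r (φ s)).trace ^ 2) * e -
        ((C.r (φ s)).trace * a s + 2) * e')
  have u2 : ∀ s, C.s (a s) ^ 2 - C.t (φ s) * C.s (a s) + 1 ∈ maximalIdeal O := fun s =>
    (hk _).1 (by
      rw [map_add, map_sub, map_mul, map_pow, Fr.t, hC.sec, hC.sec, map_one, ← d1 s]
      exact ha s)
  obtain ⟨D, e1, -, e3, e4⟩ := (hT p O Z h C.t 0 ((hk _).1 (by simp)) (Nat.cast_ne_zero.2
    (Fact.out : p.Prime).ne_zero)).2.2 r (n + 1) Q (fun s => C.s (a s)) P φ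
    (fun s s' e => hl (by rw [← el, ← el, e])) n.succ_pos (fun s => el s ▸ (tw s).cg) o
    (fun s => fri_of_fb Z.j (tw s).ov (hQ s) (tw s).fb) u1 u2
  · refine ⟨D, e3, e4, fun s => ⟨e1 ▸ el s, e1 ▸ hQ s, _, _, D.ov s, ?_, fun _ k => k.elim,
      D.ine s⟩, Set.ext fun x => ⟨?_, ?_⟩⟩
    · rintro ⟨l', h1, h2, -⟩
      exact (h.vl (D.Q s)).1 (ov_uniq h2 (D.ov s) ▸ h1)
    · rintro ⟨l', P', h1, h2, h3⟩
      refine ⟨l', P', h1, fun k => h2 (Or.inl k), ?_, h3⟩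
      rintro _ ⟨s, rfl⟩ k
      rw [e1, ← hQ] at k
      exact h2 (Or.inr ⟨s, (same_below Z.j (o s).2.1 h1.2.1).1 k.symm⟩)
    · rintro ⟨l', P', h1, h2, h3, h4⟩
      refine ⟨l', P', h1, ?_, h4⟩
      rintro (k | ⟨s, g, rfl⟩)
      · exact h2 k
      · exact h3 _ ⟨s, rfl⟩ (by rw [e1, ← hQ]; exact below_smul Z.j g.2 _)

end Vale.Agent.P022K.RT.Tp
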