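import Vale.Agent.P022K.RT.PatdB

/-!
# P022K, block RT: calculus of bounded ultraproducts and of limits
-/

set_option linter.all false

noncomputable section

namespace Vale.Agent.P022K.RT.Ul

open IsLocalRing MvPowerSeries Filter
open Vale.Agent.P022D.Core (PS)
open Vale.Agent.P022D.PA (Base Cv)
open Vale.Agent.P022K.PL (Cf)

section cv

variable {P : Type} [CommRing P] [IsLocalRing P] {U : Ultrafilter ℕ} {z w : ℕ → P} {a b : P}

theorem cv_const (a : P) : Cv (U : Filter ℕ) (fun _ => a) a := fun j =>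
  .of_forall fun _ => by rw [sub_self]; exact zero_mem _

theorem cv_add (h : Cv (U : Filter ℕ) z a) (k : Cv (U : Filter ℕ) w b) :
    Cv (U : Filter ℕ) (fun n => z n + w n) (a + b) := fun j =>
  ((h j).and (k j)).mono fun n e => by
    rw [add_sub_add_comm]; exact add_mem e.1 e.2

theorem cv_mul (h : Cv (U : Filter ℕ) z a) (k : Cv (U : Filter ℕ) w b) :
    Cv (U : Filter ℕ) (fun n => z n * w n) (a * b) := fun j =>
  ((h j).and (k j)).mono fun n e => by
    convert add_mem (Ideal.mul_mem_right (w n) _ e.1) (Ideal.mul_mem_left _ a e.2) using 1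
    ring

theorem cv_sum {ι : Type} (s : Finset ι) {z : ℕ → ι → P} {a : ι → P}
    (h : ∀ i, Cv (U : Filter ℕ) (fun n => z n i) (a i)) :
    Cv (U : Filter ℕ) (fun n => ∑ i ∈ s, z n i) (∑ i ∈ s, a i) := fun j =>
  ((eventually_all_finset s).2 fun i _ => h i j).mono fun n e => by
    rw [← Finset.sum_sub_distrib]; exact Ideal.sum_mem _ e

theorem cv_eq [IsNoetherianRing P] (h : Cv (U : Filter ℕ) z a) (k : Cv (U : Filter ℕ) w b)
    (e : ∀ n, z n = w n) : a = b := by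
  refine sub_eq_zero.1 (PL.mod_sep (A := P) fun j => ?_)
  obtain ⟨n, h1, h2⟩ := ((h j).and (k j)).exists
  rw [smul_eq_mul, Ideal.mul_top]
  convert sub_mem h2 h1 using 1
  rw [e]
  ring

theorem cv_mem (h : Cv (U : Filter ℕ) z a) (e : ∀ n, z n ∈ maximalIdeal P) :
    a ∈ maximalIdeal P := by
  obtain ⟨n, h1⟩ := (h 1).exists
  rw [pow_one] at h1
  simpa using sub_mem (e n) h1

/-- limits of matrices -/
def Cm (U : Ultrafilter ℕ) {ι : Type} (z : ℕ → Matrix ι ι P) (a : Matrix ι ι P) : Prop :=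
  ∀ i j, Cv (U : Filter ℕ) (fun n => z n i j) (a i j)

theorem Cm.mul {ι : Type} [Fintype ι] {z w : ℕ → Matrix ι ι P} {a b : Matrix ι ι P}
    (h : Cm U z a) (k : Cm U w b) : Cm U (fun n => z n * w n) (a * b) := fun i j =>
  cv_sum Finset.univ (z := fun n l => z n i l * w n l j) fun l => cv_mul (h i l) (k l j)

theorem cm_const {ι : Type} (a : Matrix ι ι P) : Cm U (fun _ => a) a := fun _ _ => cv_const _

theorem Cm.eq [IsNoetherianRing P] {ι : Type} {z w : ℕ → Matrix ι ι P} {a b : Matrix ι ι P}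
    (h : Cm U z a) (k : Cm U w b) (e : ∀ n, z n = w n) : a = b :=
  Matrix.ext fun i j => cv_eq (h i j) (k i j) fun n => by rw [e]

end cv

theorem cm_ex {P ι : Type} [CommRing P] [Base P] (U : Ultrafilter ℕ) (z : ℕ → Matrix ι ι P) :
    ∃ a, Cm U z a := by
  choose a ha using fun i j => P022D.PA.lim P U fun n => z n i j
  exact ⟨a, ha⟩

/-- limits of homomorphisms -/
theorem hom_ex {O R Λ : Type} [CommRing O] [CommRing R] [Algebra O R] [CommRing Λ] [Base Λ]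
    [Algebra O Λ] (U : Ultrafilter ℕ) (φ : ℕ → R →ₐ[O] Λ) :
    ∃ ψ : R →ₐ[O] Λ, ∀ u, Cv (U : Filter ℕ) (fun n => φ n u) (ψ u) := by
  choose f hf using fun u => P022D.PA.lim Λ U fun n => φ n u
  exact ⟨⟨⟨⟨⟨f, cv_eq (hf 1) (cv_const 1) fun n => map_one _⟩, fun a b =>
    cv_eq (hf _) (cv_mul (hf a) (hf b)) fun n => map_mul _ _ _⟩,
    cv_eq (hf 0) (cv_const 0) fun n => map_zero _, fun a b =>
    cv_eq (hf _) (cv_add (hf a) (hf b)) fun n => map_add _ _ _⟩, fun o =>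
    cv_eq (hf _) (cv_const _) fun n => AlgHom.commutes _ o⟩, hf⟩

theorem cv_hom {O σ Λ : Type} [CommRing O] [IsLocalRing O] [Fintype σ] [CommRing Λ] [IsLocalRing Λ]
    [Algebra O Λ] {U : Ultrafilter ℕ} {φ : ℕ → PS O σ →ₐ[O] Λ} {ψ : PS O σ →ₐ[O] Λ}
    (h : ∀ u, Cv (U : Filter ℕ) (fun n => φ n u) (ψ u))
    (h1 : ∀ o ∈ maximalIdeal O, algebraMap O Λ o ∈ maximalIdeal Λ)
    (h2 : ∀ n i, φ n (X i) ∈ maximalIdeal Λ) {z : ℕ → PS O σ} {a : PS O σ}
    (hz : Cv (U : Filter ℕ) z a) : Cv (U : Filter ℕ) (fun n => φ n (z n)) (ψ a) := fun j =>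
  ((hz j).and (h a j)).mono fun n e => by
    have h3 : (maximalIdeal (PS O σ)).map (φ n) ≤ maximalIdeal Λ :=
      Ideal.map_le_iff_le_comap.2 fun u hu => by
        obtain ⟨g, hg⟩ := Pd.dec u
        rw [Ideal.mem_comap, hg, map_add, map_sum]
        refine add_mem ?_ (Ideal.sum_mem _ fun i _ => ?_)
        · exact (φ n).commutes _ ▸ h1 _ ((P022D.CA.Cpl.mem_max_iff u).1 hu)
        · rw [map_mul]
          exact Ideal.mul_mem_right _ _ (h2 n i)
    have h4 := Ideal.mem_map_of_mem (φ n) e.1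
    rw [Ideal.map_pow, map_sub] at h4
    simpa using add_mem (Ideal.pow_right_mono h3 j h4) e.2

/-- uniform nilpotence -/
theorem nil_card {R M : Type} [CommRing R] [IsLocalRing R] [AddCommGroup M] [Module R M] (c : ℕ) :
    ∀ L : Submodule R M, (L : Set M).Finite → (L : Set M).ncard ≤ c →
      maximalIdeal R ^ c • L = ⊥ := by
  induction c with
  | zero =>
    intro L h1 h2
    exact absurd ((Set.ncard_pos h1).2 ⟨0, L.zero_mem⟩) (by omega)
  | succ c ih =>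
    intro L h1 h2
    have le : maximalIdeal R • L ≤ L := Submodule.smul_le_right
    by_cases e : L ≤ maximalIdeal R • L
    · rw [Submodule.eq_bot_of_le_smul_of_le_jacobson_bot _ L
        ⟨h1.toFinset, by rw [h1.coe_toFinset, Submodule.span_eq]⟩ e
        (jacobson_eq_maximalIdeal ⊥ bot_ne_top).ge, Submodule.smul_bot]
    · rw [pow_succ, Submodule.mul_smul]
      exact ih _ (h1.subset le) (Nat.lt_succ_iff.1 ((Set.ncard_lt_ncard ⟨le, e⟩ h1).trans_le h2))

section ult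

variable {O R K M : Type} [CommRing O] [IsLocalRing O] [CommRing R] [Algebra O R] [Group K]
  [AddCommGroup M] [Module O M] [Module R M] [IsScalarTower O R M] {N : ℕ → Subgroup K}

theorem lv_com {ρ : K →* Module.End R M} {θ : Module.End R M} (h : ∀ g, Commute θ (ρ g)) {j : ℕ}
    {v : M} (hv : v ∈ Lv O N ρ j) : θ v ∈ Lv O N ρ j :=
  ⟨fun g hg => (LinearMap.congr_fun (h g) v).symm.trans (congrArg θ (hv.1 g hg)), fun o ho => by
    rw [← LinearMap.map_smul_of_tower, hv.2 o ho, map_zero]⟩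

theorem lv_card [IsNoetherianRing O] [Finite (ResidueField O)] {j : ℕ} (hi : (N j).index ≠ 0)
    (b : ℕ) : ∃ c, ∀ (M : Type) [AddCommGroup M] [Module O M] [Module R M] [IsScalarTower O R M]
      (ρ : K →* Module.End R M), Fre O N ρ b j →
      (Lv O N ρ j : Set M).Finite ∧ (Lv O N ρ j : Set M).ncard ≤ c := by
  have : Finite (K ⧸ N j) := Nat.finite_of_card_ne_zero hi
  have := Fintype.ofFinite (K ⧸ N j)
  have : Finite (O ⧸ maximalIdeal O) := ‹Finite (ResidueField O)›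
  have := Ideal.finite_quotient_pow (IsNoetherian.noetherian (maximalIdeal O)) j
  refine ⟨(Set.univ : Set ((K ⧸ N j) × Fin b → O ⧸ maximalIdeal O ^ j)).ncard, ?_⟩
  rintro M _ _ _ _ ρ ⟨x, h1, h2, -⟩
  have h3 : (Lv O N ρ j : Set M) ⊆ (fun c : (K ⧸ N j) × Fin b → O ⧸ maximalIdeal O ^ j =>
      ∑ q, (c q).out • ρ q.1.out (x q.2)) '' Set.univ := fun v hv => by
    obtain ⟨c, hc⟩ := Up.span_fin h1 (h2 v hv)
    exact ⟨c, trivial, hc.symm⟩
  exact ⟨(Set.finite_univ.image _).subset h3,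
    (Set.ncard_le_ncard h3 (Set.finite_univ.image _)).trans (Set.ncard_image_le Set.finite_univ)⟩

variable {U : Ultrafilter ℕ} {Y : ℕ → Type} [∀ n, AddCommGroup (Y n)] [∀ n, Module O (Y n)]
  [∀ n, Module R (Y n)] [∀ n, IsScalarTower O R (Y n)] {ρ : ∀ n, K →* Module.End R (Y n)}
  {ρ' : K →* Module.End R M} {Rp : M → (∀ n, Y n) → Prop} (h : Ult O N U Y ρ ρ' Rp)
  {v w : M} {x y : ∀ n, Y n}

include h

theorem bd (e : Rp v x) : ∃ j, ∀ᶠ n in (U : Filter ℕ), x n ∈ Lv O N (ρ n) j :=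
  (h.sm v).imp fun j hj => (h.lev v x j e).1 hj

theorem cg (e : Rp v x) (e' : ∀ᶠ n in (U : Filter ℕ), x n = y n) : Rp v y := by
  obtain ⟨j, hj⟩ := bd h e
  obtain ⟨w, hw⟩ := h.sur y j ((hj.and e').mono fun n a => a.2 ▸ a.1)
  rwa [(h.eq v x w y e hw).2 e']

theorem eq' (e : Rp v x) (e' : Rp w y) (a : ∀ n, x n = y n) : v = w :=
  (h.eq v x w y e e').2 (.of_forall a)

theorem zero : Rp 0 0 := by
  obtain ⟨x, hx⟩ := h.ex 0
  simpa using h.smul 0 0 x hx

theorem eq0 (e : Rp v x) : v = 0 ↔ ∀ᶠ n in (U : Filter ℕ), x n = 0 := h.eq v x 0 0 e (zero h)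

theorem osm (o : O) (e : Rp v x) : Rp (o • v) (o • x) := by
  simpa only [algebraMap_smul] using h.smul (algebraMap O R o) v x e

theorem sub (e : Rp v x) (e' : Rp w y) : Rp (v - w) (x - y) := by
  simpa only [neg_one_smul, ← sub_eq_add_neg] using h.add _ _ _ _ e (h.smul (-1) _ _ e')

/-- `θ'` is the limit of the `θ n` -/
def Lt (Rp : M → (∀ n, Y n) → Prop) (θ : ∀ n, Module.End R (Y n)) (θ' : Module.End R M) : Prop :=
  ∀ v x, Rp v x → Rp (θ' v) fun n => θ n (x n)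

theorem lt_ex (θ : ∀ n, Module.End R (Y n)) (hb : ∀ j, ∃ j', ∀ n, ∀ y ∈ Lv O N (ρ n) j,
    θ n y ∈ Lv O N (ρ n) j') : ∃ θ', Lt Rp θ θ' := by
  obtain ⟨f, hf⟩ := h.lift (fun n => (θ n).toAddMonoidHom) fun j =>
    (hb j).imp fun j' a => .of_forall a
  refine ⟨⟨f, fun u v => ?_⟩, hf⟩
  obtain ⟨x, hx⟩ := h.ex v
  exact eq' h (hf _ _ (h.smul u v x hx)) (h.smul u _ _ (hf v x hx)) fun n => map_smul (θ n) u _

variable {θ η : ∀ n, Module.End R (Y n)} {θ' η' : Module.End R M}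

theorem Lt.eq (a : Lt Rp θ θ') (b : Lt Rp η η') (e : ∀ n, θ n = η n) : θ' = η' :=
  LinearMap.ext fun v => by
    obtain ⟨x, hx⟩ := h.ex v
    exact eq' h (a v x hx) (b v x hx) fun n => by rw [e]

omit h in
theorem Lt.mul (a : Lt Rp θ θ') (b : Lt Rp η η') : Lt Rp (fun n => θ n * η n) (θ' * η') :=
  fun v x e => a _ _ (b v x e)

omit h in
theorem lt_one : Lt Rp (fun n => (1 : Module.End R (Y n))) 1 := fun _ _ e => e

theorem Lt.add (a : Lt Rp θ θ') (b : Lt Rp η η') : Lt Rp (fun n => θ n + η n) (θ' + η') :=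
  fun v x e => h.add _ _ _ _ (a v x e) (b v x e)

theorem Lt.sub (a : Lt Rp θ θ') (b : Lt Rp η η') : Lt Rp (fun n => θ n - η n) (θ' - η') :=
  fun v x e => Ul.sub h (a v x e) (b v x e)

theorem lt_alg (u : R) : Lt Rp (fun n => algebraMap R (Module.End R (Y n)) u) (algebraMap R _ u) :=
  fun v x e => h.smul u v x e

theorem Lt.com (a : Lt Rp θ θ') (b : Lt Rp η η') (e : ∀ n, Commute (θ n) (η n)) : Commute θ' η' :=
  Lt.eq h (a.mul b) (b.mul a) e

theorem hom_lt {A : Type} [Monoid A] (a : ∀ n, A →* Module.End R (Y n))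
    (hb : ∀ g j, ∃ j', ∀ n, ∀ y ∈ Lv O N (ρ n) j, a n g y ∈ Lv O N (ρ n) j') :
    ∃ a' : A →* Module.End R M, ∀ g, Lt Rp (fun n => a n g) (a' g) := by
  choose f hf using fun g => lt_ex h (fun n => a n g) (hb g)
  exact ⟨⟨⟨f, Lt.eq h (hf 1) lt_one fun n => map_one _⟩, fun g g' =>
    Lt.eq h (hf _) ((hf g).mul (hf g')) fun n => map_mul _ _ _⟩, hf⟩

theorem alg_lt {A : Type} [Ring A] [Algebra R A] (a : ∀ n, A →ₐ[R] Module.End R (Y n))
    (hb : ∀ n m g, Commute (a n m) (ρ n g)) :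
    ∃ a' : A →ₐ[R] Module.End R M, ∀ m, Lt Rp (fun n => a n m) (a' m) := by
  obtain ⟨f, hf⟩ := hom_lt h (fun n => (a n : A →* Module.End R (Y n)))
    fun m j => ⟨j, fun n y hy => lv_com (hb n m) hy⟩
  have h1 : ∀ u, f (algebraMap R A u) = algebraMap R _ u := fun u =>
    Lt.eq h (hf _) (lt_alg h u) fun n => (a n).commutes u
  exact ⟨⟨⟨f, by simpa using h1 0, fun m m' =>
    Lt.eq h (hf _) ((hf m).add h (hf m')) fun n => map_add (a n) _ _⟩, h1⟩, hf⟩

variable [IsLocalRing R] (un : ∀ j, ∃ c, ∀ᶠ n in (U : Filter ℕ), ∀ u ∈ maximalIdeal R ^ c,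
  ∀ y ∈ Lv O N (ρ n) j, u • y = 0)

include un

theorem cvs {z : ℕ → R} {a : R} (hz : Cv (U : Filter ℕ) z a) (e : Rp v x) :
    ∀ᶠ n in (U : Filter ℕ), z n • x n = a • x n := by
  obtain ⟨j, hj⟩ := bd h e
  obtain ⟨c, hc⟩ := un j
  filter_upwards [hj, hc, hz c] with n h1 h2 h3
  rw [← sub_eq_zero, ← sub_smul]
  exact h2 _ h3 _ h1

theorem Lt.cv {z : ℕ → R} {a : R} (hz : Cv (U : Filter ℕ) z a) (b : Lt Rp θ θ') :
    Lt Rp (fun n => z n • θ n) (a • θ') := fun v x e =>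
  cg h (h.smul a _ _ (b v x e)) ((cvs h un hz (b v x e)).mono fun n e => e.symm)

theorem lt_cm {ι : Type} [Fintype ι] [DecidableEq ι]
    {E : ∀ n, Matrix ι ι R →ₐ[R] Module.End R (Y n)} {E' : Matrix ι ι R →ₐ[R] Module.End R M}
    (hE : ∀ m, Lt Rp (fun n => E n m) (E' m)) {z : ℕ → Matrix ι ι R} {a : Matrix ι ι R}
    (hz : Cm U z a) : Lt Rp (fun n => E n (z n)) (E' a) := fun v x e => by
  refine cg h (hE a v x e) ?_
  have e1 : ∀ (m : Matrix ι ι R), m = ∑ i, ∑ j, m i j • Matrix.single i j (1 : R) := fun m => by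
    simpa using Matrix.matrix_eq_sum_single m
  filter_upwards [eventually_all.2 fun i => eventually_all.2 fun j =>
    cvs h un (hz i j) (hE (Matrix.single i j 1) v x e)] with n hn
  rw [e1 a, e1 (z n)]
  simp only [map_sum, map_smul, LinearMap.sum_apply, LinearMap.smul_apply, hn]

end ult

end Vale.Agent.P022K.RT.Ul
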