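import Vale.Agent.P022K.RT.St2

/-!
# P022K, block RT: bounded ultraproducts (row UPA)
-/

set_option linter.all false

noncomputable section

namespace Vale.Agent.P022K.RT

open IsLocalRing Filter
open Vale.Agent.P022K.PL (Cf)

namespace Up

section one

variable {O R K M : Type} [CommRing O] [IsLocalRing O] [CommRing R] [Algebra O R]
  [Group K] [AddCommGroup M] [Module O M] [Module R M] [IsScalarTower O R M]
  {N : ℕ → Subgroup K} {ρ : K →* Module.End R M} {j j' b : ℕ} {v : M}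

theorem lv_mono (h : Antitone N) (e : j ≤ j') : Lv O N ρ j ≤ Lv O N ρ j' := fun v hv =>
  ⟨fun g hg => hv.1 g (h e hg), fun o ho => hv.2 o (Ideal.pow_le_pow_right e ho)⟩

theorem lv_act (h : (N j).Normal) (hv : v ∈ Lv O N ρ j) (g : K) : ρ g v ∈ Lv O N ρ j :=
  ⟨fun a ha => by
    rw [← Module.End.mul_apply, ← map_mul, show a * g = g * (g⁻¹ * a * g) by group, map_mul,
      Module.End.mul_apply, hv.1 _ (h.conj_mem' a ha g)],
    fun o ho => by rw [← LinearMap.map_smul_of_tower, hv.2 o ho, map_zero]⟩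

theorem act_out (hv : v ∈ Lv O N ρ j) (g : K) : ρ (g : K ⧸ N j).out v = ρ g v := by
  obtain ⟨h, e⟩ := QuotientGroup.mk_out_eq_mul (N j) g
  rw [e, map_mul, Module.End.mul_apply, hv.1 _ h.2]

theorem span_fin [Fintype (K ⧸ N j)] {x : Fin b → M} (hx : ∀ i, x i ∈ Lv O N ρ j)
    (hv : v ∈ Submodule.span O (Set.range fun q : K × Fin b => ρ q.1 (x q.2))) :
    ∃ c : (K ⧸ N j) × Fin b → O ⧸ maximalIdeal O ^ j,
      v = ∑ q, (c q).out • ρ q.1.out (x q.2) := by
  obtain ⟨c, rfl⟩ := (Submodule.mem_span_range_iff_exists_fun O).1 (Submodule.span_mono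
    (t := Set.range fun q : (K ⧸ N j) × Fin b => ρ q.1.out (x q.2))
    (by rintro _ ⟨q, rfl⟩; exact ⟨(q.1, q.2), act_out (hx _) _⟩) hv)
  refine ⟨fun q => Ideal.Quotient.mk _ (c q), Finset.sum_congr rfl fun q _ => ?_⟩
  rw [← sub_eq_zero, ← sub_smul, ← LinearMap.map_smul_of_tower, (hx _).2 _
    (Ideal.Quotient.eq.1 (Ideal.Quotient.mk_out _).symm), map_zero]

end one

variable (O : Type) {R K : Type} [CommRing O] [IsLocalRing O] [CommRing R] [Algebra O R] [Group K]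
  {N : ℕ → Subgroup K} (U : Ultrafilter ℕ) {Y : ℕ → Type} [∀ n, AddCommGroup (Y n)]
  [∀ n, Module O (Y n)] [∀ n, Module R (Y n)] [∀ n, IsScalarTower O R (Y n)]
  (ρ : ∀ n, K →* Module.End R (Y n)) (hN : Antitone N) (hn : ∀ m, (N m).Normal)

/-- bounded families -/
def Bd : Submodule R (∀ n, Y n) where
  carrier := {x | ∃ j, ∀ᶠ n in (U : Filter ℕ), x n ∈ Lv O N (ρ n) j}
  add_mem' := fun ⟨i, a⟩ ⟨j, b⟩ => ⟨max i j, (a.and b).mono fun n h =>
    add_mem (lv_mono hN (le_max_left _ _) h.1) (lv_mono hN (le_max_right _ _) h.2)⟩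
  zero_mem' := ⟨0, .of_forall fun n => zero_mem _⟩
  smul_mem' c x := fun ⟨j, a⟩ => ⟨j, a.mono fun n h => Submodule.smul_mem _ c h⟩

/-- null families -/
def Zn : Submodule R (Bd O U ρ hN) where
  carrier := {x | ∀ᶠ n in (U : Filter ℕ), x.1 n = 0}
  add_mem' a b := (a.and b).mono fun n h => (congrArg₂ (· + ·) h.1 h.2).trans (add_zero 0)
  zero_mem' := .of_forall fun n => rfl
  smul_mem' c x a := a.mono fun n h => (congrArg (c • ·) h).trans (smul_zero c)

/-- the action on bounded families -/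
def ac (g : K) : Bd O U ρ hN →ₗ[R] Bd O U ρ hN where
  toFun x := ⟨fun n => ρ n g (x.1 n), x.2.imp fun j a => a.mono fun n h => lv_act (hn j) h g⟩
  map_add' x y := Subtype.ext (funext fun n => map_add _ _ _)
  map_smul' c x := Subtype.ext (funext fun n => map_smul _ _ _)

/-- the action on the ultraproduct -/
def aq : K →* Module.End R (Bd O U ρ hN ⧸ Zn O U ρ hN) where
  toFun g := Submodule.mapQ _ _ (ac O U ρ hN hn g) fun x a =>
    Eventually.mono a fun n h => (congrArg (ρ n g) h).trans (map_zero _)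
  map_one' := LinearMap.ext fun v => Submodule.Quotient.induction_on _ v fun x =>
    congrArg Submodule.Quotient.mk (Subtype.ext (funext fun n => by
      change ρ n 1 _ = _; rw [map_one]; rfl))
  map_mul' g h := LinearMap.ext fun v => Submodule.Quotient.induction_on _ v fun x =>
    congrArg Submodule.Quotient.mk (Subtype.ext (funext fun n => by
      change ρ n (g * h) _ = _; rw [map_mul]; rfl))

/-- representatives -/
def Rp (v : Bd O U ρ hN ⧸ Zn O U ρ hN) (x : ∀ n, Y n) : Prop :=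
  ∃ h, v = Submodule.Quotient.mk ⟨x, h⟩

theorem mk_eq (x y : Bd O U ρ hN) : (Submodule.Quotient.mk x : _ ⧸ Zn O U ρ hN) =
    Submodule.Quotient.mk y ↔ ∀ᶠ n in (U : Filter ℕ), x.1 n = y.1 n :=
  (Submodule.Quotient.eq _).trans (eventually_congr (.of_forall fun n => sub_eq_zero))

theorem lev (hi : ∀ m, (N m).index ≠ 0) (hO : (maximalIdeal O).FG) (x : Bd O U ρ hN) (j : ℕ) :
    Submodule.Quotient.mk x ∈ Lv O N (aq O U ρ hN hn) j ↔
      ∀ᶠ n in (U : Filter ℕ), x.1 n ∈ Lv O N (ρ n) j := by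
  refine ⟨fun h => ?_, fun h => ⟨fun g hg => (mk_eq O U ρ hN _ _).2 (h.mono fun n k => k.1 g hg),
    fun o ho => (mk_eq O U ρ hN (o • x) 0).2 (h.mono fun n k => k.2 o ho)⟩⟩
  obtain ⟨i, a⟩ := x.2
  obtain ⟨s, hs⟩ := hO.pow (n := j)
  have := Subgroup.FiniteIndex.mk (hi i)
  have b := eventually_all.2 fun q : N j ⧸ (N i).subgroupOf (N j) =>
    (mk_eq O U ρ hN _ _).1 (h.1 _ q.out.2)
  have c := (eventually_all_finset s).2 fun o ho =>
    (mk_eq O U ρ hN (o • x) 0).1 (h.2 o (hs ▸ Ideal.subset_span ho))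
  refine (a.and (b.and c)).mono fun n ⟨k1, k2, k3⟩ => ⟨fun g hg => ?_, fun o ho => ?_⟩
  · obtain ⟨t, e⟩ := QuotientGroup.mk_out_eq_mul ((N i).subgroupOf (N j)) ⟨g, hg⟩
    have := k2 (QuotientGroup.mk ⟨g, hg⟩)
    change ρ n _ _ = _ at this
    rwa [e, Subgroup.coe_mul, map_mul, Module.End.mul_apply, k1.1 t.1.1 t.2] at this
  · rw [← hs] at ho
    exact (Ideal.span_le (I := LinearMap.ker (LinearMap.toSpanSingleton O _ (x.1 n)))).2 k3 ho

theorem ult (hi : ∀ m, (N m).index ≠ 0) (hO : (maximalIdeal O).FG) :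
    Ult O N U Y ρ (aq O U ρ hN hn) (Rp O U ρ hN) where
  ex v := Submodule.Quotient.induction_on _ v fun x => ⟨x.1, x.2, rfl⟩
  sur x j h := ⟨_, ⟨j, h⟩, rfl⟩
  eq := by rintro _ x _ y ⟨a, rfl⟩ ⟨b, rfl⟩; exact mk_eq O U ρ hN _ _
  add := by rintro _ x _ y ⟨a, rfl⟩ ⟨b, rfl⟩; exact ⟨add_mem a b, rfl⟩
  smul := by rintro u _ x ⟨a, rfl⟩; exact ⟨Submodule.smul_mem _ u a, rfl⟩
  act := by rintro g _ x ⟨a, rfl⟩; exact ⟨(ac O U ρ hN hn g ⟨x, a⟩).2, rfl⟩
  sm v := Submodule.Quotient.induction_on _ v fun x =>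
    x.2.imp fun j a => (lev O U ρ hN hn hi hO x j).2 a
  lev := by rintro _ x j ⟨a, rfl⟩; exact lev O U ρ hN hn hi hO _ j
  lift θ h := by
    let f : Bd O U ρ hN →+ Bd O U ρ hN :=
      ⟨⟨fun x => ⟨fun n => θ n (x.1 n), by
        obtain ⟨j, a⟩ := x.2
        obtain ⟨j', b⟩ := h j
        exact ⟨j', (a.and b).mono fun n k => k.2 _ k.1⟩⟩, Subtype.ext (funext fun n => map_zero _)⟩,
        fun x y => Subtype.ext (funext fun n => map_add _ _ _)⟩
    refine ⟨QuotientAddGroup.map (Zn O U ρ hN).toAddSubgroup (Zn O U ρ hN).toAddSubgroup f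
      fun x a => Eventually.mono a fun n k => (congrArg (θ n) k).trans (map_zero _), ?_⟩
    rintro _ x ⟨a, rfl⟩
    exact ⟨(f ⟨x, a⟩).2, rfl⟩

theorem sum_eq {ι : Type} (s : Finset ι) (c : ι → O) (g : ι → K) (x : ι → Bd O U ρ hN) :
    ∑ q ∈ s, c q • aq O U ρ hN hn (g q) (Submodule.Quotient.mk (x q)) =
      Submodule.Quotient.mk (∑ q ∈ s, c q • ac O U ρ hN hn (g q) (x q)) :=
  (map_sum ((Zn O U ρ hN).mkQ.restrictScalars O) _ s).symm

theorem sum_ap {ι : Type} (s : Finset ι) (c : ι → O) (g : ι → K) (x : ι → Bd O U ρ hN) (n : ℕ) :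
    (∑ q ∈ s, c q • ac O U ρ hN hn (g q) (x q)).1 n = ∑ q ∈ s, c q • ρ n (g q) ((x q).1 n) := by
  rw [Submodule.coe_sum, Finset.sum_apply]
  rfl

theorem fre (hi : ∀ m, (N m).index ≠ 0) (hO : (maximalIdeal O).FG) [Finite (ResidueField O)]
    (b j : ℕ) (h : ∀ᶠ n in (U : Filter ℕ), Fre O N (ρ n) b j) : Fre O N (aq O U ρ hN hn) b j := by
  classical
  have : Finite (O ⧸ maximalIdeal O) := ‹Finite (ResidueField O)›
  have := Ideal.finite_quotient_pow hO j
  have := Subgroup.FiniteIndex.mk (hi j)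
  have := Fintype.ofFinite (K ⧸ N j)
  choose! x hx using fun n (k : Fre O N (ρ n) b j) => k
  let y : Fin b → Bd O U ρ hN := fun i => ⟨fun n => x n i, j, h.mono fun n k => (hx n k).1 i⟩
  refine ⟨fun i => Submodule.Quotient.mk (y i), fun i => (lev O U ρ hN hn hi hO _ j).2
    (h.mono fun n k => (hx n k).1 i), fun v hz => ?_, fun s c hs e => ?_⟩
  · obtain ⟨z, rfl⟩ := Submodule.Quotient.mk_surjective _ v
    obtain ⟨c, hc⟩ := Ultrafilter.eventually_exists_iff.1 ((h.and ((lev O U ρ hN hn hi hO _ j).1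
      hz)).mono fun n k => span_fin (hx n k.1).1 ((hx n k.1).2.1 _ k.2))
    rw [(mk_eq O U ρ hN z _).2 (hc.mono fun n k => k.trans
      (sum_ap O U ρ hN hn _ _ _ (fun q : (K ⧸ N j) × Fin b => y q.2) n).symm), ← sum_eq]
    exact sum_mem fun q _ => Submodule.smul_mem _ _ (Submodule.subset_span ⟨(q.1.out, q.2), rfl⟩)
  · rw [← Finset.sum_product', sum_eq O U ρ hN hn _ _ Prod.fst fun q => y q.2] at e
    obtain ⟨n, k1, k2⟩ := (h.and ((mk_eq O U ρ hN _ 0).1 e)).exists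
    rw [sum_ap, Finset.sum_product] at k2
    exact (hx n k1).2.2 s c hs k2

end Up

theorem upa : UPA := fun O R K _ _ _ c _ _ _ N U Y _ _ _ _ ρ hN hn hi =>
  have := c.fin
  ⟨_, _, _, _, inferInstance, _, _, Up.ult O U ρ hN hn hi (IsNoetherian.noetherian _),
    Up.fre O U ρ hN hn hi (IsNoetherian.noetherian _)⟩

end Vale.Agent.P022K.RT
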