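import Mathlib

/-!
# P022K, block RT: cocycles of a decomposition group at `l ≠ p`

If the twisted dual of `V` has no invariants, the space of cocycles with values in `V` has
dimension at most the dimension of `V`.
-/

set_option linter.all false

noncomputable section

namespace Vale.Agent.P022K.RT.Zl

section lin

variable {F V ι : Type*} [Field F] [AddCommGroup V] [Module F V]

/-- a separating family of linear forms on a space of dimension at most `k` has a separating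
subfamily with `k` members -/
theorem pick [Nonempty ι] (φ : ι → V →ₗ[F] F) (k : ℕ) : ∀ Z : Submodule F V,
    Module.rank F Z ≤ k → (∀ v ∈ Z, (∀ i, φ i v = 0) → v = 0) →
    ∃ t : Fin k → ι, ∀ v ∈ Z, (∀ j, φ (t j) v = 0) → v = 0 := by
  induction k with
  | zero =>
    intro Z hZ _
    have h0 : Z = ⊥ := Submodule.rank_eq_zero.1 (by simpa using hZ)
    exact ⟨Fin.elim0, fun v hv _ => by simpa [h0] using hv⟩
  | succ k ih =>
    intro Z hZ hs
    by_cases h0 : ∀ v ∈ Z, v = 0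
    · exact ⟨fun _ => Classical.arbitrary ι, fun v hv _ => h0 v hv⟩
    push Not at h0
    obtain ⟨v, hv, hv0⟩ := h0
    obtain ⟨i, hi⟩ : ∃ i, φ i v ≠ 0 := by
      by_contra hc
      push Not at hc
      exact hv0 (hs v hv hc)
    have hfin : Module.Finite F Z :=
      Module.rank_lt_aleph0_iff.1 (hZ.trans_lt (Cardinal.natCast_lt_aleph0))
    have hlt : Z ⊓ LinearMap.ker (φ i) < Z :=
      lt_of_le_of_ne inf_le_left fun e => hi (by
        have : v ∈ Z ⊓ LinearMap.ker (φ i) := by rw [e]; exact hv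
        exact this.2)
    have hfin' : Module.Finite F (Z ⊓ LinearMap.ker (φ i) : Submodule F V) :=
      Submodule.finiteDimensional_of_le hlt.le
    have h1 := Submodule.finrank_lt_finrank_of_lt hlt
    have h2 : Module.finrank F Z ≤ k + 1 := Module.finrank_le_of_rank_le hZ
    obtain ⟨t, ht⟩ := ih (Z ⊓ LinearMap.ker (φ i))
      (by rw [← Module.finrank_eq_rank]; exact_mod_cast (by omega)) fun v hv => hs v hv.1
    refine ⟨Fin.cons i t, fun w hw h => ht w ⟨hw, h 0⟩ fun j => h j.succ⟩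

end lin

section abs

variable {G F V : Type*} [Group G] [CommRing F] [AddCommGroup V] [Module F V]
  {ρ : G →* Module.End F V} {b : G → V}

/-- cocycles -/
def Coc (ρ : G →* Module.End F V) (b : G → V) : Prop := ∀ x y, b (x * y) = b x + ρ x (b y)

theorem act_mul (x y : G) (v : V) : ρ (x * y) v = ρ x (ρ y v) := by rw [map_mul]; rfl

theorem Coc.one (hb : Coc ρ b) : b 1 = 0 := by
  have := hb 1 1
  rw [mul_one, map_one] at this
  exact left_eq_add.1 this

theorem Coc.inv (hb : Coc ρ b) (x : G) : b x⁻¹ = - ρ x⁻¹ (b x) := by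
  have := hb x⁻¹ x
  rw [inv_mul_cancel, hb.one] at this
  exact eq_neg_of_add_eq_zero_left this.symm

theorem Coc.pow (hb : Coc ρ b) {h : G} (hh : ρ h = 1) (n : ℕ) : b (h ^ n) = n • b h := by
  induction n with
  | zero => rw [pow_zero, hb.one, zero_smul]
  | succ n ih => rw [pow_succ', hb, hh, ih, succ_nsmul']; rfl

theorem Coc.conj (hb : Coc ρ b) {h : G} (hh : ρ h = 1) (s : G) : b (s * h * s⁻¹) = ρ s (b h) := by
  have e := hb s s⁻¹
  rw [mul_inv_cancel, hb.one] at e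
  rw [hb, hb, map_mul, hh, mul_one, add_right_comm, ← e, zero_add]

/-- the elements whose value lies in a stable subgroup -/
def zs (hb : Coc ρ b) (W : AddSubgroup V) (hW : ∀ g, ∀ w ∈ W, ρ g w ∈ W) : Subgroup G where
  carrier := {g | b g ∈ W}
  mul_mem' {x y} hx hy := by
    show b (x * y) ∈ W
    rw [hb]; exact W.add_mem hx (hW _ _ hy)
  one_mem' := by
    show b 1 ∈ W
    rw [hb.one]; exact W.zero_mem
  inv_mem' {x} hx := by
    show b x⁻¹ ∈ W
    rw [hb.inv]; exact W.neg_mem (hW _ _ hx)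

variable [TopologicalSpace G]

/-- continuity for a separated topology given by stable subgroups, with `l` invertible -/
def Cts (ρ : G →* Module.End F V) (l : ℕ) (b : G → V) : Prop :=
  ∀ v : V, v ≠ 0 → ∃ W : AddSubgroup V, v ∉ W ∧ (∀ g, ∀ w ∈ W, ρ g w ∈ W) ∧
    (∀ w, l • w ∈ W → w ∈ W) ∧ IsOpen {g | b g ∈ W}

theorem cts_of_lc {l : ℕ} (hl : IsUnit (l : F)) (h : IsLocallyConstant b) : Cts ρ l b := by
  intro v hv
  refine ⟨⊥, by simpa using hv, fun g w hw => by simp [AddSubgroup.mem_bot.1 hw],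
    fun w hw => ?_, h ((⊥ : AddSubgroup V) : Set V)⟩
  rw [AddSubgroup.mem_bot] at hw ⊢
  rw [← Nat.cast_smul_eq_nsmul F] at hw
  exact (hl.smul_eq_zero).1 hw

/-- the structure of a decomposition group: inertia `I`, wild inertia `W`, a tame generator and a
Frobenius element -/
structure Wd (l : ℕ) (I W : Subgroup G) (τ φ : G) : Prop where
  nor : W.Normal
  WI : W ≤ I
  tau : τ ∈ I
  wild : ∀ U : Subgroup G, IsOpen (U : Set G) → ∀ w ∈ W, ∃ n, w ^ l ^ n ∈ U
  rel : φ * τ * φ⁻¹ * (τ ^ l)⁻¹ ∈ W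
  cyc : ∀ U : Subgroup G, IsOpen (U : Set G) → ∀ s ∈ I,
    ∃ k : ℕ, ∃ w ∈ W, ∃ u ∈ U, s = τ ^ k * w * u
  gen : ∀ U : Subgroup G, IsOpen (U : Set G) → ∀ g,
    ∃ k : ℕ, ∃ s ∈ I, ∃ u ∈ U, g = u * φ ^ k * s

variable {l : ℕ} {I W : Subgroup G} {τ φ : G}

theorem wild_zero (T : Wd l I W τ φ) (hb : Coc ρ b) (hc : Cts ρ l b) {w : G} (hw : w ∈ W)
    (h1 : ρ w = 1) : b w = 0 := by
  by_contra hne
  obtain ⟨X, hv, hX, hl, ho⟩ := hc _ hne
  obtain ⟨n, hn⟩ := T.wild (zs hb X hX) ho w hw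
  have hn' : b (w ^ l ^ n) ∈ X := hn
  rw [hb.pow h1] at hn'
  clear hn
  induction n with
  | zero => exact hv (by simpa using hn')
  | succ n ih => exact ih (hl _ (by rwa [← mul_smul, ← pow_succ']))

theorem zero_I (T : Wd l I W τ φ) (hb : Coc ρ b) (hc : Cts ρ l b) (hW : ∀ w ∈ W, b w = 0)
    (hτ : b τ = 0) : ∀ s ∈ I, b s = 0 := by
  intro s hs
  by_contra hne
  obtain ⟨X, hv, hX, -, ho⟩ := hc _ hne
  obtain ⟨k, w, hw, u, hu, rfl⟩ := T.cyc (zs hb X hX) ho s hs
  refine hv ((zs hb X hX).mul_mem ((zs hb X hX).mul_mem ((zs hb X hX).pow_mem ?_ k) ?_) hu)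
  · show b τ ∈ X
    rw [hτ]; exact X.zero_mem
  · show b w ∈ X
    rw [hW w hw]; exact X.zero_mem

theorem zero_all (T : Wd l I W τ φ) (hb : Coc ρ b) (hc : Cts ρ l b) (hI : ∀ s ∈ I, b s = 0)
    (hφ : b φ = 0) (g : G) : b g = 0 := by
  by_contra hne
  obtain ⟨X, hv, hX, -, ho⟩ := hc _ hne
  obtain ⟨k, s, hs, u, hu, rfl⟩ := T.gen (zs hb X hX) ho g
  refine hv ((zs hb X hX).mul_mem ((zs hb X hX).mul_mem hu ((zs hb X hX).pow_mem ?_ k)) ?_)
  · show b φ ∈ X
    rw [hφ]; exact X.zero_mem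
  · show b s ∈ X
    rw [hI s hs]; exact X.zero_mem

omit [TopologicalSpace G] in
/-- averaging over the image of `I` -/
theorem avg (ρ : G →* Module.End F V) (I : Subgroup G) [Finite (I.map ρ.toHomUnits)]
    (hn : IsUnit (Nat.card (I.map ρ.toHomUnits) : F)) :
    ∃ A : (G → V) →ₗ[F] V, (∀ (V₀ : Submodule F V) (b : G → V), (∀ s ∈ I, b s ∈ V₀) → A b ∈ V₀) ∧
      ∀ b, Coc ρ b → (∀ h ∈ I, ρ h = 1 → b h = 0) → ∀ s ∈ I, b s = A b - ρ s (A b) := by
  classical
  set Γ := I.map ρ.toHomUnits with hΓ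
  have := Fintype.ofFinite Γ
  have hex : ∀ γ : Γ, ∃ s ∈ I, ρ.toHomUnits s = γ := fun γ => γ.2
  choose σ hσ hσ' using hex
  obtain ⟨u, hu⟩ := hn
  refine ⟨(u⁻¹ : Fˣ).val • ∑ γ : Γ, LinearMap.proj (σ γ), fun V₀ b hb => ?_,
    fun b hb h0 s hs => ?_⟩
  · simp only [LinearMap.smul_apply, LinearMap.sum_apply, LinearMap.proj_apply]
    exact V₀.smul_mem _ (V₀.sum_mem fun γ _ => hb _ (hσ γ))
  · simp only [LinearMap.smul_apply, LinearMap.sum_apply, LinearMap.proj_apply]
    have dep : ∀ x ∈ I, ∀ y ∈ I, ρ.toHomUnits x = ρ.toHomUnits y → b x = b y := by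
      intro x hx y hy e
      have h1 : ρ.toHomUnits (x⁻¹ * y) = 1 := by rw [map_mul, map_inv, e, inv_mul_cancel]
      have h2 := h0 _ (I.mul_mem (I.inv_mem hx) hy) (congrArg Units.val h1)
      have h3 := hb x (x⁻¹ * y)
      rw [mul_inv_cancel_left, h2, map_zero, add_zero] at h3
      exact h3.symm
    let γs : Γ := ⟨ρ.toHomUnits s, s, hs, rfl⟩
    have e1 : ∑ γ : Γ, b (σ (γs * γ)) = ∑ γ : Γ, b (σ γ) :=
      Fintype.sum_equiv (Equiv.mulLeft γs) _ _ fun _ => rfl
    have e2 : ∀ γ : Γ, b (σ (γs * γ)) = b s + ρ s (b (σ γ)) := fun γ => by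
      rw [← hb]
      refine dep _ (hσ _) _ (I.mul_mem hs (hσ _)) ?_
      rw [map_mul, hσ', hσ']; rfl
    simp only [e2, Finset.sum_add_distrib, Finset.sum_const, Finset.card_univ] at e1
    rw [← map_sum, ← Nat.card_eq_fintype_card, ← Nat.cast_smul_eq_nsmul F, ← hu] at e1
    rw [map_smul, ← smul_sub, ← eq_sub_iff_add_eq.2 e1, smul_smul, Units.inv_mul, one_smul]

omit [TopologicalSpace G] in
/-- the projector on the invariants -/
theorem proj (ρ : G →* Module.End F V) (I : Subgroup G) [Finite (I.map ρ.toHomUnits)]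
    (hn : IsUnit (Nat.card (I.map ρ.toHomUnits) : F)) :
    ∃ e : Module.End F V, (∀ w ∈ I, ∀ v, e (ρ w v) = e v) ∧
      (∀ v, (∀ w ∈ I, ρ w v = v) → e v = v) ∧ (∀ w ∈ I, ∀ v, ρ w (e v) = e v) ∧
      ∀ μ : V →ₗ[F] F, (∀ w ∈ I, ∀ v, μ (ρ w v) = μ v) → ∀ v, μ (e v) = μ v := by
  classical
  set Γ := I.map ρ.toHomUnits with hΓ
  have := Fintype.ofFinite Γ
  obtain ⟨u, hu⟩ := hn
  rw [Nat.card_eq_fintype_card] at hu
  refine ⟨(u⁻¹ : Fˣ).val • ∑ γ : Γ, γ.1.1, fun w hw v => ?_, fun v hv => ?_, fun w hw v => ?_,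
    fun μ hμ v => ?_⟩ <;> simp only [LinearMap.smul_apply, LinearMap.sum_apply, map_smul, map_sum]
  · congr 1
    exact Fintype.sum_equiv (Equiv.mulRight (⟨ρ.toHomUnits w, w, hw, rfl⟩ : Γ)) _ _ fun _ => rfl
  · have : ∀ γ : Γ, γ.1.1 v = v := by
      rintro ⟨_, w, hw, rfl⟩
      exact hv w hw
    simp only [this, Finset.sum_const, Finset.card_univ]
    rw [← Nat.cast_smul_eq_nsmul F, ← hu, smul_smul, Units.inv_mul, one_smul]
  · congr 1
    exact Fintype.sum_equiv (Equiv.mulLeft (⟨ρ.toHomUnits w, w, hw, rfl⟩ : Γ)) _ _ fun _ => rfl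
  · have : ∀ γ : Γ, μ (γ.1.1 v) = μ v := by
      rintro ⟨_, w, hw, rfl⟩
      exact hμ w hw v
    simp only [this, Finset.sum_const, Finset.card_univ]
    rw [← Nat.cast_smul_eq_nsmul F, ← hu, smul_smul, Units.inv_mul, one_smul]

omit [TopologicalSpace G] in
theorem Coc.pow_sum (hb : Coc ρ b) (t : G) (n : ℕ) :
    b (t ^ n) = (∑ i ∈ Finset.range n, ρ t ^ i) (b t) := by
  induction n with
  | zero => simp [hb.one]
  | succ n ih => rw [pow_succ, hb, ih, Finset.sum_range_succ, map_pow]; rfl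

omit [TopologicalSpace G] in
theorem Coc.sub_cob (hb : Coc ρ b) (a : V) : Coc ρ fun g => b g - (a - ρ g a) := by
  intro x y
  simp only [hb x y, act_mul, map_sub]
  abel

end abs

section field

variable {G F V Z : Type} [Group G] [TopologicalSpace G] [Field F] [AddCommGroup V] [Module F V]
  [AddCommGroup Z] [Module F Z] {l : ℕ} {I W : Subgroup G} {τ φ : G}

/-- vanishing of the invariants of the twisted dual module -/
def H2 (ρ : G →* Module.End F V) (l : ℕ) (W : Subgroup G) (τ φ : G) : Prop :=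
  ∀ μ : V →ₗ[F] F, (∀ w ∈ W, ∀ v, μ (ρ w v) = μ v) → (∀ v, μ (ρ τ v) = μ v) →
    (∀ v, μ (ρ φ v) = l * μ v) → μ = 0

theorem inv_tau [Module.Finite F V] (T : Wd l I W τ φ) (ρ : G →* Module.End F V)
    {μ : V →ₗ[F] F} (h1 : ∀ w ∈ W, ∀ v, μ (ρ w v) = μ v) (h2 : ∀ v, μ (ρ (τ ^ l) v) = μ v) (v : V) :
    μ (ρ τ v) = μ v := by
  let S : G → Submodule F (Module.Dual F V) := fun t =>
    { carrier := {ν | (∀ w ∈ W, ∀ v, ν (ρ w v) = ν v) ∧ ∀ v, ν (ρ t v) = ν v}
      add_mem' := fun {a b} ha hb => ⟨fun w hw v => by simp [ha.1 w hw, hb.1 w hw],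
        fun v => by simp [ha.2, hb.2]⟩
      zero_mem' := ⟨fun _ _ _ => rfl, fun _ => rfl⟩
      smul_mem' := fun c a ha => ⟨fun w hw v => by simp [ha.1 w hw], fun v => by simp [ha.2]⟩ }
  have hle : S τ ≤ S (τ ^ l) := fun ν hν => ⟨hν.1, fun v => by
    generalize l = n
    induction n with
    | zero => simp
    | succ n ih => rw [pow_succ', act_mul, hν.2, ih]⟩
  have hmap : ∀ ν ∈ S (τ ^ l), (ρ φ).dualMap ν ∈ S τ := fun ν hν => ⟨fun w hw v => by
      show ν (ρ φ (ρ w v)) = ν (ρ φ v)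
      rw [← act_mul, show φ * w = φ * w * φ⁻¹ * φ by group, act_mul,
        hν.1 _ (T.nor.conj_mem w hw φ)], fun v => by
      show ν (ρ φ (ρ τ v)) = ν (ρ φ v)
      rw [← act_mul, show φ * τ = φ * τ * φ⁻¹ * (τ ^ l)⁻¹ * (τ ^ l * φ) by group, act_mul,
        hν.1 _ T.rel, act_mul, hν.2]⟩
  have hinj : Function.Injective ((ρ φ).dualMap.restrict hmap) := by
    rw [injective_iff_map_eq_zero]
    intro ν hν
    refine Subtype.ext (LinearMap.ext fun v => ?_)
    have := LinearMap.congr_fun (congrArg Subtype.val hν) (ρ φ⁻¹ v)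
    change ν.1 (ρ φ (ρ φ⁻¹ v)) = 0 at this
    rwa [← act_mul, mul_inv_cancel, map_one] at this
  have e := Submodule.eq_of_le_of_finrank_le hle
    (LinearMap.finrank_le_finrank_of_injective hinj)
  have : μ ∈ S τ := by rw [e]; exact ⟨h1, h2⟩
  exact this.2 v

/-- **the Fox computation** -/
theorem rank_le [Module.Finite F V] (T : Wd l I W τ φ) (ρ : G →* Module.End F V)
    [Finite (W.map ρ.toHomUnits)] (hn : IsUnit (Nat.card (W.map ρ.toHomUnits) : F))
    (β : Z →ₗ[F] (G → V)) (hβ : Function.Injective β) (hZ : ∀ z, Coc ρ (β z) ∧ Cts ρ l (β z)) :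
    Module.rank F Z ≤ (2 * Module.finrank F V : ℕ) ∧
      (H2 ρ l W τ φ → Module.rank F Z ≤ Module.finrank F V) := by
  obtain ⟨A, hA, hA'⟩ := avg ρ W hn
  obtain ⟨e, e1, e2, e3, e4⟩ := proj ρ W hn
  let Ψ : (G → V) →ₗ[F] V × V :=
    (LinearMap.proj τ - (A - (ρ τ).comp A)).prod (LinearMap.proj φ - (A - (ρ φ).comp A) + A)
  let L : V × V →ₗ[F] V :=
    ((ρ φ - ∑ i ∈ Finset.range l, ρ τ ^ i).comp e + (1 - e)).coprod ((1 - ρ (τ ^ l)).comp e)
  have hL : ∀ x y, L (x, y) = ρ φ (e x) - (∑ i ∈ Finset.range l, ρ τ ^ i) (e x) + (x - e x) +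
      (e y - ρ (τ ^ l) (e y)) := fun x y => rfl
  have key : ∀ b : G → V, Coc ρ b → Cts ρ l b → L (Ψ b) = 0 ∧ (Ψ b = 0 → b = 0) := by
    intro b hb hc
    have h1 := hA' b hb fun w hw h => wild_zero T hb hc hw h
    have ha : e (A b) = 0 := hA (LinearMap.ker e) b fun w hw => by
      rw [LinearMap.mem_ker, h1 w hw, map_sub, e1 w hw, sub_self]
    have hb' := hb.sub_cob (A b)
    set c : G → V := fun g => b g - (A b - ρ g (A b)) with hc'
    have c0 : ∀ w ∈ W, c w = 0 := fun w hw => sub_eq_zero.2 (h1 w hw)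
    have cW : ∀ g, ∀ w ∈ W, ρ w (c g) = c g := fun g w hw => by
      have h2 := hb' g (g⁻¹ * w * g)
      have h3 : g⁻¹ * w * g ∈ W := by simpa using T.nor.conj_mem w hw g⁻¹
      rw [show g * (g⁻¹ * w * g) = w * g by group, hb', c0 w hw, c0 _ h3, map_zero] at h2
      simpa using h2
    have hΨ : Ψ b = (c τ, c φ + A b) := rfl
    have ec : ∀ g, e (c g) = c g := fun g => e2 _ (cW g)
    refine ⟨?_, fun h0 => ?_⟩
    · have h2 := hb' φ τ
      rw [show φ * τ = φ * τ * φ⁻¹ * (τ ^ l)⁻¹ * (τ ^ l * φ) by group, hb', c0 _ T.rel,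
        cW _ _ T.rel, hb', hb'.pow_sum] at h2
      rw [hΨ, hL, map_add, ha, add_zero, ec, ec]
      linear_combination (norm := module) -h2
    · rw [hΨ, Prod.mk_eq_zero] at h0
      have h2 : c φ = 0 := by
        have := congrArg e h0.2
        rwa [map_add, ha, add_zero, ec, map_zero] at this
      have h3 : A b = 0 := by
        have := h0.2
        rwa [h2, zero_add] at this
      have h4 : ∀ g, c g = b g := fun g => by simp [hc', h3]
      exact funext (zero_all T hb hc (zero_I T hb hc (fun w hw => by rw [← h4, c0 w hw])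
        (by rw [← h4, h0.1])) (by rw [← h4, h2]))
  have hinj : Function.Injective (Ψ.comp β) := by
    rw [injective_iff_map_eq_zero]
    intro z hz
    exact hβ (by rw [map_zero]; exact (key _ (hZ z).1 (hZ z).2).2 hz)
  refine ⟨?_, fun h2 => ?_⟩
  · have h := LinearMap.rank_le_of_injective _ hinj
    rwa [← Module.finrank_eq_rank F (V × V), Module.finrank_prod, ← two_mul] at h
  have hs : LinearMap.range L = ⊤ := by
    by_contra hne
    obtain ⟨μ, hμ0, hμ⟩ := Submodule.exists_le_ker_of_lt_top _ (lt_top_iff_ne_top.2 hne)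
    have hk : ∀ x y, μ (L (x, y)) = 0 := fun x y => hμ ⟨(x, y), rfl⟩
    have ee : ∀ v, e (e v) = e v := fun v => e2 _ fun w hw => e3 w hw v
    have m1 : ∀ v, μ (e v) = μ v := fun v => by
      have := hk (v - e v) 0
      simp only [hL, map_sub e, ee, sub_self, map_zero, sub_zero, zero_add, add_zero,
        map_sub μ] at this
      exact (sub_eq_zero.1 this).symm
    have m2 : ∀ w ∈ W, ∀ v, μ (ρ w v) = μ v := fun w hw v => by rw [← m1, e1 w hw, m1]
    have m3 : ∀ g v, μ (ρ g (e v)) = μ (ρ g v) := fun g => e4 (μ.comp (ρ g)) fun w hw v => by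
      show μ (ρ g (ρ w v)) = μ (ρ g v)
      rw [← act_mul, show g * w = g * w * g⁻¹ * g by group, act_mul,
        m2 _ (T.nor.conj_mem w hw g)]
    have m4 := inv_tau T ρ m2 fun v => by
      have := hk 0 v
      simp only [hL, map_zero, sub_self, zero_add, map_sub μ, m1, m3] at this
      exact (sub_eq_zero.1 this).symm
    have m5 : ∀ (i : ℕ) v, μ ((ρ τ ^ i) v) = μ v := fun i => by
      induction i with
      | zero => simp
      | succ i ih => intro v; rw [pow_succ']; exact (m4 _).trans (ih v)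
    refine hμ0 (h2 μ m2 m4 fun v => ?_)
    have := hk v 0
    simp only [hL, map_zero, sub_self, add_zero, map_add, map_sub, m1, m3, LinearMap.sum_apply,
      map_sum, m5, Finset.sum_const, Finset.card_range, nsmul_eq_mul] at this
    exact sub_eq_zero.1 this
  have h3 := LinearMap.finrank_range_add_finrank_ker L
  rw [hs, finrank_top, Module.finrank_prod] at h3
  have h4 := LinearMap.rank_le_of_injective
    ((Ψ.comp β).codRestrict (LinearMap.ker L) fun z => (key _ (hZ z).1 (hZ z).2).1)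
    fun x y h => hinj (congrArg Subtype.val h)
  rwa [← Module.finrank_eq_rank F (LinearMap.ker L), add_left_cancel h3] at h4

end field

end Vale.Agent.P022K.RT.Zl
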