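import Vale.Agent.P022K.RT.Z1a
import Vale.Agent.P022K.CH.Tame

/-!
# P022K, block RT: the wild inertia group of a decomposition group
-/

set_option linter.all false

open NumberField

noncomputable section

namespace Vale.Agent.P022K.RT.Zl

open Vale.Agent.P022 Vale.Agent.P022.H443
open Vale.Agent.P022D.W (dec inP_le_dec conj_inP phi_mem dec_gen exists_phi)
open Vale.Agent.P022E.GW (Ov Fb)
open Vale.Agent.P022K.CH.Loc (WMod chi_data exists_tau)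

variable {l : ℕ} {P : Ideal (𝓞 Qb)}

/-- the wild inertia group -/
def wl (h : Ov l P) : Subgroup GQ where
  carrier := {g | g ∈ inP P ∧ ∀ U : Subgroup GQ, U.Normal → IsOpen (U : Set GQ) → WMod l U g}
  mul_mem' {a b} ha hb := ⟨(inP P).mul_mem ha.1 hb.1, fun U hn hU => by
    obtain ⟨k, _, _, χ, -, h1, -⟩ := chi_data U hU h
    refine (h1 (⟨a, ha.1⟩ * ⟨b, hb.1⟩)).1 ?_
    rw [map_mul, (h1 ⟨a, ha.1⟩).2 (ha.2 U hn hU), (h1 ⟨b, hb.1⟩).2 (hb.2 U hn hU), mul_one]⟩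
  one_mem' := ⟨(inP P).one_mem, fun U _ _ => ⟨0, by simp⟩⟩
  inv_mem' {a} ha := ⟨(inP P).inv_mem ha.1, fun U hn hU =>
    (ha.2 U hn hU).imp fun n h => by rw [inv_pow]; exact U.inv_mem h⟩

/-- an element which is wild modulo `U` is congruent to a wild element -/
theorem wl_lift (h : Ov l P) {U : Subgroup GQ} (hn : U.Normal) (hU : IsOpen (U : Set GQ)) {p : GQ}
    (hp : p ∈ inP P) (hw : WMod l U p) : ∃ w ∈ wl h, w⁻¹ * p ∈ U := by
  have := galQb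
  let ι := {N : Subgroup GQ // N.Normal ∧ IsOpen (N : Set GQ)}
  let C : ι → Set GQ := fun N => (inP P : Set GQ) ∩ {w | w⁻¹ * p ∈ U ∧ WMod l N.1 w}
  have hcl : ∀ N, IsClosed (C N) := by
    intro N
    have hn' := N.2.1
    refine (isClosed_inP P).inter (isClosed_of_right (N := U ⊓ N.1) (hU.inter N.2.2)
      fun w hw n hn' => ⟨?_, hw.2.mul_mem hn'.2⟩)
    rw [mul_inv_rev, mul_assoc]
    exact U.mul_mem (U.inv_mem hn'.1) hw.1
  have hne : ∀ N, (C N).Nonempty := by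
    intro N
    haveI : Finite (GQ ⧸ N.1) := N.1.quotient_finite_of_isOpen N.2.2
    haveI : N.1.FiniteIndex := Subgroup.finiteIndex_of_finite_quotient
    obtain ⟨o, ho, -, hoN⟩ :=
      N.1.exists_pow_mem_of_index_ne_zero Subgroup.FiniteIndex.index_ne_zero p
    obtain ⟨k, m, hm, rfl⟩ := Nat.exists_eq_pow_mul_and_not_dvd ho.ne' l h.1.ne_one
    obtain ⟨n, hn⟩ := hw
    have hc : IsCoprime (m : ℤ) ((l ^ n : ℕ) : ℤ) := Nat.isCoprime_iff_coprime.2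
      (Nat.Coprime.pow_right n ((Nat.Prime.coprime_iff_not_dvd h.1).2 hm).symm)
    obtain ⟨a, b, e⟩ := hc
    refine ⟨p ^ (a * m), (inP P).zpow_mem hp _, ?_, k, ?_⟩
    · have e1 : (p ^ (a * m))⁻¹ * p = (p ^ l ^ n) ^ b := by
        rw [← zpow_natCast, ← zpow_mul, ← zpow_neg, ← zpow_add_one]
        congr 1
        linear_combination -e
      rw [e1]
      exact U.zpow_mem hn b
    · have e1 : (p ^ (a * m)) ^ l ^ k = (p ^ (l ^ k * m)) ^ a := by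
        rw [← zpow_natCast, ← zpow_mul, ← zpow_natCast, ← zpow_mul]
        congr 1
        push_cast
        ring
      rw [e1]
      exact N.1.zpow_mem hoN a
  have hdir : Directed (fun s t : Set GQ => s ⊇ t) C := by
    intro M N
    have := M.2.1
    have := N.2.1
    exact ⟨⟨M.1 ⊓ N.1, inferInstance, M.2.2.inter N.2.2⟩,
      fun w hw => ⟨hw.1, hw.2.1, hw.2.2.mono inf_le_left⟩,
      fun w hw => ⟨hw.1, hw.2.1, hw.2.2.mono inf_le_right⟩⟩
  have hnon : Nonempty ι := ⟨⟨⊤, inferInstance, isOpen_univ⟩⟩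
  obtain ⟨w, hw⟩ := IsCompact.nonempty_iInter_of_directed_nonempty_isCompact_isClosed C hdir hne
    (fun N => (hcl N).isCompact) hcl
  rw [Set.mem_iInter] at hw
  have h0 := hw (Classical.choice hnon)
  exact ⟨w, ⟨h0.1, fun N h1 h2 => (hw ⟨N, h1, h2⟩).2.2⟩, h0.2.1⟩

/-- an open neighbourhood of the identity in a subgroup contains the trace of an open normal
subgroup -/
theorem ex_nor {D : Subgroup GQ} {U : Set D} (hU : IsOpen U) (h1 : 1 ∈ U) :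
    ∃ N : Subgroup GQ, N.Normal ∧ IsOpen (N : Set GQ) ∧ ∀ g : D, (g : GQ) ∈ N → g ∈ U := by
  have := galQb
  obtain ⟨t, ht, rfl⟩ := isOpen_induced_iff.1 hU
  obtain ⟨N, hN⟩ := ProfiniteGrp.exist_openNormalSubgroup_sub_open_nhds_of_one ht h1
  exact ⟨N.toSubgroup, N.isNormal', N.isOpen', fun g hg => hN hg⟩

/-- inertia inside the decomposition group -/
abbrev iD (P : Ideal (𝓞 Qb)) : Subgroup (dec P) := (inP P).subgroupOf (dec P)

/-- wild inertia inside the decomposition group -/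
abbrev wD (h : Ov l P) : Subgroup (dec P) := (wl h).subgroupOf (dec P)

/-- **the structure of a decomposition group** -/
theorem wd (h : Ov l P) : ∃ τ : dec P, ∀ φ : dec P, Fb l P φ → Wd l (iD P) (wD h) τ φ := by
  obtain ⟨τ, hτ, H⟩ := exists_tau h
  refine ⟨⟨τ, inP_le_dec hτ⟩, fun φ hφ => ⟨⟨fun w hw g => ⟨conj_inP g.2 hw.1, fun U hn hU =>
    (hw.2 U hn hU).conj g⟩⟩, fun w hw => hw.1, hτ, fun U hU w hw => ?_, ⟨?_, fun U hn hU => ?_⟩,
    fun U hU s hs => ?_, fun U hU g => ?_⟩⟩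
  · obtain ⟨N, h1, h2, h3⟩ := ex_nor hU U.one_mem
    exact (hw.2 N h1 h2).imp fun n hn => h3 _ hn
  · exact (inP P).mul_mem (conj_inP φ.2 hτ) ((inP P).inv_mem ((inP P).pow_mem hτ l))
  · obtain ⟨k, _, _, χ, -, -, h4⟩ := chi_data U hU h
    exact h4 φ hφ τ hτ
  · obtain ⟨N, h1, h2, h3⟩ := ex_nor hU U.one_mem
    obtain ⟨k, hk⟩ := H N h1 h2 s hs
    obtain ⟨w, hw, e⟩ := wl_lift h h1 h2
      ((inP P).mul_mem ((inP P).inv_mem ((inP P).pow_mem hτ k)) hs) hk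
    exact ⟨k, ⟨w, inP_le_dec hw.1⟩, hw,
      (⟨w, inP_le_dec hw.1⟩ : dec P)⁻¹ * (((⟨τ, inP_le_dec hτ⟩ : dec P) ^ k)⁻¹ * s), h3 _ e,
      by group⟩
  · obtain ⟨N, h1, h2, h3⟩ := ex_nor hU U.one_mem
    obtain ⟨k, s, u, hs, hu, e⟩ := dec_gen h.1 h.2.1 h.2.2 hφ g.2 N h2
    refine ⟨k, ⟨s, inP_le_dec hs⟩, hs, g * (⟨s, inP_le_dec hs⟩ : dec P)⁻¹ * (φ ^ k)⁻¹,
      h3 _ ?_, by group⟩
    have : ((g * (⟨s, inP_le_dec hs⟩ : dec P)⁻¹ * (φ ^ k)⁻¹ : dec P) : GQ) = u := by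
      show (g : GQ) * s⁻¹ * ((φ : GQ) ^ k)⁻¹ = u
      rw [e]; group
    rwa [this]

theorem ex_phi (h : Ov l P) : ∃ φ : dec P, Fb l P φ := by
  obtain ⟨φ, hφ⟩ := exists_phi h.1 h.2.1 h.2.2
  exact ⟨⟨φ, phi_mem h.1 h.2.1 hφ⟩, hφ⟩

end Vale.Agent.P022K.RT.Zl
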